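import Vale.Agent.P190.MathlibUsed
attribute [-instance] IdemCommSemiring.toIdemSemiring KleeneAlgebra.toIdemSemiring IdemSemiring.toSemiring DenselyNormedField.toNontriviallyNormedField DenselyNormedField.toNormedField NontriviallyNormedField.toNormedField RCLike.toDenselyNormedField IdemCommSemiring.toCommSemiring NormedField.toNormedDivisionRing NormedField.toField NormedDivisionRing.toDivisionRing LinearOrderedAddCommGroupWithTop.instLinearOrderedAddCommMonoidWithTop NormedField.toNormedCommRing NormedCommRing.toNormedRing NormedDivisionRing.toNormedRing LinearOrderedAddCommGroupWithTop.toAddCommMonoid LinearOrderedAddCommMonoidWithTop.toAddCommMonoid NormedCommRing.toSeminormedCommRing NormedCommRing.toNonUnitalNormedCommRing NonUnitalNormedCommRing.toNonUnitalNormedRing NormedRing.toNonUnitalNormedRing NormedRing.toSeminormedRing SeminormedCommRing.toSeminormedRing Field.toEuclideanDomain EuclideanDomain.toCommRing NormedCommRing.toCommRing SeminormedCommRing.toCommRing NormedRing.toRing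 SeminormedRing.toRing NonAssocCommRing.toNonAssocCommSemiring CommSemiring.toNonAssocCommSemiring NonAssocCommSemiring.toNonAssocSemiring NonUnitalNormedCommRing.toNonUnitalSeminormedCommRing SeminormedCommRing.toNonUnitalSeminormedCommRing NonUnitalNormedRing.toNonUnitalSeminormedRing NonUnitalSeminormedCommRing.toNonUnitalSeminormedRing SeminormedRing.toNonUnitalSeminormedRing CommRing.toAddCommGroupWithOne NonUnitalNormedCommRing.toNonUnitalCommRing NonUnitalSeminormedCommRing.toNonUnitalCommRing NonUnitalCommRing.toNonUnitalRing Ring.toNonUnitalRing NonAssocCommRing.toNonUnitalNonAssocCommRing NonUnitalNormedRing.toNonUnitalRing NonUnitalSeminormedRing.toNonUnitalRing NonAssocCommSemiring.toNonUnitalNonAssocCommSemiring NonUnitalCommSemiring.toNonUnitalNonAssocCommSemiring NonUnitalNonAssocCommSemiring.toNonUnitalNonAssocSemiring NonUnitalSemiring.toNonUnitalNonAssocSemiring SemiRingCat.instSemiringObjForgetRingHomCarrier instCoeTOfCoeDep OrderDual.instPow_1 Pi.nonUnitalNonAssocSemiring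 TopologicalSpace.Compacts.instSetLike Pi.addGroupWithOne Vector.instHMul BoxIntegral.Box.instMembershipForallReal LieRing.toAddCommGroup Pi.addMonoidWithOne Pi.seminormedAddCommGroup LinearOrderedCommGroupWithZero.toLinearOrderedCommMonoidWithZero NonUnitalNormedRing.toNormedAddCommGroup CompleteAtomicBooleanAlgebra.toCompleteBooleanAlgebra CompleteAtomicBooleanAlgebra.toCompletelyDistribLattice CompleteBooleanAlgebra.toCompleteDistribLattice CompleteLinearOrder.toCompletelyDistribLattice CompletelyDistribLattice.toCompleteDistribLattice CompleteDistribLattice.toCoframe CompleteDistribLattice.toFrame CompleteBooleanAlgebra.toCompleteLattice CompleteLinearOrder.toCompleteLattice CompletelyDistribLattice.toCompleteLattice Order.Coframe.toCompleteLattice Order.Frame.toCompleteLattice ChainCompletePartialOrder.instOfCompleteLattice ChainCompletePartialOrder.instOmegaCompletePartialOrder ChainCompletePartialOrder.toPartialOrder CompletePartialOrder.toOmegaCompletePartialOrder CompletePartialOrder.toPartialOrder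 OmegaCompletePartialOrder.toPartialOrder instCoeHTC instCoeHTCT AbsoluteValue.funLike Std.Time.WallTime.instHSubDuration_1 instCoeTC instCoeTCOfCoe CompleteLinearOrder.toConditionallyCompleteLinearOrderBot ConditionallyCompleteLinearOrderBot.toConditionallyCompleteLinearOrder NormedCommGroup.toNormedGroup CompleteLinearOrder.toLinearOrder ConditionallyCompleteLinearOrder.toLinearOrder LinearOrderedAddCommGroupWithTop.toLinearOrder LinearOrderedAddCommMonoidWithTop.toLinearOrder LinearOrderedCommMonoidWithZero.toLinearOrder NormedAddCommGroup.toNormedAddGroup NormedCommGroup.toSeminormedCommGroup NormedGroup.toSeminormedGroup SeminormedCommGroup.toSeminormedGroup MonCat.monoidObj LinearOrderedAddCommGroupWithTop.toSubNegMonoid CommSemiRingCat.instCommSemiringObjForgetRingHomCarrier ContinuousAddMonoidHom.instCoeOutOfAddMonoidHomClassOfContinuousMapClass ContinuousMonoidHom.instCoeOutOfMonoidHomClassOfContinuousMapClass HomeomorphClass.instCoeOutHomeomorph IsometryClass.instCoeOutIsometryEquiv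 Std.Time.WallTime.instHAddOffset_1 NonUnitalSeminormedRing.toSeminormedAddCommGroup NormedAddCommGroup.toSeminormedAddCommGroup AddMonCat.addMonoidObj CategoryTheory.Limits.Concrete.instUniqueToTypeTerminal NormedAddGroup.toSeminormedAddGroup SeminormedAddCommGroup.toSeminormedAddGroup forall_prop_decidable Array.instDecidableForallForallMemOfDecidablePred Finset.decidableDforallFinset Fintype.decidableForallFintype Multiset.decidableDforallMultiset Option.decidableForallMem Vector.instDecidableForallForallMemOfDecidablePred AddCommGroupWithOne.toAddCommGroup NormedAddCommGroup.toAddCommGroup SeminormedAddCommGroup.toAddCommGroup MulSemiringAction.toDistribMulAction EMetricSpace.toPseudoEMetricSpace MetricSpace.toEMetricSpace MetricSpace.toPseudoMetricSpace NonUnitalNormedRing.toMetricSpace NonUnitalSeminormedRing.toPseudoMetricSpace NormedAddCommGroup.toMetricSpace NormedAddGroup.toMetricSpace NormedCommGroup.toMetricSpace NormedDivisionRing.toMetricSpace NormedField.toMetricSpace NormedGroup.toMetricSpace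 NormedRing.toMetricSpace PseudoEMetricSpace.toUniformSpace PseudoMetricSpace.toPseudoEMetricSpace PseudoMetricSpace.toUniformSpace SeminormedAddCommGroup.toPseudoMetricSpace SeminormedAddGroup.toPseudoMetricSpace SeminormedCommGroup.toPseudoMetricSpace SeminormedGroup.toPseudoMetricSpace SeminormedRing.toPseudoMetricSpace UniformSpace.toTopologicalSpace UpgradedStandardBorel.toTopologicalSpace Valued.toUniformSpace WithIdeal.instTopologicalSpace WithIdeal.instUniformSpace TopologicalSpace.UpgradedIsCompletelyMetrizableSpace.toMetricSpace TopologicalSpace.UpgradedIsCompletelyPseudoMetrizableSpace.toPseudoMetricSpace CompleteBooleanAlgebra.toBooleanAlgebra CommMonCat.str BooleanAlgebra.toBiheytingAlgebra CompleteDistribLattice.toBiheytingAlgebra CompleteLinearOrder.toBiheytingAlgebra CompletelyDistribLattice.toBiheytingAlgebra BiheytingAlgebra.toCoheytingAlgebra Order.Coframe.toCoheytingAlgebra LinearOrderedCommGroupWithZero.toCommGroupWithZero CoheytingAlgebra.toGeneralizedCoheytingAlgebra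 NormedAddGroup.toAddGroup SeminormedAddGroup.toAddGroup BiheytingAlgebra.toHeytingAlgebra BooleanAlgebra.toGeneralizedBooleanAlgebra Order.Frame.toHeytingAlgebra HeytingAlgebra.toGeneralizedHeytingAlgebra instConditionallyCompletePartialOrderSup BooleanAlgebra.toDistribLattice CompleteLattice.toCompleteSemilatticeSup CompleteLattice.toPartialOrder' CompleteSemilatticeSup.toPartialOrder ConditionallyCompletePartialOrder.toConditionallyCompletePartialOrderInf ConditionallyCompletePartialOrderInf.toPartialOrder GeneralizedBooleanAlgebra.toDistribLattice GeneralizedCoheytingAlgebra.toDistribLattice GeneralizedHeytingAlgebra.toDistribLattice GeneralizedHeytingAlgebra.toLattice LinearOrder.toLattice Order.Coframe.toDistribLattice Order.Frame.toDistribLattice Pi.mulZeroOneClass LinearOrderedCommMonoidWithZero.toCommMonoidWithZero AddCancelCommMonoid.toAddCommMonoid AddCommGroup.toAddCancelCommMonoid ESeminormedAddCommMonoid.toAddCommMonoid LinearOrderedAddCommGroupWithTop.toSubtractionMonoid CommGroup.toGroup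 NormedCommGroup.toCommGroup NormedGroup.toGroup SeminormedCommGroup.toCommGroup SeminormedGroup.toGroup ENormedAddCommMonoid.toESeminormedAddCommMonoid NormedAddCommGroup.toENormedAddCommMonoid Pi.preorder AddCancelCommMonoid.toAddCancelMonoid AddCancelMonoid.toAddLeftCancelMonoid AddLeftCancelMonoid.toAddMonoid AddRightCancelMonoid.toAddMonoid ENormedAddCommMonoid.toENormedAddMonoid ENormedAddMonoid.toESeminormedAddMonoid ESeminormedAddCommMonoid.toESeminormedAddMonoid ESeminormedAddMonoid.toAddMonoid NormedAddGroup.toENormedAddMonoid Pi.nonUnitalSemiring IsEmpty.instSubsingleton Unique.instSubsingleton instSubsingleton instNonUnitalAlgHomClassOfNonUnitalAlgEquivClass FloorSemiring.instCharZero IsStrictOrderedRing.toCharZero NumberField.to_charZero RCLike.charZero_rclike Torsor.toMulAction GradedMonoid.GradeZero.mulAction Int.decidableLELE Int.decidableLELT Int.decidableLTLE Int.decidableLTLT List.instDecidableMemOfLawfulBEq AddGrpCat.str GradedMonoid.instNatPowOfNat Pi.mulZeroClass LinearOrder.toDecidableEq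 RCLike.toDecidableEq OrderDual.instDivisionRing LieAlgebra.toModule NormedSpace.toModule Nat.instDvd OrderDual.instDivisionSemiring Std.Time.Duration.instHMulInt_1 Std.DTreeMap.Raw.instInsertSigma System.FilePath.instHDivString RingCat.instRingObjForgetRingHomCarrier ValuationClass.toMonoidWithZeroHomClass Algebra.Generators.instIsScalarTowerRing CategoryTheory.instFinCategoryOfFintypeOfIsThin SetLike.instFintype Unique.fintype CategoryTheory.FinCategory.fintypeObj AddOpposite.instAddZero NormedAlgebra.toAlgebra Pi.partialOrder Invertible.toNeZero NeZero.of_gt' Nat.AtLeastTwo.toNeZero SemimoduleCat.isAddCommMonoid Nat.instNontrivial Nat.Prime.one_lt' decidableEq_of_subsingleton CommMagma.to_isCommutative IsCyclic.isMulCommutative ClosedSubmodule.instAddSubmonoidClass instRingHomSurjectiveForallEvalRingHom IsStrictOrderedRing.noZeroDivisors NormMulClass.toNoZeroDivisors SetLike.GradeZero.instSemiring Std.DTreeMap.Raw.instSingletonSigma Pi.distribSMul' instFiniteProp NumberField.instFiniteDimensional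 Pi.addSemigroup instBEqOfDecidableEq Int.instLawfulBEq Std.LinearOrderPackage.toLinearPreorderPackage Std.LinearOrderPackage.toPartialOrderPackage Std.LinearPreorderPackage.toPreorderPackage Std.PartialOrderPackage.toPreorderPackage Std.PreorderPackage.toBEq instMulActionSemiHomClassMulActionHom AbsoluteValue.mulHomClass Pi.commMagma Pi.semigroup AddHom.addHomClass LinOrd.str instNontrivialCarrierObjModuleCatOfFullOfFaithful Monoid.End.instMonoidHomClass Pi.monoidWithZero instNonemptyOfMonad Field.instIsLocalRing IsDiscreteValuationRing.toIsLocalRing ValuationRing.isLocalRing instCoeOutOfCoeFun Pi.instBotForall instFiniteOfFinitePresentation instFinitePresentation instIsNoetherianRingOfIsArtinianRing isNoetherian_of_finite isNoetherian_of_isNoetherianRing_of_finite isNoetherian_of_subsingleton Algebra.instFiniteOfIsQuadraticExtension FiniteDimensional.finiteDimensional_self IsDedekindDomainDvr.toIsNoetherian IsDedekindRing.toIsNoetherian IsRegularLocalRing.toIsNoetherian IsSemisimpleModule.instIsNoetherianOfFinite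 IsSimpleModule.instIsNoetherian Module.instFiniteDimensionalOfIsReflexive PrincipalIdealRing.isNoetherianRing Algebra.IsFiniteSplit.instFinitePresentation Module.Finite.of_finite Module.Finite.self Module.FinitePresentation.of_subsingleton RingHom.Finite.instFinite instCoeHTCTOfCoeTailOfCoeHTC instCoeTailIntOfIntCast instCoeTailNatOfNatCast instCoeTailRatOfRatCast LinearMapClass.instCoeToLinearMap NNRatCast.toCoeTail NonUnitalStarRingHomClass.instCoeHeadNonUnitalStarRingHom SemilinearMapClass.instCoeToSemilinearMap StarAlgEquivClass.instCoeHead StarRingEquivClass.instCoeHead OrderAddMonoidHom.instAddMonoidHomClass MulCharClass.toMonoidHomClass MulDistribMulActionSemiHomClass.toMonoidHomClass ComplexShape.instDecidableRelRelUp ConvexCone.instAddMemClass ModuleCat.isModule CommRing.toGrindCommRing Field.toGrindField Ring.toGrindRing MonoidWithZero.toMulActionWithZero Pi.mulOneClass ContinuousSemilinearEquivClass.continuousSemilinearMapClass ContinuousSemilinearMapClass.toSemilinearMapClass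 RingHomClass.toLinearMapClassNNRat RingHomClass.toLinearMapClassRat SemilinearIsometryClass.toContinuousSemilinearMapClass SemilinearIsometryClass.toSemilinearMapClass DivisionRing.toNNRatCast DivisionRing.toRatCast DivisionSemiring.toNNRatCast AddMonoidAlgebra.distribMulAction AddCommGroup.toGrindIntModule FractionRing.instIsScalarTower FractionRing.isScalarTower_liftAlgebra AbsoluteValue.zeroHomClass MulSemiringActionSemiHomClass.toDistribMulActionSemiHomClass instDistribSMul Set.instNoZeroDivisors instSMulZeroClass Pi.addCommSemigroup NonUnitalAlgHomClass.toNonUnitalRingHomClass AlgHomClass.linearMapClass NonUnitalAlgHomClass.instSemilinearMapClassOfNonUnitalAlgSemiHomClassToMonoidHomRingHom instIsDedekindDomainOfIsDomainOfIsDedekindRing IsDedekindDomainDvr.isDedekindDomain CommSemiring.toGrindCommSemiring Semiring.toGrindSemiring SetLike.GradeZero.instCommRing NumberField.RingOfIntegers.instIsScalarTower AddCommMonoid.toGrindNatModule Pi.instTopForall SubmonoidClass.instPow CommGroup.toDivisionCommMonoid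 Group.toDivisionMonoid MonomialOrder.orderBot MvPolynomial.instCharZero Algebra.Generators.instRing MulZeroClass.negZeroClass IsDedekindDomain.isDedekindDomainDvr IsDedekindDomain.toIsDedekindRing FractionRing.instIsScalarTower_1 Pi.smulZeroClass' instIsReducedForall SemilinearIsometryEquivClass.toSemilinearIsometryClass SetLike.GradeZero.instRing Matrix.instNonAssocRing Matrix.instRing Matrix.nonAssocSemiring instNontrivialOfCharZero DivisionRing.toNontrivial EuclideanDomain.toNontrivial IsSimpleOrder.toNontrivial LinearOrderedAddCommGroupWithTop.toNontrivial Pi.instIsRightCancelAdd SubfieldClass.toField SubfieldClass.toNormedField SubringClass.toCommRing MvPolynomial.instIsScalarTower MulOpposite.instMulOne Matrix.instAddCommGroupWithOne Matrix.instAddCommMonoidWithOne Matrix.instAddGroupWithOne Matrix.instAddMonoidWithOne Matrix.instIntCastOfZero Matrix.instNatCastOfZero Matrix.SpecialLinearGroup.hasCoeToMatrix Matrix.UnitaryGroup.coeMatrix Group.toDivInvMonoid CommRing.Pic.instFreeOfSubsingleton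 Subsingleton.to_isCancelMulZero IsOrderedCancelAddMonoid.toIsCancelAdd Pi.addCommMagma SubringClass.toNormedCommRing SubringClass.toSeminormedCommRing of_isDiscreteValuationRing ValuationRing.of_field IsSepClosed.isAlgClosed_of_perfectField IsSepClosed.of_isAlgClosed AddMonoidAlgebra.instUnique Ordinal.instNeZeroOne Pi.instMaxForall_mathlib AlgebraicClosure.instGroupWithZero Array.instDecidableExistsAndMemOfDecidablePred Finset.decidableDExistsFinset Finset.decidableExistsAndFinset Finset.decidableExistsAndFinsetCoe List.decidableBEx Multiset.decidableDexistsMultiset Option.decidableExistsMem Vector.instDecidableExistsAndMemOfDecidablePred Module.instIsReflexiveOfFiniteOfProjective Module.IsReflexive.of_finite_of_free Pi.instCanonicallyOrderedAddForall instMulPosMonoWithZeroOfMulRightMono coePNatNat instNatCastNat Nat.Primes.coeNat Nat.Primes.coePNat Algebra.IsFiniteSplit.instOfIsSepClosedOfEssFiniteTypeOfFormallyEtale SetLike.GradeZero.instCommSemiring Pi.instDiv Set.instAddLeftMono CancelCommMonoid.toCommMonoid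 CommGroup.toCancelCommMonoid CommGroup.toCommMonoid DivisionCommMonoid.toCommMonoid ESeminormedCommMonoid.toCommMonoid GradedMonoid.GradeZero.commMonoid instInhabitedOfMonad Nontrivial.to_nonempty Torsor.nonempty Unique.instInhabited CategoryTheory.IsConnected.is_nonempty MulEquivClass.toMonoidWithZeroHomClass MulRingSeminormClass.toMonoidWithZeroHomClass exists_prop_decidable OrderDual.isDirected_le ShareCommon.instNonemptyStateFactory instIsFractionRing SubalgebraClass.normedRing SubalgebraClass.seminormedRing SubfieldClass.toDivisionRing SubringClass.toNormedRing SubringClass.toRing SubringClass.toSeminormedRing Pi.normedCommutativeRing Set.instAddRightMono LocalizedModule.instIsScalarTower Finite.of_subsingleton SetLike.instFinite Algebra.IsQuadraticExtension.toFree Module.Free.self instPosMulMonoWithZeroOfMulLeftMono Pi.subNegZeroMonoid Pi.instSubtractionCommMonoid Pi.seminormedCommRing IsAlgClosed.instIsAlgClosure IsAlgClosure.isAlgebraic IsSepClosure.isAlgClosure_of_perfectField IsSepClosure.isAlgClosure_of_perfectField_top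 IsSepClosure.isSeparable ValuationRing.instOfIsLocalRingOfIsBezout Algebra.IsAlgebraic.isPurelyInseparable_of_isSepClosed Algebra.IsAlgebraic.isSeparable_of_perfectField Pi.commMonoidWithZero Pi.nonUnitalRing bot_nonempty infSet_to_nonempty supSet_to_nonempty top_nonempty ConnectedSpace.toNonempty IrreducibleSpace.toNonempty One.instNonempty Zero.instNonempty Pi.existsAddOfLe WithTop.instOrderedSub MulSemiringActionSemiHomClass.toRingHomClass instSMulCommClassOfIsScalarTower IdemSemiring.toCanonicallyOrderedAdd SubringClass.toNonAssocCommRing SubringClass.toNonAssocRing Pi.commRing AddMonoid.FG.to_moduleFinite_nat instIsDomainCyclotomicRing ValuationRing.instIsBezout ValuationRing.toPreValuationRing Algebra.Smooth.flat Pi.instSDiff SetLike.GradeZero.instMonoid instNonUnitalSubringClassIdeal SubringClass.nonUnitalSubringClass instAlgEquivClassOfNonUnitalAlgEquivClass ContinuousAlgEquivClass.toAlgEquivClass Algebra.Extension.commRing CancelCommMonoid.toCancelMonoid CancelCommMonoid.toLeftCancelMonoid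 CancelMonoid.toLeftCancelMonoid CancelMonoid.toRightCancelMonoid ENormedCommMonoid.toENormedMonoid ENormedCommMonoid.toESeminormedCommMonoid ENormedMonoid.toESeminormedMonoid ESeminormedCommMonoid.toESeminormedMonoid ESeminormedMonoid.toMonoid Group.toCancelMonoid LeftCancelMonoid.toMonoid NormedCommGroup.toENormedCommMonoid NormedGroup.toENormedMonoid RightCancelMonoid.toMonoid GradedMonoid.GradeZero.monoid CommMonoid.toCommSemigroup OrderDual.instRightDistribClass Finsupp.instAddGroup NoMaxOrder.infinite NoMinOrder.infinite SubsemiringClass.toSemiring Pi.normedRing OneHom.oneHomClass Pi.divInvMonoid Pi.instOrderTop RingHomInvPair.triples RingHomInvPair.triples₂ Pi.subNegMonoid Pi.instSemilatticeSup Ordinal.instIsLeftCancelMulZero Module.End.instDivisionRing Pi.divisionCommMonoid MulActionWithZero.toMulAction MulDistribMulAction.toMulAction MulSemiringAction.toMulDistribMulAction instInfiniteOfUncountable instIsDomain CharZero.infinite Denumerable.instInfinite DivisionRing.isDomain EuclideanDomain.instIsDomain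 Field.isDomain Infinite.instNontrivial IsDedekindDomain.toIsDomain IsOrderedRing.toIsStrictOrderedRing IsSimpleAddGroup.toNontrivial IsSimpleGroup.toNontrivial IsSimpleRing.instNontrivial IsStrictOrderedRing.isDomain IsStrictOrderedRing.toNontrivial NontriviallyNormedField.infinite instMonadLiftT instMonadLiftTOfMonadLift instFreeSubtypeMemIdealOfFiniteOfIsTorsionFree CyclotomicRing.instIsTorsionFreeCyclotomicField Pi.seminormedRing Normal.toIsAlgebraic Algebra.IsIntegral.of_finite Algebra.IsSeparable.of_integral IsSepClosure.of_isAlgClosure_of_perfectField IsSepClosure.self_of_isSepClosed Set.instInter Pi.normedAddCommGroup -- iprune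

set_option linter.all false

namespace AFast261860x4a
theorem a0 {x1 : Type} [x2 : Field x1] : NoZeroDivisors (MvPolynomial (Fin 2) x1) := inferInstance
theorem a1 {x1 : Type} [x2 : Field x1] : MulHomClass (x1 →+* MvPolynomial (Fin 2) x1) x1 (MvPolynomial (Fin 2) x1) := inferInstance
theorem a2 {x1 : Type} [x2 : Field x1] : Nontrivial (MvPolynomial (Fin 2) x1) := inferInstance
theorem a3 {x1 : Type} [x2 : Field x1] : AddHomClass (Derivation x1 (MvPolynomial (Fin 2) x1) (MvPolynomial (Fin 2) x1)) (MvPolynomial (Fin 2) x1) (MvPolynomial (Fin 2) x1) := inferInstance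
end AFast261860x4a
attribute [local instance] AFast261860x4a.a0 AFast261860x4a.a1 AFast261860x4a.a2 AFast261860x4a.a3
namespace AFast261860x4b
theorem a0 {x1 : Type} [x2 : Field x1] : AddMonoidHomClass (x1 →+* MvPolynomial (Fin 2) x1) x1 (MvPolynomial (Fin 2) x1) := inferInstance
end AFast261860x4b
attribute [local instance] AFast261860x4b.a0
section

section

/-!
# Definitions for the disproof of the small Cohen-Macaulay module conjecture

See `Vale/Agent/P190/BLUEPRINT.md`.
-/

set_option autoImplicit false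

open MvPolynomial Filter

namespace Vale.Agent.P190.D

/-- The polynomial ring `k[y,z]`, `y = X 0`, `z = X 1`. -/
abbrev A (k : Type) [Field k] := MvPolynomial (Fin 2) k

/-- Its fraction field `k(y,z)`. -/
abbrev KK (k : Type) [Field k] := FractionRing (A k)

/-- Polynomials of total degree at most `n` (zero if `n < 0`): the degree `n` part of
`k[x₁,x₂,x₃]`, dehomogenised by `x₁ = 1`, `x₂ = y`, `x₃ = z`. -/
noncomputable def Ad (k : Type) [Field k] (n : ℤ) : Submodule k (A k) :=
  if 0 ≤ n then restrictTotalDegree (Fin 2) k n.toNat else ⊥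

section Shortcuts

/-- shortcut -/
@[reducible] def scSMul (R V : Type) [Semiring R] [AddCommMonoid V] [Module R V] :
    SMul R V := inferInstance

/-- shortcut -/
@[reducible] def scPiMod (ι R V : Type) [Semiring R] [AddCommMonoid V] [Module R V] :
    Module R (ι → V) := inferInstance

variable (k : Type) [Field k]

/-- shortcut -/
@[reducible] noncomputable def scAKSMul : SMul (A k) (KK k) := inferInstance
/-- shortcut -/
@[reducible] noncomputable def scAlg : Algebra (A k) (KK k) := inferInstance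
/-- shortcut -/
@[reducible] noncomputable def scModAK : Module (A k) (KK k) := inferInstance
/-- shortcut -/
@[reducible] noncomputable def scModkK : Module k (KK k) := inferInstance
/-- shortcut -/
@[reducible] noncomputable def scField : Field (KK k) := inferInstance
/-- shortcut -/
@[reducible] noncomputable def scCommRing : CommRing (KK k) := inferInstance
/-- shortcut -/
@[reducible] noncomputable def scCommSemiring : CommSemiring (KK k) := inferInstance
/-- shortcut -/
@[reducible] noncomputable def scSemiring : Semiring (KK k) := inferInstance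
/-- shortcut -/
@[reducible] noncomputable def scAddCommGroup : AddCommGroup (KK k) := inferInstance
/-- shortcut -/
@[reducible] noncomputable def scAddCommMonoid : AddCommMonoid (KK k) := inferInstance

attribute [scoped instance 4000] scSMul
attribute [scoped instance 4500] scPiMod
attribute [scoped instance 5000] scAKSMul scAlg scModAK scModkK scField scCommRing scCommSemiring
  scSemiring scAddCommGroup scAddCommMonoid

end Shortcuts

/-- The polynomial with Hilbert triple `(N,e,g)`. -/
def hp (N e g : ℤ) (n : ℚ) : ℚ := N * ((n + 1) * (n + 2) / 2) + e * (n + 1) + g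

section Lat

variable {k : Type} [Field k] {V : Type} [AddCommGroup V] [Module k V] [Module (A k) V]

/-- `E` is a `B`-lattice: a finitely generated graded `k[x₁,x₂,x₃]`-module, dehomogenised. -/
structure IsBLat (E : ℤ → Submodule k V) : Prop where
  smul_mem : ∀ {i n : ℤ} {a : A k} {v : V}, a ∈ Ad k i → v ∈ E n → a • v ∈ E (n + i)
  fin : ∀ n, Module.Finite k (E n)
  bdd : ∃ n₀ : ℤ, ∀ n < n₀, E n = ⊥
  fg : ∃ n₁ : ℤ, ∀ n ≥ n₁,
    E (n + 1) ≤ Submodule.span k {w | ∃ a ∈ Ad k 1, ∃ v ∈ E n, w = a • v}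

/-- `E` has Hilbert polynomial with triple `(N,e,g)`. -/
def HasHilb (E : ℤ → Submodule k V) (N e g : ℤ) : Prop :=
  ∀ᶠ n : ℤ in atTop, (Module.finrank k (E n) : ℚ) = hp N e g n

/-- `v` is locally in `E` in degree `n` at every height one homogeneous prime. -/
def LocIn (E : ℤ → Submodule k V) (n : ℤ) (v : V) : Prop :=
  (∀ π : A k, Irreducible π → ∃ i : ℤ, ∃ c ∈ Ad k i, ¬ π ∣ c ∧ c • v ∈ E (n + i)) ∧
  (∃ c : A k, c ≠ 0 ∧ c • v ∈ E (n + c.totalDegree))

/-- `E` is saturated in codimension two (reflexive). -/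
def IsS2 (E : ℤ → Submodule k V) : Prop := ∀ n v, LocIn E n v → v ∈ E n

/-- `E` is generated in degrees `≤ c`. -/
def GenIn (E : ℤ → Submodule k V) (c : ℤ) : Prop :=
  ∀ n ≥ c, E (n + 1) ≤ Submodule.span k {w | ∃ a ∈ Ad k 1, ∃ v ∈ E n, w = a • v}

end Lat

/-- A line arrangement with all its multiple points double or triple, and square roots of the
constants in the linear relations at the triple points. -/
structure Arr (k : Type) [Field k] where
  /-- the lines -/
  I : Type
  [fI : Fintype I]
  [dI : DecidableEq I]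
  /-- three independent lines -/
  b : Fin 3 → I
  b_inj : Function.Injective b
  /-- the linear forms -/
  l : I → Fin 3 → k
  l_b : ∀ i, l (b i) = Pi.single i 1
  /-- the triple points -/
  S : Type
  [fS : Fintype S]
  [dS : DecidableEq S]
  v : S → I
  h : S → I
  d : S → I
  δ : S → k
  η : S → k
  ν : S → k
  δ_ne : ∀ t, δ t ≠ 0
  η_ne : ∀ t, η t ≠ 0
  ν_ne : ∀ t, ν t ≠ 0
  rel : ∀ t, δ t ^ 2 • l (d t) - η t ^ 2 • l (h t) = ν t ^ 2 • l (v t)
  vh : ∀ t, v t ≠ h t
  vd : ∀ t, v t ≠ d t
  hd : ∀ t, h t ≠ d t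
  indep : ∀ x y z : I, x ≠ y → x ≠ z → y ≠ z →
    LinearIndependent k ![l x, l y, l z] ∨ ∃ t, ({x, y, z} : Set I) = {v t, h t, d t}
  share : ∀ t t' : S, ∀ x y : I, x ≠ y → x ∈ ({v t, h t, d t} : Set I) →
    y ∈ ({v t, h t, d t} : Set I) → x ∈ ({v t', h t', d t'} : Set I) →
    y ∈ ({v t', h t', d t'} : Set I) → t = t'
  cover : ∀ x : I, ∃ t, x ∈ ({v t, h t, d t} : Set I)
  even : Even (Fintype.card S)
  two_ne : (2 : k) ≠ 0
  rho : 2 * Fintype.card I < Fintype.card S + 6

attribute [instance] Arr.fI Arr.dI Arr.fS Arr.dS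

namespace Arr

variable {k : Type} [Field k] (X : Arr k)

/-- number of lines -/
def m : ℕ := Fintype.card X.I

/-- half the number of triple points -/
def w : ℕ := Fintype.card X.S / 2

/-- the diagonal quadratic form of a line, dehomogenised -/
noncomputable def q (x : X.I) : A k :=
  C (X.l x 0) + C (X.l x 1) * MvPolynomial.X 0 ^ 2 + C (X.l x 2) * MvPolynomial.X 1 ^ 2

/-- the non-base lines -/
def J : Type := {x : X.I // x ∉ Set.range X.b}

noncomputable instance : Fintype X.J := by classical exact Subtype.fintype _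
instance : DecidableEq X.J := inferInstanceAs (DecidableEq {x : X.I // x ∉ Set.range X.b})

/-- the ideal generated by `X_j ^ 2 - q_j` -/
noncomputable def idl : Ideal (MvPolynomial X.J (KK k)) :=
  Ideal.span (Set.range fun j : X.J =>
    (MvPolynomial.X j ^ 2 - C (algebraMap (A k) (KK k) (X.q j.1)) :
      MvPolynomial X.J (KK k)))

/-- The multiquadratic extension `KK(σ_j)`. -/
def L : Type := MvPolynomial X.J (KK k) ⧸ X.idl

noncomputable instance : CommRing X.L :=
  inferInstanceAs (CommRing (MvPolynomial X.J (KK k) ⧸ X.idl))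
noncomputable instance : Algebra (KK k) X.L :=
  inferInstanceAs (Algebra (KK k) (MvPolynomial X.J (KK k) ⧸ X.idl))
noncomputable instance : Algebra (A k) X.L :=
  ((algebraMap (KK k) X.L).comp (algebraMap (A k) (KK k))).toAlgebra
noncomputable instance : Algebra k X.L :=
  ((algebraMap (KK k) X.L).comp (algebraMap k (KK k))).toAlgebra
instance : IsScalarTower k (KK k) X.L := IsScalarTower.of_algebraMap_eq' rfl
instance : IsScalarTower (A k) (KK k) X.L := IsScalarTower.of_algebraMap_eq' rfl
instance : IsScalarTower k (A k) X.L := by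
  refine IsScalarTower.of_algebraMap_eq fun x => ?_
  rw [IsScalarTower.algebraMap_apply k (KK k) X.L, IsScalarTower.algebraMap_apply (A k) (KK k) X.L,
    ← IsScalarTower.algebraMap_apply k (A k) (KK k)]

open Classical in
/-- the elements `σ_x`, with `σ_{b 0} = 1`, `σ_{b 1} = y`, `σ_{b 2} = z` -/
noncomputable def σ (x : X.I) : X.L :=
  if hx : x ∉ Set.range X.b then
    (Ideal.Quotient.mk X.idl (MvPolynomial.X (⟨x, hx⟩ : X.J)) : MvPolynomial X.J (KK k) ⧸ X.idl)
  else if x = X.b 1 then algebraMap (A k) X.L (MvPolynomial.X 0)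
  else if x = X.b 2 then algebraMap (A k) X.L (MvPolynomial.X 1)
  else 1

/-- `a_t^+` (for `true`) and `a_t^-` (for `false`) -/
noncomputable def a (t : X.S) (s : Bool) : X.L :=
  if s then X.δ t • X.σ (X.d t) + X.η t • X.σ (X.h t)
  else X.δ t • X.σ (X.d t) - X.η t • X.σ (X.h t)

/-- `π_ε` -/
noncomputable def pie (ε : X.S → Bool) : X.L :=
  ∏ t, if ε t then X.a t true else X.ν t • X.σ (X.v t)

/-- `Π = ∏ a_t^+` -/
noncomputable def PI : X.L := ∏ t, X.a t true

/-- graded pieces of `T₀`: the span of the monomials of degree `n` in the `σ_x` -/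
noncomputable def T0 (n : ℤ) : Submodule k X.L :=
  Submodule.span k {f | ∃ u : X.I → ℕ, ((∑ x, u x : ℕ) : ℤ) = n ∧ f = ∏ x, X.σ x ^ u x}

end Arr

section Shortcuts

variable {k : Type} [Field k] (X : Arr k)

/-- shortcut -/
@[reducible] noncomputable def scLModK : Module (KK k) X.L := inferInstance
/-- shortcut -/
@[reducible] noncomputable def scLModA : Module (A k) X.L := inferInstance
/-- shortcut -/
@[reducible] noncomputable def scLModk : Module k X.L := inferInstance
/-- shortcut -/
@[reducible] noncomputable def scLSMulK : SMul (KK k) X.L := inferInstance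
/-- shortcut -/
@[reducible] noncomputable def scLSMulA : SMul (A k) X.L := inferInstance
/-- shortcut -/
@[reducible] noncomputable def scLSMulk : SMul k X.L := inferInstance

attribute [scoped instance 5000] scLModK scLModA scLModk scLSMulK scLSMulA scLSMulk

end Shortcuts

end Vale.Agent.P190.D
end
end
namespace AFast261860x241a
@[reducible] noncomputable def a0 {x1 : Type} [x2 : Field x1] {x3 : Type} [x4 : AddCommGroup x3] [x5 : Module (Vale.Agent.P190.D.A x1) x3] : SMul (Vale.Agent.P190.D.A x1) x3 := inferInstance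
@[reducible] noncomputable def a1 {x1 : Type} [x2 : Field x1] : AddCommMonoid (Vale.Agent.P190.D.KK x1) := inferInstance
@[reducible] noncomputable def a2 {x1 : Type} [x2 : Field x1] : Algebra (Vale.Agent.P190.D.A x1) (Vale.Agent.P190.D.KK x1) := inferInstance
@[reducible] noncomputable def a3 {x1 : Type} [x2 : Field x1] : Semiring (Vale.Agent.P190.D.KK x1) := inferInstance
@[reducible] noncomputable def a4 {x1 : Type} [x2 : Field x1] : SMul (Vale.Agent.P190.D.A x1) (Vale.Agent.P190.D.KK x1) := inferInstance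
theorem a5 {x1 : Type} [x2 : Field x1] {x3 : Vale.Agent.P190.D.Arr x1} : x3.idl.IsTwoSided := inferInstance
@[reducible] noncomputable def a6 {x1 : Type} [x2 : Field x1] {x3 : Type} [x4 : AddCommGroup x3] [x5 : Module (Vale.Agent.P190.D.A x1) x3] : SMulZeroClass (Vale.Agent.P190.D.A x1) x3 := inferInstance
@[reducible] noncomputable def a7 {x1 : Type} [x2 : Field x1] {x3 : Vale.Agent.P190.D.Arr x1} : SMul (Vale.Agent.P190.D.A x1) x3.L := inferInstance
@[reducible] noncomputable def a8 {x1 : Type} [x2 : Field x1] {x3 : ℕ} {x4 : Vale.Agent.P190.D.Arr x1} {x5 : Fin x3} : SemigroupAction (Vale.Agent.P190.D.A x1) ((fun a => x4.L) x5) := inferInstance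
@[reducible] noncomputable def a9 {x1 : Type} [x2 : Field x1] {x3 : ℕ} {x4 : Vale.Agent.P190.D.Arr x1} {x5 : Fin x3} : MulAction (Vale.Agent.P190.D.A x1) ((fun a => x4.L) x5) := inferInstance
@[reducible] noncomputable def a10 {x1 : Type} [x2 : Field x1] : CommSemiring (Vale.Agent.P190.D.KK x1) := inferInstance
@[reducible] noncomputable def a11 {x1 : Type} [x2 : Field x1] {x3 : Type} [x4 : AddCommGroup x3] [x5 : Module (Vale.Agent.P190.D.A x1) x3] : DistribSMul (Vale.Agent.P190.D.A x1) x3 := inferInstance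
@[reducible] def a12 {x1 : Type} [x2 : Field x1] {x3 : Type} [x4 : AddCommGroup x3] [x5 : Module (Vale.Agent.P190.D.A x1) x3] : MulAction (Vale.Agent.P190.D.A x1) x3 := inferInstance
@[reducible] def a13 {x1 : Type} [x2 : Field x1] {x3 : Type} [x4 : AddCommGroup x3] [x5 : Module (Vale.Agent.P190.D.A x1) x3] : DistribMulAction (Vale.Agent.P190.D.A x1) x3 := inferInstance
@[reducible] def a14 {x1 : Type} [x2 : Field x1] {x3 : Type} [x4 : AddCommGroup x3] [x5 : Module (Vale.Agent.P190.D.A x1) x3] : SemigroupAction (Vale.Agent.P190.D.A x1) x3 := inferInstance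
@[reducible] noncomputable def a15 {x1 : Type} [x2 : Field x1] {x3 : Vale.Agent.P190.D.Arr x1} : Ring (MvPolynomial x3.J (Vale.Agent.P190.D.KK x1) ⧸ x3.idl) := inferInstance
@[reducible] noncomputable def a16 {x1 : Type} [x2 : Field x1] {x3 : Vale.Agent.P190.D.Arr x1} : Semiring (MvPolynomial x3.J (Vale.Agent.P190.D.KK x1) ⧸ x3.idl) := inferInstance
@[reducible] noncomputable def a17 {x1 : Type} [x2 : Field x1] : DivisionRing (OreLocalization (nonZeroDivisors (Vale.Agent.P190.D.A x1)) (Vale.Agent.P190.D.A x1)) := inferInstance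
@[reducible] noncomputable def a18 {x1 : Type} [x2 : Field x1] {x3 : Vale.Agent.P190.D.Arr x1} : NonAssocSemiring (MvPolynomial x3.J (Vale.Agent.P190.D.KK x1) ⧸ x3.idl) := inferInstance
@[reducible] noncomputable def a19 {x1 : Type} [x2 : Field x1] : DistribMulAction (Vale.Agent.P190.D.A x1) (Vale.Agent.P190.D.A x1) := inferInstance
@[reducible] noncomputable def a20 {x1 : Type} [x2 : Field x1] : Ring (OreLocalization (nonZeroDivisors (Vale.Agent.P190.D.A x1)) (Vale.Agent.P190.D.A x1)) := inferInstance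
@[reducible] noncomputable def a21 {x1 : Type} [x2 : Field x1] : NonAssocSemiring (Vale.Agent.P190.D.KK x1) := inferInstance
@[reducible] noncomputable def a22 {x1 : Type} [x2 : Field x1] : Field (Vale.Agent.P190.D.KK x1) := inferInstance
@[reducible] noncomputable def a23 {x1 : Type} [x2 : Field x1] {x3 : Type} [x4 : AddCommGroup x3] [x5 : Module (Vale.Agent.P190.D.KK x1) x3] : SMulZeroClass (Vale.Agent.P190.D.KK x1) x3 := inferInstance
@[reducible] noncomputable def a24 {x1 : Type} [x2 : Field x1] {x3 : Vale.Agent.P190.D.Arr x1} : MulAction (Vale.Agent.P190.D.A x1) x3.L := inferInstance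
@[reducible] noncomputable def a25 {x1 : Type} [x2 : Field x1] : Semifield (Vale.Agent.P190.D.KK x1) := inferInstance
@[reducible] noncomputable def a26 {x1 : Type} [x2 : Field x1] : CommRing (Vale.Agent.P190.D.KK x1) := inferInstance
@[reducible] def a27 {x1 : Type} [x2 : Field x1] {x3 : Type} [x4 : AddCommGroup x3] [x5 : Module (Vale.Agent.P190.D.KK x1) x3] : DistribMulAction (Vale.Agent.P190.D.KK x1) x3 := inferInstance
@[reducible] noncomputable def a28 {x1 : Type} [x2 : Field x1] {x3 : Type} [x4 : AddCommGroup x3] [x5 : Module (Vale.Agent.P190.D.KK x1) x3] : DistribSMul (Vale.Agent.P190.D.KK x1) x3 := inferInstance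
@[reducible] noncomputable def a29 {x1 : Type} [x2 : Field x1] : Module (Vale.Agent.P190.D.A x1) (Vale.Agent.P190.D.KK x1) := inferInstance
@[reducible] noncomputable def a30 {x1 : Type} [x2 : Field x1] : OreLocalization.OreSet (nonZeroDivisors (Vale.Agent.P190.D.A x1)) := inferInstance
@[reducible] noncomputable def a31 {x1 : Type} [x2 : Field x1] : AddMonoid (Vale.Agent.P190.D.KK x1) := inferInstance
@[reducible] noncomputable def a32 {x1 : Type} [x2 : Field x1] {x3 : Vale.Agent.P190.D.Arr x1} : Ring (AddMonoidAlgebra (Vale.Agent.P190.D.KK x1) (x3.J →₀ ℕ)) := inferInstance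
@[reducible] noncomputable def a33 {x1 : Type} [x2 : Field x1] : Semiring (OreLocalization (nonZeroDivisors (Vale.Agent.P190.D.A x1)) (Vale.Agent.P190.D.A x1)) := inferInstance
@[reducible] noncomputable def a34 {x1 : Type} [x2 : Field x1] : DistribMulAction (Vale.Agent.P190.D.KK x1) (Vale.Agent.P190.D.KK x1) := inferInstance
theorem a35 {x1 : Type} [x2 : Field x1] : IsScalarTower (Vale.Agent.P190.D.KK x1) (Vale.Agent.P190.D.KK x1) (Vale.Agent.P190.D.KK x1) := inferInstance
@[reducible] noncomputable def a36 {x1 : Type} [x2 : Field x1] {x3 : Vale.Agent.P190.D.Arr x1} : SemigroupAction (Vale.Agent.P190.D.A x1) x3.L := inferInstance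
@[reducible] noncomputable def a37 {x1 : Type} [x2 : Field x1] : MulActionWithZero (Vale.Agent.P190.D.A x1) (Vale.Agent.P190.D.KK x1) := inferInstance
@[reducible] noncomputable def a38 {x1 : Type} [x2 : Field x1] : SMulWithZero (Vale.Agent.P190.D.A x1) (Vale.Agent.P190.D.KK x1) := inferInstance
theorem a39 {x1 : Type} [x2 : Field x1] : IsSimpleRing (Vale.Agent.P190.D.KK x1) := inferInstance
@[reducible] noncomputable def a40 {x1 : Type} [x2 : Field x1] : SemilatticeSup (Submodule x1 (Vale.Agent.P190.D.A x1)) := inferInstance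
@[reducible] noncomputable def a41 {x1 : Type} [x2 : Field x1] {x3 : ℕ} {x4 : Vale.Agent.P190.D.Arr x1} : SMul (Vale.Agent.P190.D.A x1) (Fin x3 → x4.L) := inferInstance
@[reducible] noncomputable def a42 {x1 : Type} [x2 : Field x1] : Max (Submodule x1 (Vale.Agent.P190.D.A x1)) := inferInstance
@[reducible] noncomputable def a43 {x1 : Type} [x2 : Field x1] {x3 : Vale.Agent.P190.D.Arr x1} : HasQuotient (MvPolynomial x3.J (Vale.Agent.P190.D.KK x1)) (Ideal (MvPolynomial x3.J (Vale.Agent.P190.D.KK x1))) := inferInstance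
theorem a44 {x1 : Type} [x2 : Field x1] : FaithfulSMul (Vale.Agent.P190.D.A x1) (FractionRing (Vale.Agent.P190.D.A x1)) := inferInstance
end AFast261860x241a
attribute [local instance] AFast261860x241a.a0 AFast261860x241a.a1 AFast261860x241a.a2
  AFast261860x241a.a3 AFast261860x241a.a4 AFast261860x241a.a5 AFast261860x241a.a6
  AFast261860x241a.a7 AFast261860x241a.a8 AFast261860x241a.a9 AFast261860x241a.a10
  AFast261860x241a.a11 AFast261860x241a.a12 AFast261860x241a.a13 AFast261860x241a.a14
  AFast261860x241a.a15 AFast261860x241a.a16 AFast261860x241a.a17 AFast261860x241a.a18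
  AFast261860x241a.a19 AFast261860x241a.a20 AFast261860x241a.a21 AFast261860x241a.a22
  AFast261860x241a.a23 AFast261860x241a.a24 AFast261860x241a.a25 AFast261860x241a.a26
  AFast261860x241a.a27 AFast261860x241a.a28 AFast261860x241a.a29 AFast261860x241a.a30
  AFast261860x241a.a31 AFast261860x241a.a32 AFast261860x241a.a33 AFast261860x241a.a34
  AFast261860x241a.a35 AFast261860x241a.a36 AFast261860x241a.a37 AFast261860x241a.a38
  AFast261860x241a.a39 AFast261860x241a.a40 AFast261860x241a.a41 AFast261860x241a.a42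
  AFast261860x241a.a43 AFast261860x241a.a44
namespace AFast261860x241b
@[reducible] noncomputable def a0 {x1 : Type} [x2 : Field x1] {x3 : Type} [x4 : AddCommGroup x3] [x5 : Module (Vale.Agent.P190.D.KK x1) x3] : SMul (Vale.Agent.P190.D.KK x1) x3 := inferInstance
@[reducible] noncomputable def a1 {x1 : Type} [x2 : Field x1] {x3 : Vale.Agent.P190.D.Arr x1} : SMul (Vale.Agent.P190.D.KK x1) x3.L := inferInstance
@[reducible] noncomputable def a2 {x1 : Type} [x2 : Field x1] {x3 : ℕ} {x4 : Vale.Agent.P190.D.Arr x1} {x5 : Fin x3} : SemigroupAction (Vale.Agent.P190.D.KK x1) ((fun a => x4.L) x5) := inferInstance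
@[reducible] noncomputable def a3 {x1 : Type} [x2 : Field x1] {x3 : ℕ} {x4 : Vale.Agent.P190.D.Arr x1} {x5 : Fin x3} : MulAction (Vale.Agent.P190.D.KK x1) ((fun a => x4.L) x5) := inferInstance
theorem a4 {x1 : Type} [x2 : Field x1] {x3 : Type} [x4 : AddCommGroup x3] [x5 : Module (Vale.Agent.P190.D.KK x1) x3] : Module.Flat (Vale.Agent.P190.D.KK x1) x3 := inferInstance
theorem a5 {x1 : Type} [x2 : Field x1] : IsScalarTower (Vale.Agent.P190.D.KK x1) (Vale.Agent.P190.D.KK x1) (AlgebraicClosure (Vale.Agent.P190.D.KK x1)) := inferInstance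
@[reducible] noncomputable def a6 {x1 : Type} [x2 : Field x1] : Algebra (Vale.Agent.P190.D.KK x1) ↥(separableClosure (Vale.Agent.P190.D.KK x1) (AlgebraicClosure (Vale.Agent.P190.D.KK x1))) := inferInstance
@[reducible] noncomputable def a7 {x1 : Type} [x2 : Field x1] : SMulZeroClass (Vale.Agent.P190.D.A x1) (Vale.Agent.P190.D.KK x1) := inferInstance
@[reducible] def a8 {x1 : Type} [x2 : Field x1] {x3 : Type} [x4 : AddCommGroup x3] [x5 : Module (Vale.Agent.P190.D.KK x1) x3] : MulAction (Vale.Agent.P190.D.KK x1) x3 := inferInstance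
theorem a9 {x1 : Type} [x2 : Field x1] {x3 : Type} [x4 : AddCommGroup x3] [x5 : Module (Vale.Agent.P190.D.KK x1) x3] : Module.Free (Vale.Agent.P190.D.KK x1) x3 := inferInstance
theorem a10 {x1 : Type} [x2 : Field x1] {x3 : Type} [x4 : AddCommGroup x3] [x5 : Module (Vale.Agent.P190.D.KK x1) x3] : Module.IsTorsionFree (Vale.Agent.P190.D.KK x1) x3 := inferInstance
theorem a11 {x1 : Type} [x2 : Field x1] {x3 : Type} [x4 : AddCommGroup x3] [x5 : Module (Vale.Agent.P190.D.KK x1) x3] : IsScalarTower (Vale.Agent.P190.D.KK x1) (Vale.Agent.P190.D.KK x1) x3 := inferInstance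
@[reducible] def a12 {x1 : Type} [x2 : Field x1] {x3 : Type} [x4 : AddCommGroup x3] [x5 : Module (Vale.Agent.P190.D.KK x1) x3] : SemigroupAction (Vale.Agent.P190.D.KK x1) x3 := inferInstance
@[reducible] noncomputable def a13 {x1 : Type} [x2 : Field x1] {x3 : Type} [x4 : AddCommGroup x3] [x5 : Module (Vale.Agent.P190.D.A x1) x3] : SMul (Polynomial (Vale.Agent.P190.D.A x1)) (PolynomialModule (Vale.Agent.P190.D.A x1) x3) := inferInstance
theorem a14 {x1 : Type} [x2 : Field x1] {x3 : Type} [x4 : AddCommGroup x3] [x5 : Module (Vale.Agent.P190.D.KK x1) x3] : SMulCommClass (Vale.Agent.P190.D.KK x1) (Vale.Agent.P190.D.KK x1) x3 := inferInstance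
@[reducible] noncomputable def a15 {x1 : Type} [x2 : Field x1] {x3 : Type} [x4 : AddCommGroup x3] [x5 : Module (Vale.Agent.P190.D.KK x1) x3] : Algebra (Vale.Agent.P190.D.KK x1) (Module.End (Vale.Agent.P190.D.KK x1) x3) := inferInstance
theorem a16 {x1 : Type} [x2 : Field x1] : IsCancelMulZero (Vale.Agent.P190.D.KK x1) := inferInstance
@[reducible] noncomputable def a17 {x1 : Type} [x2 : Field x1] : Module (Vale.Agent.P190.D.KK x1) ↥(separableClosure (Vale.Agent.P190.D.KK x1) (AlgebraicClosure (Vale.Agent.P190.D.KK x1))) := inferInstance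
@[reducible] noncomputable def a18 {x1 : Type} [x2 : Field x1] {x3 : Type} [x4 : AddCommGroup x3] [x5 : Module (Vale.Agent.P190.D.KK x1) x3] : SMul (Vale.Agent.P190.D.KK x1) (Module.End (Vale.Agent.P190.D.KK x1) x3) := inferInstance
end AFast261860x241b
attribute [local instance] AFast261860x241b.a0 AFast261860x241b.a1 AFast261860x241b.a2
  AFast261860x241b.a3 AFast261860x241b.a4 AFast261860x241b.a5 AFast261860x241b.a6
  AFast261860x241b.a7 AFast261860x241b.a8 AFast261860x241b.a9 AFast261860x241b.a10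
  AFast261860x241b.a11 AFast261860x241b.a12 AFast261860x241b.a13 AFast261860x241b.a14
  AFast261860x241b.a15 AFast261860x241b.a16 AFast261860x241b.a17 AFast261860x241b.a18

section

section

/-! Section 1, file B1: the pieces `Ad k n`. -/

set_option autoImplicit false
set_option linter.unusedSectionVars false

open MvPolynomial Filter

namespace Vale.Agent.P190.D

variable {k : Type} [Field k]

theorem Ad_of_nonneg {n : ℤ} (hn : 0 ≤ n) : Ad k n = restrictTotalDegree (Fin 2) k n.toNat := by
  unfold Ad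
  rw [if_pos hn]

theorem Ad_of_neg {n : ℤ} (hn : n < 0) : Ad k n = ⊥ := by
  unfold Ad
  rw [if_neg (not_le.2 hn)]

theorem mem_Ad {n : ℤ} {a : A k} : a ∈ Ad k n ↔ a = 0 ∨ (a.totalDegree : ℤ) ≤ n := by
  rcases lt_or_ge n 0 with hn | hn
  · rw [Ad_of_neg hn, Submodule.mem_bot]
    constructor
    · exact Or.inl
    · rintro (h | h)
      · exact h
      · have : (0 : ℤ) ≤ (a.totalDegree : ℤ) := Int.natCast_nonneg _
        omega
  · rw [Ad_of_nonneg hn, mem_restrictTotalDegree]
    constructor
    · intro h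
      right
      omega
    · rintro (h | h)
      · rw [h]
        simp
      · omega

theorem Ad_mono {i j : ℤ} (h : i ≤ j) : Ad k i ≤ Ad k j := by
  intro a ha
  rw [mem_Ad] at ha ⊢
  rcases ha with ha | ha
  · exact Or.inl ha
  · exact Or.inr (ha.trans h)

theorem Ad_mul {i j : ℤ} {a b : A k} (ha : a ∈ Ad k i) (hb : b ∈ Ad k j) :
    a * b ∈ Ad k (i + j) := by
  rw [mem_Ad] at ha hb ⊢
  rcases ha with ha | ha
  · left
    rw [ha, zero_mul]
  · rcases hb with hb | hb
    · left
      rw [hb, mul_zero]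
    · right
      have := totalDegree_mul a b
      omega

instance Ad_fin (n : ℤ) : Module.Finite k (Ad k n) := by
  rcases lt_or_ge n 0 with hn | hn
  · rw [Ad_of_neg hn]
    infer_instance
  · rw [Ad_of_nonneg hn]
    infer_instance

/-- Exponents of degree at most `m`. -/
def expLe (m : ℕ) : Set (Fin 2 →₀ ℕ) := {n | (n.sum fun _ e => e) ≤ m}

theorem card_pairs (m : ℕ) :
    ((Finset.range (m + 1)).biUnion fun j => Finset.HasAntidiagonal.antidiagonal j).card * 2 =
      (m + 1) * (m + 2) := by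
  rw [Finset.card_biUnion]
  · simp only [Finset.Nat.card_antidiagonal]
    induction m with
    | zero => simp
    | succ m ih =>
      rw [Finset.sum_range_succ, add_mul, ih]
      ring
  · intro i _ j _ hij
    rw [Function.onFun, Finset.disjoint_left]
    intro x hx hx'
    rw [Finset.HasAntidiagonal.mem_antidiagonal] at hx hx'
    exact hij (hx.symm.trans hx')

/-- Exponents as pairs. -/
noncomputable def expEquiv (m : ℕ) : expLe m ≃
    {x : ℕ × ℕ // x ∈ (Finset.range (m + 1)).biUnion fun j => Finset.HasAntidiagonal.antidiagonal j} :=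
  Equiv.subtypeEquiv (Finsupp.equivFunOnFinite.trans (finTwoArrowEquiv ℕ)) (by
    intro a
    simp only [expLe, Set.mem_ofPred_eq, Finset.mem_biUnion, Finset.mem_range,
      Finset.HasAntidiagonal.mem_antidiagonal]
    rw [Finsupp.sum_fintype _ _ (fun _ => rfl), Fin.sum_univ_two]
    constructor
    · intro h
      exact ⟨a 0 + a 1, by omega, rfl⟩
    · rintro ⟨j, hj, h⟩
      have : a 0 + a 1 = j := h
      omega)

theorem finrank_restrict (m : ℕ) :
    Module.finrank k (restrictTotalDegree (Fin 2) k m) * 2 = (m + 1) * (m + 2) := by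
  have h1 := Module.finrank_eq_nat_card_basis (basisRestrictSupport k (expLe m))
  have h2 : Nat.card (expLe m) =
      ((Finset.range (m + 1)).biUnion fun j => Finset.HasAntidiagonal.antidiagonal j).card := by
    rw [Nat.card_congr (expEquiv m), Nat.card_eq_fintype_card, Fintype.card_coe]
  rw [h2] at h1
  rw [← card_pairs, ← h1]
  rfl

theorem finrank_Ad_neg {n : ℤ} (hn : n < 0) : Module.finrank k (Ad k n) = 0 := by
  rw [Ad_of_neg hn]
  exact finrank_bot k _

theorem finrank_Ad {n : ℤ} (hn : -2 ≤ n) : (Module.finrank k (Ad k n) : ℚ) = hp 1 0 0 n := by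
  rcases lt_or_ge n 0 with h | h
  · rw [finrank_Ad_neg h]
    have : n = -1 ∨ n = -2 := by omega
    rcases this with h | h <;> subst h <;> (clear * -; norm_num [hp])
  · obtain ⟨m, rfl⟩ := Int.eq_ofNat_of_zero_le h
    rw [Ad_of_nonneg h]
    have h1 := finrank_restrict (k := k) m
    have h2 : ((Module.finrank k (restrictTotalDegree (Fin 2) k m) : ℕ) : ℚ) * 2 =
        ((m : ℚ) + 1) * ((m : ℚ) + 2) := by
      exact_mod_cast h1
    rw [Int.toNat_natCast]
    unfold hp
    push_cast
    linarith only [h2]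

/-- Serre duality for the polynomial ring, numerically. -/
theorem finrank_Ad_dual (n : ℤ) :
    (Module.finrank k (Ad k n) : ℚ) + Module.finrank k (Ad k (-n - 3)) = hp 1 0 0 n := by
  rcases lt_or_ge n (-2) with h | h
  · rw [finrank_Ad_neg (by omega), finrank_Ad (by omega)]
    unfold hp
    push_cast
    ring
  · rw [finrank_Ad h, finrank_Ad_neg (by omega)]
    simp

theorem Ad_succ {n : ℤ} (hn : 0 ≤ n) :
    Ad k (n + 1) = Submodule.span k {c | ∃ a ∈ Ad k 1, ∃ b ∈ Ad k n, c = a * b} := by
  apply le_antisymm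
  · rw [Ad_of_nonneg (by omega)]
    change restrictSupport k _ ≤ _
    rw [restrictSupport_eq_span, Submodule.span_le]
    rintro _ ⟨e, he, rfl⟩
    simp only [Set.mem_ofPred_eq] at he
    rw [SetLike.mem_coe]
    by_cases h0 : e = 0
    · subst h0
      apply Submodule.subset_span
      refine ⟨1, mem_Ad.2 (Or.inr (by simp only [totalDegree_one, CharP.cast_eq_zero, zero_le_one])), 1, mem_Ad.2 (Or.inr (by simpa only [totalDegree_one, CharP.cast_eq_zero] using hn)), ?_⟩
      rw [one_mul]
      rfl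
    · obtain ⟨i, hi⟩ : ∃ i, e i ≠ 0 := by
        by_contra hcon
        push Not at hcon
        exact h0 (Finsupp.ext hcon)
      have hle : Finsupp.single i 1 ≤ e := by
        rw [Finsupp.single_le_iff]
        omega
      have hsum : e = Finsupp.single i 1 + (e - Finsupp.single i 1) :=
        (add_tsub_cancel_of_le hle).symm
      apply Submodule.subset_span
      refine ⟨monomial (Finsupp.single i 1) 1, mem_Ad.2 (Or.inr ?_),
        monomial (e - Finsupp.single i 1) 1, mem_Ad.2 (Or.inr ?_), ?_⟩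
      · rw [totalDegree_monomial _ one_ne_zero]
        simp
      · rw [totalDegree_monomial _ one_ne_zero]
        have h1 : (e.sum fun _ e => e) = 1 + ((e - Finsupp.single i 1).sum fun _ e => e) := by
          conv_lhs => rw [hsum]
          rw [Finsupp.sum_add_index' (fun _ => rfl) (fun _ _ _ => rfl)]
          simp
        omega
      · rw [monomial_mul, ← hsum, one_mul]
  · rw [Submodule.span_le]
    rintro _ ⟨a, ha, b, hb, rfl⟩
    have := Ad_mul ha hb
    rwa [add_comm] at this

end Vale.Agent.P190.D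
end
end

section

section

/-! Section 1, file B2a: Noetherian property (auxiliary for B2). -/

set_option autoImplicit false
set_option linter.unusedSectionVars false

open MvPolynomial Filter

namespace Vale.Agent.P190.D

variable {k : Type} [Field k] {V : Type} [AddCommGroup V] [Module k V] [Module (A k) V]
  [IsScalarTower k (A k) V]

theorem one_mem_Ad1 : (1 : A k) ∈ Ad k 1 := mem_Ad.2 (Or.inr (by simp only [totalDegree_one, CharP.cast_eq_zero, zero_le_one]))

theorem X_mem_Ad1 (i : Fin 2) : (X i : A k) ∈ Ad k 1 :=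
  mem_Ad.2 (Or.inr (by simp only [totalDegree_X, Nat.cast_one, Std.le_refl]))

/-- the three linear forms, dehomogenised -/
noncomputable def lin3 (k : Type) [Field k] : Fin 3 → A k := ![1, X 0, X 1]

theorem lin3_mem (i : Fin 3) : lin3 k i ∈ Ad k 1 := by
  fin_cases i
  · exact one_mem_Ad1
  · exact X_mem_Ad1 0
  · exact X_mem_Ad1 1

theorem mem_span_lin3 {a : A k} (ha : a ∈ Ad k 1) : a ∈ Submodule.span k (Set.range (lin3 k)) := by
  rcases mem_Ad.1 ha with rfl | ha
  · exact zero_mem _
  rw [a.as_sum]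
  refine Submodule.sum_mem _ fun s hs => ?_
  have h1 : (s.sum fun _ e => e) ≤ 1 := by
    have := le_totalDegree hs
    exact this.trans (by exact_mod_cast ha)
  have h0 : (monomial s (coeff s a) : A k) = coeff s a • monomial s 1 := by
    rw [smul_monomial, smul_eq_mul, mul_one]
  rw [h0]
  refine Submodule.smul_mem _ _ (Submodule.subset_span ?_)
  have h2 : s 0 + s 1 ≤ 1 := by
    have e : (s.sum fun _ e => e) = s 0 + s 1 := by
      rw [Finsupp.sum_fintype _ _ (fun _ => rfl), Fin.sum_univ_two]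
    omega
  have h3 : (s 0 = 0 ∧ s 1 = 0) ∨ (s 0 = 1 ∧ s 1 = 0) ∨ (s 0 = 0 ∧ s 1 = 1) := by omega
  rcases h3 with h | h | h
  · refine ⟨0, ?_⟩
    have : s = 0 := by
      ext i; fin_cases i
      · exact h.1
      · exact h.2
    subst this
    rfl
  · refine ⟨1, ?_⟩
    have : s = Finsupp.single 0 1 := by
      ext i; fin_cases i
      · simpa only [Fin.zero_eta, Fin.isValue, Finsupp.single_eq_same] using h.1
      · simpa only [Fin.mk_one, Fin.isValue, ne_eq, one_ne_zero, not_false_eq_true, Finsupp.single_eq_of_ne] using h.2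
    subst this
    rfl
  · refine ⟨2, ?_⟩
    have : s = Finsupp.single 1 1 := by
      ext i; fin_cases i
      · simpa only [Fin.zero_eta, Fin.isValue, ne_eq, zero_ne_one, not_false_eq_true, Finsupp.single_eq_of_ne] using     h.1
      · simpa only [Fin.mk_one, Fin.isValue, Finsupp.single_eq_same] using h.2
    subst this
    rfl

/-- the homogeneous coordinate ring acting -/
noncomputable def toPoly (k : Type) [Field k] : MvPolynomial (Fin 3) k →ₐ[k] Polynomial (A k) :=
  MvPolynomial.aeval fun i => Polynomial.monomial 1 (lin3 k i)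

/-- sequences with finite support, as a module over `k[x₁,x₂,x₃]` -/
def W3 (k V : Type) [Field k] [AddCommGroup V] [Module (A k) V] : Type :=
  PolynomialModule (A k) V

noncomputable instance : AddCommGroup (W3 k V) := inferInstanceAs (AddCommGroup (PolynomialModule (A k) V))

noncomputable instance : Module (MvPolynomial (Fin 3) k) (W3 k V) :=
  Module.compHom (PolynomialModule (A k) V) (toPoly k).toRingHom

/-- coefficient -/
noncomputable def W3.co (f : W3 k V) (j : ℕ) : V := PolynomialModule.coeff (show PolynomialModule (A k) V from f) j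

/-- monomial -/
noncomputable def W3.mono (j : ℕ) (v : V) : W3 k V := PolynomialModule.single (A k) j v

theorem W3.co_add (f g : W3 k V) (j : ℕ) : (f + g).co j = f.co j + g.co j := rfl

theorem W3.co_zero (j : ℕ) : (0 : W3 k V).co j = 0 := rfl

theorem W3.co_C (c : k) (f : W3 k V) (j : ℕ) :
    ((C c : MvPolynomial (Fin 3) k) • f).co j = c • f.co j := by
  have e : (C c : MvPolynomial (Fin 3) k) • f =
      (Polynomial.monomial 0 (C c : A k) • (show PolynomialModule (A k) V from f) :
        PolynomialModule (A k) V) := by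
    change (toPoly k (C c)) • (show PolynomialModule (A k) V from f) = _
    rw [toPoly, MvPolynomial.aeval_C]
    rfl
  rw [e]
  change PolynomialModule.coeff _ j = _
  rw [PolynomialModule.monomial_smul_apply]
  simp only [Nat.zero_le, if_true, Nat.sub_zero]
  change (C c : A k) • f.co j = _
  rw [← algebraMap_eq, algebraMap_smul]

theorem W3.co_X (i : Fin 3) (f : W3 k V) (j : ℕ) :
    ((X i : MvPolynomial (Fin 3) k) • f).co j = if 1 ≤ j then lin3 k i • f.co (j - 1) else 0 := by
  have e : (X i : MvPolynomial (Fin 3) k) • f =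
      (Polynomial.monomial 1 (lin3 k i) • (show PolynomialModule (A k) V from f) :
        PolynomialModule (A k) V) := by
    change (toPoly k (X i)) • (show PolynomialModule (A k) V from f) = _
    rw [toPoly, MvPolynomial.aeval_X]
  rw [e]
  change PolynomialModule.coeff _ j = _
  rw [PolynomialModule.monomial_smul_apply]
  rfl

theorem W3.co_mono (j : ℕ) (v : V) (i : ℕ) : (W3.mono (k := k) j v).co i = if j = i then v else 0 := by
  change PolynomialModule.coeff (PolynomialModule.single (A k) j v) i = _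
  rw [PolynomialModule.coeff_single, Finsupp.single_apply]

theorem W3.ext {f g : W3 k V} (h : ∀ j, f.co j = g.co j) : f = g := by
  apply PolynomialModule.ext
  ext j
  exact h j

theorem W3.X_smul_mono (i : Fin 3) (j : ℕ) (v : V) :
    (X i : MvPolynomial (Fin 3) k) • (W3.mono j v : W3 k V) =
      W3.mono (j + 1) (lin3 k i • v) := by
  apply W3.ext
  intro l
  rw [W3.co_X, W3.co_mono, W3.co_mono]
  rcases l with _ | l
  · simp only [nonpos_iff_eq_zero, one_ne_zero, ↓reduceIte, Nat.add_eq_zero_iff, and_false]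
  · simp only [le_add_iff_nonneg_left, zero_le, ↓reduceIte, add_tsub_cancel_right, smul_ite, smul_zero, Nat.add_right_cancel_iff]

theorem W3.C_smul_mono (c : k) (j : ℕ) (v : V) :
    (C c : MvPolynomial (Fin 3) k) • (W3.mono j v : W3 k V) = W3.mono j (c • v) := by
  apply W3.ext
  intro l
  rw [W3.co_C, W3.co_mono, W3.co_mono]
  split_ifs <;> simp

theorem W3.mono_add (j : ℕ) (v w : V) :
    (W3.mono j (v + w) : W3 k V) = W3.mono j v + W3.mono j w := by
  apply W3.ext
  intro l
  rw [W3.co_add, W3.co_mono, W3.co_mono, W3.co_mono]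
  split_ifs <;> simp

theorem W3.mono_zero (j : ℕ) : (W3.mono j (0 : V) : W3 k V) = 0 := by
  apply W3.ext
  intro l
  rw [W3.co_zero, W3.co_mono]
  split_ifs <;> simp

/-- submodule defined by a sequence -/
noncomputable def seqSub (F : ℕ → Submodule k V)
    (hF : ∀ j i, ∀ v ∈ F j, lin3 k i • v ∈ F (j + 1)) : Submodule (MvPolynomial (Fin 3) k) (W3 k V) where
  carrier := {f | ∀ j, f.co j ∈ F j}
  add_mem' hf hg j := by rw [W3.co_add]; exact add_mem (hf j) (hg j)
  zero_mem' j := by rw [W3.co_zero]; exact zero_mem _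
  smul_mem' b := by
    induction b using MvPolynomial.induction_on with
    | C c =>
      intro f hf j
      rw [W3.co_C]; exact Submodule.smul_mem _ _ (hf j)
    | add p q hp hq =>
      intro f hf j
      rw [add_smul, W3.co_add]
      exact add_mem (hp hf j) (hq hf j)
    | mul_X p i hp =>
      intro f hf
      rw [mul_smul]
      apply hp
      intro j
      rw [W3.co_X]
      split_ifs with hj
      · obtain ⟨l, rfl⟩ : ∃ l, j = l + 1 := ⟨j - 1, by omega⟩
        exact hF l i _ (hf l)
      · exact zero_mem _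

theorem mem_seqSub {F : ℕ → Submodule k V} {hF} {f : W3 k V} :
    f ∈ seqSub F hF ↔ ∀ j, f.co j ∈ F j := Iff.rfl

theorem mono_mem_of_span {P : Submodule (MvPolynomial (Fin 3) k) (W3 k V)} {j : ℕ} {s : Set V}
    (hs : ∀ v ∈ s, (W3.mono j v : W3 k V) ∈ P) {v : V} (hv : v ∈ Submodule.span k s) :
    (W3.mono j v : W3 k V) ∈ P := by
  induction hv using Submodule.span_induction with
  | mem x hx => exact hs x hx
  | zero => rw [W3.mono_zero]; exact zero_mem _
  | add x y _ _ hx hy => rw [W3.mono_add]; exact add_mem hx hy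
  | smul c x _ hx => rw [← W3.C_smul_mono]; exact Submodule.smul_mem _ _ hx

theorem mono_smul_mem {P : Submodule (MvPolynomial (Fin 3) k) (W3 k V)} {j : ℕ} {v : V}
    (hv : (W3.mono j v : W3 k V) ∈ P) {a : A k} (ha : a ∈ Ad k 1) :
    (W3.mono (j + 1) (a • v) : W3 k V) ∈ P := by
  have h := mem_span_lin3 ha
  have h2 : a • v ∈ Submodule.span k (Set.range fun i => lin3 k i • v) := by
    have h3 := Submodule.mem_map_of_mem
      (f := (((LinearMap.toSpanSingleton (A k) V v).restrictScalars k : A k →ₗ[k] V))) h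
    rw [Submodule.map_span, ← Set.range_comp] at h3
    exact h3
  refine mono_mem_of_span ?_ h2
  rintro _ ⟨i, rfl⟩
  change (W3.mono (j + 1) (lin3 k i • v) : W3 k V) ∈ P
  rw [← W3.X_smul_mono]
  exact Submodule.smul_mem _ _ hv

theorem seq_noeth {F : ℕ → Submodule k V}
    (hF : ∀ j i, ∀ v ∈ F j, lin3 k i • v ∈ F (j + 1)) (hfin : ∀ j, Module.Finite k (F j)) (D : ℕ)
    (hfg : ∀ j ≥ D, F (j + 1) ≤ Submodule.span k {w | ∃ a ∈ Ad k 1, ∃ v ∈ F j, w = a • v}) :
    IsNoetherian (MvPolynomial (Fin 3) k) (seqSub F hF) := by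
  refine isNoetherian_of_fg_of_noetherian _ ?_
  have h1 : ∀ j, ∃ s : Set V, s.Finite ∧ Submodule.span k s = F j := fun j =>
    Submodule.fg_def.1 (Module.Finite.iff_fg.1 (hfin j))
  choose s hs1 hs2 using h1
  refine Submodule.fg_def.2 ⟨⋃ j ∈ Finset.range (D + 1), (W3.mono j : V → W3 k V) '' s j,
    Set.Finite.biUnion (Finset.finite_toSet _) fun j _ => (hs1 j).image _, ?_⟩
  apply le_antisymm
  · rw [Submodule.span_le]
    intro f hf
    simp only [Set.mem_iUnion] at hf
    obtain ⟨j, hj, v, hv, rfl⟩ := hf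
    intro l
    rw [W3.co_mono]
    split_ifs with h
    · subst h
      rw [← hs2]; exact Submodule.subset_span hv
    · exact zero_mem _
  · set P := Submodule.span (MvPolynomial (Fin 3) k)
      (⋃ j ∈ Finset.range (D + 1), (W3.mono j : V → W3 k V) '' s j) with hP
    have hmono : ∀ j, ∀ v ∈ F j, (W3.mono j v : W3 k V) ∈ P := by
      intro j
      induction j with
      | zero =>
        intro v hv
        rw [← hs2] at hv
        refine mono_mem_of_span (fun v hv => Submodule.subset_span ?_) hv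
        simp only [Set.mem_iUnion]
        exact ⟨0, by simp only [Finset.mem_range, lt_add_iff_pos_left, Order.lt_add_one_iff, zero_le], v, hv, rfl⟩
      | succ j ih =>
        intro v hv
        by_cases hj : j + 1 ≤ D
        · rw [← hs2] at hv
          refine mono_mem_of_span (fun v hv => Submodule.subset_span ?_) hv
          simp only [Set.mem_iUnion]
          exact ⟨j + 1, by simp only [Finset.mem_range, Order.lt_add_one_iff, Order.add_one_le_iff]; omega, v, hv, rfl⟩
        · refine mono_mem_of_span ?_ (hfg j (by omega) hv)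
          rintro _ ⟨a, ha, w, hw, rfl⟩
          exact mono_smul_mem (ih w hw) ha
    intro f hf
    have hdec : ∀ g : PolynomialModule (A k) V, (∀ j, g.coeff j ∈ F j) → (g : W3 k V) ∈ P := by
      intro g hg
      have e : g = ∑ j ∈ g.coeff.support, PolynomialModule.single (A k) j (g.coeff j) := by
        apply PolynomialModule.coeff_injective
        rw [PolynomialModule.coeff_sum]
        simp only [PolynomialModule.coeff_single]
        exact (Finsupp.sum_single g.coeff).symm
      rw [e]
      exact Submodule.sum_mem P (fun j _ => hmono j _ (hg j))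
    exact hdec f hf

/-- the main finiteness statement -/
theorem seq_of_le {F S : ℕ → Submodule k V}
    (hF : ∀ j i, ∀ v ∈ F j, lin3 k i • v ∈ F (j + 1)) (hfin : ∀ j, Module.Finite k (F j)) (D : ℕ)
    (hfg : ∀ j ≥ D, F (j + 1) ≤ Submodule.span k {w | ∃ a ∈ Ad k 1, ∃ v ∈ F j, w = a • v})
    (hSF : ∀ j, S j ≤ F j) (hS : ∀ j i, ∀ v ∈ S j, lin3 k i • v ∈ S (j + 1)) :
    ∃ D', ∀ j ≥ D', S (j + 1) ≤ Submodule.span k {w | ∃ a ∈ Ad k 1, ∃ v ∈ S j, w = a • v} := by
  have hN := seq_noeth hF hfin D hfg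
  set E := seqSub F hF with hE
  let P : ℕ → Submodule (MvPolynomial (Fin 3) k) (W3 k V) := fun n =>
    Submodule.span _ {f | ∃ j ≤ n, ∃ v ∈ S j, f = W3.mono j v}
  have hPmono : Monotone fun n => (P n).comap E.subtype := by
    intro n m hnm
    refine Submodule.comap_mono (Submodule.span_mono ?_)
    rintro f ⟨j, hj, v, hv, rfl⟩
    exact ⟨j, hj.trans hnm, v, hv, rfl⟩
  obtain ⟨D', hD'⟩ := monotone_stabilizes_iff_noetherian.2 hN ⟨fun n => (P n).comap E.subtype, hPmono⟩
  refine ⟨D', fun n hn v hv => ?_⟩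
  have h1 : (W3.mono (n + 1) v : W3 k V) ∈ P (n + 1) :=
    Submodule.subset_span ⟨n + 1, le_rfl, v, hv, rfl⟩
  have h2 : (W3.mono (n + 1) v : W3 k V) ∈ E := by
    intro l
    rw [W3.co_mono]
    split_ifs with h
    · subst h; exact hSF _ hv
    · exact zero_mem _
  have h3 : (⟨_, h2⟩ : E) ∈ (P D').comap E.subtype := by
    have := hD' (n + 1) (by omega)
    change (P D').comap E.subtype = (P (n + 1)).comap E.subtype at this
    rw [this]; exact h1
  have h4 : (W3.mono (n + 1) v : W3 k V) ∈ P D' := h3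
  let G : ℕ → Submodule k V := fun j => if j ≤ n then S j else if j = n + 1 then
    Submodule.span k {w | ∃ a ∈ Ad k 1, ∃ v ∈ S n, w = a • v} else ⊤
  have hG : ∀ j i, ∀ v ∈ G j, lin3 k i • v ∈ G (j + 1) := by
    intro j i v hv
    by_cases h1 : j + 1 ≤ n
    · simp only [G, h1, show j ≤ n by omega, if_true] at hv ⊢
      exact hS j i v hv
    · by_cases h2 : j = n
      · subst h2
        simp only [G, le_refl, if_true, show ¬ (j + 1 ≤ j) by omega, if_false] at hv ⊢
        exact Submodule.subset_span ⟨_, lin3_mem i, v, hv, rfl⟩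
      · simp only [G, show ¬ (j + 1 ≤ n) by omega, show ¬ (j + 1 = n + 1) by omega, if_false]
        trivial
  have h5 : P D' ≤ seqSub G hG := by
    refine Submodule.span_le.2 ?_
    rintro _ ⟨j, hj, w, hw, rfl⟩
    intro l
    rw [W3.co_mono]
    split_ifs with h
    · subst h
      simp only [G, show j ≤ n by omega, if_true]
      exact hw
    · exact zero_mem _
  have h6 := h5 h4 (n + 1)
  rw [W3.co_mono] at h6
  simpa [G] using h6

end Vale.Agent.P190.D
end
end
namespace AFast261860x757a
@[reducible] noncomputable def a0 {x1 : Type} [x2 : Field x1] {x3 : Type} [x4 : AddCommGroup x3] [x5 : Module (Vale.Agent.P190.D.A x1) x3] : SMul (MvPolynomial (Fin 3) x1) (Vale.Agent.P190.D.W3 x1 x3) := inferInstance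
end AFast261860x757a
attribute [local instance] AFast261860x757a.a0

section

section

/-! Section 1, file B2: basic operations on lattices. -/

set_option autoImplicit false
set_option linter.unusedSectionVars false

open MvPolynomial Filter

namespace Vale.Agent.P190.D

variable {k : Type} [Field k] {V : Type} [AddCommGroup V] [Module k V] [Module (A k) V]
  [IsScalarTower k (A k) V]
  {V' : Type} [AddCommGroup V'] [Module k V'] [Module (A k) V'] [IsScalarTower k (A k) V']

theorem IsBLat.mono' {E : ℤ → Submodule k V} (hE : IsBLat E) {i j : ℤ} (h : i ≤ j) :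
    E i ≤ E j := by
  intro v hv
  have h1 : (1 : A k) ∈ Ad k (j - i) := mem_Ad.2 (Or.inr (by simpa only [totalDegree_one, CharP.cast_eq_zero, Int.sub_nonneg] using h))
  have := hE.smul_mem h1 hv
  rwa [one_smul, add_sub_cancel] at this

/-- 1.1 -/
theorem IsBLat.of_le {E S : ℤ → Submodule k V} (hE : IsBLat E) (hle : ∀ n, S n ≤ E n)
    (hs : ∀ {i n : ℤ} {a : A k} {v : V}, a ∈ Ad k i → v ∈ S n → a • v ∈ S (n + i)) :
    IsBLat S := by
  obtain ⟨n₀, hn₀⟩ := hE.bdd
  obtain ⟨n₁, hn₁⟩ := hE.fg
  have hfin := hE.fin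
  have hE1 : ∀ (j : ℕ) (i : Fin 3), ∀ v ∈ E (n₀ + j), lin3 k i • v ∈ E (n₀ + (j + 1 : ℕ)) := by
    intro j i v hv
    have := hE.smul_mem (lin3_mem i) hv
    rwa [add_assoc] at this
  have hS1 : ∀ (j : ℕ) (i : Fin 3), ∀ v ∈ S (n₀ + j), lin3 k i • v ∈ S (n₀ + (j + 1 : ℕ)) := by
    intro j i v hv
    have := hs (lin3_mem i) hv
    rwa [add_assoc] at this
  obtain ⟨D, hD⟩ := seq_of_le (F := fun j : ℕ => E (n₀ + j)) (S := fun j : ℕ => S (n₀ + j)) hE1
    (fun j => hfin _) (n₁ - n₀).toNat (by
      intro j hj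
      have := hn₁ (n₀ + j) (by omega)
      rwa [add_assoc] at this) (fun j => hle _) hS1
  refine ⟨hs, fun n => ?_, ⟨n₀, fun n hn => ?_⟩, ⟨n₀ + D, fun n hn => ?_⟩⟩
  · have := hfin n
    exact Submodule.finiteDimensional_of_le (hle n)
  · exact le_bot_iff.1 ((hle n).trans (hn₀ n hn).le)
  · obtain ⟨j, rfl⟩ : ∃ j : ℕ, n = n₀ + j := ⟨(n - n₀).toNat, by omega⟩
    have := hD j (by omega)
    rw [add_assoc]
    exact this

theorem HasHilb.unique {E : ℤ → Submodule k V} {N e g N' e' g' : ℤ} (h : HasHilb E N e g)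
    (h' : HasHilb E N' e' g') : N = N' ∧ e = e' ∧ g = g' := by
  obtain ⟨m, hm⟩ := eventually_atTop.1 (h.and h')
  have h0 := hm m le_rfl
  have h1 := hm (m + 1) (by omega)
  have h2 := hm (m + 2) (by omega)
  have e0 := h0.1.symm.trans h0.2
  have e1 := h1.1.symm.trans h1.2
  have e2 := h2.1.symm.trans h2.2
  simp only [hp] at e0 e1 e2
  push_cast at e0 e1 e2
  have hN : (N : ℚ) = N' := by linear_combination e0 - 2 * e1 + e2
  rw [hN] at e0 e1
  have he : (e : ℚ) = e' := by linear_combination e1 - e0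
  rw [he] at e0
  have hg : (g : ℚ) = g' := by linear_combination e0
  exact ⟨by exact_mod_cast hN, by exact_mod_cast he, by exact_mod_cast hg⟩

theorem hp_lt_zero_of_neg {N e g : ℤ} (hN : N < 0) (m : ℤ) : ∃ n ≥ m, hp N e g n < 0 := by
  refine ⟨max m 0 + 2 * |e| + 2 * |g| + 1, by have := abs_nonneg e; have := abs_nonneg g; omega, ?_⟩
  set t : ℤ := max m 0 + 2 * |e| + 2 * |g| + 1 + 1 with ht
  have h0 : (0 : ℤ) ≤ max m 0 := le_max_right _ _
  have ha := abs_nonneg e
  have hb := abs_nonneg g
  have ht1 : 2 * |e| + 2 * |g| + 2 ≤ t := by omega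
  have hle1 : e ≤ |e| := le_abs_self e
  have hle2 : g ≤ |g| := le_abs_self g
  have key : N * (t * (t + 1)) + 2 * e * t + 2 * g < 0 := by
    have p0 : 0 ≤ t := by omega
    have h1 : N * (t * (t + 1)) ≤ (-1) * (t * (t + 1)) :=
      mul_le_mul_of_nonneg_right (by omega) (mul_nonneg p0 (by omega))
    have h2 : e * t ≤ |e| * t := mul_le_mul_of_nonneg_right hle1 p0
    have h3 : (2 * |e| + 2 * |g| + 2) * t ≤ t * t := mul_le_mul_of_nonneg_right ht1 p0
    have h4 : 0 ≤ |g| * t := mul_nonneg hb p0
    linarith only [h1, h2, h3, h4, hle2, ht1, ha, hb]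
  have key' : ((N * (t * (t + 1)) + 2 * e * t + 2 * g : ℤ) : ℚ) < 0 := by exact_mod_cast key
  have e1 : hp N e g ((max m 0 + 2 * |e| + 2 * |g| + 1 : ℤ) : ℚ) =
      ((N * (t * (t + 1)) + 2 * e * t + 2 * g : ℤ) : ℚ) / 2 := by
    rw [ht]; simp only [hp]; push_cast; ring
  rw [e1]
  linarith only [key']

theorem HasHilb.nonneg {E : ℤ → Submodule k V} {N e g : ℤ} (h : HasHilb E N e g) : 0 ≤ N := by
  obtain ⟨m, hm⟩ := eventually_atTop.1 h
  by_contra hN
  obtain ⟨n, hn, hlt⟩ := hp_lt_zero_of_neg (N := N) (e := e) (g := g) (by omega) m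
  rw [← hm n hn] at hlt
  exact absurd hlt (by simp only [not_lt, Nat.cast_nonneg])

/-- images under `A`-linear maps -/
noncomputable def mapLat (f : V →ₗ[A k] V') (E : ℤ → Submodule k V) : ℤ → Submodule k V' :=
  fun n => (E n).map (f.restrictScalars k)

theorem IsBLat.map {E : ℤ → Submodule k V} (hE : IsBLat E) (f : V →ₗ[A k] V') :
    IsBLat (mapLat f E) := by
  obtain ⟨n₀, hn₀⟩ := hE.bdd
  obtain ⟨n₁, hn₁⟩ := hE.fg
  refine ⟨?_, fun n => ?_, ⟨n₀, fun n hn => ?_⟩, ⟨n₁, fun n hn => ?_⟩⟩
  · rintro i n a _ ha ⟨v, hv, rfl⟩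
    exact ⟨a • v, hE.smul_mem ha hv, by simp only [LinearMap.coe_restrictScalars, map_smul]⟩
  · have := hE.fin n
    unfold mapLat
    infer_instance
  · simp only [mapLat, hn₀ n hn, Submodule.map_bot]
  · rintro _ ⟨v, hv, rfl⟩
    have h1 := Submodule.mem_map_of_mem (f := (f.restrictScalars k)) (hn₁ n hn hv)
    rw [Submodule.map_span] at h1
    refine Submodule.span_mono ?_ h1
    rintro _ ⟨_, ⟨a, ha, w, hw, rfl⟩, rfl⟩
    exact ⟨a, ha, f w, ⟨w, hw, rfl⟩, by simp only [LinearMap.coe_restrictScalars, map_smul]⟩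

theorem HasHilb.map_injective {E : ℤ → Submodule k V} {N e g : ℤ} (h : HasHilb E N e g)
    (f : V →ₗ[A k] V') (hf : Function.Injective f) : HasHilb (mapLat f E) N e g := by
  filter_upwards [h] with n hn
  rw [← hn]
  congr 1
  exact (LinearEquiv.finrank_eq
    (Submodule.equivMapOfInjective (f.restrictScalars k) hf (E n))).symm

/-- intersection with an `A`-submodule -/
noncomputable def interLat (E : ℤ → Submodule k V) (U : Submodule (A k) V) : ℤ → Submodule k V :=
  fun n => E n ⊓ U.restrictScalars k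

theorem IsBLat.inter {E : ℤ → Submodule k V} (hE : IsBLat E) (U : Submodule (A k) V) :
    IsBLat (interLat E U) := by
  refine hE.of_le (fun n => inf_le_left) ?_
  rintro i n a v ha ⟨h1, h2⟩
  exact ⟨hE.smul_mem ha h1, U.smul_mem a h2⟩

/-- additivity in every degree -/
theorem finrank_inter_add_map {E : ℤ → Submodule k V} (hE : IsBLat E) (f : V →ₗ[A k] V')
    (n : ℤ) : Module.finrank k (interLat E (LinearMap.ker f) n) +
      Module.finrank k (mapLat f E n) = Module.finrank k (E n) := by
  have := hE.fin n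
  have h1 := LinearMap.finrank_range_add_finrank_ker ((f.restrictScalars k).domRestrict (E n))
  have h2 : LinearMap.range ((f.restrictScalars k).domRestrict (E n)) = mapLat f E n := by
    rw [LinearMap.range_domRestrict]; rfl
  have h3 : Module.finrank k (LinearMap.ker ((f.restrictScalars k).domRestrict (E n))) =
      Module.finrank k (interLat E (LinearMap.ker f) n) := by
    rw [LinearMap.ker_domRestrict]
    have e : interLat E (LinearMap.ker f) n = E n ⊓ LinearMap.ker (f.restrictScalars k) := by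
      ext v; rfl
    rw [e, ← Submodule.map_comap_subtype]
    exact (LinearEquiv.finrank_eq (Submodule.equivMapOfInjective _ (Submodule.subtype_injective _) _))
  rw [h2, h3] at h1
  omega

theorem HasHilb.add {E : ℤ → Submodule k V} (hE : IsBLat E) (f : V →ₗ[A k] V')
    {N e g N₁ e₁ g₁ N₂ e₂ g₂ : ℤ} (h : HasHilb E N e g)
    (h₁ : HasHilb (interLat E (LinearMap.ker f)) N₁ e₁ g₁) (h₂ : HasHilb (mapLat f E) N₂ e₂ g₂) :
    N = N₁ + N₂ ∧ e = e₁ + e₂ ∧ g = g₁ + g₂ := by
  refine h.unique ?_
  filter_upwards [h₁, h₂] with n hn1 hn2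
  rw [← finrank_inter_add_map hE f n]
  push_cast
  rw [hn1, hn2]
  simp only [hp]; push_cast; ring

/-- monotonicity -/
theorem HasHilb.mono {E E' : ℤ → Submodule k V} (hE' : IsBLat E') (hle : ∀ n, E n ≤ E' n)
    {N e g e' g' : ℤ} (h : HasHilb E N e g) (h' : HasHilb E' N e' g') :
    e ≤ e' ∧ (e = e' → g ≤ g') := by
  obtain ⟨m, hm⟩ := eventually_atTop.1 (h.and h')
  have key : ∀ n ≥ m, e * (n + 1) + g ≤ e' * (n + 1) + g' := by
    intro n hn
    obtain ⟨h1, h2⟩ := hm n hn
    have := hE'.fin n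
    have h3 : (Module.finrank k (E n) : ℚ) ≤ Module.finrank k (E' n) := by
      exact_mod_cast Submodule.finrank_mono (hle n)
    rw [h1, h2] at h3
    simp only [hp] at h3
    have h4 : ((e * (n + 1) + g : ℤ) : ℚ) ≤ ((e' * (n + 1) + g' : ℤ) : ℚ) := by
      push_cast; linarith only [h3]
    exact_mod_cast h4
  constructor
  · by_contra hlt
    have h1 := key (max m 0 + |g| + |g'|) (by have := abs_nonneg g; have := abs_nonneg g'; omega)
    have ha := abs_nonneg g
    have hb := abs_nonneg g'
    have hc : (0 : ℤ) ≤ max m 0 := le_max_right _ _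
    have hd := neg_abs_le g
    have hf := le_abs_self g'
    nlinarith only [hlt, h1, hc, hd, hf, ha, hb]
  · intro he
    have := key m le_rfl
    rw [he] at this
    omega

end Vale.Agent.P190.D
end
end

section

section

set_option autoImplicit false
set_option linter.unusedSectionVars false

open MvPolynomial Filter

namespace Vale.Agent.P190.D

/-- graded modules over a polynomial ring in `d` variables, as sequences -/
structure Gr (k : Type) [Field k] (d : ℕ) where
  M : ℕ → Type
  [acg : ∀ n, AddCommGroup (M n)]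
  [mod : ∀ n, Module k (M n)]
  x : Fin d → ∀ n, M n →ₗ[k] M (n + 1)
  comm : ∀ i j n v, x i (n + 1) (x j n v) = x j (n + 1) (x i n v)

attribute [instance] Gr.acg Gr.mod

namespace Gr

variable {k : Type} [Field k]

/-- graded submodules are generated in bounded degrees -/
def Noeth {d : ℕ} (G : Gr k d) : Prop :=
  ∀ S : ∀ n, Submodule k (G.M n), (∀ i n, ∀ v ∈ S n, G.x i n v ∈ S (n + 1)) →
    ∃ n₁, ∀ n ≥ n₁, S (n + 1) ≤ ⨆ i, (S n).map (G.x i n)

/-- the kernel of the last variable -/
def K {d : ℕ} (G : Gr k (d + 1)) : Gr k d where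
  M n := ↥(LinearMap.ker (G.x (Fin.last d) n))
  x i n := LinearMap.codRestrict _ ((G.x i.castSucc n).comp (Submodule.subtype _)) (by
    rintro ⟨v, hv⟩
    rw [LinearMap.mem_ker] at hv ⊢
    simp only [LinearMap.coe_comp, Submodule.coe_subtype, Function.comp_apply]
    rw [G.comm, hv, map_zero])
  comm i j n v := by
    ext
    exact G.comm _ _ _ _

/-- the cokernel of the last variable (shifted by one) -/
def Q {d : ℕ} (G : Gr k (d + 1)) : Gr k d where
  M n := G.M (n + 1) ⧸ LinearMap.range (G.x (Fin.last d) n)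
  x i n := Submodule.mapQ _ _ (G.x i.castSucc (n + 1)) (by
    rintro _ ⟨v, rfl⟩
    exact ⟨G.x i.castSucc n v, (G.comm _ _ _ _)⟩)
  comm i j n v := by
    obtain ⟨v, rfl⟩ := Submodule.mkQ_surjective _ v
    simp only [Submodule.mkQ_apply, Submodule.mapQ_apply]
    rw [G.comm]

/-- inclusion of the kernel -/
def inc {d : ℕ} (G : Gr k (d + 1)) (n : ℕ) : G.K.M n →ₗ[k] G.M n :=
  Submodule.subtype (LinearMap.ker (G.x (Fin.last d) n))

theorem inc_injective {d : ℕ} (G : Gr k (d + 1)) (n : ℕ) : Function.Injective (G.inc n) :=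
  Subtype.val_injective

theorem x_inc_last {d : ℕ} (G : Gr k (d + 1)) (n : ℕ) (v : G.K.M n) :
    G.x (Fin.last d) n (G.inc n v) = 0 := v.2

theorem x_inc {d : ℕ} (G : Gr k (d + 1)) (n : ℕ) (i : Fin d) (v : G.K.M n) :
    G.x i.castSucc n (G.inc n v) = G.inc (n + 1) (G.K.x i n v) := rfl

/-- projection to the cokernel -/
def pr {d : ℕ} (G : Gr k (d + 1)) (n : ℕ) : G.M (n + 1) →ₗ[k] G.Q.M n :=
  Submodule.mkQ (LinearMap.range (G.x (Fin.last d) n))

theorem pr_surjective {d : ℕ} (G : Gr k (d + 1)) (n : ℕ) : Function.Surjective (G.pr n) :=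
  Submodule.mkQ_surjective _

theorem pr_x_last {d : ℕ} (G : Gr k (d + 1)) (n : ℕ) (v : G.M n) :
    G.pr n (G.x (Fin.last d) n v) = 0 :=
  (Submodule.Quotient.mk_eq_zero _).mpr ⟨v, rfl⟩

theorem pr_x {d : ℕ} (G : Gr k (d + 1)) (n : ℕ) (i : Fin d) (v : G.M (n + 1)) :
    G.pr (n + 1) (G.x i.castSucc (n + 1) v) = G.Q.x i n (G.pr n v) := rfl

theorem K_noeth {d : ℕ} (G : Gr k (d + 1)) (hG : G.Noeth) : G.K.Noeth := by
  intro S hS
  obtain ⟨n₁, h₁⟩ := hG (fun n => (S n).map (G.inc n)) (by
    rintro i n _ ⟨v, hv, rfl⟩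
    refine Fin.lastCases ?_ (fun j => ?_) i
    · rw [x_inc_last]
      exact zero_mem _
    · rw [x_inc]
      exact ⟨G.K.x j n v, hS j n v hv, rfl⟩)
  refine ⟨n₁, fun n hn v hv => ?_⟩
  have h2 := h₁ n hn ⟨v, hv, rfl⟩
  have h3 : (⨆ i, ((S n).map (G.inc n)).map (G.x i n)) ≤
      (⨆ i, (S n).map (G.K.x i n)).map (G.inc (n + 1)) := by
    refine iSup_le fun i => ?_
    refine Fin.lastCases ?_ (fun j => ?_) i
    · rintro _ ⟨_, ⟨w, hw, rfl⟩, rfl⟩
      rw [x_inc_last]
      exact zero_mem _
    · rintro _ ⟨_, ⟨w, hw, rfl⟩, rfl⟩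
      rw [x_inc]
      exact ⟨G.K.x j n w, Submodule.mem_iSup_of_mem j ⟨w, hw, rfl⟩, rfl⟩
  obtain ⟨w, hw, hwv⟩ := h3 h2
  have : w = v := G.inc_injective _ hwv
  rwa [this] at hw

theorem Q_noeth {d : ℕ} (G : Gr k (d + 1)) (hG : G.Noeth) : G.Q.Noeth := by
  intro S hS
  let S' : ∀ n, Submodule k (G.M n) := fun n => match n with
    | 0 => ⊥
    | n + 1 => (S n).comap (G.pr n)
  have hS' : ∀ n v, v ∈ S' (n + 1) ↔ G.pr n v ∈ S n := fun n v => Iff.rfl
  obtain ⟨n₁, h₁⟩ := hG S' (by
    intro i n v hv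
    cases n with
    | zero =>
      have : v = 0 := hv
      rw [this, map_zero]
      exact zero_mem _
    | succ n =>
      rw [hS'] at hv ⊢
      refine Fin.lastCases ?_ (fun j => ?_) i
      · rw [pr_x_last]
        exact zero_mem _
      · rw [pr_x]
        exact hS j n _ hv)
  refine ⟨n₁, fun n hn v hv => ?_⟩
  obtain ⟨v, rfl⟩ := G.pr_surjective _ v
  have h2 := h₁ (n + 1) (by omega) ((hS' _ v).mpr hv)
  have h3 : (⨆ i, (S' (n + 1)).map (G.x i (n + 1))) ≤
      (⨆ i, (S n).map (G.Q.x i n)).comap (G.pr (n + 1)) := by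
    refine iSup_le fun i => ?_
    refine Fin.lastCases ?_ (fun j => ?_) i
    · rintro _ ⟨w, hw, rfl⟩
      rw [Submodule.mem_comap, pr_x_last]
      exact zero_mem _
    · rintro _ ⟨w, hw, rfl⟩
      rw [Submodule.mem_comap, pr_x]
      exact Submodule.mem_iSup_of_mem j ⟨_, (hS' _ _).mp hw, rfl⟩
  exact h3 h2

/-- `Δ^d f = 0` eventually -/
def EvZ : ℕ → (ℕ → ℤ) → Prop
  | 0, f => ∃ n₁, ∀ n ≥ n₁, f n = 0
  | d + 1, f => EvZ d (fun n => f (n + 1) - f n)

theorem EvZ.sub {d : ℕ} : ∀ {f g : ℕ → ℤ}, EvZ d f → EvZ d g → EvZ d (fun n => f n - g n) := by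
  induction d with
  | zero =>
    rintro f g ⟨a, ha⟩ ⟨b, hb⟩
    refine ⟨max a b, fun n hn => ?_⟩
    change f n - g n = 0
    rw [ha n (by omega), hb n (by omega), sub_zero]
  | succ d ih =>
    intro f g hf hg
    have := ih (f := fun n => f (n + 1) - f n) (g := fun n => g (n + 1) - g n) hf hg
    change EvZ d _
    convert this using 2
    ring

theorem hilbert_serre : ∀ {d : ℕ} (G : Gr k d), (∀ n, Module.Finite k (G.M n)) → G.Noeth →
    EvZ d (fun n => (Module.finrank k (G.M n) : ℤ)) := by
  intro d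
  induction d with
  | zero =>
    intro G hfin hG
    obtain ⟨n₁, h₁⟩ := hG (fun n => ⊤) (fun i => i.elim0)
    refine ⟨n₁ + 1, fun n hn => ?_⟩
    obtain ⟨m, rfl⟩ : ∃ m, n = m + 1 := ⟨n - 1, by omega⟩
    have h2 := h₁ m (by omega)
    simp only [iSup_of_empty, top_le_iff] at h2
    have h3 : Subsingleton (G.M (m + 1)) := by
      rw [← Submodule.subsingleton_iff k]
      exact subsingleton_of_bot_eq_top h2
    have h4 : Module.finrank k (G.M (m + 1)) = 0 := Module.finrank_zero_of_subsingleton
    simp [h4]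
  | succ d ih =>
    intro G hfin hG
    have hK := ih G.K (fun n => by
      change Module.Finite k ↥(LinearMap.ker (G.x (Fin.last d) n))
      infer_instance) (K_noeth G hG)
    have hD := ih G.Q (fun n => by
      change Module.Finite k (G.M (n + 1) ⧸ LinearMap.range (G.x (Fin.last d) n))
      infer_instance) (Q_noeth G hG)
    have := hD.sub hK
    change EvZ d _
    convert this using 2 with n
    have h1 := LinearMap.finrank_range_add_finrank_ker (G.x (Fin.last d) n)
    have h2 := Submodule.finrank_quotient_add_finrank (LinearMap.range (G.x (Fin.last d) n))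
    change (Module.finrank k (G.M (n + 1)) : ℤ) - (Module.finrank k (G.M n) : ℤ) =
      (Module.finrank k (G.M (n + 1) ⧸ LinearMap.range (G.x (Fin.last d) n)) : ℤ) -
      (Module.finrank k ↥(LinearMap.ker (G.x (Fin.last d) n)) : ℤ)
    omega

end Gr

end Vale.Agent.P190.D
end
end

section

section

/-! Section 1, file B3: Hilbert-Serre. -/

set_option autoImplicit false
set_option linter.unusedSectionVars false

open MvPolynomial Filter

namespace Vale.Agent.P190.D

variable {k : Type} [Field k] {V : Type} [AddCommGroup V] [Module k V] [Module (A k) V]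
  [IsScalarTower k (A k) V]
  {V' : Type} [AddCommGroup V'] [Module k V'] [Module (A k) V'] [IsScalarTower k (A k) V']

/-- the three variables -/
noncomputable def gen3 (k : Type) [Field k] : Fin 3 → A k := ![1, X 0, X 1]

theorem gen3_mem (i : Fin 3) : gen3 k i ∈ Ad k 1 := by
  rw [mem_Ad]
  right
  fin_cases i
  · simp only [gen3, Fin.isValue, Fin.zero_eta, Matrix.cons_val_zero, totalDegree_one, CharP.cast_eq_zero, zero_le_one]
  · simp [gen3, totalDegree_X]
  · simp [gen3, totalDegree_X]

theorem Ad_one_le : Ad k 1 ≤ Submodule.span k (Set.range (gen3 k)) := by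
  intro a ha
  rw [a.as_sum]
  refine Submodule.sum_mem _ fun m hm => ?_
  rw [mem_Ad] at ha
  have hdeg : a.totalDegree ≤ 1 := by
    rcases ha with h | h
    · simp [h]
    · exact_mod_cast h
  have hm1 : (m.sum fun _ e => e) ≤ 1 := (le_totalDegree hm).trans hdeg
  have hm2 : m 0 + m 1 ≤ 1 := by
    have : (m.sum fun _ e => e) = m 0 + m 1 := by
      rw [Finsupp.sum_fintype _ _ (fun _ => rfl), Fin.sum_univ_two]
    omega
  have h3 : m = 0 ∨ m = Finsupp.single 0 1 ∨ m = Finsupp.single 1 1 := by
    rcases (by omega : (m 0 = 0 ∧ m 1 = 0) ∨ (m 0 = 1 ∧ m 1 = 0) ∨ (m 0 = 0 ∧ m 1 = 1)) with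
      ⟨h0, h1⟩ | ⟨h0, h1⟩ | ⟨h0, h1⟩
    · left
      ext i
      fin_cases i <;> simp [h0, h1]
    · right; left
      ext i
      fin_cases i <;> simp [h0, h1]
    · right; right
      ext i
      fin_cases i <;> simp [h0, h1]
  have h4 : ∀ c : k, ∀ i : Fin 3, c • gen3 k i ∈ Submodule.span k (Set.range (gen3 k)) :=
    fun c i => Submodule.smul_mem _ _ (Submodule.subset_span ⟨i, rfl⟩)
  rcases h3 with h | h | h
  · have := h4 (coeff m a) 0
    rw [h] at this ⊢
    simpa only [gen3, Fin.isValue, Matrix.range_cons, Matrix.range_empty, Set.union_empty, Set.union_singleton,     Set.union_insert, monomial_zero', Matrix.cons_val_zero, smul_eq_C_mul, mul_one] using this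
  · have := h4 (coeff m a) 1
    rw [h] at this ⊢
    simpa only [gen3, Fin.isValue, Matrix.range_cons, Matrix.range_empty, Set.union_empty, Set.union_singleton,     Set.union_insert, Matrix.cons_val_one, Matrix.cons_val_zero, smul_eq_C_mul, C_mul_X_eq_monomial] using this
  · have := h4 (coeff m a) 2
    rw [h] at this ⊢
    simpa only [gen3, Fin.isValue, Matrix.range_cons, Matrix.range_empty, Set.union_empty, Set.union_singleton,     Set.union_insert, Matrix.cons_val, smul_eq_C_mul, C_mul_X_eq_monomial] using this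

theorem mem_Ad_zero {a : A k} (ha : a ∈ Ad k 0) : ∃ c : k, a = C c := by
  rw [mem_Ad] at ha
  rcases ha with h | h
  · exact ⟨0, by simp [h]⟩
  · have h0 : a.totalDegree = 0 := by omega
    exact ⟨coeff 0 a, totalDegree_eq_zero_iff_eq_C.mp h0⟩

/-- the graded module of a lattice -/
noncomputable def grLat (E : ℤ → Submodule k V) (hE : IsBLat E) : Gr k 3 where
  M n := ↥(E (n : ℤ))
  x i n := LinearMap.codRestrict (E ((n + 1 : ℕ) : ℤ))
    ((Algebra.lsmul k k V (gen3 k i)).comp (Submodule.subtype (E (n : ℤ)))) (by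
      intro v
      have := hE.smul_mem (gen3_mem (k := k) i) v.2
      push_cast
      exact this)
  comm i j n v := by
    ext
    change gen3 k i • gen3 k j • (v : V) = gen3 k j • gen3 k i • (v : V)
    exact smul_comm _ _ _

theorem grLat_noeth (E : ℤ → Submodule k V) (hE : IsBLat E) : (grLat E hE).Noeth := by
  intro S hS
  -- the images in `V`
  let T : ∀ n : ℕ, Submodule k V := fun n => (S n).map (Submodule.subtype (E (n : ℤ)))
  have hTE : ∀ n, T n ≤ E (n : ℤ) := by
    rintro n _ ⟨v, -, rfl⟩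
    exact v.2
  have hTgen : ∀ n v, v ∈ T n → ∀ i, gen3 k i • v ∈ T (n + 1) := by
    rintro n _ ⟨v, hv, rfl⟩ i
    exact ⟨(grLat E hE).x i n v, hS i n v hv, rfl⟩
  have hTspan : ∀ n v, v ∈ T n → ∀ a ∈ Submodule.span k (Set.range (gen3 k)),
      a • v ∈ T (n + 1) := by
    intro n v hv a ha
    induction ha using Submodule.span_induction with
    | mem x hx =>
      obtain ⟨i, rfl⟩ := hx
      exact hTgen n v hv i
    | zero => rw [zero_smul]; exact zero_mem _
    | add x y _ _ h1 h2 => rw [add_smul]; exact add_mem h1 h2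
    | smul c x _ h => rw [smul_assoc]; exact Submodule.smul_mem _ _ h
  have hTall : ∀ i n : ℕ, ∀ v ∈ T n, ∀ a ∈ Ad k (i : ℤ), a • v ∈ T (n + i) := by
    intro i
    induction i with
    | zero =>
      intro n v hv a ha
      obtain ⟨c, rfl⟩ := mem_Ad_zero (by simpa using ha)
      have h1 : (C c : A k) • v = c • v := by
        rw [← algebraMap_eq, algebraMap_smul]
      rw [h1]
      exact Submodule.smul_mem _ _ hv
    | succ i ih =>
      intro n v hv a ha
      rw [Nat.cast_succ, Ad_succ (by omega)] at ha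
      induction ha using Submodule.span_induction with
      | mem x hx =>
        obtain ⟨a, ha, b, hb, rfl⟩ := hx
        rw [mul_smul]
        exact hTspan _ _ (ih n v hv b hb) a (Ad_one_le ha)
      | zero => rw [zero_smul]; exact zero_mem _
      | add x y _ _ h1 h2 => rw [add_smul]; exact add_mem h1 h2
      | smul c x _ h => rw [smul_assoc]; exact Submodule.smul_mem _ _ h
  let T' : ℤ → Submodule k V := fun n => if 0 ≤ n then T n.toNat else ⊥
  have hT'n : ∀ n : ℕ, T' (n : ℤ) = T n := by
    intro n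
    simp only [Nat.cast_nonneg, ↓reduceIte, Int.toNat_natCast, T']
  have hT'le : ∀ n, T' n ≤ E n := by
    intro n
    simp only [T']
    split_ifs with h
    · have := hTE n.toNat
      rwa [Int.toNat_of_nonneg h] at this
    · exact bot_le
  have hT'lat : IsBLat T' := by
    refine hE.of_le hT'le ?_
    intro i n a v ha hv
    by_cases hn : 0 ≤ n
    · obtain ⟨n, rfl⟩ := Int.eq_ofNat_of_zero_le hn
      by_cases hi : 0 ≤ i
      · obtain ⟨i, rfl⟩ := Int.eq_ofNat_of_zero_le hi
        rw [hT'n] at hv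
        rw [← Nat.cast_add, hT'n]
        exact hTall i n v hv a ha
      · have : a = 0 := by
          rw [mem_Ad] at ha
          rcases ha with h | h
          · exact h
          · omega
        rw [this, zero_smul]
        exact zero_mem _
    · have : v = 0 := by
        simpa [T', hn] using hv
      rw [this, smul_zero]
      exact zero_mem _
  obtain ⟨n₁, h₁⟩ := hT'lat.fg
  refine ⟨n₁.toNat, fun n hn v hv => ?_⟩
  have h2 := h₁ (n : ℤ) (by omega)
  -- the image of the sum
  let ι : (grLat E hE).M (n + 1) →ₗ[k] V := Submodule.subtype (E ((n + 1 : ℕ) : ℤ))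
  have hι : Function.Injective ι := Subtype.val_injective
  have h3 : ι v ∈ T' ((n : ℤ) + 1) := by
    rw [← Nat.cast_succ, hT'n]
    exact ⟨v, hv, rfl⟩
  have h4 := h2 h3
  rw [hT'n] at h4
  have h5 : Submodule.span k {w | ∃ a ∈ Ad k 1, ∃ v ∈ T n, w = a • v} ≤
      (⨆ i, (S n).map ((grLat E hE).x i n)).map ι := by
    rw [Submodule.span_le]
    rintro _ ⟨a, ha, _, ⟨w, hw, rfl⟩, rfl⟩
    have ha' := Ad_one_le ha
    clear ha
    induction ha' using Submodule.span_induction with
    | mem x hx =>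
      obtain ⟨i, rfl⟩ := hx
      exact ⟨(grLat E hE).x i n w, Submodule.mem_iSup_of_mem i ⟨w, hw, rfl⟩, rfl⟩
    | zero => rw [zero_smul]; exact zero_mem _
    | add x y _ _ h1 h2 => rw [add_smul]; exact add_mem h1 h2
    | smul c x _ h => rw [smul_assoc]; exact Submodule.smul_mem _ _ h
  obtain ⟨w, hw, hwv⟩ := h5 h4
  have : w = v := hι hwv
  rwa [this] at hw

theorem exists_poly {f : ℕ → ℤ} (hf : Gr.EvZ 3 f) :
    ∃ N e g : ℤ, ∃ n₁ : ℕ, ∀ n ≥ n₁, (f n : ℚ) = hp N e g (n : ℤ) := by
  obtain ⟨n₁, h₁⟩ := hf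
  simp only at h₁
  set N : ℤ := (f (n₁ + 1 + 1) - f (n₁ + 1)) - (f (n₁ + 1) - f n₁) with hN
  set e : ℤ := (f (n₁ + 1) - f n₁) - N * (n₁ + 2) with he
  set g : ℤ := f n₁ - N * ((n₁ + 2).choose 2 : ℕ) - e * (n₁ + 1) with hg
  have h2 : ∀ m : ℕ, (f (n₁ + m + 1 + 1) - f (n₁ + m + 1)) - (f (n₁ + m + 1) - f (n₁ + m)) = N := by
    intro m
    induction m with
    | zero => rfl
    | succ m ih =>
      have := h₁ (n₁ + m) (by omega)
      rw [← ih]
      have e1 : n₁ + (m + 1) = n₁ + m + 1 := by ring
      rw [e1]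
      linarith only [this]
  have h3 : ∀ m : ℕ, f (n₁ + m + 1) - f (n₁ + m) = N * (n₁ + m + 2) + e := by
    intro m
    induction m with
    | zero => simp only [add_zero, Nat.cast_zero]; rw [he]; ring
    | succ m ih =>
      have := h2 m
      rw [ih] at this
      have e1 : n₁ + (m + 1) = n₁ + m + 1 := by ring
      rw [e1]
      push_cast
      linarith only [this]
  have h4 : ∀ m : ℕ, (f (n₁ + m) : ℚ) = hp N e g ((n₁ + m : ℕ) : ℤ) := by
    intro m
    induction m with
    | zero =>
      have hg' : (g : ℚ) = f n₁ - N * (((n₁ + 2).choose 2 : ℕ) : ℚ) - e * (n₁ + 1) := by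
        rw [hg]; push_cast; ring
      rw [Nat.cast_choose_two] at hg'
      simp only [add_zero, hp]
      rw [hg']
      push_cast
      ring
    | succ m ih =>
      have h5 := h3 m
      have h6 : (f (n₁ + m + 1) : ℚ) - f (n₁ + m) = N * (n₁ + m + 2) + e := by exact_mod_cast h5
      have e1 : n₁ + (m + 1) = n₁ + m + 1 := by ring
      rw [e1]
      have h7 : (f (n₁ + m + 1) : ℚ) = f (n₁ + m) + (N * (n₁ + m + 2) + e) := by linarith only [h6]
      rw [h7, ih]
      simp only [hp]
      push_cast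
      ring
  refine ⟨N, e, g, n₁, fun n hn => ?_⟩
  obtain ⟨m, rfl⟩ : ∃ m, n = n₁ + m := ⟨n - n₁, by omega⟩
  exact h4 m

/-- 1.2 -/
theorem IsBLat.exists_hilb {E : ℤ → Submodule k V} (hE : IsBLat E) :
    ∃ N e g : ℤ, HasHilb E N e g := by
  have h1 := Gr.hilbert_serre (grLat E hE) (fun n => hE.fin n) (grLat_noeth E hE)
  obtain ⟨N, e, g, n₁, h⟩ := exists_poly h1
  refine ⟨N, e, g, ?_⟩
  rw [HasHilb, Filter.eventually_atTop]
  refine ⟨n₁, fun n hn => ?_⟩
  obtain ⟨m, rfl⟩ := Int.eq_ofNat_of_zero_le (show 0 ≤ n by omega)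
  have := h m (by omega)
  push_cast at this
  exact_mod_cast this

end Vale.Agent.P190.D
end
end

section

section

/-! Section 1, file B2b: generators and shifts. -/

set_option autoImplicit false
set_option linter.unusedSectionVars false

open MvPolynomial Filter

namespace Vale.Agent.P190.D

variable {k : Type} [Field k] {V : Type} [AddCommGroup V] [Module k V] [Module (A k) V]
  [IsScalarTower k (A k) V]
  {V' : Type} [AddCommGroup V'] [Module k V'] [Module (A k) V'] [IsScalarTower k (A k) V']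

/-- the lattice generated by vectors `v i` in degrees `c i` -/
noncomputable def genLat {ι : Type} [Fintype ι] (v : ι → V) (c : ι → ℤ) (n : ℤ) :
    Submodule k V :=
  Submodule.map ((Fintype.linearCombination (A k) v).restrictScalars k)
    (Submodule.pi Set.univ fun i => Ad k (n - c i))

theorem mem_genLat {ι : Type} [Fintype ι] {v : ι → V} {c : ι → ℤ} {n : ℤ} {x : V} :
    x ∈ genLat (k := k) v c n ↔
      ∃ a : ι → A k, (∀ i, a i ∈ Ad k (n - c i)) ∧ x = ∑ i, a i • v i := by
  unfold genLat
  rw [Submodule.mem_map]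
  constructor
  · rintro ⟨a, ha, rfl⟩
    refine ⟨a, fun i => Submodule.mem_pi.1 ha i (Set.mem_univ i), ?_⟩
    rfl
  · rintro ⟨a, ha, rfl⟩
    exact ⟨a, Submodule.mem_pi.2 fun i _ => ha i, rfl⟩

/-- The parametrisation of `genLat`. -/
noncomputable def genMap {ι : Type} [Fintype ι] (v : ι → V) (c : ι → ℤ) (n : ℤ) :
    ((i : ι) → Ad k (n - c i)) →ₗ[k] V where
  toFun a := ∑ i, (a i : A k) • v i
  map_add' a b := by
    rw [← Finset.sum_add_distrib]
    refine Finset.sum_congr rfl fun i _ => ?_
    rw [← add_smul]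
    rfl
  map_smul' r a := by
    rw [Finset.smul_sum]
    refine Finset.sum_congr rfl fun i _ => ?_
    simp only [Pi.smul_apply, Submodule.coe_smul, RingHom.id_apply]
    rw [smul_assoc]

theorem genLat_eq_range {ι : Type} [Fintype ι] (v : ι → V) (c : ι → ℤ) (n : ℤ) :
    genLat (k := k) v c n = LinearMap.range (genMap (k := k) v c n) := by
  ext x
  rw [mem_genLat, LinearMap.mem_range]
  constructor
  · rintro ⟨a, ha, rfl⟩
    exact ⟨fun i => ⟨a i, ha i⟩, rfl⟩
  · rintro ⟨a, rfl⟩
    exact ⟨fun i => (a i : A k), fun i => (a i).2, rfl⟩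

theorem genLat_smul {ι : Type} [Fintype ι] (v : ι → V) (c : ι → ℤ) {i n : ℤ} {a : A k} {x : V}
    (ha : a ∈ Ad k i) (hx : x ∈ genLat (k := k) v c n) : a • x ∈ genLat (k := k) v c (n + i) := by
  rw [mem_genLat] at hx ⊢
  obtain ⟨b, hb, rfl⟩ := hx
  refine ⟨fun j => a * b j, fun j => ?_, ?_⟩
  · have := Ad_mul ha (hb j)
    rwa [show i + (n - c j) = n + i - c j by ring] at this
  · rw [Finset.smul_sum]
    refine Finset.sum_congr rfl fun j _ => ?_
    rw [mul_smul]

theorem genLat_smul_gen {ι : Type} [Fintype ι] (v : ι → V) (c : ι → ℤ) {n : ℤ} {a : A k} (j : ι)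
    (ha : a ∈ Ad k (n - c j)) : a • v j ∈ genLat (k := k) v c n := by
  classical
  rw [mem_genLat]
  refine ⟨fun i => if i = j then a else 0, fun i => ?_, ?_⟩
  · by_cases h : i = j
    · subst h
      simpa using ha
    · simp [h]
  · simp only [ite_smul, zero_smul, Finset.sum_ite_eq', Finset.mem_univ, ↓reduceIte]

theorem genLat_mem_gen {ι : Type} [Fintype ι] (v : ι → V) (c : ι → ℤ) (j : ι) :
    v j ∈ genLat (k := k) v c (c j) := by
  have := genLat_smul_gen (k := k) v c (n := c j) (a := 1) j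
    (mem_Ad.2 (Or.inr (by simp)))
  rwa [one_smul] at this

theorem isBLat_genLat {ι : Type} [Fintype ι] (v : ι → V) (c : ι → ℤ) :
    IsBLat (genLat (k := k) v c) := by
  refine ⟨fun ha hx => genLat_smul v c ha hx, fun n => ?_, ?_, ?_⟩
  · rw [genLat_eq_range]
    infer_instance
  · obtain ⟨n₀, hn₀⟩ := (Set.finite_range c).bddBelow
    refine ⟨n₀, fun n hn => ?_⟩
    rw [eq_bot_iff]
    intro x hx
    obtain ⟨a, ha, rfl⟩ := mem_genLat.1 hx
    rw [Submodule.mem_bot]
    refine Finset.sum_eq_zero fun i _ => ?_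
    have h1 : n₀ ≤ c i := hn₀ ⟨i, rfl⟩
    have h2 := ha i
    rw [Ad_of_neg (by omega), Submodule.mem_bot] at h2
    rw [h2, zero_smul]
  · obtain ⟨n₁, hn₁⟩ := (Set.finite_range c).bddAbove
    refine ⟨n₁, fun n hn x hx => ?_⟩
    obtain ⟨a, ha, rfl⟩ := mem_genLat.1 hx
    refine Submodule.sum_mem _ fun i _ => ?_
    have h1 : c i ≤ n₁ := hn₁ ⟨i, rfl⟩
    have h2 := ha i
    rw [show n + 1 - c i = (n - c i) + 1 by ring, Ad_succ (by omega)] at h2
    refine Submodule.span_induction (p := fun b _ => b • v i ∈ Submodule.span k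
      {w | ∃ a ∈ Ad k 1, ∃ v' ∈ genLat (k := k) v c n, w = a • v'}) ?_ ?_ ?_ ?_ h2
    · rintro _ ⟨a', ha', b', hb', rfl⟩
      apply Submodule.subset_span
      exact ⟨a', ha', b' • v i, genLat_smul_gen v c i hb', by rw [mul_smul]⟩
    · rw [zero_smul]
      exact Submodule.zero_mem _
    · intro x y _ _ hx hy
      rw [add_smul]
      exact Submodule.add_mem _ hx hy
    · intro r x _ hx
      rw [smul_assoc]
      exact Submodule.smul_mem _ r hx

theorem genLat_le {E : ℤ → Submodule k V} (hE : IsBLat E) {ι : Type} [Fintype ι] {v : ι → V}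
    {c : ι → ℤ} (hv : ∀ i, v i ∈ E (c i)) (n : ℤ) : genLat v c n ≤ E n := by
  intro x hx
  obtain ⟨a, ha, rfl⟩ := mem_genLat.1 hx
  refine Submodule.sum_mem _ fun i _ => ?_
  have := hE.smul_mem (ha i) (hv i)
  rwa [show c i + (n - c i) = n by ring] at this

theorem genLat_reindex {ι ι' : Type} [Fintype ι] [Fintype ι'] (e : ι' ≃ ι) (v : ι → V)
    (c : ι → ℤ) (n : ℤ) : genLat (k := k) (v ∘ e) (c ∘ e) n = genLat (k := k) v c n := by
  ext x
  rw [mem_genLat, mem_genLat]
  constructor
  · rintro ⟨a, ha, rfl⟩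
    refine ⟨a ∘ e.symm, fun i => ?_, ?_⟩
    · have := ha (e.symm i)
      simpa using this
    · rw [← Equiv.sum_comp e]
      simp only [Function.comp_apply, Equiv.symm_apply_apply]
  · rintro ⟨a, ha, rfl⟩
    refine ⟨a ∘ e, fun i => ha (e i), ?_⟩
    rw [← Equiv.sum_comp e]
    simp only [Function.comp_apply]

/-- with degrees bounded by the generation degree -/
theorem IsBLat.exists_gen' {E : ℤ → Submodule k V} (hE : IsBLat E) {D : ℤ} (hD : GenIn E D) :
    ∃ (l : ℕ) (v : Fin l → V) (c : Fin l → ℤ), (∀ i, v i ∈ E (c i)) ∧ (∀ i, c i ≤ D) ∧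
      ∀ n, E n = genLat v c n := by
  classical
  obtain ⟨n₀, hn₀⟩ := hE.bdd
  have hfg : ∀ m, ∃ S : Finset V, Submodule.span k (S : Set V) = E m := fun m =>
    (Module.Finite.iff_fg.1 (hE.fin m))
  choose S hS using hfg
  let ι : Type := Σ m : {m : ℤ // m ∈ Finset.Icc n₀ D}, {x : V // x ∈ S m.1}
  let v : ι → V := fun i => i.2.1
  let c : ι → ℤ := fun i => i.1.1
  have hv : ∀ i, v i ∈ E (c i) := fun i => by
    rw [← hS]
    exact Submodule.subset_span i.2.2
  have hmain : ∀ n, E n ≤ genLat v c n := by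
    have hlow : ∀ n, n ≤ D → E n ≤ genLat v c n := by
      intro n hn
      rcases lt_or_ge n n₀ with h | h
      · rw [hn₀ n h]
        exact bot_le
      · rw [← hS n, Submodule.span_le]
        intro x hx
        exact genLat_mem_gen v c (⟨⟨n, Finset.mem_Icc.2 ⟨h, hn⟩⟩, ⟨x, hx⟩⟩ : ι)
    intro n
    rcases le_total n D with h | h
    · exact hlow n h
    · induction n, h using Int.le_induction with
      | base => exact hlow D le_rfl
      | succ n hn ih =>
        refine (hD n hn).trans ?_
        rw [Submodule.span_le]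
        rintro _ ⟨a, ha, x, hx, rfl⟩
        exact genLat_smul v c ha (ih hx)
  let e : Fin (Fintype.card ι) ≃ ι := (Fintype.equivFin ι).symm
  refine ⟨Fintype.card ι, v ∘ e, c ∘ e, fun i => hv (e i), fun i => ?_, fun n => ?_⟩
  · exact (Finset.mem_Icc.1 (e i).1.2).2
  · rw [genLat_reindex]
    exact le_antisymm (hmain n) (genLat_le hE hv n)

/-- every lattice is generated by finitely many homogeneous vectors -/
theorem IsBLat.exists_gen {E : ℤ → Submodule k V} (hE : IsBLat E) :
    ∃ (l : ℕ) (v : Fin l → V) (c : Fin l → ℤ), (∀ i, v i ∈ E (c i)) ∧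
      ∀ n, E n = genLat v c n := by
  obtain ⟨D, hD⟩ := hE.fg
  obtain ⟨l, v, c, h1, _, h3⟩ := hE.exists_gen' hD
  exact ⟨l, v, c, h1, h3⟩

theorem finrank_genLat {ι : Type} [Fintype ι] {v : ι → V} (hv : LinearIndependent (A k) v)
    (c : ι → ℤ) (n : ℤ) : Module.finrank k (genLat (k := k) v c n) =
      ∑ i, Module.finrank k (Ad k (n - c i)) := by
  rw [genLat_eq_range, LinearMap.finrank_range_of_inj, Module.finrank_pi_fintype]
  intro a b hab
  have h1 : ∑ i, ((a i : A k) - (b i : A k)) • v i = 0 := by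
    have : ∑ i, (a i : A k) • v i = ∑ i, (b i : A k) • v i := hab
    simp only [sub_smul]
    rw [Finset.sum_sub_distrib, this, sub_self]
  have h2 := Fintype.linearIndependent_iff.1 hv _ h1
  funext i
  exact Subtype.ext (sub_eq_zero.1 (h2 i))

/-- the shift -/
def shiftLat (E : ℤ → Submodule k V) (a : ℤ) : ℤ → Submodule k V := fun n => E (n + a)

theorem IsBLat.shift {E : ℤ → Submodule k V} (hE : IsBLat E) (a : ℤ) :
    IsBLat (shiftLat E a) := by
  refine ⟨fun {i n b v} hb hv => ?_, fun n => hE.fin (n + a), ?_, ?_⟩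
  · have := hE.smul_mem hb hv
    unfold shiftLat
    rwa [show n + i + a = n + a + i by ring]
  · obtain ⟨n₀, hn₀⟩ := hE.bdd
    exact ⟨n₀ - a, fun n hn => hn₀ (n + a) (by omega)⟩
  · obtain ⟨n₁, hn₁⟩ := hE.fg
    refine ⟨n₁ - a, fun n hn => ?_⟩
    have := hn₁ (n + a) (by omega)
    unfold shiftLat
    rwa [show n + 1 + a = n + a + 1 by ring]

theorem HasHilb.shift {E : ℤ → Submodule k V} {N e g : ℤ} (h : HasHilb E N e g) (a : ℤ) :
    ∃ g' : ℤ, HasHilb (shiftLat E a) N (e + a * N) g' ∧ (g' : ℚ) = hp N e g (a - 1) := by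
  obtain ⟨c, hc⟩ : ∃ c : ℤ, a * (a + 1) = c + c := Int.even_mul_succ_self a
  have hcq : (a : ℚ) * (a + 1) = c + c := by exact_mod_cast hc
  refine ⟨N * c + e * a + g, ?_, ?_⟩
  · have h1 : ∀ᶠ n : ℤ in atTop, (Module.finrank k (E (n + a)) : ℚ) = hp N e g ((n + a : ℤ) : ℚ) :=
      (tendsto_atTop_add_const_right atTop a tendsto_id).eventually h
    filter_upwards [h1] with n hn
    unfold shiftLat
    rw [hn]
    unfold hp
    push_cast
    linear_combination (N : ℚ) / 2 * hcq
  · unfold hp
    push_cast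
    linear_combination (-(N : ℚ) / 2) * hcq

end Vale.Agent.P190.D
end
end

section

section

/-! Section 1, file B5: hull and S2. -/

set_option autoImplicit false
set_option linter.unusedSectionVars false

open MvPolynomial Filter

namespace Vale.Agent.P190.D

variable {k : Type} [Field k] {V : Type} [AddCommGroup V] [Module k V] [Module (A k) V]
  [Module (KK k) V] [IsScalarTower k (A k) V] [IsScalarTower (A k) (KK k) V]
  {V' : Type} [AddCommGroup V'] [Module k V'] [Module (A k) V'] [Module (KK k) V']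
  [IsScalarTower k (A k) V'] [IsScalarTower (A k) (KK k) V']

omit [Module (KK k) V] [IsScalarTower (A k) (KK k) V] in
theorem LocIn.add {E : ℤ → Submodule k V} (hE : IsBLat E) {n : ℤ} {v w : V}
    (hv : LocIn E n v) (hw : LocIn E n w) : LocIn E n (v + w) := by
  obtain ⟨h1, c, hc, h2⟩ := hv
  obtain ⟨h3, d, hd, h4⟩ := hw
  refine ⟨fun π hπ => ?_, d * c, mul_ne_zero hd hc, ?_⟩
  · obtain ⟨i, c, hc, hcπ, h5⟩ := h1 π hπ
    obtain ⟨j, d, hd, hdπ, h6⟩ := h3 π hπ
    refine ⟨i + j, c * d, Ad_mul hc hd, fun h => ?_, ?_⟩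
    · rcases hπ.prime.dvd_or_dvd h with h | h
      exacts [hcπ h, hdπ h]
    · rw [smul_add]
      refine add_mem ?_ ?_
      · rw [mul_comm, mul_smul, ← add_assoc]
        exact hE.smul_mem hd h5
      · rw [mul_smul, add_comm i j, ← add_assoc]
        exact hE.smul_mem hc h6
  · rw [totalDegree_mul_of_isDomain hd hc, smul_add]
    refine add_mem ?_ ?_
    · rw [mul_smul]
      have := hE.smul_mem (mem_Ad.2 (Or.inr le_rfl) : d ∈ Ad k d.totalDegree) h2
      push_cast
      rwa [add_assoc, add_comm (c.totalDegree : ℤ)] at this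
    · rw [mul_comm, mul_smul]
      have := hE.smul_mem (mem_Ad.2 (Or.inr le_rfl) : c ∈ Ad k c.totalDegree) h4
      push_cast
      rwa [add_assoc] at this

/-- the hull -/
def hull (E : ℤ → Submodule k V) (hE : IsBLat E) (n : ℤ) : Submodule k V where
  carrier := {v | LocIn E n v}
  add_mem' := fun ha hb => LocIn.add hE ha hb
  zero_mem' := by
    refine ⟨fun π hπ => ⟨0, 1, mem_Ad.2 (Or.inr (by simp)), hπ.not_dvd_one, by simp⟩,
      1, one_ne_zero, by simp⟩
  smul_mem' := fun r v hv => by
    obtain ⟨h1, c, hc, h2⟩ := hv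
    refine ⟨fun π hπ => ?_, c, hc, ?_⟩
    · obtain ⟨i, c, hc, hcπ, h5⟩ := h1 π hπ
      refine ⟨i, c, hc, hcπ, ?_⟩
      rw [← algebraMap_smul (A k) r v, smul_smul, mul_comm, ← smul_smul, algebraMap_smul]
      exact Submodule.smul_mem _ _ h5
    · rw [← algebraMap_smul (A k) r v, smul_smul, mul_comm, ← smul_smul, algebraMap_smul]
      exact Submodule.smul_mem _ _ h2

theorem mem_hull {E : ℤ → Submodule k V} {hE : IsBLat E} {n : ℤ} {v : V} :
    v ∈ hull E hE n ↔ LocIn E n v := Iff.rfl

theorem LocIn.of_mem {E : ℤ → Submodule k V} {n : ℤ} {v : V} (h : v ∈ E n) : LocIn E n v := by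
  refine ⟨fun π hπ => ⟨0, 1, mem_Ad.2 (Or.inr (by simp)), hπ.not_dvd_one, by simpa using h⟩,
    1, one_ne_zero, by simpa only [totalDegree_one, CharP.cast_eq_zero, add_zero, one_smul] using h⟩

theorem LocIn.mono {E E' : ℤ → Submodule k V} (h : ∀ n, E n ≤ E' n) {n : ℤ} {v : V}
    (hv : LocIn E n v) : LocIn E' n v := by
  obtain ⟨h1, c, hc, h2⟩ := hv
  refine ⟨fun π hπ => ?_, c, hc, h _ h2⟩
  obtain ⟨i, c, hc, hcπ, h5⟩ := h1 π hπ
  exact ⟨i, c, hc, hcπ, h _ h5⟩

omit [Module (KK k) V] [IsScalarTower (A k) (KK k) V] in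
theorem LocIn.smul {E : ℤ → Submodule k V} (hE : IsBLat E) {i n : ℤ} {a : A k} {v : V}
    (ha : a ∈ Ad k i) (hv : LocIn E n v) : LocIn E (n + i) (a • v) := by
  obtain ⟨h1, c, hc, h2⟩ := hv
  refine ⟨fun π hπ => ?_, c, hc, ?_⟩
  · obtain ⟨j, c, hc, hcπ, h5⟩ := h1 π hπ
    refine ⟨j, c, hc, hcπ, ?_⟩
    rw [smul_smul, mul_comm, ← smul_smul, add_right_comm]
    exact hE.smul_mem ha h5
  · rw [smul_smul, mul_comm, ← smul_smul, add_right_comm]
    exact hE.smul_mem ha h2

theorem le_hull {E : ℤ → Submodule k V} (hE : IsBLat E) (n : ℤ) : E n ≤ hull E hE n :=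
  fun _ hv => LocIn.of_mem hv

theorem smul_cancel {a : A k} (ha : a ≠ 0) {v w : V} (h : a • v = a • w) : v = w := by
  have h0 : algebraMap (A k) (KK k) a ≠ 0 := by
    rw [Ne, FaithfulSMul.algebraMap_eq_zero_iff]
    exact ha
  have h1 : algebraMap (A k) (KK k) a • v = algebraMap (A k) (KK k) a • w := by
    rw [algebraMap_smul, algebraMap_smul, h]
  have h2 := congrArg (fun x => (algebraMap (A k) (KK k) a)⁻¹ • x) h1
  simp only [smul_smul, inv_mul_cancel₀ h0, one_smul] at h2
  exact h2

/-- local divisibility in a factorial domain -/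
theorem dvd_of_local {d : A k} (hd : d ≠ 0) {a : A k}
    (h : ∀ π : A k, Irreducible π → ∃ c : A k, ¬ π ∣ c ∧ d ∣ c * a) : d ∣ a := by
  revert hd a
  refine UniqueFactorizationMonoid.induction_on_prime d ?_ ?_ ?_
  · intro h0
    exact absurd rfl h0
  · intro u hu _ a _
    exact hu.dvd
  · intro d p hd0 hp ih _ a h
    obtain ⟨c, hc, hdc⟩ := h p hp.irreducible
    have h1 : p ∣ a := by
      rcases hp.dvd_or_dvd ((dvd_mul_right p d).trans hdc) with h2 | h2
      · exact absurd h2 hc
      · exact h2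
    obtain ⟨a', rfl⟩ := h1
    refine mul_dvd_mul_left p (ih hd0 fun π hπ => ?_)
    obtain ⟨c, hc, hdc⟩ := h π hπ
    refine ⟨c, hc, ?_⟩
    rw [mul_left_comm] at hdc
    exact (mul_dvd_mul_iff_left hp.ne_zero).1 hdc

theorem hull_mono {E E' : ℤ → Submodule k V} (hE : IsBLat E) (hE' : IsBLat E')
    (h : ∀ n, E n ≤ E' n) (n : ℤ) : hull E hE n ≤ hull E' hE' n :=
  fun _ hv => LocIn.mono h hv

/-- free lattices are S2 -/
theorem isS2_genLat {ι : Type} [Fintype ι] {v : ι → V} (hv : LinearIndependent (A k) v)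
    (c : ι → ℤ) : IsS2 (genLat (k := k) v c) := by
  intro n x hx
  obtain ⟨h1, d, hd, h2⟩ := hx
  obtain ⟨a, ha, hax⟩ := mem_genLat.1 h2
  have hdvd : ∀ i, d ∣ a i := by
    intro i
    refine dvd_of_local hd fun π hπ => ?_
    obtain ⟨j, e, he, heπ, h3⟩ := h1 π hπ
    obtain ⟨b, hb, hbx⟩ := mem_genLat.1 h3
    refine ⟨e, heπ, b i, ?_⟩
    have h4 : ∑ i, (e * a i) • v i = ∑ i, (d * b i) • v i := by
      simp only [mul_smul, ← Finset.smul_sum]
      rw [← hax, ← hbx, smul_smul, smul_smul, mul_comm]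
    have h5 := (Fintype.linearIndependent_iffₛ.1 hv) (fun i => e * a i) (fun i => d * b i) h4 i
    exact h5
  choose a' ha' using hdvd
  refine mem_genLat.2 ⟨a', fun i => ?_, ?_⟩
  · have h3 := ha i
    rw [mem_Ad] at h3 ⊢
    by_cases h4 : a' i = 0
    · exact Or.inl h4
    · right
      rcases h3 with h3 | h3
      · rw [ha' i] at h3
        exact absurd h3 (mul_ne_zero hd h4)
      · rw [ha' i, totalDegree_mul_of_isDomain hd h4] at h3
        push_cast at h3
        linarith only [h3]
  · apply smul_cancel hd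
    rw [hax, Finset.smul_sum]
    refine Finset.sum_congr rfl fun i _ => ?_
    rw [ha' i, mul_smul]

/-- every lattice is contained in a free lattice of the same rank -/
theorem exists_free_le {E : ℤ → Submodule k V} (hE : IsBLat E) :
    ∃ (N : ℕ) (v : Fin N → V) (c : Fin N → ℤ), LinearIndependent (KK k) v ∧
      LinearIndependent (A k) v ∧ ∀ n, E n ≤ genLat (k := k) v c n := by
  obtain ⟨l, w, d, hw, hgen⟩ := hE.exists_gen
  let W : Submodule (KK k) V := Submodule.span (KK k) (Set.range w)
  have hWfin : Module.Finite (KK k) W := Module.Finite.span_of_finite _ (Set.finite_range w)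
  let b := Module.finBasis (KK k) W
  have hwW : ∀ j, w j ∈ W := fun j => Submodule.subset_span ⟨j, rfl⟩
  obtain ⟨D, hD⟩ := IsLocalization.exist_integer_multiples_of_finite (nonZeroDivisors (A k))
    (fun p : Fin l × Fin (Module.finrank (KK k) W) => b.repr ⟨w p.1, hwW p.1⟩ p.2)
  choose a ha using hD
  have hD0 : algebraMap (A k) (KK k) (D : A k) ≠ 0 := by
    rw [Ne, FaithfulSMul.algebraMap_eq_zero_iff]
    exact nonZeroDivisors.ne_zero D.2
  let u : (KK k)ˣ := Units.mk0 _ (inv_ne_zero hD0)
  let v : Fin (Module.finrank (KK k) W) → V := fun i => u • (b i : V)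
  have hb : LinearIndependent (KK k) (fun i => (b i : V)) := by
    have := b.linearIndependent.map' W.subtype (Submodule.ker_subtype W)
    exact this
  have hv : LinearIndependent (KK k) v := hb.units_smul fun _ => u
  have hvA : LinearIndependent (A k) v := by
    refine hv.restrict_scalars ?_
    intro x y hxy
    simp only [Algebra.smul_def, mul_one] at hxy
    exact FaithfulSMul.algebraMap_injective _ _ hxy
  have hwv : ∀ j, w j = ∑ i, a (j, i) • v i := by
    intro j
    have h1 : ((∑ i, b.repr ⟨w j, hwW j⟩ i • b i : W) : V) = w j := by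
      rw [b.sum_repr]
    rw [← h1, Submodule.coe_sum]
    refine Finset.sum_congr rfl fun i _ => ?_
    have h2 := ha (j, i)
    simp only at h2
    rw [← algebraMap_smul (KK k) (a (j, i)), h2]
    change b.repr ⟨w j, hwW j⟩ i • (b i : V) = _
    simp only [v, u, Units.smul_def, Units.val_mk0, smul_smul, Algebra.smul_def]
    congr 1
    field_simp
  obtain ⟨M, hM⟩ := (Set.finite_range fun p : Fin l × Fin (Module.finrank (KK k) W) =>
    ((a p).totalDegree : ℤ) - d p.1).bddAbove
  have hM' : ∀ p, ((a p).totalDegree : ℤ) - d p.1 ≤ M := fun p => hM ⟨p, rfl⟩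
  refine ⟨_, v, fun _ => -M, hv, hvA, fun n x hx => ?_⟩
  rw [hgen] at hx
  obtain ⟨e, he, rfl⟩ := mem_genLat.1 hx
  refine mem_genLat.2 ⟨fun i => ∑ j, e j * a (j, i), fun i => ?_, ?_⟩
  · refine Submodule.sum_mem _ fun j _ => ?_
    have h1 : a (j, i) ∈ Ad k (d j + M) := mem_Ad.2 (Or.inr (by linarith only [hM' (j, i)]))
    have h2 := Ad_mul (he j) h1
    have h3 : n - d j + (d j + M) = n - -M := by ring
    rwa [h3] at h2
  · simp only [Finset.sum_smul]
    rw [Finset.sum_comm]
    refine Finset.sum_congr rfl fun j _ => ?_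
    rw [hwv j, Finset.smul_sum]
    exact Finset.sum_congr rfl fun i _ => by rw [mul_smul]

/-- 1.6 (a) -/
theorem isBLat_hull {E : ℤ → Submodule k V} (hE : IsBLat E) : IsBLat (hull E hE) := by
  obtain ⟨N, v, c, -, hv, hle⟩ := exists_free_le hE
  refine IsBLat.of_le (isBLat_genLat (k := k) v c) (fun n x hx => ?_) fun ha hv => ?_
  · exact isS2_genLat hv c n x (LocIn.mono hle hx)
  · exact LocIn.smul hE ha hv

theorem isS2_hull {E : ℤ → Submodule k V} (hE : IsBLat E) : IsS2 (hull E hE) := by
  intro n v hv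
  obtain ⟨h1, c, hc, h2⟩ := hv
  refine ⟨fun π hπ => ?_, ?_⟩
  · obtain ⟨i, c, hc, hcπ, h5⟩ := h1 π hπ
    obtain ⟨j, d, hd, hdπ, h6⟩ := h5.1 π hπ
    refine ⟨i + j, d * c, by rw [add_comm]; exact Ad_mul hd hc, fun h => ?_, ?_⟩
    · rcases hπ.prime.dvd_or_dvd h with h | h
      exacts [hdπ h, hcπ h]
    · rw [mul_smul, ← add_assoc]
      exact h6
  · obtain ⟨d, hd, h6⟩ := h2.2
    refine ⟨d * c, mul_ne_zero hd hc, ?_⟩
    rw [totalDegree_mul_of_isDomain hd hc, mul_smul]
    push_cast
    rw [add_comm (d.totalDegree : ℤ), ← add_assoc]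
    exact h6

/-- coprime forms of degrees `i`, `j` (as elements of `k[x₁,x₂,x₃]`) -/
def CopForm (i j : ℕ) (a b : A k) : Prop :=
  a ∈ Ad k i ∧ b ∈ Ad k j ∧ a ≠ 0 ∧ b ≠ 0 ∧ (∀ π : A k, Irreducible π → ¬ (π ∣ a ∧ π ∣ b)) ∧
    (a.totalDegree = i ∨ b.totalDegree = j)

/-- 1.6 (b) -/
theorem IsS2.of_cop {E : ℤ → Submodule k V} (h2 : IsS2 E) {i j : ℕ}
    {a b : A k} (h : CopForm i j a b) {n : ℤ} {v : V} (ha : a • v ∈ E (n + i))
    (hb : b • v ∈ E (n + j)) : v ∈ E n := by
  obtain ⟨hai, hbj, ha0, hb0, hcop, hdeg⟩ := h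
  refine h2 n v ⟨fun π hπ => ?_, ?_⟩
  · by_cases hπa : π ∣ a
    · exact ⟨j, b, hbj, fun hπb => hcop π hπ ⟨hπa, hπb⟩, hb⟩
    · exact ⟨i, a, hai, hπa, ha⟩
  · rcases hdeg with h | h
    · exact ⟨a, ha0, by rw [h]; exact ha⟩
    · exact ⟨b, hb0, by rw [h]; exact hb⟩

/-- 1.6 (d): saturated sublattices of S2 lattices are S2 -/
theorem IsS2.inter {E : ℤ → Submodule k V} (hE : IsBLat E) (h2 : IsS2 E)
    (U : Submodule (KK k) V) : IsS2 (interLat E (U.restrictScalars (A k))) := by
  intro n v hv
  refine ⟨h2 n v (LocIn.mono (fun m => inf_le_left) hv), ?_⟩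
  obtain ⟨c, hc, h3⟩ := hv.2
  have h4 : c • v ∈ U := h3.2
  have h0 : algebraMap (A k) (KK k) c ≠ 0 := by
    rw [Ne, FaithfulSMul.algebraMap_eq_zero_iff]
    exact hc
  have h5 : v = (algebraMap (A k) (KK k) c)⁻¹ • (c • v) := by
    rw [← algebraMap_smul (KK k) c v, smul_smul, inv_mul_cancel₀ h0, one_smul]
  change v ∈ U
  rw [h5]
  exact U.smul_mem _ h4

end Vale.Agent.P190.D
end
end

section

section

/-! Section 1, file B4: rank and slope bounds. -/

set_option autoImplicit false
set_option linter.unusedSectionVars false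

open MvPolynomial Filter

namespace Vale.Agent.P190.D

variable {k : Type} [Field k] {V : Type} [AddCommGroup V] [Module k V] [Module (A k) V]
  [Module (KK k) V] [IsScalarTower k (A k) V] [IsScalarTower (A k) (KK k) V]
  {V' : Type} [AddCommGroup V'] [Module k V'] [Module (A k) V'] [Module (KK k) V']
  [IsScalarTower k (A k) V'] [IsScalarTower (A k) (KK k) V']

/-- the `KK`-span of a lattice -/
noncomputable def spanK (E : ℤ → Submodule k V) : Submodule (KK k) V :=
  Submodule.span (KK k) (⋃ n, (E n : Set V))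

/-! ### Auxiliary facts -/

theorem b4_quad {a b c : ℚ} (h : ∀ᶠ n : ℤ in atTop, 0 ≤ a * (n : ℚ) ^ 2 + b * n + c) :
    0 ≤ a := by
  by_contra ha
  push Not at ha
  obtain ⟨n0, hn0⟩ := eventually_atTop.1 h
  obtain ⟨m, hm⟩ := exists_nat_gt ((|b| + |c|) / (-a))
  have ha' : 0 < -a := by linarith only [ha]
  rw [div_lt_iff₀ ha'] at hm
  have h1 := hn0 (max n0 (max 1 m)) (le_max_left _ _)
  set n : ℤ := max n0 (max 1 m) with hn
  have hn1 : (1 : ℤ) ≤ n := (le_max_left _ _).trans (le_max_right _ _)
  have hnm : (m : ℤ) ≤ n := (le_max_right _ _).trans (le_max_right _ _)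
  have hn1' : (1 : ℚ) ≤ n := by exact_mod_cast hn1
  have hnm' : (m : ℚ) ≤ n := by exact_mod_cast hnm
  have h2 : (m : ℚ) * -a ≤ n * -a := mul_le_mul_of_nonneg_right hnm' ha'.le
  have hb := le_abs_self b
  have hc := le_abs_self c
  have hc0 := abs_nonneg c
  have h3 : b * n ≤ |b| * n := mul_le_mul_of_nonneg_right hb (by linarith only [hn1'])
  have h4 : |c| * 1 ≤ |c| * n := mul_le_mul_of_nonneg_left hn1' hc0
  have h5 : (n : ℚ) * (|b| + |c| - n * -a) < 0 := by
    apply mul_neg_of_pos_of_neg <;> linarith only [hm, h2, hn1']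
  linarith

theorem b4_lin {b c : ℚ} (h : ∀ᶠ n : ℤ in atTop, 0 ≤ b * (n : ℚ) + c) : 0 ≤ b := by
  apply b4_quad (b := c) (c := 0)
  filter_upwards [h, eventually_ge_atTop 0] with n hn hn0
  have hn0' : (0 : ℚ) ≤ n := by exact_mod_cast hn0
  have := mul_nonneg hn0' hn
  linarith

theorem b4_tower : IsScalarTower k (KK k) V := by
  constructor
  intro a q v
  rw [← algebraMap_smul (A k) a q, smul_assoc, algebraMap_smul]

theorem b4_mem_spanK {E : ℤ → Submodule k V} {n : ℤ} {v : V} (hv : v ∈ E n) : v ∈ spanK E :=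
  Submodule.subset_span (Set.mem_iUnion.2 ⟨n, hv⟩)

theorem b4_genLat_le {l : ℕ} (v : Fin l → V) (c : Fin l → ℤ) (n : ℤ)
    (U : Submodule (KK k) V) (hv : ∀ i, v i ∈ U) {x : V} (hx : x ∈ genLat (k := k) v c n) :
    x ∈ U := by
  obtain ⟨a, _, rfl⟩ := mem_genLat.1 hx
  refine Submodule.sum_mem _ fun i _ => ?_
  rw [← algebraMap_smul (KK k) (a i) (v i)]
  exact U.smul_mem _ (hv i)

theorem IsBLat.finite_spanK {E : ℤ → Submodule k V} (hE : IsBLat E) :
    Module.Finite (KK k) (spanK E) := by
  obtain ⟨l, v, c, hv, hE'⟩ := hE.exists_gen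
  have h : spanK E = Submodule.span (KK k) (Set.range v) := by
    apply le_antisymm
    · refine Submodule.span_le.2 ?_
      intro x hx
      obtain ⟨n, hn⟩ := Set.mem_iUnion.1 hx
      rw [SetLike.mem_coe, hE' n] at hn
      exact b4_genLat_le v c n _ (fun i => Submodule.subset_span (Set.mem_range_self i)) hn
    · refine Submodule.span_mono ?_
      rintro _ ⟨i, rfl⟩
      exact Set.mem_iUnion.2 ⟨c i, hv i⟩
  rw [h]
  exact Module.Finite.span_of_finite _ (Set.finite_range v)

theorem b4_exists_coord {E : ℤ → Submodule k V} (hE : IsBLat E) :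
    ∃ (f : V →ₗ[KK k] (Fin (Module.finrank (KK k) (spanK E)) → KK k)) (c : ℤ),
      (∀ x ∈ spanK E, f x = 0 → x = 0) ∧
      ∀ n, ∀ v ∈ E n, ∀ i, ∃ a ∈ Ad k (n + c), f v i = algebraMap (A k) (KK k) a := by
  classical
  have := hE.finite_spanK
  obtain ⟨l, u, d, hu, hE'⟩ := hE.exists_gen
  set w := Module.finrank (KK k) (spanK E)
  let b : Module.Basis (Fin w) (KK k) (spanK E) := Module.finBasis _ _
  obtain ⟨g, hg⟩ := LinearMap.exists_extend (b.equivFun : spanK E →ₗ[KK k] (Fin w → KK k))
  obtain ⟨D, hD⟩ := IsLocalization.exist_integer_multiples_of_finite (nonZeroDivisors (A k))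
    (fun ij : Fin l × Fin w => g (u ij.1) ij.2)
  choose p hp using hD
  obtain ⟨δ, hδ⟩ := Finite.exists_le (fun ij : Fin l × Fin w => ((p ij).totalDegree : ℤ))
  obtain ⟨c, hc⟩ := Finite.exists_le (fun j : Fin l => δ - d j)
  have hD0 : algebraMap (A k) (KK k) D ≠ 0 := by
    rw [Ne, FaithfulSMul.algebraMap_eq_zero_iff]
    exact nonZeroDivisors.ne_zero D.2
  refine ⟨(algebraMap (A k) (KK k) D) • g, c, ?_, ?_⟩
  · intro x hx h0
    have h1 : g x = 0 := by
      rw [LinearMap.smul_apply] at h0
      exact (smul_eq_zero.1 h0).resolve_left hD0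
    have h2 : b.equivFun ⟨x, hx⟩ = 0 := by
      have := LinearMap.congr_fun hg ⟨x, hx⟩
      simp only [LinearMap.comp_apply, Submodule.subtype_apply] at this
      rw [h1] at this
      exact this.symm
    have h3 := (LinearEquiv.map_eq_zero_iff _).1 h2
    exact congrArg Subtype.val h3
  · intro n x hx i
    rw [hE' n] at hx
    obtain ⟨a, ha, rfl⟩ := mem_genLat.1 hx
    refine ⟨∑ j, a j * p (j, i), ?_, ?_⟩
    · refine Submodule.sum_mem _ fun j _ => ?_
      have h1 : p (j, i) ∈ Ad k δ := mem_Ad.2 (Or.inr (hδ (j, i)))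
      refine Ad_mono ?_ (Ad_mul (ha j) h1)
      have := hc j
      linarith only [this]
    · rw [map_sum, map_sum, Finset.sum_apply]
      refine Finset.sum_congr rfl fun j _ => ?_
      have h1 := hp (j, i)
      rw [← algebraMap_smul (KK k) (a j) (u j), map_smul, map_mul, h1, LinearMap.smul_apply,
        Pi.smul_apply, Pi.smul_apply, smul_eq_mul, smul_eq_mul, Algebra.smul_def]

theorem b4_finrank_le {κ : Type} [Fintype κ] {n m : ℤ} {E : ℤ → Submodule k V}
    (f : V →ₗ[KK k] (κ → KK k)) (hinj : ∀ x ∈ E n, f x = 0 → x = 0)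
    (hf : ∀ v ∈ E n, ∀ i, ∃ a ∈ Ad k m, f v i = algebraMap (A k) (KK k) a) :
    Module.finrank k (E n) ≤ Fintype.card κ * Module.finrank k (Ad k m) := by
  have : IsScalarTower k (KK k) V := b4_tower
  let h : (κ → Ad k m) →ₗ[k] (κ → KK k) :=
    LinearMap.compLeft (((Algebra.linearMap (A k) (KK k)).restrictScalars k).comp
      (Ad k m).subtype) κ
  let φ : E n →ₗ[k] LinearMap.range h :=
    LinearMap.codRestrict (LinearMap.range h) ((f.restrictScalars k).comp (E n).subtype) (by
      intro x
      choose a ha hx using hf x.1 x.2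
      refine ⟨fun i => ⟨a i, ha i⟩, ?_⟩
      ext i
      exact (hx i).symm)
  have hφ : Function.Injective φ := by
    rw [injective_iff_map_eq_zero]
    intro x hx
    have h1 : f x.1 = 0 := congrArg Subtype.val hx
    exact Subtype.ext (hinj x.1 x.2 h1)
  have h1 := LinearMap.finrank_le_finrank_of_injective hφ
  have h2 := LinearMap.finrank_range_le h
  have h3 : Module.finrank k (κ → Ad k m) = Fintype.card κ * Module.finrank k (Ad k m) := by
    rw [Module.finrank_pi_fintype, Finset.sum_const, smul_eq_mul, Finset.card_univ]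
  omega

theorem b4_hp_one (n : ℚ) : hp 1 0 0 n = (1 / 2) * n ^ 2 + (3 / 2) * n + 1 := by
  unfold hp
  push_cast
  ring

/-- 1.2, rank -/
theorem HasHilb.N_eq {E : ℤ → Submodule k V} (hE : IsBLat E) {N e g : ℤ}
    (h : HasHilb E N e g) : N = Module.finrank (KK k) (spanK E) := by
  classical
  have := hE.finite_spanK
  have := hE.fin
  set w := Module.finrank (KK k) (spanK E) with hw
  apply le_antisymm
  · obtain ⟨f, c, hinj, hf⟩ := b4_exists_coord hE
    have h1 : ∀ᶠ n : ℤ in atTop, 0 ≤ (((w : ℚ) - N) / 2) * (n : ℚ) ^ 2 +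
        (w * (3 / 2 + c) - N * (3 / 2) - e) * n +
        (w * (1 / 2 * c ^ 2 + 3 / 2 * c + 1) - N - e - g) := by
      filter_upwards [h, eventually_ge_atTop (-2 - c)] with n hn hnc
      have h2 := b4_finrank_le (E := E) (n := n) (m := n + c) f
        (fun x hx h0 => hinj x (b4_mem_spanK hx) h0) (hf n)
      rw [Fintype.card_fin] at h2
      have h3 : (Module.finrank k (E n) : ℚ) ≤ w * Module.finrank k (Ad k (n + c)) := by
        exact_mod_cast h2
      rw [hn, finrank_Ad (by omega), b4_hp_one] at h3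
      unfold hp at h3
      push_cast at h3
      linarith
    have h2 := b4_quad h1
    have h3 : (N : ℚ) ≤ w := by linarith only [h2]
    exact_mod_cast h3
  · obtain ⟨s, hs1, hs2, hs3⟩ := exists_linearIndependent (KK k) (⋃ n, (E n : Set V))
    have hsf : Finite s := by
      have h1 : LinearIndependent (KK k) (fun x : s => (⟨x.1, by
          rw [spanK]; exact Submodule.subset_span (hs1 x.2)⟩ : spanK E)) := by
        apply LinearIndependent.of_comp (spanK E).subtype
        exact hs3
      exact h1.finite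
    let := Fintype.ofFinite s
    have hcard : Fintype.card s = w := by
      have h1 := finrank_span_eq_card hs3
      rw [Subtype.range_coe_subtype, Set.ofPred_mem_eq, hs2] at h1
      rw [hw, ← h1]
      rfl
    have hc : ∀ x : s, ∃ c : ℤ, x.1 ∈ E c := fun x => Set.mem_iUnion.1 (hs1 x.2)
    choose c hc using hc
    have hlin : LinearIndependent (A k) (fun x : s => x.1) := by
      refine hs3.restrict_scalars ?_
      intro a b hab
      simp only [Algebra.smul_def, mul_one] at hab
      exact FaithfulSMul.algebraMap_injective _ _ hab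
    have h1 : ∀ᶠ n : ℤ in atTop, 0 ≤ (((N : ℚ) - w) / 2) * (n : ℚ) ^ 2 +
        (N * (3 / 2) + e - ∑ x : s, (3 / 2 - (c x : ℚ))) * n +
        (N + e + g - ∑ x : s, (1 / 2 * (c x : ℚ) ^ 2 - 3 / 2 * c x + 1)) := by
      obtain ⟨M, hM⟩ := Finite.exists_le (fun x : s => c x)
      filter_upwards [h, eventually_ge_atTop (-2 + M)] with n hn hnc
      have h2 : genLat (k := k) (fun x : s => x.1) c n ≤ E n := by
        intro y hy
        obtain ⟨a, ha, rfl⟩ := mem_genLat.1 hy
        refine Submodule.sum_mem _ fun i _ => ?_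
        have h3 := hE.smul_mem (ha i) (hc i)
        rwa [add_sub_cancel] at h3
      have h3 := Submodule.finrank_mono h2
      rw [finrank_genLat hlin] at h3
      have h4 : (∑ x : s, (Module.finrank k (Ad k (n - c x)) : ℚ)) ≤
          Module.finrank k (E n) := by exact_mod_cast h3
      have h5 : ∀ x : s, (Module.finrank k (Ad k (n - c x)) : ℚ) =
          1 / 2 * (n : ℚ) ^ 2 + (3 / 2 - (c x : ℚ)) * n +
            (1 / 2 * (c x : ℚ) ^ 2 - 3 / 2 * c x + 1) := by
        intro x
        have := hM x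
        rw [finrank_Ad (by omega), b4_hp_one]
        push_cast
        ring
      simp only [h5] at h4
      rw [Finset.sum_add_distrib, Finset.sum_add_distrib,
        Finset.sum_const, Finset.card_univ, hcard, nsmul_eq_mul, hn, ← Finset.sum_mul] at h4
      unfold hp at h4
      linarith only [h4]
    have h2 := b4_quad h1
    have h3 : (w : ℚ) ≤ N := by linarith only [h2]
    exact_mod_cast h3

theorem HasHilb.eq_bot {E : ℤ → Submodule k V} (hE : IsBLat E) {e g : ℤ}
    (h : HasHilb E 0 e g) : (∀ n, E n = ⊥) ∧ e = 0 ∧ g = 0 := by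
  have := hE.finite_spanK
  have h1 := HasHilb.N_eq hE h
  have h2 : spanK E = ⊥ := by
    rw [← Submodule.finrank_eq_zero]
    exact_mod_cast h1.symm
  have h3 : ∀ n, E n = ⊥ := by
    intro n
    rw [eq_bot_iff]
    intro x hx
    have := b4_mem_spanK hx
    rw [h2, Submodule.mem_bot] at this
    rw [Submodule.mem_bot, this]
  refine ⟨h3, ?_⟩
  have h4 : ∀ᶠ n : ℤ in atTop, (0 : ℚ) = e * (n + 1) + g := by
    filter_upwards [h] with n hn
    rw [h3 n, finrank_bot] at hn
    unfold hp at hn
    push_cast at hn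
    linarith only [hn]
  obtain ⟨m, hm⟩ := eventually_atTop.1 h4
  have h5 := hm m le_rfl
  have h6 := hm (m + 1) (by omega)
  push_cast at h6
  have he : (e : ℚ) = 0 := by linarith only [h5, h6]
  have hg : (g : ℚ) = 0 := by rw [he] at h5; linarith only [h5]
  exact ⟨by exact_mod_cast he, by exact_mod_cast hg⟩

theorem b4_slope {E : ℤ → Submodule k V} {N e g c : ℤ}
    (h : HasHilb E N e g)
    (hle : ∀ n, (Module.finrank k (E n) : ℤ) ≤ N * Module.finrank k (Ad k (n + c))) :
    e ≤ c * N := by
  have h1 : ∀ᶠ n : ℤ in atTop, 0 ≤ ((c : ℚ) * N - e) * (n : ℚ) +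
      (N * (1 / 2 * c ^ 2 + 3 / 2 * c) - e - g) := by
    filter_upwards [h, eventually_ge_atTop (-2 - c)] with n hn hnc
    have h3 : (Module.finrank k (E n) : ℚ) ≤ N * Module.finrank k (Ad k (n + c)) := by
      exact_mod_cast hle n
    rw [hn, finrank_Ad (by omega), b4_hp_one] at h3
    unfold hp at h3
    push_cast at h3
    linarith
  have h2 := b4_lin h1
  have h3 : (e : ℚ) ≤ c * N := by linarith
  exact_mod_cast h3

/-- 1.5 in coordinates -/
theorem HasHilb.e_nonpos {ι : Type} [Fintype ι] {E : ℤ → Submodule k (ι → KK k)}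
    (hE : IsBLat E) (c : ℤ)
    (hle : ∀ n, ∀ v ∈ E n, ∀ i, ∃ a ∈ Ad k (n + c), v i = algebraMap (A k) (KK k) a)
    {N e g : ℤ} (h : HasHilb E N e g) : e ≤ c * N := by
  classical
  have := hE.finite_spanK
  have hN := HasHilb.N_eq hE h
  let φ : ι → Module.Dual (KK k) (spanK E) :=
    fun i => (LinearMap.proj i).comp (spanK E).subtype
  obtain ⟨κ, a, ha, hspan, hlin⟩ := exists_linearIndependent' (KK k) φ
  let : Fintype κ := by
    have := Finite.of_injective a ha
    exact Fintype.ofFinite κ
  have hcard : Fintype.card κ ≤ Module.finrank (KK k) (spanK E) := by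
    have h1 := hlin.fintype_card_le_finrank
    rwa [Subspace.dual_finrank_eq] at h1
  refine b4_slope h fun n => ?_
  have h1 := b4_finrank_le (κ := κ) (E := E) (n := n) (m := n + c)
    (LinearMap.funLeft (KK k) (KK k) a) (by
      intro x hx h0
      have hx' := b4_mem_spanK hx
      have h2 : ∀ ψ ∈ Submodule.span (KK k) (Set.range (φ ∘ a)), ψ ⟨x, hx'⟩ = 0 := by
        intro ψ hψ
        induction hψ using Submodule.span_induction with
        | mem y hy =>
          obtain ⟨j, rfl⟩ := hy
          exact congrFun h0 j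
        | zero => rfl
        | add y z _ _ hy hz => rw [LinearMap.add_apply, hy, hz, add_zero]
        | smul r y _ hy => rw [LinearMap.smul_apply, hy, smul_zero]
      funext i
      exact h2 (φ i) (by rw [hspan]; exact Submodule.subset_span ⟨i, rfl⟩))
    (fun v hv j => hle n v hv (a j))
  have h2 : Module.finrank k (E n) ≤
      Module.finrank (KK k) (spanK E) * Module.finrank k (Ad k (n + c)) :=
    h1.trans (Nat.mul_le_mul_right _ hcard)
  rw [hN]
  exact_mod_cast h2

/-- 1.5: slopes of sublattices are bounded above -/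
theorem IsBLat.exists_slope_bound {E : ℤ → Submodule k V} (hE : IsBLat E) :
    ∃ C : ℤ, ∀ S : ℤ → Submodule k V, IsBLat S → (∀ n, S n ≤ E n) → ∀ N e g : ℤ,
      HasHilb S N e g → e ≤ C * N := by
  have : IsScalarTower k (KK k) V := b4_tower
  obtain ⟨f, c, hinj, hf⟩ := b4_exists_coord hE
  refine ⟨c, fun S hS hSE N e g h => ?_⟩
  have hS' : IsBLat (mapLat (f.restrictScalars (A k)) S) := hS.map _
  refine HasHilb.e_nonpos hS' c ?_ (N := N) (e := e) (g := g) ?_
  · intro n v hv i
    obtain ⟨x, hx, rfl⟩ := hv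
    exact hf n x (hSE n hx) i
  · filter_upwards [h] with n hn
    rw [← hn]
    congr 1
    unfold mapLat
    rw [← LinearMap.range_domRestrict]
    apply LinearMap.finrank_range_of_inj
    rw [injective_iff_map_eq_zero]
    intro x hx
    exact Subtype.ext (hinj x.1 (b4_mem_spanK (hSE n x.2)) hx)

end Vale.Agent.P190.D
end
end

section

section

/-! Kummer theory by hand: the diagonal quadratic forms `q_x` are pairwise relatively prime, products
of distinct `q_j`, `j ∈ J`, are not squares, and the multiquadratic extension `L` of `k(y,z)` is a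
field with basis the squarefree monomials. -/

set_option autoImplicit false
set_option linter.unusedSectionVars false

open MvPolynomial Filter

namespace Vale.Agent.P190.D

/-- Eigenvectors with pairwise distinct characters are linearly independent. -/
theorem indep_of_chars {K Ω ι : Type} [Field K] [Field Ω] [Algebra K Ω] (e : ι → Ω)
    (he : ∀ i, e i ≠ 0)
    (h : ∀ i j, i ≠ j → ∃ (g : Ω ≃ₐ[K] Ω) (ε : ι → K),
      (∀ i, g (e i) = ε i • e i) ∧ ε i ≠ ε j) : LinearIndependent K e := by
  classical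
  rw [linearIndependent_iff']
  intro s
  induction s using Finset.induction_on with
  | empty => intro c _ i hi; simp at hi
  | insert a s ha ih =>
    intro c hc
    have key : ∀ i ∈ s, c i = 0 := by
      intro i hi
      have hia : i ≠ a := fun h => ha (h ▸ hi)
      obtain ⟨g, ε, hg, hε⟩ := h i a hia
      have h1 : ∑ i ∈ insert a s, (c i * ε i) • e i = 0 := by
        have := congrArg g hc
        rw [map_sum, map_zero] at this
        rw [← this]
        refine Finset.sum_congr rfl fun i _ => ?_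
        rw [map_smul, hg, smul_smul]
      have h2 : ∑ i ∈ insert a s, (c i * (ε i - ε a)) • e i = 0 := by
        have h3 : ∑ i ∈ insert a s, (c i * (ε i - ε a)) • e i =
            ∑ i ∈ insert a s, (c i * ε i) • e i - ε a • ∑ i ∈ insert a s, c i • e i := by
          rw [Finset.smul_sum, ← Finset.sum_sub_distrib]
          refine Finset.sum_congr rfl fun i _ => ?_
          rw [smul_smul, ← sub_smul]
          congr 1
          ring
        rw [h3, h1, hc, smul_zero, sub_zero]
      rw [Finset.sum_insert ha, sub_self, mul_zero, zero_smul, zero_add] at h2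
      have h4 := ih (fun i => c i * (ε i - ε a)) h2 i hi
      rcases mul_eq_zero.1 h4 with h5 | h5
      · exact h5
      · exact absurd (sub_eq_zero.1 h5) hε
    intro i hi
    rcases Finset.mem_insert.1 hi with rfl | hi
    · rw [Finset.sum_insert ha, Finset.sum_eq_zero, add_zero] at hc
      · rcases smul_eq_zero.1 hc with h | h
        · exact h
        · exact absurd h (he _)
      · intro j hj
        rw [key j hj, zero_smul]
    · exact key i hi

/-- Linear independence of the products of the square roots. -/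
theorem kummer_indep {K Ω J : Type} [Field K] [Field Ω] [Algebra K Ω] [IsGalois K Ω]
    [DecidableEq J] (a : J → K) (h2 : (2 : K) ≠ 0)
    (ha : ∀ s : Finset J, s.Nonempty → ¬ IsSquare (∏ j ∈ s, a j)) (r : J → Ω)
    (hr : ∀ j, r j ^ 2 = algebraMap K Ω (a j)) :
    LinearIndependent K (fun s : Finset J => ∏ j ∈ s, r j) := by
  classical
  have ha0 : ∀ j, a j ≠ 0 := by
    intro j hj
    apply ha {j} (Finset.singleton_nonempty j)
    rw [Finset.prod_singleton, hj]
    exact ⟨0, by simp⟩
  have hr0 : ∀ j, r j ≠ 0 := by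
    intro j hj
    have := hr j
    rw [hj] at this
    have h3 : algebraMap K Ω (a j) = 0 := by rw [← this]; simp
    exact ha0 j ((map_eq_zero _).1 h3)
  have hone : (1 : K) ≠ -1 := by
    intro h
    apply h2
    linear_combination h
  -- the sign characters
  have hsign : ∀ (g : Ω ≃ₐ[K] Ω) (j : J), ∃ ε : K, (ε = 1 ∨ ε = -1) ∧ g (r j) = ε • r j := by
    intro g j
    have h1 : g (r j) ^ 2 = r j ^ 2 := by
      rw [← map_pow, hr, AlgEquiv.commutes]
    rcases sq_eq_sq_iff_eq_or_eq_neg.1 h1 with h | h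
    · exact ⟨1, Or.inl rfl, by rw [h, one_smul]⟩
    · exact ⟨-1, Or.inr rfl, by rw [h, neg_smul, one_smul]⟩
  choose χ hχ hgχ using hsign
  have hprod : ∀ (g : Ω ≃ₐ[K] Ω) (s : Finset J),
      g (∏ j ∈ s, r j) = (∏ j ∈ s, χ g j) • ∏ j ∈ s, r j := by
    intro g s
    rw [map_prod, ← Finset.prod_smul]
    exact Finset.prod_congr rfl fun j _ => hgχ g j
  have hpm : ∀ (g : Ω ≃ₐ[K] Ω) (s : Finset J), (∏ j ∈ s, χ g j) * (∏ j ∈ s, χ g j) = 1 := by
    intro g s
    rw [← Finset.prod_mul_distrib]
    refine Finset.prod_eq_one fun j _ => ?_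
    rcases hχ g j with h | h <;> rw [h] <;> ring
  refine indep_of_chars _ (fun s => Finset.prod_ne_zero_iff.2 fun j _ => hr0 j) ?_
  intro s t hst
  by_contra hcon
  push Not at hcon
  have hfix : ∀ g : Ω ≃ₐ[K] Ω, g ((∏ j ∈ s, r j) * ∏ j ∈ t, r j) =
      (∏ j ∈ s, r j) * ∏ j ∈ t, r j := by
    intro g
    have h1 : (∏ j ∈ s, χ g j) = ∏ j ∈ t, χ g j :=
      hcon g (fun s => ∏ j ∈ s, χ g j) (fun s => hprod g s)
    rw [map_mul, hprod, hprod]
    rw [h1, smul_mul_smul_comm, hpm, one_smul]
  obtain ⟨c, hc⟩ := (InfiniteGalois.mem_range_algebraMap_iff_fixed (k := K) (K := Ω) _).2 hfix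
  -- squares
  have h3 : (∏ j ∈ s, a j) * ∏ j ∈ t, a j = c ^ 2 := by
    apply FaithfulSMul.algebraMap_injective K Ω
    rw [map_mul, map_prod, map_prod, map_pow, hc, mul_pow, ← Finset.prod_pow, ← Finset.prod_pow]
    congr 1
    · exact Finset.prod_congr rfl fun j _ => (hr j).symm
    · exact Finset.prod_congr rfl fun j _ => (hr j).symm
  have h4 : (∏ j ∈ s, a j) * ∏ j ∈ t, a j =
      (∏ j ∈ symmDiff s t, a j) * (∏ j ∈ s ∩ t, a j) ^ 2 := by
    have h5 : ∏ j ∈ s, a j = (∏ j ∈ s \ t, a j) * ∏ j ∈ s ∩ t, a j := by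
      rw [← Finset.prod_union (Finset.disjoint_sdiff_inter s t), Finset.sdiff_union_inter]
    have h6 : ∏ j ∈ t, a j = (∏ j ∈ t \ s, a j) * ∏ j ∈ s ∩ t, a j := by
      rw [Finset.inter_comm, ← Finset.prod_union (Finset.disjoint_sdiff_inter t s),
        Finset.sdiff_union_inter]
    have h7 : ∏ j ∈ symmDiff s t, a j = (∏ j ∈ s \ t, a j) * ∏ j ∈ t \ s, a j := by
      rw [Finset.symmDiff_def, Finset.prod_union]
      exact disjoint_sdiff_sdiff
    rw [h5, h6, h7]
    ring
  have h8 : (∏ j ∈ s ∩ t, a j) ≠ 0 := Finset.prod_ne_zero_iff.2 fun j _ => ha0 j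
  apply ha (symmDiff s t)
  · rw [Finset.nonempty_iff_ne_empty]
    intro h
    exact hst (symmDiff_eq_bot.1 h)
  · refine ⟨c / ∏ j ∈ s ∩ t, a j, ?_⟩
    rw [h4] at h3
    field_simp
    linear_combination h3


namespace Arr

variable {k : Type} [Field k] (X : Arr k)

/-- There are at least four lines. -/
theorem four_le_card : 4 ≤ Fintype.card X.I := by
  classical
  have h3 : 3 ≤ Fintype.card X.I := by
    have := Fintype.card_le_of_injective X.b X.b_inj
    simpa only [ge_iff_le, Fintype.card_fin] using this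
  by_contra hcon
  have hc : Fintype.card X.I = 3 := by omega
  have huniv : ∀ t (x : X.I), x ∈ ({X.v t, X.h t, X.d t} : Set X.I) := by
    intro t x
    have h1 : ({X.v t, X.h t, X.d t} : Finset X.I) = Finset.univ := by
      apply Finset.eq_univ_of_card
      rw [hc, Finset.card_eq_three]
      exact ⟨_, _, _, X.vh t, X.vd t, X.hd t, rfl⟩
    have h2 := Finset.mem_univ x
    rw [← h1] at h2
    simpa only [Set.mem_insert_iff, Set.mem_singleton_iff, Finset.mem_insert, Finset.mem_singleton] using h2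
  obtain ⟨t, -⟩ := X.cover (X.b 0)
  have h2 : 1 < Fintype.card X.S := by
    have h0 : 0 < Fintype.card X.S := Fintype.card_pos_iff.2 ⟨t⟩
    rcases X.even with ⟨r, hr⟩
    omega
  obtain ⟨t', ht'⟩ := Fintype.exists_ne_of_one_lt_card h2 t
  exact ht' (X.share t t' (X.v t) (X.h t) (X.vh t) (huniv _ _) (huniv _ _) (huniv _ _)
    (huniv _ _)).symm

/-- Two distinct lines are part of three independent lines. -/
theorem exists_third {x y : X.I} (hxy : x ≠ y) :
    ∃ z, x ≠ z ∧ y ≠ z ∧ LinearIndependent k ![X.l x, X.l y, X.l z] := by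
  classical
  have h1 : 1 < ((Finset.univ.erase x).erase y).card := by
    rw [Finset.card_erase_of_mem (by simp only [Finset.mem_erase, ne_eq, hxy.symm, not_false_eq_true, Finset.mem_univ, and_self]), Finset.card_erase_of_mem (by simp only [Finset.mem_univ]),
      Finset.card_univ]
    have := X.four_le_card
    omega
  obtain ⟨z, hz, z', hz', hzz⟩ := Finset.one_lt_card.1 h1
  simp only [Finset.mem_erase, Finset.mem_univ, and_true, ne_eq] at hz hz'
  rcases X.indep x y z hxy (fun h => hz.2 h.symm) (fun h => hz.1 h.symm) with h | ⟨t, ht⟩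
  · exact ⟨z, fun h => hz.2 h.symm, fun h => hz.1 h.symm, h⟩
  rcases X.indep x y z' hxy (fun h => hz'.2 h.symm) (fun h => hz'.1 h.symm) with h | ⟨t', ht'⟩
  · exact ⟨z', fun h => hz'.2 h.symm, fun h => hz'.1 h.symm, h⟩
  exfalso
  have htt : t = t' := by
    apply X.share t t' x y hxy
    · rw [← ht]; simp
    · rw [← ht]; simp
    · rw [← ht']; simp
    · rw [← ht']; simp
  subst htt
  have h2 : z ∈ ({x, y, z'} : Set X.I) := by
    rw [ht', ← ht]; simp
  simp only [Set.mem_insert_iff, Set.mem_singleton_iff] at h2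
  rcases h2 with h | h | h
  · exact hz.2 h
  · exact hz.1 h
  · exact hzz h

/-- The lines are pairwise independent: no proportionality. -/
theorem l_prop {x y : X.I} (hxy : x ≠ y) {α β : k} (h : α • X.l x = β • X.l y) :
    α = 0 ∧ β = 0 := by
  obtain ⟨z, -, -, hz⟩ := X.exists_third hxy
  have h1 := Fintype.linearIndependent_iff.1 hz ![α, -β, 0] (by
    simp only [Nat.succ_eq_add_one, Nat.reduceAdd, Fin.sum_univ_three, Fin.isValue, Matrix.cons_val_zero, h, Matrix.cons_val_one, neg_smul, add_neg_cancel, Matrix.cons_val, zero_smul, add_zero])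
  have h2 := h1 0
  have h3 := h1 1
  simp at h2 h3
  exact ⟨h2, h3⟩

theorem l_ne_zero0 (x : X.I) : X.l x ≠ 0 := by
  classical
  intro h
  have h1 : 1 < Fintype.card X.I := by
    have := X.four_le_card
    omega
  obtain ⟨y, hy⟩ := Fintype.exists_ne_of_one_lt_card h1 x
  have := (X.l_prop hy.symm (α := 1) (β := 0) (by simp [h])).1
  exact one_ne_zero this

/-- A non-base line has at least two non-zero coordinates. -/
theorem exists_coord {x : X.I} (hx : x ∉ Set.range X.b) (i : Fin 3) :
    ∃ j, j ≠ i ∧ X.l x j ≠ 0 := by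
  by_contra hcon
  push Not at hcon
  have hxb : x ≠ X.b i := fun h => hx ⟨i, h.symm⟩
  have := (X.l_prop hxb (α := 1) (β := X.l x i) (by
    rw [X.l_b i]
    funext j
    by_cases hj : j = i
    · subst hj; simp
    · simp [hj, hcon j hj])).1
  exact one_ne_zero this

/-! ### divisors of diagonal forms -/

theorem pderiv_eq_zero_of_dvd {i j : Fin 2} (hij : i ≠ j) {D : A k} {α β : k}
    (hf : (C α + C β * MvPolynomial.X j ^ 2 : A k) ≠ 0)
    (h1 : D ∣ C α + C β * MvPolynomial.X j ^ 2) : pderiv i D = 0 := by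
  classical
  apply pderiv_eq_zero_of_notMem_vars
  obtain ⟨E, hE⟩ := h1
  have hD : D ≠ 0 := by rintro rfl; rw [zero_mul] at hE; exact hf hE
  have hE0 : E ≠ 0 := by rintro rfl; rw [mul_zero] at hE; exact hf hE
  have h2 : degreeOf i (C α + C β * MvPolynomial.X j ^ 2 : A k) = 0 := by
    apply Nat.eq_zero_of_le_zero
    refine (degreeOf_add_le _ _ _).trans ?_
    rw [degreeOf_C]
    refine max_le le_rfl ((degreeOf_C_mul_le _ _ _).trans ?_)
    refine (degreeOf_pow_le _ _ _).trans ?_
    rw [degreeOf_X_of_ne hij, mul_zero]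
  rw [hE, degreeOf_mul_eq hD hE0] at h2
  rw [mem_vars_iff_degreeOf_ne_zero, not_not]
  omega

theorem dvd_pderiv_of_dvd {i : Fin 2} {D g : A k} (hD : pderiv i D = 0) (h : D ∣ g) :
    D ∣ pderiv i g := by
  obtain ⟨E, rfl⟩ := h
  rw [Derivation.leibniz, hD, smul_zero, add_zero, smul_eq_mul]
  exact Dvd.intro _ rfl

theorem isUnit_of_dvd_diag (h2 : (2 : k) ≠ 0) {i j : Fin 2} (hij : i ≠ j) {D : A k}
    {α β α' γ β' : k} (hf : (C α + C β * MvPolynomial.X j ^ 2 : A k) ≠ 0) (hγ : γ ≠ 0)
    (h1 : D ∣ C α + C β * MvPolynomial.X j ^ 2)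
    (h3 : D ∣ C α' + C γ * MvPolynomial.X i ^ 2 + C β' * MvPolynomial.X j ^ 2) : IsUnit D := by
  have hD := pderiv_eq_zero_of_dvd hij hf h1
  have h4 := dvd_pderiv_of_dvd hD (dvd_pderiv_of_dvd hD h3)
  have h7 : pderiv i (C α' + C γ * MvPolynomial.X i ^ 2 +
      C β' * MvPolynomial.X j ^ 2 : A k) = C (γ * 2) * MvPolynomial.X i := by
    rw [map_add, map_add, pderiv_C, pderiv_C_mul, pderiv_C_mul, pderiv_pow, pderiv_pow,
      pderiv_X_self, pderiv_X_of_ne hij.symm, mul_zero, mul_zero, add_zero, zero_add, mul_one,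
      show (2 - 1 : ℕ) = 1 from rfl, pow_one, map_mul, mul_assoc]
    norm_num [map_ofNat]
  have h5 : pderiv i (pderiv i (C α' + C γ * MvPolynomial.X i ^ 2 +
      C β' * MvPolynomial.X j ^ 2 : A k)) = C (2 * γ) := by
    rw [h7, pderiv_C_mul, pderiv_X_self, mul_one, mul_comm]
  rw [h5] at h4
  exact isUnit_of_dvd_unit h4 (IsUnit.map C (IsUnit.mk0 _ (mul_ne_zero h2 hγ)))

theorem diag_ne_zero {α β : k} {j : Fin 2} (h : α ≠ 0 ∨ β ≠ 0) :
    (C α + C β * MvPolynomial.X j ^ 2 : A k) ≠ 0 := by
  classical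
  intro h0
  have h1 := congrArg (coeff 0) h0
  have h2 := congrArg (coeff (Finsupp.single j 2)) h0
  have h3 : (0 : Fin 2 →₀ ℕ) ≠ Finsupp.single j 2 := by
    intro h
    have := DFunLike.congr_fun h j
    simp at this
  rw [coeff_add, coeff_C_mul, coeff_X_pow, coeff_C, if_neg h3.symm, if_pos rfl, coeff_zero,
    mul_zero, add_zero] at h1
  rw [coeff_add, coeff_C_mul, coeff_X_pow, coeff_C, if_neg h3, if_pos rfl, coeff_zero,
    mul_one, zero_add] at h2
  rcases h with h | h
  · exact h h1
  · exact h h2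

theorem isUnit_of_dvd_q1 {x y : X.I} (hxy : x ≠ y) (hx : X.l x 1 ≠ 0) {D : A k}
    (h1 : D ∣ X.q x) (h2 : D ∣ X.q y) : IsUnit D := by
  have hf : (C (X.l y 1 * X.l x 0 - X.l x 1 * X.l y 0) +
      C (X.l y 1 * X.l x 2 - X.l x 1 * X.l y 2) * MvPolynomial.X 1 ^ 2 : A k) =
      C (X.l y 1) * X.q x - C (X.l x 1) * X.q y := by
    simp only [q, map_sub, map_mul]
    ring
  refine isUnit_of_dvd_diag X.two_ne (i := 0) (j := 1) (by decide) (D := D)
    (α := X.l y 1 * X.l x 0 - X.l x 1 * X.l y 0) (β := X.l y 1 * X.l x 2 - X.l x 1 * X.l y 2)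
    (α' := X.l x 0) (γ := X.l x 1) (β' := X.l x 2) (diag_ne_zero ?_) hx ?_ h1
  · by_contra hcon
    push Not at hcon
    have h3 := (X.l_prop hxy (α := X.l y 1) (β := X.l x 1) (by
      funext i
      fin_cases i
      · simpa only [Fin.isValue, Fin.zero_eta, Pi.smul_apply, smul_eq_mul, sub_eq_zero] using hcon.1
      · simp only [Fin.isValue, Fin.mk_one, Pi.smul_apply, smul_eq_mul, mul_comm]
      · simpa only [Fin.isValue, Fin.reduceFinMk, Pi.smul_apply, smul_eq_mul, sub_eq_zero] using hcon.2)).2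
    exact hx h3
  · rw [hf]
    exact dvd_sub (Dvd.dvd.mul_left h1 _) (Dvd.dvd.mul_left h2 _)

theorem isUnit_of_dvd_q2 {x y : X.I} (hxy : x ≠ y) (hx : X.l x 2 ≠ 0) {D : A k}
    (h1 : D ∣ X.q x) (h2 : D ∣ X.q y) : IsUnit D := by
  have hf : (C (X.l y 2 * X.l x 0 - X.l x 2 * X.l y 0) +
      C (X.l y 2 * X.l x 1 - X.l x 2 * X.l y 1) * MvPolynomial.X 0 ^ 2 : A k) =
      C (X.l y 2) * X.q x - C (X.l x 2) * X.q y := by
    simp only [q, map_sub, map_mul]
    ring
  have hq : (C (X.l x 0) + C (X.l x 2) * MvPolynomial.X 1 ^ 2 +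
      C (X.l x 1) * MvPolynomial.X 0 ^ 2 : A k) = X.q x := by
    simp only [q]
    ring
  refine isUnit_of_dvd_diag X.two_ne (i := 1) (j := 0) (by decide) (D := D)
    (α := X.l y 2 * X.l x 0 - X.l x 2 * X.l y 0) (β := X.l y 2 * X.l x 1 - X.l x 2 * X.l y 1)
    (α' := X.l x 0) (γ := X.l x 2) (β' := X.l x 1) (diag_ne_zero ?_) hx ?_ (by rwa [hq])
  · by_contra hcon
    push Not at hcon
    have h3 := (X.l_prop hxy (α := X.l y 2) (β := X.l x 2) (by
      funext i
      fin_cases i
      · simpa only [Fin.isValue, Fin.zero_eta, Pi.smul_apply, smul_eq_mul, sub_eq_zero] using hcon.1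
      · simpa only [Fin.isValue, Fin.mk_one, Pi.smul_apply, smul_eq_mul, sub_eq_zero] using hcon.2
      · simp [mul_comm])).2
    exact hx h3
  · rw [hf]
    exact dvd_sub (Dvd.dvd.mul_left h1 _) (Dvd.dvd.mul_left h2 _)

theorem isRelPrime_q {x y : X.I} (hxy : x ≠ y) : IsRelPrime (X.q x) (X.q y) := by
  intro D h1 h2
  by_cases hx1 : X.l x 1 = 0
  swap
  · exact X.isUnit_of_dvd_q1 hxy hx1 h1 h2
  by_cases hy1 : X.l y 1 = 0
  swap
  · exact X.isUnit_of_dvd_q1 hxy.symm hy1 h2 h1
  by_cases hx2 : X.l x 2 = 0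
  swap
  · exact X.isUnit_of_dvd_q2 hxy hx2 h1 h2
  by_cases hy2 : X.l y 2 = 0
  swap
  · exact X.isUnit_of_dvd_q2 hxy.symm hy2 h2 h1
  exfalso
  have h3 := (X.l_prop hxy (α := X.l y 0) (β := X.l x 0) (by
    funext i
    fin_cases i
    · simp [mul_comm]
    · simp [hx1, hy1]
    · simp [hx2, hy2])).2
  apply X.l_ne_zero0 x
  funext i
  fin_cases i
  · exact h3
  · exact hx1
  · exact hx2

theorem coeff_q0 (x : X.I) : coeff 0 (X.q x) = X.l x 0 := by
  simp [q, coeff_C_mul, coeff_X_pow]

theorem coeff_q1 (x : X.I) : coeff (Finsupp.single 0 2) (X.q x) = X.l x 1 := by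
  classical
  have h3 : (0 : Fin 2 →₀ ℕ) ≠ Finsupp.single 0 2 := by
    intro h
    have := DFunLike.congr_fun h 0
    simp at this
  have h4 : (Finsupp.single 1 2 : Fin 2 →₀ ℕ) ≠ Finsupp.single 0 2 := by
    intro h
    have := DFunLike.congr_fun h 0
    simp at this
  simp [q, coeff_C_mul, coeff_X_pow, coeff_C, h3, h4]

theorem coeff_q2 (x : X.I) : coeff (Finsupp.single 1 2) (X.q x) = X.l x 2 := by
  classical
  have h3 : (0 : Fin 2 →₀ ℕ) ≠ Finsupp.single 1 2 := by
    intro h
    have := DFunLike.congr_fun h 1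
    simp only [Fin.isValue, Finsupp.coe_zero, Pi.zero_apply, Finsupp.single_eq_same, OfNat.zero_ne_ofNat] at this
  have h4 : (Finsupp.single 0 2 : Fin 2 →₀ ℕ) ≠ Finsupp.single 1 2 := by
    intro h
    have := DFunLike.congr_fun h 0
    simp at this
  simp [q, coeff_C_mul, coeff_X_pow, coeff_C, h3, h4]

theorem q_ne_zero0 (x : X.I) : X.q x ≠ 0 := by
  intro h0
  apply X.l_ne_zero0 x
  funext i
  fin_cases i
  · change X.l x 0 = 0
    rw [← X.coeff_q0, h0, coeff_zero]
  · change X.l x 1 = 0
    rw [← X.coeff_q1, h0, coeff_zero]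
  · change X.l x 2 = 0
    rw [← X.coeff_q2, h0, coeff_zero]

theorem pderiv_q0 (x : X.I) :
    pderiv 0 (X.q x) = C (2 * X.l x 1) * MvPolynomial.X 0 := by
  rw [q, map_add, map_add, pderiv_C, pderiv_C_mul, pderiv_C_mul, pderiv_pow, pderiv_pow,
    pderiv_X_self, pderiv_X_of_ne (by decide), mul_zero, mul_zero, add_zero, zero_add, mul_one,
    show (2 - 1 : ℕ) = 1 from rfl, pow_one, map_mul]
  norm_num [map_ofNat]
  ring

theorem pderiv_q1 (x : X.I) :
    pderiv 1 (X.q x) = C (2 * X.l x 2) * MvPolynomial.X 1 := by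
  rw [q, map_add, map_add, pderiv_C, pderiv_C_mul, pderiv_C_mul, pderiv_pow, pderiv_pow,
    pderiv_X_self, pderiv_X_of_ne (by decide), mul_zero, mul_zero, zero_add, zero_add, mul_one,
    show (2 - 1 : ℕ) = 1 from rfl, pow_one, map_mul]
  norm_num [map_ofNat]
  ring

/-- `q_j` is not a unit times a square, for `j` a non-base line. -/
theorem q_not_square {x : X.I} (hx : x ∉ Set.range X.b) (d : A k) :
    ¬ Associated (d ^ 2) (X.q x) := by
  rintro ⟨u, hu⟩
  have hdq : d ∣ X.q x := ⟨d * u, by rw [← hu]; ring⟩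
  have hdp : ∀ i, d ∣ pderiv i (X.q x) := by
    intro i
    rw [← hu, pderiv_mul, pderiv_pow]
    refine dvd_add ?_ ?_
    · refine Dvd.dvd.mul_right (Dvd.dvd.mul_right ?_ _) _
      rw [show (2 - 1 : ℕ) = 1 from rfl, pow_one]
      exact Dvd.intro_left _ rfl
    · refine Dvd.dvd.mul_right ?_ _
      rw [pow_two]
      exact Dvd.intro _ rfl
  have h0 := hdp 0
  have h1 := hdp 1
  rw [pderiv_q0] at h0
  rw [pderiv_q1] at h1
  have hC : ∀ {c : k}, c ≠ 0 → IsUnit (C c : A k) := fun hc => IsUnit.map C (IsUnit.mk0 _ hc)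
  have hunit : IsUnit d := by
    by_cases hl0 : X.l x 0 = 0
    · obtain ⟨j, hj, hlj⟩ := X.exists_coord hx 1
      obtain ⟨j', hj', hlj'⟩ := X.exists_coord hx 2
      have hl2 : X.l x 2 ≠ 0 := by
        fin_cases j
        · exact absurd hl0 hlj
        · exact absurd rfl hj
        · exact hlj
      have hl1 : X.l x 1 ≠ 0 := by
        fin_cases j'
        · exact absurd hl0 hlj'
        · exact hlj'
        · exact absurd rfl hj'
      rw [(hC (mul_ne_zero X.two_ne hl1)).dvd_mul_left] at h0
      rw [(hC (mul_ne_zero X.two_ne hl2)).dvd_mul_left] at h1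
      have hirr : Irreducible (MvPolynomial.X 0 : A k) := X_prime.irreducible
      rcases hirr.dvd_iff.1 h0 with h | h
      · exact h
      · exfalso
        have h3 : (MvPolynomial.X 0 : A k) ∣ MvPolynomial.X 1 := h.dvd.trans h1
        rw [X_dvd_X] at h3
        exact absurd h3 (by decide)
    · have h2 : d ∣ C (X.l x 0) := by
        have h3 : (C (X.l x 0) : A k) = X.q x -
            (C (1 / 2) * MvPolynomial.X 0) * (C (2 * X.l x 1) * MvPolynomial.X 0) -
            (C (1 / 2) * MvPolynomial.X 1) * (C (2 * X.l x 2) * MvPolynomial.X 1) := by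
          have h5 : (C (1 / 2) * C 2 : A k) = 1 := by
            rw [← map_mul, one_div, inv_mul_cancel₀ X.two_ne, map_one]
          simp only [q, map_mul]
          linear_combination ((C (X.l x 1) * MvPolynomial.X 0 ^ 2) +
            C (X.l x 2) * MvPolynomial.X 1 ^ 2) * h5
        rw [h3]
        exact dvd_sub (dvd_sub hdq (Dvd.dvd.mul_left h0 _)) (Dvd.dvd.mul_left h1 _)
      exact isUnit_of_dvd_unit h2 (hC hl0)
  have hqu : IsUnit (X.q x) := by
    rw [← hu]
    exact (hunit.pow 2).mul u.isUnit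
  obtain ⟨c, hc, hqc⟩ := isUnit_iff_eq_C_of_isReduced.1 hqu
  obtain ⟨j, hj, hlj⟩ := X.exists_coord hx 0
  apply hlj
  fin_cases j
  · exact absurd rfl hj
  · change X.l x 1 = 0
    rw [← X.coeff_q1, hqc, coeff_C, if_neg]
    intro h
    have := DFunLike.congr_fun h 0
    simp at this
  · change X.l x 2 = 0
    rw [← X.coeff_q2, hqc, coeff_C, if_neg]
    intro h
    have := DFunLike.congr_fun h 1
    simp only [Fin.isValue, Finsupp.coe_zero, Pi.zero_apply, Finsupp.single_eq_same, OfNat.zero_ne_ofNat] at this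

/-- No product of a non-empty set of `q_j`, `j ∈ J`, is a square in `k[y,z]`. -/
theorem prod_q_ne_sq (s : Finset X.J) (hs : s.Nonempty) (c : A k) :
    ∏ j ∈ s, X.q j.1 ≠ c ^ 2 := by
  classical
  intro h
  obtain ⟨j, hj⟩ := hs
  rw [← Finset.mul_prod_erase s _ hj] at h
  have hrel : IsRelPrime (X.q j.1) (∏ i ∈ s.erase j, X.q i.1) := by
    refine IsRelPrime.prod_right fun i hi => X.isRelPrime_q fun hij => ?_
    exact (Finset.mem_erase.1 hi).1 (Subtype.ext hij.symm)
  let _ : GCDMonoid (A k) := UniqueFactorizationMonoid.toGCDMonoid (A k)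
  obtain ⟨d, hd⟩ := exists_associated_pow_of_mul_eq_pow (gcd_isUnit_iff_isRelPrime.2 hrel) h
  exact X.q_not_square j.2 d hd

/-- No product of a non-empty set of `q_j`, `j ∈ J`, is a square in `k(y,z)`. -/
theorem prod_q_not_isSquare (s : Finset X.J) (hs : s.Nonempty) :
    ¬ IsSquare (∏ j ∈ s, algebraMap (A k) (KK k) (X.q j.1)) := by
  rintro ⟨r, hr⟩
  have h1 : IsIntegral (A k) (r ^ 2) := by
    rw [pow_two, ← hr, ← map_prod]
    exact isIntegral_algebraMap
  obtain ⟨c, rfl⟩ := IsIntegrallyClosed.exists_algebraMap_eq_of_isIntegral_pow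
    (by norm_num : 0 < 2) h1
  rw [← map_prod, ← map_mul, ← pow_two] at hr
  exact X.prod_q_ne_sq s hs c (IsFractionRing.injective (A k) (KK k) hr)

end Arr


namespace Arr

variable {k : Type} [Field k] (X : Arr k)

/-- the projection to `L` -/
noncomputable def mkL : MvPolynomial X.J (KK k) →ₐ[KK k] X.L :=
  (Ideal.Quotient.mkₐ (KK k) X.idl :
    MvPolynomial X.J (KK k) →ₐ[KK k] (MvPolynomial X.J (KK k) ⧸ X.idl))

theorem mkL_surjective : Function.Surjective X.mkL :=
  Ideal.Quotient.mkₐ_surjective (KK k) X.idl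

theorem σ_J (j : X.J) : X.σ j.1 = X.mkL (MvPolynomial.X j) := dif_pos j.2

theorem mkL_X (j : X.J) : X.mkL (MvPolynomial.X j) = X.σ j.1 := (X.σ_J j).symm

theorem σ_J_sq (j : X.J) :
    X.σ j.1 ^ 2 = algebraMap (KK k) X.L (algebraMap (A k) (KK k) (X.q j.1)) := by
  rw [← mkL_X, ← map_pow, ← AlgHom.commutes X.mkL, MvPolynomial.algebraMap_eq, ← sub_eq_zero,
    ← map_sub]
  have h : (MvPolynomial.X j ^ 2 - C (algebraMap (A k) (KK k) (X.q j.1)) :
      MvPolynomial X.J (KK k)) ∈ X.idl := Ideal.subset_span ⟨j, rfl⟩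
  exact Ideal.Quotient.eq_zero_iff_mem.2 h

theorem span_prod : Submodule.span (KK k)
    (Set.range fun s : Finset X.J => ∏ j ∈ s, X.σ j.1) = ⊤ := by
  classical
  set W := Submodule.span (KK k) (Set.range fun s : Finset X.J => ∏ j ∈ s, X.σ j.1) with hW
  have hmul : ∀ (j : X.J) (f : X.L), f ∈ W → f * X.σ j.1 ∈ W := by
    intro j f hf
    induction hf using Submodule.span_induction with
    | mem f hf =>
      obtain ⟨s, rfl⟩ := hf
      by_cases hj : j ∈ s
      · have h1 : (∏ i ∈ s, X.σ i.1) * X.σ j.1 =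
            algebraMap (A k) (KK k) (X.q j.1) • ∏ i ∈ s.erase j, X.σ i.1 := by
          rw [← Finset.prod_erase_mul s _ hj, Algebra.smul_def, ← σ_J_sq]
          ring
        simp only
        rw [h1]
        exact W.smul_mem _ (Submodule.subset_span ⟨_, rfl⟩)
      · have h1 : (∏ i ∈ s, X.σ i.1) * X.σ j.1 = ∏ i ∈ insert j s, X.σ i.1 := by
          rw [Finset.prod_insert hj, mul_comm]
        simp only
        rw [h1]
        exact Submodule.subset_span ⟨_, rfl⟩
    | zero => rw [zero_mul]; exact W.zero_mem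
    | add f g _ _ hf hg => rw [add_mul]; exact W.add_mem hf hg
    | smul c f _ hf => rw [smul_mul_assoc]; exact W.smul_mem _ hf
  rw [eq_top_iff]
  rintro f -
  obtain ⟨p, rfl⟩ := X.mkL_surjective f
  induction p using MvPolynomial.induction_on with
  | C a =>
    have h1 : X.mkL (C a) = a • ∏ i ∈ (∅ : Finset X.J), X.σ i.1 := by
      rw [Finset.prod_empty, ← Algebra.algebraMap_eq_smul_one, ← MvPolynomial.algebraMap_eq]
      exact AlgHom.commutes X.mkL a
    rw [h1]
    exact W.smul_mem _ (Submodule.subset_span ⟨_, rfl⟩)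
  | add p q hp hq => rw [map_add]; exact W.add_mem hp hq
  | mul_X p j hp => rw [map_mul, mkL_X]; exact hmul j _ hp

theorem finite_L : Module.Finite (KK k) X.L := by
  classical
  refine ⟨⟨(Finset.univ : Finset (Finset X.J)).image fun s => ∏ j ∈ s, X.σ j.1, ?_⟩⟩
  rw [Finset.coe_image, Finset.coe_univ, Set.image_univ]
  exact X.span_prod

/-- The separable closure of `k(y,z)`. -/
abbrev Om (k : Type) [Field k] := SeparableClosure (KK k)

theorem two_ne_KK (h2 : (2 : k) ≠ 0) : (2 : KK k) ≠ 0 := by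
  intro h
  apply h2
  apply FaithfulSMul.algebraMap_injective k (KK k)
  rw [map_ofNat, map_zero, h]

theorem exists_root (x : X.I) : ∃ r : Om k, r ^ 2 =
    algebraMap (KK k) (Om k) (algebraMap (A k) (KK k) (X.q x)) := by
  have h2 : NeZero ((2 : ℕ) : Om k) := by
    refine ⟨?_⟩
    intro h
    apply two_ne_KK X.two_ne
    apply (algebraMap (KK k) (Om k)).injective
    rw [map_ofNat, map_zero]
    exact_mod_cast h
  exact IsSepClosed.exists_pow_nat_eq _ 2

/-- chosen square roots -/
noncomputable def rt (x : X.I) : Om k := (X.exists_root x).choose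

theorem rt_sq (x : X.I) : X.rt x ^ 2 =
    algebraMap (KK k) (Om k) (algebraMap (A k) (KK k) (X.q x)) := (X.exists_root x).choose_spec

/-- the embedding of `L` in the separable closure -/
noncomputable def emb : X.L →ₐ[KK k] Om k :=
  (Ideal.Quotient.liftₐ X.idl (aeval fun j : X.J => X.rt j.1) (by
    intro a ha
    have h : X.idl ≤ RingHom.ker (aeval (fun j : X.J => X.rt j.1) :
        MvPolynomial X.J (KK k) →ₐ[KK k] Om k).toRingHom := by
      rw [idl, Ideal.span_le]
      rintro _ ⟨j, rfl⟩
      simp [RingHom.mem_ker, rt_sq]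
    exact h ha) : (MvPolynomial X.J (KK k) ⧸ X.idl) →ₐ[KK k] Om k)

theorem emb_σ (j : X.J) : X.emb (X.σ j.1) = X.rt j.1 := by
  rw [← mkL_X]
  have h : X.emb (X.mkL (MvPolynomial.X j)) =
      aeval (fun j : X.J => X.rt j.1) (MvPolynomial.X j : MvPolynomial X.J (KK k)) := rfl
  rw [h, aeval_X]

theorem indep_rt : LinearIndependent (KK k) (fun s : Finset X.J => ∏ j ∈ s, X.rt j.1) := by
  classical
  exact kummer_indep (fun j : X.J => algebraMap (A k) (KK k) (X.q j.1)) (two_ne_KK X.two_ne)
    (fun s hs => X.prod_q_not_isSquare s hs) (fun j => X.rt j.1) (fun j => X.rt_sq j.1)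

theorem indep_prod : LinearIndependent (KK k) (fun s : Finset X.J => ∏ j ∈ s, X.σ j.1) := by
  apply LinearIndependent.of_comp X.emb.toLinearMap
  have h : (X.emb.toLinearMap ∘ fun s : Finset X.J => ∏ j ∈ s, X.σ j.1) =
      fun s : Finset X.J => ∏ j ∈ s, X.rt j.1 := by
    funext s
    simp only [AlgHom.coe_toLinearMap, Function.comp_apply, map_prod, emb_σ]
  rw [h]
  exact X.indep_rt

theorem emb_injective : Function.Injective X.emb := by
  rw [injective_iff_map_eq_zero]
  intro f hf
  have h1 : f ∈ Submodule.span (KK k) (Set.range fun s : Finset X.J => ∏ j ∈ s, X.σ j.1) := by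
    rw [X.span_prod]; trivial
  obtain ⟨c, rfl⟩ := (Submodule.mem_span_range_iff_exists_fun (KK k)).1 h1
  rw [map_sum] at hf
  have h2 : ∑ s : Finset X.J, c s • ∏ j ∈ s, X.rt j.1 = 0 := by
    rw [← hf]
    refine Finset.sum_congr rfl fun s _ => ?_
    rw [map_smul, map_prod]
    simp only [emb_σ]
  have h3 := Fintype.linearIndependent_iff.1 X.indep_rt c h2
  exact Finset.sum_eq_zero fun s _ => by rw [h3 s, zero_smul]

theorem isField_L' : IsField X.L := by
  have h1 : IsDomain X.L := X.emb_injective.isDomain X.emb.toRingHom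
  have h2 : Module.Finite (KK k) X.L := X.finite_L
  exact isField_of_isIntegral_of_isField' (Field.toIsField (KK k))

end Arr

end Vale.Agent.P190.D
end
end
namespace AFast261860x2991a
@[reducible] noncomputable def a0 {x1 : Type} [x2 : Field x1] : Semiring (Vale.Agent.P190.D.Arr.Om x1) := inferInstance
@[reducible] noncomputable def a1 {x1 : Type} [x2 : Field x1] : NonAssocSemiring (Vale.Agent.P190.D.Arr.Om x1) := inferInstance
@[reducible] noncomputable def a2 {x1 : Type} [x2 : Field x1] : NPow (Vale.Agent.P190.D.Arr.Om x1) := inferInstance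
@[reducible] noncomputable def a3 {x1 : Type} [x2 : Field x1] : Monoid (Vale.Agent.P190.D.Arr.Om x1) := inferInstance
end AFast261860x2991a
attribute [local instance] AFast261860x2991a.a0 AFast261860x2991a.a1 AFast261860x2991a.a2
  AFast261860x2991a.a3
namespace AFast261860x2991b
@[reducible] noncomputable def a0 {x1 : Type} [x2 : Field x1] : Module (Vale.Agent.P190.D.KK x1) (Vale.Agent.P190.D.Arr.Om x1) := inferInstance
end AFast261860x2991b
attribute [local instance] AFast261860x2991b.a0

section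

section

set_option autoImplicit false
set_option linter.unusedSectionVars false

open MvPolynomial Filter

namespace Vale.Agent.P190.D

namespace Arr

variable {k : Type} [Field k] (X : Arr k)

/-- FACT 2.1 -/
theorem isField_L : IsField X.L := X.isField_L'

noncomputable instance : Field X.L := IsField.toField X.isField_L

/-- the monomials `σ^S`, `S ⊂ J` -/
noncomputable def mon (s : Finset X.J) : X.L := ∏ j ∈ s, X.σ j.1

theorem mon_linearIndependent : LinearIndependent (KK k) X.mon := X.indep_prod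

theorem mon_span : Submodule.span (KK k) (Set.range X.mon) = ⊤ := X.span_prod

theorem σ_base0 : X.σ (X.b 0) = 1 := by
  have h1 : X.b 0 ≠ X.b 1 := fun h => absurd (X.b_inj h) (by decide)
  have h2 : X.b 0 ≠ X.b 2 := fun h => absurd (X.b_inj h) (by decide)
  simp [σ, h1, h2]

theorem σ_base1 : X.σ (X.b 1) = algebraMap (A k) X.L (MvPolynomial.X 0) := by
  simp [σ]

theorem σ_base2 : X.σ (X.b 2) = algebraMap (A k) X.L (MvPolynomial.X 1) := by
  have h1 : X.b 2 ≠ X.b 1 := fun h => absurd (X.b_inj h) (by decide)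
  simp [σ, h1]

theorem σ_sq (x : X.I) : X.σ x ^ 2 = algebraMap (A k) X.L (X.q x) := by
  by_cases hx : x ∈ Set.range X.b
  · obtain ⟨i, rfl⟩ := hx
    fin_cases i
    · change X.σ (X.b 0) ^ 2 = algebraMap (A k) X.L (X.q (X.b 0))
      simp [σ_base0, q, X.l_b]
    · change X.σ (X.b 1) ^ 2 = algebraMap (A k) X.L (X.q (X.b 1))
      simp only [Fin.isValue, σ_base1, q, X.l_b, ne_eq, zero_ne_one, not_false_eq_true, Pi.single_eq_of_ne, C_0, Pi.single_eq_same, C_1, one_mul, zero_add, Fin.reduceEq, zero_mul, add_zero, map_pow]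
    · change X.σ (X.b 2) ^ 2 = algebraMap (A k) X.L (X.q (X.b 2))
      simp only [Fin.isValue, σ_base2, q, X.l_b, ne_eq, Fin.reduceEq, not_false_eq_true, Pi.single_eq_of_ne, C_0, zero_mul, add_zero, Pi.single_eq_same, C_1, one_mul, zero_add, map_pow]
  · exact X.σ_J_sq ⟨x, hx⟩

end Arr

section TLat

variable {k : Type} [Field k] {X : Arr k} {V : Type} [AddCommGroup V] [Module k V]
  [Module (A k) V] [Module X.L V]

/-- `(V, Γ)` is a T-space -/
def IsTSp (Γ : V →ₗ[X.L] V) : Prop := ∀ v, Γ (Γ v) = X.PI • v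

/-- the operator `Γ_ε` -/
noncomputable def gam (Γ : V →ₗ[X.L] V) (ε : X.S → Bool) (v : V) : V :=
  (X.pie ε / X.PI) • Γ v

/-- T-lattice in the T-space `(V, Γ)`. -/
structure IsTLat (Γ : V →ₗ[X.L] V) (E : ℤ → Submodule k V) : Prop extends IsBLat E where
  sig_mem : ∀ (x : X.I) {n : ℤ} {v : V}, v ∈ E n → X.σ x • v ∈ E (n + 1)
  gam_mem : ∀ (ε : X.S → Bool) {n : ℤ} {v : V}, v ∈ E n → gam Γ ε v ∈ E (n + X.w)

/-- T-subspace -/
def IsTSub (Γ : V →ₗ[X.L] V) (U : Submodule X.L V) : Prop := ∀ v ∈ U, Γ v ∈ U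

variable [IsScalarTower k X.L V]

/-- the sublattice `E ∩ U` (inside `V`) -/
noncomputable def subLat (E : ℤ → Submodule k V) (U : Submodule X.L V) : ℤ → Submodule k V :=
  fun n => E n ⊓ U.restrictScalars k

/-- the quotient lattice `E/(E ∩ U)` in `V/U` -/
noncomputable def quoLat (E : ℤ → Submodule k V) (U : Submodule X.L V) : ℤ → Submodule k (V ⧸ U) :=
  fun n => (E n).map (U.mkQ.restrictScalars k)

/-- semistability -/
def Semistable (Γ : V →ₗ[X.L] V) (E : ℤ → Submodule k V) : Prop :=
  ∀ U : Submodule X.L V, IsTSub Γ U → ∀ N e g w f g' : ℤ, HasHilb E N e g →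
    HasHilb (subLat E U) w f g' → f * N ≤ e * w

end TLat

end Vale.Agent.P190.D
end
end

section

section

/-! Section 2, file C2: the ring `T₀`. -/

set_option autoImplicit false
set_option linter.unusedSectionVars false

open MvPolynomial Filter

namespace Vale.Agent.P190.D

namespace Arr

variable {k : Type} [Field k] (X : Arr k)

/-! ### auxiliary facts on the arrangement -/

/-- two different lines are independent -/
theorem pair_indep {x y : X.I} (h : x ≠ y) (c d : k) (hcd : c • X.l x + d • X.l y = 0) :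
    c = 0 ∧ d = 0 := by
  classical
  -- a third line `z` such that `x, y, z` is not a triple
  have key : ∃ z, x ≠ z ∧ y ≠ z ∧ ¬ ∃ t, ({x, y, z} : Set X.I) = {X.v t, X.h t, X.d t} := by
    by_contra hno
    push Not at hno
    -- all the third lines coincide
    have huniq : ∀ z z', x ≠ z → y ≠ z → x ≠ z' → y ≠ z' → z = z' := by
      intro z z' h1 h2 h3 h4
      obtain ⟨t, ht⟩ := hno z h1 h2
      obtain ⟨t', ht'⟩ := hno z' h3 h4
      have hx : x ∈ ({X.v t, X.h t, X.d t} : Set X.I) := by rw [← ht]; simp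
      have hy : y ∈ ({X.v t, X.h t, X.d t} : Set X.I) := by rw [← ht]; simp
      have hx' : x ∈ ({X.v t', X.h t', X.d t'} : Set X.I) := by rw [← ht']; simp
      have hy' : y ∈ ({X.v t', X.h t', X.d t'} : Set X.I) := by rw [← ht']; simp
      have htt := X.share t t' x y h hx hy hx' hy'
      subst htt
      have hz : z ∈ ({x, y, z'} : Set X.I) := by rw [ht', ← ht]; simp
      simp only [Set.mem_insert_iff, Set.mem_singleton_iff] at hz
      rcases hz with hz | hz | hz
      exacts [absurd hz.symm h1, absurd hz.symm h2, hz]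
    -- there is a base line different from `x`, `y`
    have hz : ∃ i, x ≠ X.b i ∧ y ≠ X.b i := by
      by_contra hcon
      push Not at hcon
      have h0 := hcon 0
      have h1 := hcon 1
      have h2 := hcon 2
      have n01 : X.b 0 ≠ X.b 1 := fun e => absurd (X.b_inj e) (by decide)
      have n02 : X.b 0 ≠ X.b 2 := fun e => absurd (X.b_inj e) (by decide)
      have n12 : X.b 1 ≠ X.b 2 := fun e => absurd (X.b_inj e) (by decide)
      by_cases e0 : x = X.b 0
      · have e1 : y = X.b 1 := h1 (by rw [e0]; exact n01)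
        have e2 : y = X.b 2 := h2 (by rw [e0]; exact n02)
        exact n12 (e1.symm.trans e2)
      · have e0' : y = X.b 0 := h0 e0
        by_cases e1 : x = X.b 1
        · have e2 : y = X.b 2 := h2 (by rw [e1]; exact n12)
          exact n02 (e0'.symm.trans e2)
        · have e1' : y = X.b 1 := h1 e1
          exact n01 (e0'.symm.trans e1')
    obtain ⟨i, hxi, hyi⟩ := hz
    obtain ⟨t, ht⟩ := hno _ hxi hyi
    -- every line is one of `x, y, b i`
    have hall : ∀ z, z ∈ ({X.v t, X.h t, X.d t} : Set X.I) := by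
      intro z
      rw [← ht]
      by_cases e1 : x = z
      · simp [e1]
      by_cases e2 : y = z
      · simp [e2]
      rw [huniq z (X.b i) e1 e2 hxi hyi]
      simp
    -- so `v t, h t, d t` are base lines
    have hbase : ∀ z, ∃ j, X.b j = z := by
      have hinj : Function.Injective
          (fun j : Fin 3 => (⟨X.b j, hall _⟩ : ({X.v t, X.h t, X.d t} : Set X.I))) := by
        intro j j' hj
        exact X.b_inj (congrArg Subtype.val hj)
      have hcard : Fintype.card ({X.v t, X.h t, X.d t} : Set X.I) = 3 := by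
        rw [← Set.toFinset_card]
        simp only [Set.toFinset_insert, Set.toFinset_singleton]
        rw [Finset.card_eq_three]
        exact ⟨_, _, _, X.vh t, X.vd t, X.hd t, rfl⟩
      have hbij := (Fintype.bijective_iff_injective_and_card _).2 ⟨hinj, by rw [hcard, Fintype.card_fin]⟩
      intro z
      obtain ⟨j, hj⟩ := hbij.2 ⟨z, hall z⟩
      exact ⟨j, congrArg Subtype.val hj⟩
    obtain ⟨jv, hjv⟩ := hbase (X.v t)
    obtain ⟨jh, hjh⟩ := hbase (X.h t)
    obtain ⟨jd, hjd⟩ := hbase (X.d t)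
    have hr := congrFun (X.rel t) jd
    have hdh : jd ≠ jh := by
      rintro rfl
      exact X.hd t (hjh.symm.trans hjd)
    have hdv : jd ≠ jv := by
      rintro rfl
      exact X.vd t (hjv.symm.trans hjd)
    rw [← hjv, ← hjh, ← hjd] at hr
    simp only [Pi.sub_apply, Pi.smul_apply, X.l_b, Pi.single_eq_same, smul_eq_mul, mul_one] at hr
    rw [Pi.single_eq_of_ne hdh, Pi.single_eq_of_ne hdv] at hr
    simp only [mul_zero, sub_zero] at hr
    exact X.δ_ne t (pow_eq_zero_iff (two_ne_zero) |>.1 hr)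
  obtain ⟨z, hxz, hyz, hnt⟩ := key
  have hli := (X.indep x y z h hxz hyz).resolve_right hnt
  rw [Fintype.linearIndependent_iff] at hli
  have := hli ![c, d, 0] (by simpa only [Nat.succ_eq_add_one, Nat.reduceAdd, Fin.sum_univ_three, Fin.isValue, Matrix.cons_val_zero,     Matrix.cons_val_one, Matrix.cons_val, zero_smul, add_zero] using hcd)
  exact ⟨this 0, this 1⟩

theorem exists_ne_line (x : X.I) : ∃ y, x ≠ y := by
  by_cases e : x = X.b 0
  · exact ⟨X.b 1, fun h => absurd (X.b_inj (e.symm.trans h)) (by decide)⟩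
  · exact ⟨_, e⟩

theorem l_ne_zero (x : X.I) : X.l x ≠ 0 := by
  intro h
  obtain ⟨y, hy⟩ := X.exists_ne_line x
  have := (X.pair_indep hy 1 0 (by simp only [h, smul_zero, zero_smul, add_zero])).1
  exact one_ne_zero this

/-! ### the forms `q_x` -/

theorem q_eq (x : X.I) : X.q x = C (X.l x 0) + C (X.l x 1) * MvPolynomial.X 0 ^ 2 +
    C (X.l x 2) * MvPolynomial.X 1 ^ 2 := rfl

theorem coeff_q (x : X.I) : coeff 0 (X.q x) = X.l x 0 ∧
    coeff (Finsupp.single 0 2) (X.q x) = X.l x 1 ∧
    coeff (Finsupp.single 1 2) (X.q x) = X.l x 2 := by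
  classical
  have h0 : (Finsupp.single (0 : Fin 2) 2) ≠ 0 := by simp
  have h1 : (Finsupp.single (1 : Fin 2) 2) ≠ 0 := by simp
  have h01 : (Finsupp.single (0 : Fin 2) 2) ≠ Finsupp.single 1 2 := by
    intro h
    have := DFunLike.congr_fun h 0
    simp at this
  refine ⟨?_, ?_, ?_⟩
  · simp [q_eq, coeff_C_mul, coeff_X_pow, h0, h1]
  · simp [q_eq, coeff_C_mul, coeff_X_pow, h0.symm, h01.symm, coeff_C]
  · simp only [Fin.isValue, q_eq, coeff_add, coeff_C, h1.symm, ↓reduceIte, coeff_C_mul, coeff_X_pow, h01, mul_zero, add_zero, mul_one, zero_add]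

theorem totalDegree_q_le (x : X.I) : (X.q x).totalDegree ≤ 2 := by
  rw [q_eq]
  refine (totalDegree_add _ _).trans (max_le ((totalDegree_add _ _).trans (max_le ?_ ?_)) ?_)
  · simp
  · refine (totalDegree_mul _ _).trans ?_
    simp
  · refine (totalDegree_mul _ _).trans ?_
    simp

theorem totalDegree_q {x : X.I} (h : X.l x 1 ≠ 0 ∨ X.l x 2 ≠ 0) : (X.q x).totalDegree = 2 := by
  refine le_antisymm (X.totalDegree_q_le x) ?_
  obtain ⟨_, h1, h2⟩ := X.coeff_q x
  rcases h with h | h
  · have : Finsupp.single (0 : Fin 2) 2 ∈ (X.q x).support := by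
      rw [mem_support_iff, h1]
      exact h
    have := le_totalDegree this
    simpa only [ge_iff_le, Fin.isValue, Finsupp.sum_single_index] using this
  · have : Finsupp.single (1 : Fin 2) 2 ∈ (X.q x).support := by
      rw [mem_support_iff, h2]
      exact h
    have := le_totalDegree this
    simpa only [ge_iff_le, Fin.isValue, Finsupp.sum_single_index] using this

theorem q_ne_zero (x : X.I) : X.q x ≠ 0 := by
  intro h
  obtain ⟨h0, h1, h2⟩ := X.coeff_q x
  apply X.l_ne_zero x
  funext i
  fin_cases i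
  · simpa [h] using h0.symm
  · simpa [h] using h1.symm
  · simpa [h] using h2.symm

theorem eq_C_of_dvd {π f g : A k} (hf : π ∣ f) (hg : π ∣ g) (hf0 : f ≠ 0) (hg0 : g ≠ 0)
    (h0 : f.degreeOf 0 = 0) (h1 : g.degreeOf 1 = 0) : ∃ c, π = C c := by
  obtain ⟨u, rfl⟩ := hf
  obtain ⟨v, rfl⟩ := hg
  have hπ : π ≠ 0 := left_ne_zero_of_mul hf0
  rw [degreeOf_mul_eq hπ (right_ne_zero_of_mul hf0)] at h0
  rw [degreeOf_mul_eq hπ (right_ne_zero_of_mul hg0)] at h1
  refine ⟨_, vars_eq_empty_iff_eq_C.1 ?_⟩
  rw [Finset.eq_empty_iff_forall_notMem]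
  intro i hi
  rw [mem_vars_iff_degreeOf_ne_zero] at hi
  fin_cases i
  · exact hi (by simp only [Fin.zero_eta]; omega)
  · exact hi (by simp only [Fin.mk_one]; omega)

theorem aux_quad {i j : Fin 2} (hij : j ≠ i) (c d : k) (hc : c ≠ 0) :
    (C c * MvPolynomial.X i ^ 2 - C d : A k) ≠ 0 ∧
      (C c * MvPolynomial.X i ^ 2 - C d : A k).degreeOf j = 0 := by
  classical
  constructor
  · intro h0
    have := congrArg (coeff (Finsupp.single i 2)) h0
    have hs : (Finsupp.single i 2) ≠ 0 := by simp
    simp [coeff_C_mul, coeff_X_pow, coeff_C, hs.symm] at this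
    exact hc this
  · refine Nat.le_zero.1 ((degreeOf_sub_le _ _ _).trans (max_le ?_ (by simp)))
    refine (degreeOf_mul_le _ _ _).trans ?_
    refine (add_le_add le_rfl (degreeOf_pow_le _ _ _)).trans ?_
    rw [degreeOf_X_of_ne hij]
    simp

theorem not_dvd_both {x y : X.I} (h : x ≠ y) (π : A k) (hπ : Irreducible π) :
    ¬ (π ∣ X.q x ∧ π ∣ X.q y) := by
  rintro ⟨hx, hy⟩
  set a0 := X.l x 0
  set a1 := X.l x 1
  set a2 := X.l x 2
  set b0 := X.l y 0
  set b1 := X.l y 1
  set b2 := X.l y 2
  have hC : ∀ c : k, c ≠ 0 → ¬ π ∣ C c := by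
    intro c hc hd
    exact hπ.not_isUnit (isUnit_of_dvd_unit hd (by simpa only [isUnit_map_iff, isUnit_iff_ne_zero, ne_eq] using hc))
  have p1 : π ∣ C (a0 * b1 - a1 * b0) - C (a1 * b2 - a2 * b1) * MvPolynomial.X 1 ^ 2 := by
    have : C (a0 * b1 - a1 * b0) - C (a1 * b2 - a2 * b1) * MvPolynomial.X 1 ^ 2 =
        C b1 * X.q x - C a1 * X.q y := by
      simp only [q_eq, map_sub, map_mul, a0, a1, a2, b0, b1, b2]
      ring
    rw [this]
    exact dvd_sub (hx.mul_left _) (hy.mul_left _)
  have p2 : π ∣ C (a1 * b2 - a2 * b1) * MvPolynomial.X 0 ^ 2 - C (a2 * b0 - a0 * b2) := by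
    have : C (a1 * b2 - a2 * b1) * MvPolynomial.X 0 ^ 2 - C (a2 * b0 - a0 * b2) =
        C b2 * X.q x - C a2 * X.q y := by
      simp only [q_eq, map_sub, map_mul, a0, a1, a2, b0, b1, b2]
      ring
    rw [this]
    exact dvd_sub (hx.mul_left _) (hy.mul_left _)
  by_cases hc1 : a1 * b2 - a2 * b1 = 0
  · rw [hc1] at p1 p2
    simp only [map_zero, zero_mul, sub_zero, zero_sub, dvd_neg] at p1 p2
    have hc3 : a0 * b1 - a1 * b0 = 0 := by
      by_contra hne
      exact hC _ hne p1
    have hc2 : a2 * b0 - a0 * b2 = 0 := by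
      by_contra hne
      exact hC _ hne p2
    -- the vectors are proportional
    have e0 : b0 • X.l x + (-a0) • X.l y = 0 := by
      funext i
      fin_cases i
      · simp only [Fin.zero_eta, Pi.add_apply, Pi.smul_apply, smul_eq_mul, Pi.zero_apply]
        change b0 * a0 + -a0 * b0 = 0
        ring
      · simp only [Fin.mk_one, Pi.add_apply, Pi.smul_apply, smul_eq_mul, Pi.zero_apply]
        change b0 * a1 + -a0 * b1 = 0
        linear_combination -hc3
      · simp only [Fin.reduceFinMk, Pi.add_apply, Pi.smul_apply, smul_eq_mul, Pi.zero_apply]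
        change b0 * a2 + -a0 * b2 = 0
        linear_combination hc2
    have e1 : b1 • X.l x + (-a1) • X.l y = 0 := by
      funext i
      fin_cases i
      · simp only [Fin.zero_eta, Pi.add_apply, Pi.smul_apply, smul_eq_mul, Pi.zero_apply]
        change b1 * a0 + -a1 * b0 = 0
        linear_combination hc3
      · simp only [Fin.mk_one, Pi.add_apply, Pi.smul_apply, smul_eq_mul, Pi.zero_apply]
        change b1 * a1 + -a1 * b1 = 0
        ring
      · simp only [Fin.reduceFinMk, Pi.add_apply, Pi.smul_apply, smul_eq_mul, Pi.zero_apply]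
        change b1 * a2 + -a1 * b2 = 0
        linear_combination -hc1
    have e2 : b2 • X.l x + (-a2) • X.l y = 0 := by
      funext i
      fin_cases i
      · simp only [Fin.zero_eta, Pi.add_apply, Pi.smul_apply, smul_eq_mul, Pi.zero_apply]
        change b2 * a0 + -a2 * b0 = 0
        linear_combination -hc2
      · simp only [Fin.mk_one, Pi.add_apply, Pi.smul_apply, smul_eq_mul, Pi.zero_apply]
        change b2 * a1 + -a2 * b1 = 0
        linear_combination hc1
      · simp only [Fin.reduceFinMk, Pi.add_apply, Pi.smul_apply, smul_eq_mul, Pi.zero_apply]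
        change b2 * a2 + -a2 * b2 = 0
        ring
    apply X.l_ne_zero y
    funext i
    fin_cases i
    · exact (X.pair_indep h _ _ e0).1
    · exact (X.pair_indep h _ _ e1).1
    · exact (X.pair_indep h _ _ e2).1
  · obtain ⟨hne1, d0⟩ := aux_quad (k := k) (i := 1) (j := 0) (by decide)
      (a1 * b2 - a2 * b1) (a0 * b1 - a1 * b0) hc1
    obtain ⟨hne2, d1⟩ := aux_quad (k := k) (i := 0) (j := 1) (by decide)
      (a1 * b2 - a2 * b1) (a2 * b0 - a0 * b2) hc1
    rw [← neg_sub, dvd_neg] at p1
    obtain ⟨c, rfl⟩ := eq_C_of_dvd p1 p2 hne1 hne2 d0 d1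
    have hc : c ≠ 0 := by
      rintro rfl
      exact hπ.ne_zero (map_zero _)
    exact hπ.not_isUnit (by simpa using hc)

theorem q_mem (x : X.I) : X.q x ∈ Ad k 2 :=
  mem_Ad.2 (Or.inr (by exact_mod_cast X.totalDegree_q_le x))

/-- `q_x` has degree `2`, and `q_x`, `q_y` are coprime forms for `x ≠ y` (2.3) -/
theorem cop_q {x y : X.I} (h : x ≠ y) : CopForm 2 2 (X.q x) (X.q y) := by
  refine ⟨X.q_mem x, X.q_mem y, X.q_ne_zero x, X.q_ne_zero y,
    fun π hπ => X.not_dvd_both h π hπ, ?_⟩
  by_cases hx : X.l x 1 ≠ 0 ∨ X.l x 2 ≠ 0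
  · exact Or.inl (X.totalDegree_q hx)
  by_cases hy : X.l y 1 ≠ 0 ∨ X.l y 2 ≠ 0
  · exact Or.inr (X.totalDegree_q hy)
  push Not at hx hy
  exfalso
  apply X.l_ne_zero y
  have := X.pair_indep h (X.l y 0) (-X.l x 0) (by
    funext i
    fin_cases i
    · simp only [Fin.zero_eta, Pi.add_apply, Pi.smul_apply, smul_eq_mul, Pi.zero_apply]
      ring
    · simp only [Fin.mk_one, Pi.add_apply, Pi.smul_apply, smul_eq_mul, Pi.zero_apply, hx.1, hy.1,
        mul_zero, add_zero]
    · simp only [Fin.reduceFinMk, Pi.add_apply, Pi.smul_apply, smul_eq_mul, Pi.zero_apply, hx.2,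
        hy.2, mul_zero, add_zero])
  funext i
  fin_cases i
  exacts [this.1, hy.1, hy.2]

theorem algebraMap_injective : Function.Injective (algebraMap (A k) X.L) := by
  have h : Function.Injective ((algebraMap (KK k) X.L).comp (algebraMap (A k) (KK k))) :=
    (algebraMap (KK k) X.L).injective.comp (IsFractionRing.injective (A k) (KK k))
  exact h

theorem σ_ne_zero (x : X.I) : X.σ x ≠ 0 := by
  intro h
  have h1 := X.σ_sq x
  rw [h, zero_pow two_ne_zero] at h1
  exact X.q_ne_zero x (X.algebraMap_injective (by rw [← h1, map_zero]))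

/-! ### the ring `T₀` -/

theorem T0_mul {i j : ℤ} {f g : X.L} (hf : f ∈ X.T0 i) (hg : g ∈ X.T0 j) :
    f * g ∈ X.T0 (i + j) := by
  induction hf using Submodule.span_induction with
  | mem f hf =>
    induction hg using Submodule.span_induction with
    | mem g hg =>
      obtain ⟨u, hu, rfl⟩ := hf
      obtain ⟨u', hu', rfl⟩ := hg
      refine Submodule.subset_span ⟨u + u', ?_, ?_⟩
      · rw [← hu, ← hu']
        simp only [Pi.add_apply, Finset.sum_add_distrib, Nat.cast_add, Nat.cast_sum]
      · simp only [Pi.add_apply, pow_add, Finset.prod_mul_distrib]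
    | zero => simp
    | add g g' _ _ h1 h2 => rw [mul_add]; exact add_mem h1 h2
    | smul c g _ h => rw [mul_smul_comm]; exact Submodule.smul_mem _ _ h
  | zero => simp
  | add f f' _ _ h1 h2 => rw [add_mul]; exact add_mem h1 h2
  | smul c f _ h => rw [smul_mul_assoc]; exact Submodule.smul_mem _ _ h

theorem one_mem_T0 : (1 : X.L) ∈ X.T0 0 :=
  Submodule.subset_span ⟨0, by simp only [Pi.zero_apply, Finset.sum_const_zero, CharP.cast_eq_zero], by simp⟩

theorem σ_mem (x : X.I) : X.σ x ∈ X.T0 1 := by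
  classical
  refine Submodule.subset_span ⟨Pi.single x 1, by simp only [Finset.sum_pi_single', Finset.mem_univ, ↓reduceIte, Nat.cast_one], ?_⟩
  rw [Finset.prod_eq_single x]
  · simp
  · intro b _ hb
    simp [Pi.single_eq_of_ne hb]
  · simp only [Finset.mem_univ, not_true_eq_false, Pi.single_eq_same, pow_one, IsEmpty.forall_iff]

theorem T0_pow {i : ℤ} {f : X.L} (hf : f ∈ X.T0 i) (n : ℕ) : f ^ n ∈ X.T0 (n * i) := by
  induction n with
  | zero => simpa only [CharP.cast_eq_zero, zero_mul, pow_zero] using X.one_mem_T0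
  | succ n ih =>
    rw [pow_succ]
    have := X.T0_mul ih hf
    rwa [show ((n + 1 : ℕ) : ℤ) * i = n * i + i by push_cast; ring]

theorem T0_prod {ι : Type} (s : Finset ι) (f : ι → X.L) (d : ι → ℤ)
    (h : ∀ i ∈ s, f i ∈ X.T0 (d i)) : ∏ i ∈ s, f i ∈ X.T0 (∑ i ∈ s, d i) := by
  classical
  induction s using Finset.induction_on with
  | empty => simpa only [Finset.sum_empty, Finset.prod_empty] using X.one_mem_T0
  | insert a s ha ih =>
    rw [Finset.prod_insert ha, Finset.sum_insert ha]
    exact X.T0_mul (h a (Finset.mem_insert_self _ _))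
      (ih fun i hi => h i (Finset.mem_insert_of_mem hi))

theorem σ_b0 : X.σ (X.b 0) = 1 :=
  (dif_neg (by simp)).trans ((if_neg (fun h => absurd (X.b_inj h) (by decide))).trans
    (if_neg (fun h => absurd (X.b_inj h) (by decide))))

theorem σ_b1 : X.σ (X.b 1) = algebraMap (A k) X.L (MvPolynomial.X 0) :=
  (dif_neg (by simp)).trans (if_pos rfl)

theorem σ_b2 : X.σ (X.b 2) = algebraMap (A k) X.L (MvPolynomial.X 1) :=
  (dif_neg (by simp)).trans ((if_neg (fun h => absurd (X.b_inj h) (by decide))).trans (if_pos rfl))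

theorem algebraMap_mem_T0 {n : ℤ} {a : A k} (ha : a ∈ Ad k n) :
    algebraMap (A k) X.L a ∈ X.T0 n := by
  rcases mem_Ad.1 ha with rfl | ha
  · simp
  rw [a.as_sum, map_sum]
  refine sum_mem fun u hu => ?_
  have hdeg : (u 0 + u 1 : ℕ) ≤ a.totalDegree := by
    have := le_totalDegree hu
    rwa [Finsupp.sum_fintype _ _ (fun _ => rfl), Fin.sum_univ_two] at this
  have h1 : algebraMap (A k) X.L (monomial u (coeff u a)) =
      (coeff u a) • ((X.σ (X.b 0)) ^ (n - (u 0 + u 1 : ℕ)).toNat * (X.σ (X.b 1)) ^ u 0 *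
        (X.σ (X.b 2)) ^ u 1) := by
    rw [σ_b0, σ_b1, σ_b2, one_pow, one_mul, ← map_pow, ← map_pow, ← map_mul]
    rw [← algebraMap_smul (A k) (coeff u a), Algebra.smul_def, ← map_mul]
    congr 1
    rw [MvPolynomial.algebraMap_eq, monomial_eq, Finsupp.prod_fintype _ _ (fun _ => pow_zero _),
      Fin.prod_univ_two]
  rw [h1]
  refine Submodule.smul_mem _ _ ?_
  have h2 := X.T0_mul (X.T0_mul (X.T0_pow (X.σ_mem (X.b 0)) (n - (u 0 + u 1 : ℕ)).toNat)
    (X.T0_pow (X.σ_mem (X.b 1)) (u 0))) (X.T0_pow (X.σ_mem (X.b 2)) (u 1))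
  have h3 : (((n - (u 0 + u 1 : ℕ)).toNat : ℤ) * 1 + (u 0 : ℤ) * 1 + (u 1 : ℤ) * 1) = n := by
    rw [Int.toNat_of_nonneg (by omega)]
    push_cast
    ring
  rwa [h3] at h2

theorem mon_mem (s : Finset X.J) : X.mon s ∈ X.T0 s.card := by
  have := X.T0_prod s (fun j => X.σ j.1) (fun _ => 1) (fun i _ => X.σ_mem _)
  unfold mon
  simpa only [Finset.sum_const, Int.nsmul_eq_mul, mul_one] using this

theorem smul_mon_mem {n : ℤ} {a : A k} (s : Finset X.J) (ha : a ∈ Ad k (n - s.card)) :
    a • X.mon s ∈ genLat (k := k) (fun s : Finset X.J => X.mon s) (fun s => (s.card : ℤ)) n := by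
  classical
  refine mem_genLat.2 ⟨Pi.single s a, fun i => ?_, ?_⟩
  · by_cases h : i = s
    · subst h
      simpa using ha
    · rw [Pi.single_eq_of_ne h]
      exact Submodule.zero_mem _
  · rw [Finset.sum_eq_single s]
    · simp
    · intro b _ hb
      rw [Pi.single_eq_of_ne hb, zero_smul]
    · simp only [Finset.mem_univ, not_true_eq_false, Pi.single_eq_same, IsEmpty.forall_iff]

theorem σ_mul_mem_genLat (x : X.I) {n : ℤ} {f : X.L}
    (hf : f ∈ genLat (k := k) (fun s : Finset X.J => X.mon s) (fun s => (s.card : ℤ)) n) :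
    X.σ x * f ∈
      genLat (k := k) (fun s : Finset X.J => X.mon s) (fun s => (s.card : ℤ)) (n + 1) := by
  classical
  have hbase : ∀ c ∈ Ad k 1, algebraMap (A k) X.L c * f ∈
      genLat (k := k) (fun s : Finset X.J => X.mon s) (fun s => (s.card : ℤ)) (n + 1) := by
    intro c hc
    rw [← Algebra.smul_def]
    exact (isBLat_genLat _ _).smul_mem hc hf
  have hX : ∀ i : Fin 2, (MvPolynomial.X i : A k) ∈ Ad k 1 := fun i => mem_Ad.2 (Or.inr (by simp))
  by_cases hx : x ∈ Set.range X.b
  · obtain ⟨i, rfl⟩ := hx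
    fin_cases i
    · have h := hbase 1 (mem_Ad.2 (Or.inr (by simp only [totalDegree_one, CharP.cast_eq_zero, zero_le_one])))
      rw [map_one] at h
      simpa only [Fin.zero_eta, σ_b0] using h
    · simpa only [Fin.mk_one, σ_b1] using hbase _ (hX 0)
    · simpa only [Fin.reduceFinMk, σ_b2] using hbase _ (hX 1)
  · set j : X.J := ⟨x, hx⟩ with hj
    obtain ⟨a, ha, rfl⟩ := mem_genLat.1 hf
    rw [Finset.mul_sum]
    refine sum_mem fun s _ => ?_
    rw [mul_smul_comm]
    by_cases hjs : j ∈ s
    · have h1 : X.σ x * X.mon s = X.q x • X.mon (s.erase j) := by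
        unfold mon
        rw [← Finset.mul_prod_erase s _ hjs, ← mul_assoc, Algebra.smul_def, ← σ_sq, sq]
      rw [h1, ← mul_smul]
      refine X.smul_mon_mem _ ?_
      have := Ad_mul (ha s) (X.q_mem x)
      rw [Finset.card_erase_of_mem hjs]
      have hpos : 0 < s.card := Finset.card_pos.2 ⟨j, hjs⟩
      rwa [show n + 1 - ((s.card - 1 : ℕ) : ℤ) = n - s.card + 2 by omega]
    · have h1 : X.σ x * X.mon s = X.mon (insert j s) := by
        unfold mon
        rw [Finset.prod_insert hjs]
      rw [h1]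
      refine X.smul_mon_mem _ ?_
      rw [Finset.card_insert_of_notMem hjs]
      have := ha s
      rwa [show n + 1 - ((s.card + 1 : ℕ) : ℤ) = n - s.card by push_cast; ring]

theorem one_mem_genLat :
    (1 : X.L) ∈ genLat (k := k) (fun s : Finset X.J => X.mon s) (fun s => (s.card : ℤ)) 0 := by
  have := X.smul_mon_mem (n := 0) (a := 1) ∅ (mem_Ad.2 (Or.inr (by simp)))
  simpa only [mon, Finset.prod_empty, one_smul] using this

theorem pow_σ_mul_mem_genLat (x : X.I) (d : ℕ) {n : ℤ} {f : X.L}
    (hf : f ∈ genLat (k := k) (fun s : Finset X.J => X.mon s) (fun s => (s.card : ℤ)) n) :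
    X.σ x ^ d * f ∈
      genLat (k := k) (fun s : Finset X.J => X.mon s) (fun s => (s.card : ℤ)) (n + d) := by
  induction d with
  | zero => simpa using hf
  | succ d ih =>
    rw [pow_succ', mul_assoc]
    have := X.σ_mul_mem_genLat x ih
    rwa [show n + ((d + 1 : ℕ) : ℤ) = n + d + 1 by push_cast; ring]

theorem prod_σ_mem_genLat (u : X.I → ℕ) (s : Finset X.I) :
    ∏ x ∈ s, X.σ x ^ u x ∈ genLat (k := k) (fun s : Finset X.J => X.mon s)
      (fun s => (s.card : ℤ)) ((∑ x ∈ s, u x : ℕ) : ℤ) := by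
  classical
  induction s using Finset.induction_on with
  | empty => simpa only [Finset.sum_empty, CharP.cast_eq_zero, Finset.prod_empty] using X.one_mem_genLat
  | insert a s ha ih =>
    rw [Finset.prod_insert ha, Finset.sum_insert ha]
    have := X.pow_σ_mul_mem_genLat a (u a) ih
    rwa [show ((u a + ∑ x ∈ s, u x : ℕ) : ℤ) = ((∑ x ∈ s, u x : ℕ) : ℤ) + u a by
      push_cast; ring]

/-- `T₀ = ⊕_S A(-|S|) σ^S` -/
theorem T0_eq_genLat (n : ℤ) :
    X.T0 n = genLat (fun s : Finset X.J => X.mon s) (fun s => (s.card : ℤ)) n := by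
  apply le_antisymm
  · refine Submodule.span_le.2 ?_
    rintro f ⟨u, hu, rfl⟩
    rw [← hu]
    exact X.prod_σ_mem_genLat u Finset.univ
  · intro f hf
    obtain ⟨a, ha, rfl⟩ := mem_genLat.1 hf
    refine sum_mem fun s _ => ?_
    rw [Algebra.smul_def]
    have := X.T0_mul (X.algebraMap_mem_T0 (ha s)) (X.mon_mem s)
    rwa [sub_add_cancel] at this

theorem T0_eq : X.T0 = genLat (fun s : Finset X.J => X.mon s) (fun s => (s.card : ℤ)) :=
  funext X.T0_eq_genLat

theorem isBLat_T0 : IsBLat X.T0 := by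
  rw [T0_eq]
  exact isBLat_genLat _ _

theorem mon_li : LinearIndependent (A k) (fun s : Finset X.J => X.mon s) :=
  X.mon_linearIndependent.restrict_scalars (by
    intro a b hab
    have : algebraMap (A k) (KK k) a = algebraMap (A k) (KK k) b := by
      simpa only [algebraMap.coe_inj, Algebra.smul_def, mul_one] using hab
    exact IsFractionRing.injective (A k) (KK k) this)

theorem isS2_T0 : IsS2 X.T0 := by
  rw [T0_eq]
  exact isS2_genLat X.mon_li _

theorem card_J : Fintype.card X.J + 3 = X.m := by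
  classical
  have h1 : Fintype.card (Set.range X.b) = 3 := by
    rw [Set.card_range_of_injective X.b_inj, Fintype.card_fin]
  have h2 : Fintype.card X.J = Fintype.card {x : X.I // ¬ x ∈ Set.range X.b} :=
    Fintype.card_congr (Equiv.refl _)
  have h3 := Fintype.card_subtype_compl (fun x : X.I => x ∈ Set.range X.b)
  have h4 : Fintype.card {x : X.I // x ∈ Set.range X.b} = 3 := h1
  have h5 : 3 ≤ Fintype.card X.I := by
    have := Fintype.card_le_of_injective _ X.b_inj
    simpa only [ge_iff_le, Fintype.card_fin] using this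
  rw [h2, h3, h4]
  unfold m
  omega

theorem sums_powerset {α : Type} [DecidableEq α] (s : Finset α) :
    (∑ t ∈ s.powerset, (1 : ℚ)) = 2 ^ s.card ∧
    2 * (∑ t ∈ s.powerset, (t.card : ℚ)) = s.card * 2 ^ s.card ∧
    8 * (∑ t ∈ s.powerset, ((t.card.choose 2 : ℕ) : ℚ)) = s.card * (s.card - 1) * 2 ^ s.card := by
  induction s using Finset.induction_on with
  | empty => simp only [Finset.powerset_empty, Finset.sum_const, Finset.card_singleton, one_smul, Finset.card_empty, pow_zero, Finset.sum_singleton, CharP.cast_eq_zero, mul_zero, mul_one, Nat.choose_zero_succ, zero_sub, mul_neg, neg_zero, and_self]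
  | insert a s ha ih =>
    obtain ⟨h0, h1, h2⟩ := ih
    have hc : ∀ t ∈ s.powerset, (insert a t).card = t.card + 1 := fun t ht =>
      Finset.card_insert_of_notMem fun h => ha (Finset.mem_powerset.1 ht h)
    rw [Finset.sum_powerset_insert ha, Finset.sum_powerset_insert ha,
      Finset.sum_powerset_insert ha, Finset.card_insert_of_notMem ha]
    have e1 : ∑ t ∈ s.powerset, ((insert a t).card : ℚ) =
        ∑ t ∈ s.powerset, (t.card : ℚ) + ∑ t ∈ s.powerset, (1 : ℚ) := by
      rw [← Finset.sum_add_distrib]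
      refine Finset.sum_congr rfl fun t ht => ?_
      rw [hc t ht]
      push_cast
      ring
    have e2 : ∑ t ∈ s.powerset, (((insert a t).card.choose 2 : ℕ) : ℚ) =
        ∑ t ∈ s.powerset, ((t.card.choose 2 : ℕ) : ℚ) + ∑ t ∈ s.powerset, (t.card : ℚ) := by
      rw [← Finset.sum_add_distrib]
      refine Finset.sum_congr rfl fun t ht => ?_
      rw [hc t ht, Nat.choose_succ_succ' t.card 1, Nat.choose_one_right]
      push_cast
      ring
    rw [e1, e2]
    push_cast
    rw [pow_succ]
    refine ⟨by linarith only [h0], by linear_combination 2 * h1 + 2 * h0, by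
      linear_combination 2 * h2 + 4 * h1⟩

/-- in the variable `n - c₀`, `c₀ = (m-6)/2`:
`P_{T₀}(n) = (N₀/2)(n - c₀)² + N₀ (m-4)/8`, `N₀ = 2^(m-3)` -/
theorem hilb_T0 : ∃ e g : ℤ, HasHilb X.T0 (2 ^ (X.m - 3)) e g ∧ ∀ n : ℚ,
    hp (2 ^ (X.m - 3)) e g n = (2 ^ (X.m - 3) : ℚ) / 2 * (n - ((X.m : ℚ) - 6) / 2) ^ 2 +
      (2 ^ (X.m - 3) : ℚ) * ((X.m : ℚ) - 4) / 8 := by
  classical
  set M := Fintype.card X.J with hM
  have hm : X.m - 3 = M := by have := X.card_J; omega
  have hmq : (X.m : ℚ) = M + 3 := by rw [← X.card_J]; push_cast; rfl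
  obtain ⟨h0, h1, h2⟩ := sums_powerset (Finset.univ : Finset X.J)
  rw [Finset.powerset_univ, Finset.card_univ, ← hM] at h0 h1 h2
  refine ⟨-∑ t : Finset X.J, (t.card : ℤ), ∑ t : Finset X.J, ((t.card.choose 2 : ℕ) : ℤ), ?_, ?_⟩
  · refine eventually_atTop.2 ⟨M, fun n hn => ?_⟩
    rw [T0_eq_genLat, finrank_genLat X.mon_li]
    push_cast
    have e1 : ∀ t : Finset X.J, (Module.finrank k (Ad k (n - (t.card : ℤ))) : ℚ) =
        ((n : ℚ) + 1) * (n + 2) / 2 - (t.card : ℚ) * (n + 1) + ((t.card.choose 2 : ℕ) : ℚ) := by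
      intro t
      have ht : (t.card : ℤ) ≤ M := by exact_mod_cast Finset.card_le_univ t
      rw [finrank_Ad (by omega), Nat.cast_choose_two]
      simp only [hp]
      push_cast
      ring
    rw [Finset.sum_congr rfl fun t _ => e1 t, Finset.sum_add_distrib, Finset.sum_sub_distrib,
      ← Finset.sum_mul]
    have e2 : ∑ _t : Finset X.J, ((n : ℚ) + 1) * (n + 2) / 2 =
        (∑ t : Finset X.J, (1 : ℚ)) * (((n : ℚ) + 1) * (n + 2) / 2) := by
      rw [Finset.sum_mul]
      simp only [Finset.sum_const, Finset.card_univ, Fintype.card_finset, nsmul_eq_mul, Nat.cast_pow, Nat.cast_ofNat, one_mul]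
    rw [e2, h0]
    simp only [hp, hm]
    push_cast
    ring
  · intro n
    simp only [hp, hm, hmq]
    push_cast
    linear_combination (-(n + 1) / 2) * h1 + (1 / 8 : ℚ) * h2

theorem a_mul_a (t : X.S) : X.a t true * X.a t false = (X.ν t • X.σ (X.v t)) ^ 2 := by
  have hq : X.δ t ^ 2 • X.q (X.d t) - X.η t ^ 2 • X.q (X.h t) = X.ν t ^ 2 • X.q (X.v t) := by
    have h0 := congrFun (X.rel t) 0
    have h1 := congrFun (X.rel t) 1
    have h2 := congrFun (X.rel t) 2
    simp only [Pi.sub_apply, Pi.smul_apply, smul_eq_mul] at h0 h1 h2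
    have e0 := congrArg (C : k → A k) h0
    have e1 := congrArg (C : k → A k) h1
    have e2 := congrArg (C : k → A k) h2
    simp only [map_sub, map_mul, map_pow] at e0 e1 e2
    simp only [MvPolynomial.smul_eq_C_mul, q_eq, map_pow]
    linear_combination e0 + e1 * MvPolynomial.X 0 ^ 2 + e2 * MvPolynomial.X 1 ^ 2
  have hL := congrArg (algebraMap (A k) X.L) hq
  have hsm : ∀ (c : k) (f : A k), algebraMap (A k) X.L (c • f) = c • algebraMap (A k) X.L f := by
    intro c f
    rw [MvPolynomial.smul_eq_C_mul, map_mul, ← MvPolynomial.algebraMap_eq,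
      ← IsScalarTower.algebraMap_apply, Algebra.smul_def]
  rw [map_sub, hsm, hsm, hsm, ← σ_sq, ← σ_sq, ← σ_sq] at hL
  simp only [a, if_true, Bool.false_eq_true, if_false]
  rw [smul_pow, ← hL]
  simp only [Algebra.smul_def, map_pow]
  ring

theorem a_mem (t : X.S) (s : Bool) : X.a t s ∈ X.T0 1 := by
  unfold a
  split_ifs
  · exact add_mem (Submodule.smul_mem _ _ (X.σ_mem _)) (Submodule.smul_mem _ _ (X.σ_mem _))
  · exact sub_mem (Submodule.smul_mem _ _ (X.σ_mem _)) (Submodule.smul_mem _ _ (X.σ_mem _))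

theorem ν_smul_ne_zero (t : X.S) (x : X.I) : X.ν t • X.σ x ≠ 0 :=
  smul_ne_zero (X.ν_ne t) (X.σ_ne_zero x)

theorem a_ne_zero (t : X.S) (s : Bool) : X.a t s ≠ 0 := by
  have h := X.a_mul_a t
  have h1 : (X.ν t • X.σ (X.v t)) ^ 2 ≠ 0 := pow_ne_zero _ (X.ν_smul_ne_zero _ _)
  rw [← h] at h1
  cases s
  · exact right_ne_zero_of_mul h1
  · exact left_ne_zero_of_mul h1

theorem PI_ne_zero : X.PI ≠ 0 :=
  Finset.prod_ne_zero_iff.2 fun t _ => X.a_ne_zero t true

theorem two_w : 2 * X.w = Fintype.card X.S := by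
  unfold w
  obtain ⟨r, hr⟩ := X.even
  omega

theorem pie_mem (ε : X.S → Bool) : X.pie ε ∈ X.T0 (2 * X.w) := by
  have := X.T0_prod Finset.univ (fun t => if ε t then X.a t true else X.ν t • X.σ (X.v t))
    (fun _ => 1) (fun t _ => by
      split_ifs
      · exact X.a_mem _ _
      · exact Submodule.smul_mem _ _ (X.σ_mem _))
  have h2 : (2 * (X.w : ℤ)) = ∑ _t : X.S, (1 : ℤ) := by
    rw [Finset.sum_const, Finset.card_univ, ← two_w]
    simp
  rw [h2]
  exact this

end Arr

end Vale.Agent.P190.D
end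
end

section

section

/-! Definitions used in the statements of sections 3 - 6. -/

set_option autoImplicit false
set_option linter.unusedSectionVars false

open MvPolynomial Filter

namespace Vale.Agent.P190.D

/-- The lattice `E` spans `V`. -/
def Spans {k : Type} [Field k] {X : Arr k} {V : Type} [AddCommGroup V] [Module k V]
    [Module X.L V] (E : ℤ → Submodule k V) : Prop :=
  Submodule.span X.L (⋃ n, (E n : Set V)) = ⊤

/-- The conclusion (3.4) of section 3 for a T-lattice. -/
def Window {k : Type} [Field k] {X : Arr k} {V : Type} [AddCommGroup V] [Module k V]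
    [Module (A k) V] [Module X.L V] [IsScalarTower k X.L V] (Γ : V →ₗ[X.L] V)
    (E : ℤ → Submodule k V) : Prop :=
  ∀ U : Submodule X.L V, IsTSub Γ U → ∀ N e g : ℤ,
    (HasHilb (subLat E U) N e g → e ≤ 0) ∧ (HasHilb (quoLat E U) N e g → -N ≤ e)

/-- the power series ring `k[[x₁,x₂,x₃]]` -/
abbrev Bh (k : Type) [Field k] := MvPowerSeries (Fin 3) k

/-- The elements of the ring `R` and their relations. -/
structure RData {k : Type} [Field k] (X : Arr k) (R : Type) [CommRing R]
    [Algebra (Bh k) R] where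
  s : X.I → R
  G : (X.S → Bool) → R
  s_b : ∀ i, s (X.b i) = algebraMap (Bh k) R (MvPowerSeries.X i)
  s_sq : ∀ x, s x ^ 2 =
    algebraMap (Bh k) R (∑ i, (MvPowerSeries.C (X.l x i) : Bh k) * MvPowerSeries.X i ^ 2)
  /-- `π_ε Γ_ε' = π_ε' Γ_ε` -/
  pi_G : ∀ ε ε' : X.S → Bool,
    (∏ t, if ε t then algebraMap (Bh k) R (MvPowerSeries.C (X.δ t)) * s (X.d t) +
        algebraMap (Bh k) R (MvPowerSeries.C (X.η t)) * s (X.h t)
      else algebraMap (Bh k) R (MvPowerSeries.C (X.ν t)) * s (X.v t)) * G ε' =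
    (∏ t, if ε' t then algebraMap (Bh k) R (MvPowerSeries.C (X.δ t)) * s (X.d t) +
        algebraMap (Bh k) R (MvPowerSeries.C (X.η t)) * s (X.h t)
      else algebraMap (Bh k) R (MvPowerSeries.C (X.ν t)) * s (X.v t)) * G ε
  /-- `Γ_ε Γ_ε' = ∏ (…)` -/
  G_G : ∀ ε ε' : X.S → Bool, G ε * G ε' =
    ∏ t, if ε t = ε' t then
        (if ε t then algebraMap (Bh k) R (MvPowerSeries.C (X.δ t)) * s (X.d t) +
          algebraMap (Bh k) R (MvPowerSeries.C (X.η t)) * s (X.h t)
        else algebraMap (Bh k) R (MvPowerSeries.C (X.δ t)) * s (X.d t) -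
          algebraMap (Bh k) R (MvPowerSeries.C (X.η t)) * s (X.h t))
      else algebraMap (Bh k) R (MvPowerSeries.C (X.ν t)) * s (X.v t)

end Vale.Agent.P190.D
end
end

section

section

/-! Section 1, file B8a: decomposition of polynomials of degree at most `n`, used for B8. -/

set_option autoImplicit false
set_option linter.unusedSectionVars false

open MvPolynomial Filter

namespace Vale.Agent.P190.D

variable {k : Type} [Field k]

theorem mem_Ad_coeff {n : ℤ} {a : A k} :
    a ∈ Ad k n ↔ ∀ s, coeff s a ≠ 0 → ((Finsupp.degree s : ℕ) : ℤ) ≤ n := by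
  rw [mem_Ad]
  constructor
  · rintro (rfl | h) s hs
    · simp at hs
    · have := le_totalDegree (mem_support_iff.2 hs)
      have h2 : (s.sum fun _ e => e) = Finsupp.degree s := by
        rw [Finsupp.degree_eq_sum, Finsupp.sum_fintype _ _ (fun _ => rfl)]
      rw [h2] at this
      omega
  · intro h
    by_cases ha : a = 0
    · exact Or.inl ha
    · right
      obtain ⟨s, hs⟩ : ∃ s, coeff s a ≠ 0 := by
        by_contra hc
        push Not at hc
        exact ha (MvPolynomial.ext _ _ (by simpa using hc))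
      have hn : 0 ≤ n := le_trans (by positivity) (h s hs)
      have : a.totalDegree ≤ n.toNat := by
        rw [totalDegree]
        refine Finset.sup_le fun t ht => ?_
        have h2 : (t.sum fun _ e => e) = Finsupp.degree t := by
          rw [Finsupp.degree_eq_sum, Finsupp.sum_fintype _ _ (fun _ => rfl)]
        rw [h2]
        have := h t (mem_support_iff.1 ht)
        omega
      omega

theorem Ad_neg {n : ℤ} (hn : n < 0) : Ad k n = ⊥ := by
  rw [Ad, if_neg (not_le.2 hn)]

theorem X_mul_mem_Ad {n : ℤ} {a : A k} (i : Fin 2) (ha : a ∈ Ad k n) :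
    X i * a ∈ Ad k (n + 1) := by
  rw [add_comm n 1]
  refine Ad_mul (mem_Ad.2 (Or.inr ?_)) ha
  rw [totalDegree_X]; rfl

theorem X_mem_Ad (i : Fin 2) : (X i : A k) ∈ Ad k 1 := by
  refine mem_Ad.2 (Or.inr ?_)
  rw [totalDegree_X]; rfl

theorem C_mem_Ad {n : ℤ} (hn : 0 ≤ n) (r : k) : (C r : A k) ∈ Ad k n := by
  refine mem_Ad.2 (Or.inr ?_)
  rw [totalDegree_C]; exact_mod_cast hn

theorem B8a_mem_Ad_zero {a : A k} (ha : a ∈ Ad k 0) : ∃ r : k, a = C r := by
  rcases mem_Ad.1 ha with rfl | h
  · exact ⟨0, by simp⟩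
  · exact ⟨_, totalDegree_eq_zero_iff_eq_C.1 (by omega)⟩

/-- If `X i * a` has degree at most `n + 1` then `a` has degree at most `n`. -/
theorem mem_Ad_of_X_mul {n : ℤ} {a : A k} (i : Fin 2) (ha : X i * a ∈ Ad k (n + 1)) :
    a ∈ Ad k n := by
  rcases mem_Ad.1 ha with h | h
  · rcases mul_eq_zero.1 h with h | h
    · exact absurd h (X_ne_zero i)
    · exact mem_Ad.2 (Or.inl h)
  · by_cases h0 : a = 0
    · exact mem_Ad.2 (Or.inl h0)
    · rw [totalDegree_mul_of_isDomain (X_ne_zero i) h0, totalDegree_X] at h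
      exact mem_Ad.2 (Or.inr (by push_cast at h; omega))

/-- Every polynomial of degree at most `n + 1`, `n ≥ 0`, is `a + y b + z c`. -/
theorem exists_decomp {n : ℤ} (hn : 0 ≤ n) {a : A k} (ha : a ∈ Ad k (n + 1)) :
    ∃ a₁ ∈ Ad k n, ∃ a₂ ∈ Ad k n, ∃ a₃ ∈ Ad k n, a = a₁ + X 0 * a₂ + X 1 * a₃ := by
  let S : Submodule k (A k) :=
    Ad k n ⊔ (Ad k n).map (LinearMap.mulLeft k (X 0 : A k)) ⊔
      (Ad k n).map (LinearMap.mulLeft k (X 1 : A k))
  have hS : a ∈ S := by
    rw [a.as_sum]
    refine Submodule.sum_mem _ fun s hs => ?_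
    have hd : ((Finsupp.degree s : ℕ) : ℤ) ≤ n + 1 := mem_Ad_coeff.1 ha s (mem_support_iff.1 hs)
    by_cases h0 : s 0 = 0
    · by_cases h1 : s 1 = 0
      · have : s = 0 := by
          ext i; fin_cases i
          · simpa only [Fin.zero_eta, Fin.isValue, Finsupp.coe_zero, Pi.zero_apply] using h0
          · simpa only [Fin.mk_one, Fin.isValue, Finsupp.coe_zero, Pi.zero_apply] using h1
        subst this
        exact Submodule.mem_sup_left (Submodule.mem_sup_left (C_mem_Ad hn _))
      · refine Submodule.mem_sup_right ?_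
        refine ⟨monomial (s - Finsupp.single 1 1) (coeff s a), ?_, ?_⟩
        · refine mem_Ad_coeff.2 fun t ht => ?_
          have : t = s - Finsupp.single 1 1 := by
            by_contra hne
            rw [coeff_monomial, if_neg (Ne.symm hne)] at ht
            exact ht rfl
          subst this
          have h2 : s = (s - Finsupp.single 1 1) + Finsupp.single 1 1 := by
            rw [tsub_add_cancel_of_le]
            rw [Finsupp.single_le_iff]; omega
          have h3 : Finsupp.degree s = Finsupp.degree (s - Finsupp.single 1 1) + 1 := by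
            conv_lhs => rw [h2]
            rw [map_add, Finsupp.degree_single]
          omega
        · simp only [LinearMap.mulLeft_apply]
          rw [X, monomial_mul, one_mul, add_comm, tsub_add_cancel_of_le]
          rw [Finsupp.single_le_iff]; omega
    · refine Submodule.mem_sup_left (Submodule.mem_sup_right ?_)
      refine ⟨monomial (s - Finsupp.single 0 1) (coeff s a), ?_, ?_⟩
      · refine mem_Ad_coeff.2 fun t ht => ?_
        have : t = s - Finsupp.single 0 1 := by
          by_contra hne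
          rw [coeff_monomial, if_neg (Ne.symm hne)] at ht
          exact ht rfl
        subst this
        have h2 : s = (s - Finsupp.single 0 1) + Finsupp.single 0 1 := by
          rw [tsub_add_cancel_of_le]
          rw [Finsupp.single_le_iff]; omega
        have h3 : Finsupp.degree s = Finsupp.degree (s - Finsupp.single 0 1) + 1 := by
          conv_lhs => rw [h2]
          rw [map_add, Finsupp.degree_single]
        omega
      · simp only [LinearMap.mulLeft_apply]
        rw [X, monomial_mul, one_mul, add_comm, tsub_add_cancel_of_le]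
        rw [Finsupp.single_le_iff]; omega
  obtain ⟨u, hu, w, hw, rfl⟩ := Submodule.mem_sup.1 hS
  obtain ⟨a₁, h₁, w₂, hw₂, rfl⟩ := Submodule.mem_sup.1 hu
  obtain ⟨a₂, h₂, rfl⟩ := hw₂
  obtain ⟨a₃, h₃, rfl⟩ := hw
  exact ⟨a₁, h₁, a₂, h₂, a₃, h₃, rfl⟩

/-- Elements of `Ad k 1`. -/
theorem exists_of_mem_Ad_one {a : A k} (ha : a ∈ Ad k 1) :
    ∃ r₀ r₁ r₂ : k, a = C r₀ + X 0 * C r₁ + X 1 * C r₂ := by
  obtain ⟨a₁, h₁, a₂, h₂, a₃, h₃, rfl⟩ := exists_decomp (n := 0) le_rfl (by simpa using ha)
  obtain ⟨r₀, rfl⟩ := B8a_mem_Ad_zero h₁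
  obtain ⟨r₁, rfl⟩ := B8a_mem_Ad_zero h₂
  obtain ⟨r₂, rfl⟩ := B8a_mem_Ad_zero h₃
  exact ⟨r₀, r₁, r₂, rfl⟩

/-- the top homogeneous component -/
theorem sub_top_mem {n : ℤ} {a : A k} (ha : a ∈ Ad k n) :
    a - homogeneousComponent n.toNat a ∈ Ad k (n - 1) := by
  refine mem_Ad_coeff.2 fun s hs => ?_
  rw [coeff_sub, coeff_homogeneousComponent] at hs
  split_ifs at hs with h
  · simp only [sub_self, ne_eq, not_true_eq_false] at hs
  · rw [sub_zero] at hs
    have := mem_Ad_coeff.1 ha s hs
    have h2 : 0 ≤ n := le_trans (by positivity) this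
    omega

theorem homogeneousComponent_mul_X {n : ℤ} (hn : 0 ≤ n) {a : A k} (ha : a ∈ Ad k n) (i : Fin 2) :
    homogeneousComponent (n.toNat + 1) (X i * a) = X i * homogeneousComponent n.toNat a := by
  have h1 : X i * a = X i * (a - homogeneousComponent n.toNat a) +
      X i * homogeneousComponent n.toNat a := by ring
  have h2 : homogeneousComponent (n.toNat + 1) (X i * (a - homogeneousComponent n.toNat a)) = 0 := by
    have h3 := X_mul_mem_Ad i (sub_top_mem ha)
    rcases mem_Ad.1 h3 with h | h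
    · rw [h, map_zero]
    · refine homogeneousComponent_eq_zero _ _ ?_
      omega
  have h4 : (X i * homogeneousComponent n.toNat a) ∈ homogeneousSubmodule (Fin 2) k (n.toNat + 1) := by
    rw [mem_homogeneousSubmodule, add_comm]
    exact (isHomogeneous_X k i).mul (homogeneousComponent_isHomogeneous _ _)
  conv_lhs => rw [h1]
  rw [map_add, h2, zero_add, homogeneousComponent_of_mem h4, if_pos rfl]

theorem homogeneousComponent_eq_zero_of_mem {n : ℤ} {a : A k} (ha : a ∈ Ad k n) {m : ℕ}
    (hm : n < m) : homogeneousComponent m a = 0 := by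
  rcases mem_Ad.1 ha with h | h
  · rw [h, map_zero]
  · exact homogeneousComponent_eq_zero _ _ (by omega)

/-- The elementary Koszul statement (R3) for one coordinate. -/
theorem koszul_coord {n : ℤ} {v k₀ k₁ : A k} (hv : v ∈ Ad k n) (h₀ : k₀ ∈ Ad k n)
    (h₁ : k₁ ∈ Ad k n) (h : X 1 * v = k₀ + X 0 * k₁) :
    ∃ v₀ ∈ Ad k (n - 1), ∃ v₁ ∈ Ad k (n - 1), ∃ q ∈ Ad k (n - 1),
      v = v₀ + X 0 * v₁ ∧ k₁ = X 1 * v₁ - q ∧ k₀ = X 1 * v₀ + X 0 * q := by
  by_cases hn : 0 ≤ n
  · have hc : X 1 * homogeneousComponent n.toNat v = X 0 * homogeneousComponent n.toNat k₁ := by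
      have := congrArg (homogeneousComponent (n.toNat + 1)) h
      rwa [map_add, homogeneousComponent_mul_X hn hv, homogeneousComponent_mul_X hn h₁,
        homogeneousComponent_eq_zero_of_mem h₀ (by push_cast; omega), zero_add] at this
    have hdvd : (X 0 : A k) ∣ homogeneousComponent n.toNat v := by
      have h5 : (X 0 : A k) ∣ X 1 * homogeneousComponent n.toNat v := ⟨_, hc⟩
      refine ((X_prime (R := k) (i := (0 : Fin 2))).dvd_or_dvd h5).resolve_left ?_
      rw [X_dvd_X]
      decide
    obtain ⟨v₁, hv₁⟩ := hdvd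
    have hk₁ : homogeneousComponent n.toNat k₁ = X 1 * v₁ := by
      have h6 : (X 0 : A k) * (X 1 * v₁) = X 0 * homogeneousComponent n.toNat k₁ := by
        rw [← hc, hv₁]; ring
      exact (mul_left_cancel₀ (X_ne_zero 0) h6).symm
    have hv₁mem : v₁ ∈ Ad k (n - 1) := by
      refine mem_Ad_of_X_mul 0 ?_
      rw [← hv₁, sub_add_cancel]
      have := (homogeneousComponent_isHomogeneous n.toNat v).totalDegree_le
      exact mem_Ad.2 (Or.inr (by omega))
    refine ⟨v - homogeneousComponent n.toNat v, sub_top_mem hv, v₁, hv₁mem,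
      -(k₁ - homogeneousComponent n.toNat k₁), neg_mem (sub_top_mem h₁), ?_, ?_, ?_⟩
    · rw [← hv₁]; ring
    · rw [hk₁]; ring
    · rw [hk₁, hv₁]
      linear_combination -h
  · have hb : Ad k n = ⊥ := Ad_neg (not_le.1 hn)
    rw [hb, Submodule.mem_bot] at hv h₀ h₁
    subst hv h₀ h₁
    exact ⟨0, zero_mem _, 0, zero_mem _, 0, zero_mem _, by simp, by simp, by simp⟩

end Vale.Agent.P190.D
end
end

section

section

/-! Section 1, file B6: bounded quotients. -/

set_option autoImplicit false
set_option linter.unusedSectionVars false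

open MvPolynomial Filter

namespace Vale.Agent.P190.D

section MulFam

variable {k : Type} [Field k]

/-- a graded family of multipliers -/
structure MulFam (P : ℤ → Submodule k (A k)) : Prop where
  le : ∀ i, P i ≤ Ad k i
  mul : ∀ {i j : ℤ} {a b : A k}, a ∈ Ad k i → b ∈ P j → a * b ∈ P (i + j)

theorem one_mem_Ad {n : ℤ} (hn : 0 ≤ n) : (1 : A k) ∈ Ad k n :=
  mem_Ad.2 (Or.inr (by simpa only [totalDegree_one, CharP.cast_eq_zero] using hn))

theorem MulFam.mono {P : ℤ → Submodule k (A k)} (hP : MulFam P) {i j : ℤ} (h : i ≤ j) :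
    P i ≤ P j := by
  intro b hb
  have := hP.mul (one_mem_Ad (k := k) (sub_nonneg.2 h)) hb
  rwa [one_mul, sub_add_cancel] at this

theorem MulFam.avoid [Infinite k] {P : ℤ → Submodule k (A k)} (hP : MulFam P)
    (h1 : ∀ π : A k, Irreducible π → ∃ i, ∃ c ∈ P i, ¬ π ∣ c) (F : Multiset (A k))
    (hF : ∀ p ∈ F, Irreducible p) : ∃ i, ∃ c ∈ P i, ∀ p ∈ F, ¬ p ∣ c := by
  classical
  induction F using Multiset.induction_on with
  | empty => exact ⟨0, 0, zero_mem _, by simp only [Multiset.notMem_zero, dvd_zero, not_true_eq_false, imp_self, implies_true]⟩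
  | cons p F ih =>
    obtain ⟨i, c, hc, hcF⟩ := ih (fun q hq => hF q (Multiset.mem_cons_of_mem hq))
    obtain ⟨j, d, hd, hdp⟩ := h1 p (hF p (Multiset.mem_cons_self p F))
    have key : ∀ q ∈ p ::ₘ F, Set.Subsingleton {t : k | q ∣ c + C t * d} := by
      intro q hq t ht t' ht'
      by_contra hne
      have h1 : q ∣ C (t - t') * d := by
        have h3 := dvd_sub ht ht'
        have h4 : c + C t * d - (c + C t' * d) = C (t - t') * d := by
          rw [C_sub]
          ring
        rwa [h4] at h3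
      have h2 : q ∣ d := by
        have hu : IsUnit (C (t - t') : A k) :=
          (IsUnit.mk0 _ (sub_ne_zero.2 hne)).map C
        exact (hu.dvd_mul_left).1 h1
      have h3 : q ∣ c := (dvd_add_left (h2.mul_left (C t))).1 ht
      rcases Multiset.mem_cons.1 hq with rfl | hq
      · exact hdp h2
      · exact hcF q hq h3
    have hfin : Set.Finite (⋃ q ∈ (p ::ₘ F).toFinset, {t : k | q ∣ c + C t * d}) :=
      Set.Finite.biUnion (Finset.finite_toSet _) fun q hq =>
        (key q (Multiset.mem_toFinset.1 hq)).finite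
    obtain ⟨t, ht⟩ := hfin.exists_notMem
    refine ⟨max i j, c + C t * d, add_mem (hP.mono (le_max_left i j) hc) ?_, fun q hq h => ?_⟩
    · rw [← smul_eq_C_mul]
      exact Submodule.smul_mem _ _ (hP.mono (le_max_right i j) hd)
    · exact ht (Set.mem_biUnion (Multiset.mem_toFinset.2 hq) h)

theorem MulFam.exists_cop [Infinite k] {P : ℤ → Submodule k (A k)} (hP : MulFam P)
    (h1 : ∀ π : A k, Irreducible π → ∃ i, ∃ c ∈ P i, ¬ π ∣ c)
    (h2 : ∃ c : A k, c ≠ 0 ∧ c ∈ P c.totalDegree) :
    ∃ (i j : ℕ) (a b : A k), CopForm i j a b ∧ a ∈ P i ∧ b ∈ P j := by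
  classical
  obtain ⟨a, ha, haP⟩ := h2
  by_cases hu : IsUnit a
  · refine ⟨a.totalDegree, a.totalDegree, a, a, ⟨hP.le _ haP, hP.le _ haP, ha, ha,
      fun π hπ h => hπ.not_isUnit (isUnit_of_dvd_unit h.1 hu), Or.inl rfl⟩, haP, haP⟩
  · obtain ⟨j, b, hb, hbF⟩ := hP.avoid h1 (UniqueFactorizationMonoid.factors a)
      (fun p hp => UniqueFactorizationMonoid.irreducible_of_factor p hp)
    have key : ∀ π : A k, Irreducible π → ¬ (π ∣ a ∧ π ∣ b) := by
      intro π hπ h
      obtain ⟨q, hq, hπq⟩ := UniqueFactorizationMonoid.exists_mem_factors_of_dvd ha hπ h.1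
      exact hbF q hq (hπq.symm.dvd.trans h.2)
    have hb0 : b ≠ 0 := by
      rintro rfl
      obtain ⟨π, hπ, hπa⟩ := WfDvdMonoid.exists_irreducible_factor hu ha
      exact key π hπ ⟨hπa, dvd_zero π⟩
    have hj : 0 ≤ j := by
      rcases mem_Ad.1 (hP.le _ hb) with h | h
      · exact absurd h hb0
      · exact le_trans (by (clear * -; positivity)) h
    obtain ⟨j, rfl⟩ := Int.eq_ofNat_of_zero_le hj
    exact ⟨a.totalDegree, j, a, b, ⟨hP.le _ haP, hP.le _ hb, ha, hb0, key, Or.inl rfl⟩, haP, hb⟩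

end MulFam

variable {k : Type} [Field k] {V : Type} [AddCommGroup V] [Module k V] [Module (A k) V]
  [Module (KK k) V] [IsScalarTower k (A k) V] [IsScalarTower (A k) (KK k) V]
  {V' : Type} [AddCommGroup V'] [Module k V'] [Module (A k) V'] [Module (KK k) V']
  [IsScalarTower k (A k) V'] [IsScalarTower (A k) (KK k) V']

omit [Module (KK k) V] [IsScalarTower (A k) (KK k) V] in
/-- the multipliers of a set of homogeneous vectors into a lattice -/
theorem exists_mulFam {E : ℤ → Submodule k V} (hE : IsBLat E) (S : Set (ℤ × V)) :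
    ∃ P : ℤ → Submodule k (A k), MulFam P ∧ ∀ i c, c ∈ P i ↔
      c ∈ Ad k i ∧ ∀ p ∈ S, c • p.2 ∈ E (p.1 + i) := by
  refine ⟨fun i =>
    { carrier := {c | c ∈ Ad k i ∧ ∀ p ∈ S, c • p.2 ∈ E (p.1 + i)}
      add_mem' := fun ha hb => ⟨add_mem ha.1 hb.1, fun p hp => by
        rw [add_smul]
        exact add_mem (ha.2 p hp) (hb.2 p hp)⟩
      zero_mem' := ⟨zero_mem _, fun p hp => by simp⟩
      smul_mem' := fun r c hc => ⟨Submodule.smul_mem _ _ hc.1, fun p hp => by
        rw [smul_assoc]
        exact Submodule.smul_mem _ _ (hc.2 p hp)⟩ }, ⟨fun i c hc => hc.1, ?_⟩,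
    fun i c => Iff.rfl⟩
  intro i j a b ha hb
  refine ⟨Ad_mul ha hb.1, fun p hp => ?_⟩
  rw [mul_smul, add_comm i j, ← add_assoc]
  exact hE.smul_mem ha (hb.2 p hp)

omit [Module (KK k) V] [IsScalarTower (A k) (KK k) V] in
theorem exists_cop_of_finset [Infinite k] {E : ℤ → Submodule k V} (hE : IsBLat E)
    (S : Finset (ℤ × V)) (h : ∀ p ∈ S, LocIn E p.1 p.2) :
    ∃ (i j : ℕ) (a b : A k), CopForm i j a b ∧ (∀ p ∈ S, a • p.2 ∈ E (p.1 + i)) ∧
      (∀ p ∈ S, b • p.2 ∈ E (p.1 + j)) := by
  classical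
  obtain ⟨P, hP, hPm⟩ := exists_mulFam hE (S : Set (ℤ × V))
  have h1 : ∀ π : A k, Irreducible π → ∃ i, ∃ c ∈ P i, ¬ π ∣ c := by
    intro π hπ
    suffices H : ∃ i : ℤ, ∃ c ∈ Ad k i, ¬ π ∣ c ∧ ∀ p ∈ S, c • p.2 ∈ E (p.1 + i) by
      obtain ⟨i, c, hc, hπc, h3⟩ := H
      exact ⟨i, c, (hPm i c).2 ⟨hc, h3⟩, hπc⟩
    clear hPm hP P
    induction S using Finset.induction_on with
    | empty => exact ⟨0, 1, one_mem_Ad le_rfl, hπ.not_dvd_one, by simp⟩
    | insert q S hq ih =>
      obtain ⟨i, c, hc, hπc, h3⟩ := ih (fun p hp => h p (Finset.mem_insert_of_mem hp))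
      obtain ⟨j, d, hd, hπd, h4⟩ := (h q (Finset.mem_insert_self q S)).1 π hπ
      refine ⟨i + j, c * d, Ad_mul hc hd, fun h5 => ?_, fun p hp => ?_⟩
      · rcases hπ.prime.dvd_or_dvd h5 with h5 | h5
        exacts [hπc h5, hπd h5]
      · rcases Finset.mem_insert.1 hp with rfl | hp
        · rw [mul_smul, add_comm i j, ← add_assoc]
          exact hE.smul_mem hc h4
        · rw [mul_comm, mul_smul, ← add_assoc]
          exact hE.smul_mem hd (h3 p hp)
  have h2 : ∃ c : A k, c ≠ 0 ∧ c ∈ P c.totalDegree := by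
    suffices H : ∃ c : A k, c ≠ 0 ∧ ∀ p ∈ S, c • p.2 ∈ E (p.1 + c.totalDegree) by
      obtain ⟨c, hc, h3⟩ := H
      exact ⟨c, hc, (hPm _ c).2 ⟨mem_Ad.2 (Or.inr le_rfl), h3⟩⟩
    clear hPm hP P h1
    induction S using Finset.induction_on with
    | empty => exact ⟨1, one_ne_zero, by simp⟩
    | insert q S hq ih =>
      obtain ⟨c, hc, h3⟩ := ih (fun p hp => h p (Finset.mem_insert_of_mem hp))
      obtain ⟨d, hd, h4⟩ := (h q (Finset.mem_insert_self q S)).2
      refine ⟨c * d, mul_ne_zero hc hd, fun p hp => ?_⟩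
      rw [totalDegree_mul_of_isDomain hc hd, Nat.cast_add]
      rcases Finset.mem_insert.1 hp with rfl | hp
      · rw [mul_smul, add_comm (c.totalDegree : ℤ), ← add_assoc]
        exact hE.smul_mem (mem_Ad.2 (Or.inr le_rfl)) h4
      · rw [mul_comm, mul_smul, ← add_assoc]
        exact hE.smul_mem (mem_Ad.2 (Or.inr le_rfl)) (h3 p hp)
  obtain ⟨i, j, a, b, hab, ha, hb⟩ := hP.exists_cop h1 h2
  exact ⟨i, j, a, b, hab, ((hPm _ _).1 ha).2, ((hPm _ _).1 hb).2⟩

omit [Module (KK k) V] [IsScalarTower (A k) (KK k) V] in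
/-- coprime multipliers of a lattice all of whose elements are local elements of `E` -/
theorem exists_cop_of_locIn [Infinite k] {E E' : ℤ → Submodule k V} (hE : IsBLat E)
    (hE' : IsBLat E') (h : ∀ n, ∀ v ∈ E' n, LocIn E n v) :
    ∃ (i j : ℕ) (a b : A k), CopForm i j a b ∧
      (∀ n, ∀ v ∈ E' n, a • v ∈ E (n + i)) ∧ (∀ n, ∀ v ∈ E' n, b • v ∈ E (n + j)) := by
  classical
  obtain ⟨l, v, c, hv, hgen⟩ := hE'.exists_gen
  obtain ⟨i, j, a, b, hab, ha, hb⟩ := exists_cop_of_finset hE
    (Finset.univ.image fun s => (c s, v s)) (fun p hp => by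
      obtain ⟨s, -, rfl⟩ := Finset.mem_image.1 hp
      exact h _ _ (hv s))
  have key : ∀ (i : ℕ) (a : A k), (∀ s, a • v s ∈ E (c s + i)) →
      ∀ n, ∀ w ∈ E' n, a • w ∈ E (n + i) := by
    intro i a ha n w hw
    rw [hgen n, mem_genLat] at hw
    obtain ⟨d, hd, rfl⟩ := hw
    rw [Finset.smul_sum]
    refine sum_mem fun s _ => ?_
    have h3 := hE.smul_mem (hd s) (ha s)
    rw [smul_comm]
    convert h3 using 2
    ring
  exact ⟨i, j, a, b, hab,
    key i a fun s => ha (c s, v s) (Finset.mem_image.2 ⟨s, Finset.mem_univ _, rfl⟩),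
    key j b fun s => hb (c s, v s) (Finset.mem_image.2 ⟨s, Finset.mem_univ _, rfl⟩)⟩

variable [Infinite k]

/-- a local element is multiplied into the lattice by a coprime pair -/
theorem LocIn.exists_cop {E : ℤ → Submodule k V} (hE : IsBLat E) {n : ℤ} {v : V}
    (h : LocIn E n v) : ∃ (i j : ℕ) (a b : A k), CopForm i j a b ∧
      a • v ∈ E (n + i) ∧ b • v ∈ E (n + j) := by
  obtain ⟨i, j, a, b, hab, ha, hb⟩ := exists_cop_of_finset hE {(n, v)} (fun p hp => by
    rw [Finset.mem_singleton.1 hp]
    exact h)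
  exact ⟨i, j, a, b, hab, ha _ (Finset.mem_singleton_self _), hb _ (Finset.mem_singleton_self _)⟩

theorem finrank_mult_le {E E' : ℤ → Submodule k V} (hE : IsBLat E) (hE' : IsBLat E')
    (h : ∀ n, E n ≤ E' n) {n i : ℤ} {v : V} (hv : v ∈ E' n) (W : Submodule k (A k))
    [Module.Finite k W] (hW : ∀ c ∈ Ad k i, c • v ∈ E (n + i) → c ∈ W) :
    Module.finrank k (Ad k i) + Module.finrank k (E (n + i)) ≤
      Module.finrank k W + Module.finrank k (E' (n + i)) := by
  have := hE'.fin (n + i)
  let g : Ad k i →ₗ[k] E' (n + i) :=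
    { toFun := fun c => ⟨(c : A k) • v, by
        rw [add_comm]
        have := hE'.smul_mem c.2 hv
        rwa [add_comm] at this⟩
      map_add' := fun c d => by
        apply Subtype.ext
        simp only [Submodule.coe_add, add_smul, AddMemClass.mk_add_mk]
      map_smul' := fun r c => by
        apply Subtype.ext
        simp only [SetLike.val_smul, smul_assoc, RingHom.id_apply, SetLike.mk_smul_mk] }
  let Q : Submodule k (E' (n + i)) := (E (n + i)).submoduleOf (E' (n + i))
  let f : Ad k i →ₗ[k] (E' (n + i) ⧸ Q) := Q.mkQ.comp g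
  have h1 := LinearMap.finrank_range_add_finrank_ker f
  have h2 : Module.finrank k (LinearMap.range f) ≤ Module.finrank k (E' (n + i) ⧸ Q) :=
    Submodule.finrank_le _
  have h3 := Submodule.finrank_quotient_add_finrank Q
  have h4 : Module.finrank k Q = Module.finrank k (E (n + i)) :=
    (Submodule.submoduleOfEquivOfLe (h (n + i))).finrank_eq
  have h5 : Module.finrank k (LinearMap.ker f) ≤ Module.finrank k W := by
    rw [← Submodule.finrank_map_subtype_eq (Ad k i) (LinearMap.ker f)]
    refine Submodule.finrank_mono ?_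
    rintro _ ⟨c, hc, rfl⟩
    refine hW _ c.2 ?_
    have hc' : g c ∈ Q := (Submodule.Quotient.mk_eq_zero Q).1 hc
    exact hc'
  omega

theorem one_le_totalDegree {π : A k} (hπ : Irreducible π) : 1 ≤ π.totalDegree := by
  by_contra hlt
  have h0 : π.totalDegree = 0 := by omega
  rw [MvPolynomial.totalDegree_eq_zero_iff_eq_C] at h0
  have h1 : coeff 0 π ≠ 0 := by
    intro h
    rw [h, map_zero] at h0
    exact hπ.ne_zero h0
  apply hπ.not_isUnit
  rw [h0]
  exact (IsUnit.mk0 _ h1).map C

/-- 1.6 (c), first half -/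
theorem le_hull_of_bounded {E E' : ℤ → Submodule k V} (hE : IsBLat E) (hE' : IsBLat E')
    (h : ∀ n, E n ≤ E' n) {N e g g' : ℤ} (hh : HasHilb E N e g) (hh' : HasHilb E' N e g')
    (n : ℤ) : E' n ≤ hull E hE n := by
  intro v hv
  rw [mem_hull]
  have key : ∀ d : ℤ, 1 ≤ d → ¬ ∀ i : ℤ, ∃ W : Submodule k (A k), Module.Finite k W ∧
      Module.finrank k W ≤ Module.finrank k (Ad k (i - d)) ∧
      ∀ c ∈ Ad k i, c • v ∈ E (n + i) → c ∈ W := by
    intro d hd H
    have ht : Tendsto (fun i : ℤ => n + i) atTop atTop :=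
      tendsto_atTop_add_const_left _ n tendsto_id
    have e1 := ht.eventually hh
    have e2 := ht.eventually hh'
    obtain ⟨i, h1, h2, h3, h4⟩ := (e1.and (e2.and ((eventually_ge_atTop (d + d ^ 2)).and
      (eventually_gt_atTop (g' - g))))).exists
    obtain ⟨W, hW1, hW2, hW3⟩ := H i
    have h5 := finrank_mult_le hE hE' h hv W hW3
    have h6 : (Module.finrank k (Ad k i) : ℚ) + Module.finrank k (E (n + i)) ≤
        Module.finrank k (Ad k (i - d)) + Module.finrank k (E' (n + i)) := by
      exact_mod_cast h5.trans (Nat.add_le_add_right hW2 _)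
    have hd2 : 0 ≤ d ^ 2 := sq_nonneg d
    rw [h1, h2, finrank_Ad (by omega), finrank_Ad (by omega)] at h6
    simp only [hp] at h6
    push_cast at h6
    have h3' : (d : ℚ) + d ^ 2 ≤ i := by exact_mod_cast h3
    have h4' : (g' : ℚ) - g < i := by exact_mod_cast h4
    have hd' : (1 : ℚ) ≤ d := by exact_mod_cast hd
    linarith only [mul_nonneg (sub_nonneg.2 hd') (sub_nonneg.2 h3'), mul_nonneg (sub_nonneg.2 hd') (sub_nonneg.2 hd'), mul_nonneg (mul_self_nonneg (1 : ℚ)) (sub_nonneg.2 hd'), mul_nonneg (mul_self_nonneg (1 : ℚ)) (le_of_lt (sub_pos.2 h4')), mul_nonneg (mul_self_nonneg (1 : ℚ)) (sub_nonneg.2 h6), mul_nonneg (sq_nonneg (↑d : ℚ)) (sub_nonneg.2 hd')]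
  constructor
  · intro π hπ
    by_contra hcon
    push Not at hcon
    refine key π.totalDegree (by exact_mod_cast one_le_totalDegree hπ) fun i => ?_
    refine ⟨(Ad k (i - π.totalDegree)).map (LinearMap.mulLeft k π), inferInstance,
      Submodule.finrank_map_le _ _, fun c hc hcv => ?_⟩
    by_cases hdvd : π ∣ c
    · obtain ⟨u, rfl⟩ := hdvd
      refine ⟨u, ?_, rfl⟩
      rw [SetLike.mem_coe, mem_Ad]
      by_cases hu : u = 0
      · exact Or.inl hu
      · right
        rcases mem_Ad.1 hc with h0 | h0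
        · exact absurd h0 (mul_ne_zero hπ.ne_zero hu)
        · rw [totalDegree_mul_of_isDomain hπ.ne_zero hu] at h0
          push_cast at h0
          omega
    · exact absurd hcv (hcon i c hc hdvd)
  · by_contra hcon
    push Not at hcon
    refine key 1 le_rfl fun i => ⟨Ad k (i - 1), inferInstance, le_rfl, fun c hc hcv => ?_⟩
    rw [mem_Ad]
    by_cases hc0 : c = 0
    · exact Or.inl hc0
    · right
      rcases mem_Ad.1 hc with h0 | h0
      · exact absurd h0 hc0
      · rcases eq_or_lt_of_le h0 with h1 | h1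
        · rw [← h1] at hcv
          exact absurd hcv (hcon c hc0)
        · omega

/-- coprime annihilators: for `E ≤ E'` with the same `N` and `e` there are coprime forms
multiplying `E'` into `E` -/
theorem exists_cop_mul_le {E E' : ℤ → Submodule k V} (hE : IsBLat E) (hE' : IsBLat E')
    (h : ∀ n, E n ≤ E' n) {N e g g' : ℤ} (hh : HasHilb E N e g) (hh' : HasHilb E' N e g') :
    ∃ (i j : ℕ) (a b : A k), CopForm i j a b ∧
      (∀ n, ∀ v ∈ E' n, a • v ∈ E (n + i)) ∧ (∀ n, ∀ v ∈ E' n, b • v ∈ E (n + j)) :=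
  exists_cop_of_locIn hE hE' fun n _ hv => le_hull_of_bounded hE hE' h hh hh' n hv

theorem CopForm.isRelPrime {i j : ℕ} {a b : A k} (hab : CopForm i j a b) : IsRelPrime a b :=
  WfDvdMonoid.isRelPrime_of_no_irreducible_factors (fun h => hab.2.2.1 h.1)
    fun z hz h1 h2 => hab.2.2.2.2.1 z hz ⟨h1, h2⟩

/-- the degree `n` part of the ideal `(a, b)` -/
noncomputable def copIdl (i j : ℕ) (a b : A k) (n : ℤ) : Submodule k (A k) :=
  (Ad k (n - i)).map (LinearMap.mulLeft k a) ⊔ (Ad k (n - j)).map (LinearMap.mulLeft k b)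

theorem copIdl_le {i j : ℕ} {a b : A k} (hab : CopForm i j a b) (n : ℤ) :
    copIdl i j a b n ≤ Ad k n := by
  refine sup_le ?_ ?_
  · rintro _ ⟨u, hu, rfl⟩
    have := Ad_mul hab.1 hu
    rwa [add_sub_cancel] at this
  · rintro _ ⟨u, hu, rfl⟩
    have := Ad_mul hab.2.1 hu
    rwa [add_sub_cancel] at this

theorem finrank_copIdl {i j : ℕ} {a b : A k} (hab : CopForm i j a b) {n : ℤ}
    (hn : (i : ℤ) + j - 2 ≤ n) :
    Module.finrank k (Ad k n) ≤ Module.finrank k (copIdl i j a b n) + i * j := by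
  obtain ⟨ha, hb, ha0, hb0, hirr, hdeg⟩ := id hab
  have h1 := Submodule.finrank_sup_add_finrank_inf_eq ((Ad k (n - i)).map (LinearMap.mulLeft k a))
    ((Ad k (n - j)).map (LinearMap.mulLeft k b))
  have h2 : Module.finrank k ((Ad k (n - i)).map (LinearMap.mulLeft k a)) =
      Module.finrank k (Ad k (n - i)) :=
    (Submodule.equivMapOfInjective (LinearMap.mulLeft k a) (mul_right_injective₀ ha0)
      (Ad k (n - i))).finrank_eq.symm
  have h3 : Module.finrank k ((Ad k (n - j)).map (LinearMap.mulLeft k b)) =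
      Module.finrank k (Ad k (n - j)) :=
    (Submodule.equivMapOfInjective (LinearMap.mulLeft k b) (mul_right_injective₀ hb0)
      (Ad k (n - j))).finrank_eq.symm
  have h4 : Module.finrank k ((Ad k (n - i)).map (LinearMap.mulLeft k a) ⊓
      (Ad k (n - j)).map (LinearMap.mulLeft k b) : Submodule k (A k)) ≤
      Module.finrank k (Ad k (n - i - j)) := by
    refine le_trans (Submodule.finrank_mono (t := (Ad k (n - i - j)).map
      (LinearMap.mulLeft k (a * b))) ?_) (Submodule.finrank_map_le _ _)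
    rintro x ⟨⟨u, hu, rfl⟩, ⟨w, hw, hwu⟩⟩
    change b * w = a * u at hwu
    change a * u ∈ _
    have hbu : b ∣ u := by
      refine hab.isRelPrime.symm.dvd_of_dvd_mul_left (z := u) (y := a) ?_
      exact ⟨w, hwu.symm⟩
    obtain ⟨x, rfl⟩ := hbu
    have hwx : w = a * x := by
      apply mul_left_cancel₀ hb0
      rw [hwu]
      ring
    subst hwx
    refine ⟨x, ?_, mul_assoc a b x⟩
    rw [SetLike.mem_coe, mem_Ad]
    by_cases hx : x = 0
    · exact Or.inl hx
    · right
      rcases mem_Ad.1 hu with h0 | h0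
      · exact absurd h0 (mul_ne_zero hb0 hx)
      rcases mem_Ad.1 hw with h5 | h5
      · exact absurd h5 (mul_ne_zero ha0 hx)
      rw [totalDegree_mul_of_isDomain hb0 hx] at h0
      rw [totalDegree_mul_of_isDomain ha0 hx] at h5
      push_cast at h0 h5
      rcases hdeg with h6 | h6 <;> omega
  have h5 : (Module.finrank k (Ad k n) : ℚ) + Module.finrank k (Ad k (n - i - j)) =
      Module.finrank k (Ad k (n - i)) + Module.finrank k (Ad k (n - j)) + (i * j : ℕ) := by
    rw [finrank_Ad (by omega), finrank_Ad (by omega), finrank_Ad (by omega),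
      finrank_Ad (by omega)]
    simp only [hp]
    push_cast
    ring
  have h6 : Module.finrank k (Ad k n) + Module.finrank k (Ad k (n - i - j)) =
      Module.finrank k (Ad k (n - i)) + Module.finrank k (Ad k (n - j)) + i * j := by
    exact_mod_cast h5
  rw [copIdl]
  omega

theorem hp_bounded {α β γ B : ℤ} (h : ∀ᶠ n : ℤ in atTop, 0 ≤ hp α β γ n ∧ hp α β γ n ≤ B) :
    α = 0 ∧ β = 0 ∧ 0 ≤ γ := by
  obtain ⟨n₀, hn₀⟩ := eventually_atTop.1 h
  have key : ∀ t : ℤ, n₀ + 1 ≤ t → 0 ≤ α * (t * (t + 1)) + 2 * β * t + 2 * γ ∧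
      α * (t * (t + 1)) + 2 * β * t + 2 * γ ≤ 2 * B := by
    intro t ht
    obtain ⟨h1, h2⟩ := hn₀ (t - 1) (by omega)
    simp only [hp] at h1 h2
    push_cast at h1 h2
    constructor
    · have : (0 : ℚ) ≤ α * (t * (t + 1)) + 2 * β * t + 2 * γ := by linarith only [h1]
      exact_mod_cast this
    · have : (α * (t * (t + 1)) + 2 * β * t + 2 * γ : ℚ) ≤ 2 * B := by linarith only [h2]
      exact_mod_cast this
  have hα : α = 0 := by
    have h1 := key (|n₀| + 1 + 2 * |β| + 2 * |γ| + 2 * |B| + 1) (by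
      have := le_abs_self n₀
      have := abs_nonneg β
      have := abs_nonneg γ
      have := abs_nonneg B
      omega)
    set t := |n₀| + 1 + 2 * |β| + 2 * |γ| + 2 * |B| + 1 with ht
    have hn := abs_nonneg n₀
    have hb := abs_nonneg β
    have hg := abs_nonneg γ
    have hB := abs_nonneg B
    have hb1 := le_abs_self β
    have hb2 := neg_abs_le β
    have hg1 := le_abs_self γ
    have hg2 := neg_abs_le γ
    have hB1 := le_abs_self B
    have ht0 : 0 < t := by omega
    have hq : t * t = (|n₀| + 1 + 2 * |β| + 2 * |γ| + 2 * |B| + 1) * t := by rw [← ht]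
    have q1 := mul_nonneg hn ht0.le
    have q2 := mul_nonneg hg ht0.le
    have q3 := mul_nonneg hB ht0.le
    rcases lt_trichotomy α 0 with h0 | h0 | h0
    · exfalso
      have h2 : α * (t * (t + 1)) ≤ (-1) * (t * (t + 1)) :=
        mul_le_mul_of_nonneg_right (by omega) (by (clear * -; positivity))
      have q4 := mul_le_mul_of_nonneg_right hb1 ht0.le
      linarith only [h1.1, h2, hq, q1, q2, q3, q4, hg1, ht, hn, hb, hg, hB, ht0]
    · exact h0
    · exfalso
      have h2 : 1 * (t * (t + 1)) ≤ α * (t * (t + 1)) :=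
        mul_le_mul_of_nonneg_right (by omega) (by (clear * -; positivity))
      have q4 := mul_le_mul_of_nonneg_right hb2 ht0.le
      linarith only [h1.2, h2, hq, q1, q2, q3, q4, hg2, hB1, ht, hn, hb, hg, hB, ht0]
  subst hα
  have hβ : β = 0 := by
    have h1 := key (|n₀| + 1 + 2 * |γ| + 2 * |B| + 1) (by
      have := le_abs_self n₀
      have := abs_nonneg γ
      have := abs_nonneg B
      (clear β h hn₀ key; omega))
    set t := |n₀| + 1 + 2 * |γ| + 2 * |B| + 1 with ht
    have hn := abs_nonneg n₀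
    have hg := abs_nonneg γ
    have hB := abs_nonneg B
    have hg1 := le_abs_self γ
    have hg2 := neg_abs_le γ
    have hB1 := le_abs_self B
    have ht0 : 0 < t := by omega
    rcases lt_trichotomy β 0 with h0 | h0 | h0
    · exfalso
      have q5 : β * t ≤ (-1) * t := mul_le_mul_of_nonneg_right (by omega) ht0.le
      linarith only [h1.1, q5, ht, hn, hg, hB, hg1, ht0]
    · exact h0
    · exfalso
      have q5 : 1 * t ≤ β * t := mul_le_mul_of_nonneg_right (by omega) ht0.le
      linarith only [h1.2, q5, ht, hn, hg, hB, hg2, hB1, ht0]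
  subst hβ
  refine ⟨rfl, rfl, ?_⟩
  have := (key (n₀ + 1) le_rfl).1
  omega

/-- converse: if coprime forms multiply `E'` into `E` then `N`, `e` agree -/
theorem hilb_eq_of_cop {E E' : ℤ → Submodule k V} (hE : IsBLat E) (hE' : IsBLat E')
    (h : ∀ n, E n ≤ E' n) {i j : ℕ} {a b : A k} (hab : CopForm i j a b)
    (ha : ∀ n, ∀ v ∈ E' n, a • v ∈ E (n + i)) (hb : ∀ n, ∀ v ∈ E' n, b • v ∈ E (n + j))
    {N e g N' e' g' : ℤ} (hh : HasHilb E N e g) (hh' : HasHilb E' N' e' g') :
    N = N' ∧ e = e' ∧ g ≤ g' := by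
  classical
  obtain ⟨l, v, c, hv, hgen⟩ := hE'.exists_gen
  have key : ∀ᶠ n : ℤ in atTop, Module.finrank k (E' n) ≤
      Module.finrank k (E n) + l * (i * j) := by
    have h1 : ∀ s : Fin l, ∀ᶠ n : ℤ in atTop, (i : ℤ) + j - 2 + c s ≤ n := fun s =>
      eventually_ge_atTop _
    filter_upwards [eventually_all.2 h1] with n hn
    have := hE'.fin n
    -- the parametrisation
    let f₀ : (∀ s : Fin l, Ad k (n - c s)) →ₗ[k] E' n :=
      { toFun := fun d => ⟨∑ s, (d s : A k) • v s, by
          rw [hgen n, mem_genLat]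
          exact ⟨fun s => d s, fun s => (d s).2, rfl⟩⟩
        map_add' := fun d d' => by
          apply Subtype.ext
          simp only [Pi.add_apply, Submodule.coe_add, add_smul, Finset.sum_add_distrib, AddMemClass.mk_add_mk]
        map_smul' := fun r d => by
          apply Subtype.ext
          simp only [Pi.smul_apply, SetLike.val_smul, smul_assoc, RingHom.id_apply, SetLike.mk_smul_mk, Finset.smul_sum] }
    let Q : Submodule k (E' n) := (E n).submoduleOf (E' n)
    let G : ∀ s : Fin l, Submodule k (Ad k (n - c s)) := fun s =>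
      (copIdl i j a b (n - c s)).submoduleOf (Ad k (n - c s))
    let f : (∀ s : Fin l, Ad k (n - c s)) →ₗ[k] (E' n ⧸ Q) := Q.mkQ.comp f₀
    have hf : Function.Surjective f := by
      refine (Submodule.mkQ_surjective Q).comp ?_
      rintro ⟨w, hw⟩
      have hw' := hw
      rw [hgen n, mem_genLat] at hw'
      obtain ⟨d, hd, rfl⟩ := hw'
      exact ⟨fun s => ⟨d s, hd s⟩, rfl⟩
    have hG : Submodule.pi Set.univ G ≤ LinearMap.ker f := by
      intro d hd
      rw [LinearMap.mem_ker]
      change Q.mkQ (f₀ d) = 0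
      rw [Submodule.mkQ_apply, Submodule.Quotient.mk_eq_zero]
      change ∑ s, (d s : A k) • v s ∈ E n
      refine sum_mem fun s _ => ?_
      have hds : (d s : A k) ∈ copIdl i j a b (n - c s) := hd s (Set.mem_univ s)
      obtain ⟨x, ⟨u, hu, rfl⟩, y, ⟨w, hw, rfl⟩, hxy⟩ := Submodule.mem_sup.1 hds
      rw [← hxy, add_smul]
      refine add_mem ?_ ?_
      · change (a * u) • v s ∈ E n
        rw [mul_smul]
        have h3 := ha _ _ (hE'.smul_mem hu (hv s))
        convert h3 using 2
        ring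
      · change (b * w) • v s ∈ E n
        rw [mul_smul]
        have h3 := hb _ _ (hE'.smul_mem hw (hv s))
        convert h3 using 2
        ring
    let fb := (Submodule.pi Set.univ G).liftQ f hG
    have hfb : Function.Surjective fb := by
      intro y
      obtain ⟨d, rfl⟩ := hf y
      exact ⟨Submodule.Quotient.mk d, rfl⟩
    have h2 := LinearMap.finrank_le_finrank_of_surjective hfb
    have h3 := (Submodule.quotientPi G).finrank_eq
    have hfree : ∀ s, Module.Free k (Ad k (n - c s) ⧸ G s) := fun s =>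
      Module.Free.of_divisionRing k _
    rw [Module.finrank_pi_fintype] at h3
    have h4 : ∀ s : Fin l, Module.finrank k (Ad k (n - c s) ⧸ G s) ≤ i * j := by
      intro s
      have h5 := finrank_copIdl hab (n := n - c s) (by
        have := hn s
        omega)
      have h6 := Submodule.finrank_quotient_add_finrank (G s)
      have h7 : Module.finrank k (G s) = Module.finrank k (copIdl i j a b (n - c s)) :=
        (Submodule.submoduleOfEquivOfLe (copIdl_le hab (n - c s))).finrank_eq
      omega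
    have h5 : ∑ s : Fin l, Module.finrank k (Ad k (n - c s) ⧸ G s) ≤ l * (i * j) := by
      calc _ ≤ ∑ s : Fin l, i * j := Finset.sum_le_sum fun s _ => h4 s
        _ = l * (i * j) := by simp only [Finset.sum_const, Finset.card_univ, Fintype.card_fin, smul_eq_mul]
    have h6 := Submodule.finrank_quotient_add_finrank Q
    have h7 : Module.finrank k Q = Module.finrank k (E n) :=
      (Submodule.submoduleOfEquivOfLe (h n)).finrank_eq
    omega
  have h1 : ∀ᶠ n : ℤ in atTop, 0 ≤ hp (N' - N) (e' - e) (g' - g) n ∧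
      hp (N' - N) (e' - e) (g' - g) n ≤ ((l * (i * j) : ℕ) : ℤ) := by
    filter_upwards [key, hh, hh'] with n h1 h2 h3
    have := hE'.fin n
    have h4 : Module.finrank k (E n) ≤ Module.finrank k (E' n) := Submodule.finrank_mono (h n)
    have h5 : hp (N' - N) (e' - e) (g' - g) n = hp N' e' g' n - hp N e g n := by
      simp only [hp]
      push_cast
      ring
    rw [h5, ← h2, ← h3]
    constructor
    · exact sub_nonneg.2 (by exact_mod_cast h4)
    · rw [sub_le_iff_le_add']
      exact_mod_cast h1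
  obtain ⟨h2, h3, h4⟩ := hp_bounded h1
  exact ⟨by omega, by omega, by omega⟩

theorem HasHilb.hull {E : ℤ → Submodule k V} (hE : IsBLat E) {N e g : ℤ}
    (h : HasHilb E N e g) : ∃ g' : ℤ, g ≤ g' ∧ HasHilb (hull E hE) N e g' := by
  obtain ⟨N', e', g', h'⟩ := (isBLat_hull hE).exists_hilb
  obtain ⟨i, j, a, b, hab, ha, hb⟩ := exists_cop_of_locIn hE (isBLat_hull hE)
    (fun n v hv => hv)
  obtain ⟨rfl, rfl, hg⟩ := hilb_eq_of_cop hE (isBLat_hull hE) (le_hull hE) hab ha hb h h'
  exact ⟨g', hg, h'⟩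

end Vale.Agent.P190.D
end
end

section

section

/-! Section 2, file C4: T-lattices. -/

set_option autoImplicit false
set_option linter.unusedSectionVars false

open MvPolynomial Filter

namespace Vale.Agent.P190.D

variable {k : Type} [Field k] {X : Arr k} {V : Type} [AddCommGroup V] [Module k V]
  [Module (A k) V] [Module (KK k) V] [Module X.L V] [IsScalarTower k (A k) V]
  [IsScalarTower k (KK k) V] [IsScalarTower k X.L V] [IsScalarTower (A k) (KK k) V]
  [IsScalarTower (A k) X.L V] [IsScalarTower (KK k) X.L V]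
  {V' : Type} [AddCommGroup V'] [Module k V']
  [Module (A k) V'] [Module (KK k) V'] [Module X.L V'] [IsScalarTower k (A k) V']
  [IsScalarTower k (KK k) V'] [IsScalarTower k X.L V'] [IsScalarTower (A k) (KK k) V']
  [IsScalarTower (A k) X.L V'] [IsScalarTower (KK k) X.L V']

/-- `E` is stable under the `σ_x` -/
def SigStable (X : Arr k) [Module X.L V] (E : ℤ → Submodule k V) : Prop :=
  ∀ (x : X.I) {n : ℤ} {v : V}, v ∈ E n → X.σ x • v ∈ E (n + 1)

theorem smul_comm_AL (c : A k) (s : X.L) (v : V) : c • (s • v) = s • (c • v) := by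
  rw [← algebraMap_smul X.L c (s • v), ← algebraMap_smul X.L c v, smul_smul, smul_smul, mul_comm]

theorem smul_comm_kL (c : k) (s : X.L) (v : V) : c • (s • v) = s • (c • v) := by
  rw [← algebraMap_smul X.L c (s • v), ← algebraMap_smul X.L c v, smul_smul, smul_smul, mul_comm]

theorem smul_comm_KL (c : KK k) (s : X.L) (v : V) : c • (s • v) = s • (c • v) := by
  rw [← algebraMap_smul X.L c (s • v), ← algebraMap_smul X.L c v, smul_smul, smul_smul, mul_comm]

theorem SigStable.pow_smul {E : ℤ → Submodule k V} (hs : SigStable X E) (x : X.I) (j : ℕ)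
    {n : ℤ} {v : V} (hv : v ∈ E n) : X.σ x ^ j • v ∈ E (n + j) := by
  induction j with
  | zero => simpa using hv
  | succ j ih =>
    rw [pow_succ', mul_smul]
    have := hs x ih
    push_cast
    rwa [← add_assoc]

theorem SigStable.prod_smul {E : ℤ → Submodule k V} (hs : SigStable X E) (u : X.I → ℕ)
    (s : Finset X.I) {n : ℤ} {v : V} (hv : v ∈ E n) :
    (∏ x ∈ s, X.σ x ^ u x) • v ∈ E (n + (∑ x ∈ s, u x : ℕ)) := by
  induction s using Finset.induction_on with
  | empty => simpa using hv
  | insert x s hx ih =>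
    rw [Finset.prod_insert hx, Finset.sum_insert hx, mul_smul]
    have := hs.pow_smul x (u x) ih
    push_cast at this ⊢
    rwa [add_comm (u x : ℤ), ← add_assoc]

theorem SigStable.T0_smul {E : ℤ → Submodule k V} (hE : IsBLat E) (hs : SigStable X E) {i n : ℤ}
    {f : X.L} {v : V} (hf : f ∈ X.T0 i) (hv : v ∈ E n) : f • v ∈ E (n + i) := by
  unfold Arr.T0 at hf
  induction hf using Submodule.span_induction with
  | mem f hf =>
    obtain ⟨u, hu, rfl⟩ := hf
    rw [← hu]
    exact hs.prod_smul u Finset.univ hv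
  | zero => rw [zero_smul]; exact zero_mem _
  | add f g _ _ hf hg => rw [add_smul]; exact add_mem hf hg
  | smul c f _ hf => rw [smul_assoc]; exact Submodule.smul_mem _ _ hf

theorem SigStable.hull {E : ℤ → Submodule k V} (hE : IsBLat E) (hs : SigStable X E) :
    SigStable X (hull E hE) := by
  intro x n v hv
  obtain ⟨h1, c, hc, h2⟩ := hv
  refine ⟨fun π hπ => ?_, c, hc, ?_⟩
  · obtain ⟨i, c, hc, hcπ, h5⟩ := h1 π hπ
    refine ⟨i, c, hc, hcπ, ?_⟩
    rw [smul_comm_AL, add_right_comm]
    exact hs x h5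
  · rw [smul_comm_AL, add_right_comm]
    exact hs x h2

/-- 2.3 -/
theorem SigStable.of_two {E : ℤ → Submodule k V} (hE : IsBLat E) (hs : SigStable X E)
    (h2 : IsS2 E) {x y : X.I} (hxy : x ≠ y) {n : ℤ} {v : V} (hx : X.σ x • v ∈ E (n + 1))
    (hy : X.σ y • v ∈ E (n + 1)) : v ∈ E n := by
  have key : ∀ z : X.I, X.σ z • v ∈ E (n + 1) → X.q z • v ∈ E (n + 2) := by
    intro z hz
    have h1 := hs z hz
    rw [smul_smul, ← sq, Arr.σ_sq, algebraMap_smul, add_assoc] at h1
    exact h1
  exact h2.of_cop (X.cop_q hxy) (key x hx) (key y hy)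

theorem map_smul_A (Γ : V →ₗ[X.L] V') (c : A k) (v : V) : Γ (c • v) = c • Γ v := by
  rw [← algebraMap_smul X.L c v, ← algebraMap_smul X.L c (Γ v), map_smul]

theorem gam_smul_A (Γ : V →ₗ[X.L] V) (ε : X.S → Bool) (c : A k) (v : V) :
    gam Γ ε (c • v) = c • gam Γ ε v := by
  unfold gam
  rw [map_smul_A, smul_comm_AL]

theorem IsTLat.sigStable {Γ : V →ₗ[X.L] V} {E : ℤ → Submodule k V} (hE : IsTLat Γ E) :
    SigStable X E := fun x _ _ hv => hE.sig_mem x hv

theorem IsTLat.hull [Infinite k] {Γ : V →ₗ[X.L] V} {E : ℤ → Submodule k V} (hE : IsTLat Γ E) :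
    IsTLat Γ (hull E hE.toIsBLat) := by
  refine { toIsBLat := isBLat_hull hE.toIsBLat, sig_mem := fun x n v hv => ?_,
           gam_mem := fun ε n v hv => ?_ }
  · exact SigStable.hull hE.toIsBLat hE.sigStable x hv
  · obtain ⟨h1, c, hc, h2⟩ := hv
    refine ⟨fun π hπ => ?_, c, hc, ?_⟩
    · obtain ⟨i, c, hc, hcπ, h5⟩ := h1 π hπ
      refine ⟨i, c, hc, hcπ, ?_⟩
      rw [← gam_smul_A, add_right_comm]
      exact hE.gam_mem ε h5
    · rw [← gam_smul_A, add_right_comm]
      exact hE.gam_mem ε h2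

theorem IsTLat.sub {Γ : V →ₗ[X.L] V} {E : ℤ → Submodule k V} (hE : IsTLat Γ E)
    {U : Submodule X.L V} (hU : IsTSub Γ U) : IsTLat Γ (subLat E U) := by
  have h1 : subLat E U = interLat E (U.restrictScalars (A k)) := by
    funext n
    ext v
    exact Iff.rfl
  refine { toIsBLat := ?_, sig_mem := fun x n v hv => ?_, gam_mem := fun ε n v hv => ?_ }
  · rw [h1]
    exact hE.toIsBLat.inter _
  · exact ⟨hE.sig_mem x hv.1, U.smul_mem _ hv.2⟩
  · exact ⟨hE.gam_mem ε hv.1, U.smul_mem _ (hU v hv.2)⟩

/-- the induced operator on a T-subspace -/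
noncomputable def subΓ (Γ : V →ₗ[X.L] V) {U : Submodule X.L V} (hU : IsTSub Γ U) : U →ₗ[X.L] U :=
  Γ.restrict hU

/-- the induced operator on a quotient by a T-subspace -/
noncomputable def quoΓ (Γ : V →ₗ[X.L] V) {U : Submodule X.L V} (hU : IsTSub Γ U) : (V ⧸ U) →ₗ[X.L] (V ⧸ U) :=
  U.mapQ U Γ hU

theorem IsTLat.quo {Γ : V →ₗ[X.L] V} {E : ℤ → Submodule k V} (hE : IsTLat Γ E)
    {U : Submodule X.L V} (hU : IsTSub Γ U) : IsTLat (quoΓ Γ hU) (quoLat E U) := by
  refine { toIsBLat := ?_, sig_mem := fun x n v hv => ?_, gam_mem := fun ε n v hv => ?_ }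
  · exact hE.toIsBLat.map (U.mkQ.restrictScalars (A k))
  · obtain ⟨w, hw, rfl⟩ := hv
    exact ⟨X.σ x • w, hE.sig_mem x hw, rfl⟩
  · obtain ⟨w, hw, rfl⟩ := hv
    exact ⟨gam Γ ε w, hE.gam_mem ε hw, rfl⟩

theorem spanK_smul_sig {E : ℤ → Submodule k V} (hs : SigStable X E) (x : X.I) {w : V}
    (hw : w ∈ spanK E) : X.σ x • w ∈ spanK E := by
  unfold spanK at hw ⊢
  induction hw using Submodule.span_induction with
  | mem v hv =>
    obtain ⟨n, hn⟩ := Set.mem_iUnion.1 hv
    exact Submodule.subset_span (Set.mem_iUnion.2 ⟨n + 1, hs x hn⟩)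
  | zero => rw [smul_zero]; exact zero_mem _
  | add v w _ _ hv hw => rw [smul_add]; exact add_mem hv hw
  | smul c v _ hv => rw [← smul_comm_KL]; exact Submodule.smul_mem _ _ hv

theorem spanK_smul {E : ℤ → Submodule k V} (hs : SigStable X E) (l : X.L) {w : V}
    (hw : w ∈ spanK E) : l • w ∈ spanK E := by
  have h1 : ∀ s : Finset X.J, X.mon s • w ∈ spanK E := by
    intro s
    unfold Arr.mon
    induction s using Finset.induction_on with
    | empty => simpa only [Finset.prod_empty, one_smul] using hw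
    | insert j s hj ih =>
      rw [Finset.prod_insert hj, mul_smul]
      exact spanK_smul_sig hs j.1 ih
  have h2 : l ∈ Submodule.span (KK k) (Set.range X.mon) := by
    rw [X.mon_span]
    exact Submodule.mem_top
  induction h2 using Submodule.span_induction with
  | mem l hl =>
    obtain ⟨s, rfl⟩ := hl
    exact h1 s
  | zero => rw [zero_smul]; exact zero_mem _
  | add l l' _ _ hl hl' => rw [add_smul]; exact add_mem hl hl'
  | smul c l _ hl => rw [smul_assoc]; exact Submodule.smul_mem _ _ hl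

/-- the span of a σ-stable lattice over `KK` and `L` agree -/
theorem spanK_eq_spanL {E : ℤ → Submodule k V} (hE : IsBLat E)
    (hs : SigStable X E) : (spanK E : Set V) =
      (Submodule.span X.L (⋃ n, (E n : Set V)) : Submodule X.L V) := by
  apply Set.Subset.antisymm
  · have h1 : spanK E ≤ (Submodule.span X.L (⋃ n, (E n : Set V))).restrictScalars (KK k) := by
      unfold spanK
      rw [Submodule.span_le]
      exact Submodule.subset_span
    exact h1
  · intro w hw
    have hw' : w ∈ Submodule.span X.L (⋃ n, (E n : Set V)) := hw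
    clear hw
    show w ∈ spanK E
    induction hw' using Submodule.span_induction with
    | mem v hv => exact Submodule.subset_span hv
    | zero => exact zero_mem _
    | add v w _ _ hv hw => exact add_mem hv hw
    | smul c v _ hv => exact spanK_smul hs c hv

theorem card_J : Fintype.card X.J = X.m - 3 := by
  classical
  have h1 : Fintype.card X.J = Fintype.card X.I - Fintype.card {x : X.I // x ∈ Set.range X.b} := by
    have := Fintype.card_subtype_compl (fun x : X.I => x ∈ Set.range X.b)
    rw [← this]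
    exact Fintype.card_congr (Equiv.refl _)
  have h2 : Fintype.card {x : X.I // x ∈ Set.range X.b} = 3 := by
    have h3 : Fintype.card (Set.range X.b) = Fintype.card (Fin 3) :=
      Set.card_range_of_injective X.b_inj
    rw [Fintype.card_fin] at h3
    exact (Fintype.card_congr (Equiv.refl _)).trans h3
  rw [h1, h2]
  rfl

theorem finrank_KL : Module.finrank (KK k) X.L = 2 ^ (X.m - 3) := by
  have h1 := Module.finrank_eq_card_basis
    (Module.Basis.mk X.mon_linearIndependent (by rw [X.mon_span]))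
  rw [h1, Fintype.card_finset, card_J]

/-- rank of a T-lattice: `N = 2^(m-3) * dim_L V` -/
theorem rank_eq [Module.Finite X.L V] {E : ℤ → Submodule k V} (hE : IsBLat E)
    (hs : SigStable X E) (hsp : Submodule.span X.L (⋃ n, (E n : Set V)) = ⊤) {N e g : ℤ}
    (h : HasHilb E N e g) : N = 2 ^ (X.m - 3) * (Module.finrank X.L V : ℤ) := by
  have h1 := h.N_eq hE
  have h2 : spanK E = ⊤ := by
    apply SetLike.coe_injective
    rw [spanK_eq_spanL hE hs, hsp]
    rfl
  rw [h2, finrank_top, ← Module.finrank_mul_finrank (KK k) X.L V, finrank_KL] at h1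
  rw [h1]
  push_cast
  rfl

theorem mem_mapE (f : V ≃ₗ[X.L] V') (E : ℤ → Submodule k V) (n : ℤ) (w : V') :
    w ∈ mapLat (f.toLinearMap.restrictScalars (A k)) E n ↔ f.symm w ∈ E n := by
  constructor
  · rintro ⟨v, hv, rfl⟩
    have : f.symm (f v) = v := f.symm_apply_apply v
    show f.symm (f v) ∈ E n
    rw [this]
    exact hv
  · intro h
    exact ⟨f.symm w, h, f.apply_symm_apply w⟩

theorem finrank_mapE (f : V ≃ₗ[X.L] V') (E : ℤ → Submodule k V) (n : ℤ) :
    Module.finrank k (mapLat (f.toLinearMap.restrictScalars (A k)) E n) =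
      Module.finrank k (E n) :=
  (f.restrictScalars k).finrank_map_eq (E n)

theorem finrank_sub_mapE (f : V ≃ₗ[X.L] V') (E : ℤ → Submodule k V) (U' : Submodule X.L V')
    (n : ℤ) :
    Module.finrank k (subLat (mapLat (f.toLinearMap.restrictScalars (A k)) E) U' n) =
      Module.finrank k (subLat E (U'.comap f.toLinearMap) n) := by
  have h : subLat (mapLat (f.toLinearMap.restrictScalars (A k)) E) U' n
      = (subLat E (U'.comap f.toLinearMap) n).map (f.restrictScalars k).toLinearMap := by
    ext w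
    constructor
    · rintro ⟨h1, h2⟩
      refine ⟨f.symm w, ⟨(mem_mapE f E n w).1 h1, ?_⟩, f.apply_symm_apply w⟩
      show f (f.symm w) ∈ U'
      rw [f.apply_symm_apply]
      exact h2
    · rintro ⟨v, ⟨h1, h2⟩, rfl⟩
      exact ⟨⟨v, h1, rfl⟩, h2⟩
  rw [h]
  exact (f.restrictScalars k).finrank_map_eq _

/-- transport of all notions along an `L`-linear isomorphism -/
theorem transport (f : V ≃ₗ[X.L] V') (Γ : V →ₗ[X.L] V) (E : ℤ → Submodule k V) :
    let E' : ℤ → Submodule k V' := mapLat (f.toLinearMap.restrictScalars (A k)) E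
    let Γ' : V' →ₗ[X.L] V' := f.toLinearMap ∘ₗ Γ ∘ₗ f.symm.toLinearMap
    (IsTSp Γ → IsTSp Γ') ∧ (IsTLat Γ E → IsTLat Γ' E') ∧ (IsS2 E → IsS2 E') ∧
    (∀ N e g, HasHilb E N e g → HasHilb E' N e g) ∧ (Semistable Γ E → Semistable Γ' E') ∧
    (∀ c, GenIn E c → GenIn E' c) := by
  intro E' Γ'
  have hm : ∀ n w, w ∈ E' n ↔ f.symm w ∈ E n := fun n w => mem_mapE f E n w
  have hs : ∀ (c : A k) (w : V'), f.symm (c • w) = c • f.symm w := fun c w =>
    map_smul_A f.symm.toLinearMap c w
  have hg : ∀ v, Γ' v = f (Γ (f.symm v)) := fun v => rfl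
  refine ⟨fun h v => ?_, fun h => ?_, fun h n w hw => ?_, fun N e g h => ?_, fun h => ?_,
    fun c h n hn => ?_⟩
  · rw [hg, hg, f.symm_apply_apply, h, map_smul, f.apply_symm_apply]
  · refine { toIsBLat := h.toIsBLat.map _, sig_mem := fun x n v hv => ?_,
             gam_mem := fun ε n v hv => ?_ }
    · rw [hm] at hv ⊢
      rw [map_smul]
      exact h.sig_mem x hv
    · rw [hm] at hv ⊢
      have h2 : f.symm (gam Γ' ε v) = gam Γ ε (f.symm v) := by
        unfold gam
        rw [hg, map_smul, f.symm_apply_apply]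
      rw [h2]
      exact h.gam_mem ε hv
  · rw [hm]
    refine h n _ ⟨fun π hπ => ?_, ?_⟩
    · obtain ⟨i, c, hc, hcπ, h5⟩ := hw.1 π hπ
      refine ⟨i, c, hc, hcπ, ?_⟩
      rw [hm, hs] at h5
      exact h5
    · obtain ⟨c, hc, h5⟩ := hw.2
      refine ⟨c, hc, ?_⟩
      rw [hm, hs] at h5
      exact h5
  · unfold HasHilb at h ⊢
    filter_upwards [h] with n hn
    rw [finrank_mapE]
    exact hn
  · intro U' hU' N e g w f' g' h1 h2
    refine h (U'.comap f.toLinearMap) ?_ N e g w f' g' ?_ ?_
    · intro v hv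
      have h3 := hU' (f v) hv
      rw [hg, f.symm_apply_apply] at h3
      exact h3
    · unfold HasHilb at h1 ⊢
      filter_upwards [h1] with n hn
      rw [finrank_mapE] at hn
      exact hn
    · unfold HasHilb at h2 ⊢
      filter_upwards [h2] with n hn
      rw [finrank_sub_mapE] at hn
      exact hn
  · rintro _ ⟨u, hu, rfl⟩
    have h1 := h n hn hu
    show f u ∈ _
    clear hu
    induction h1 using Submodule.span_induction with
    | mem w hw =>
      obtain ⟨a, ha, v, hv, rfl⟩ := hw
      refine Submodule.subset_span ⟨a, ha, f v, ⟨v, hv, rfl⟩, ?_⟩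
      exact map_smul_A f.toLinearMap a v
    | zero => rw [map_zero]; exact zero_mem _
    | add v w _ _ hv hw => rw [map_add]; exact add_mem hv hw
    | smul c v _ hv =>
      have h2 : f (c • v) = c • f v := (f.restrictScalars k).map_smul c v
      rw [h2]
      exact Submodule.smul_mem _ _ hv

end Vale.Agent.P190.D
end
end

section

section

/-! Section 4, file F1: Frobenius pullback of T-lattices in `L^r`. -/

set_option autoImplicit false
set_option linter.unusedSectionVars false

open MvPolynomial Filter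

namespace Vale.Agent.P190.D

section defs

variable {k : Type} [Field k] {X : Arr k} {r : ℕ}

/-- coordinatewise `p`-th power -/
noncomputable def frV (p : ℕ) (v : Fin r → X.L) : Fin r → X.L := fun i => v i ^ p

/-- Frobenius pullback of a lattice (before taking the hull) -/
noncomputable def PE (p : ℕ) (E : ℤ → Submodule k (Fin r → X.L)) (l : ℤ) :
    Submodule k (Fin r → X.L) :=
  Submodule.span k {x | ∃ (n : ℤ) (f : X.L) (v : Fin r → X.L),
    f ∈ X.T0 (l - p * n) ∧ v ∈ E n ∧ x = f • frV p v}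

/-- Frobenius pullback of the operator `Γ` -/
noncomputable def frG (p : ℕ) (Γ : (Fin r → X.L) →ₗ[X.L] (Fin r → X.L)) :
    (Fin r → X.L) →ₗ[X.L] (Fin r → X.L) :=
  (X.PI ^ ((p - 1) / 2))⁻¹ • Matrix.toLin' ((LinearMap.toMatrix' Γ).map (· ^ p))

/-- `A_ε = ∏ a_t^{ε_t}` -/
noncomputable def Arr.AA (X : Arr k) (ε : X.S → Bool) : X.L := ∏ t, X.a t (ε t)

/-- `m_{ε ε'} = Γ_ε Γ_ε'` -/
noncomputable def Arr.mm (X : Arr k) (ε ε' : X.S → Bool) : X.L :=
  ∏ t, if ε t = ε' t then X.a t (ε t) else X.ν t • X.σ (X.v t)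

end defs

section noFrob

variable {k : Type} [Field k] {X : Arr k} {V : Type} [AddCommGroup V] [Module k V]
  [Module (A k) V] [Module (KK k) V] [Module X.L V] [IsScalarTower k (A k) V]
  [IsScalarTower k (KK k) V] [IsScalarTower k X.L V] [IsScalarTower (A k) (KK k) V]
  [IsScalarTower (A k) X.L V] [IsScalarTower (KK k) X.L V]

theorem Arr.F1_two_w (X : Arr k) : (2 * (X.w : ℤ)) = ∑ _t : X.S, (1 : ℤ) := by
  rw [Finset.sum_const, Finset.card_univ, ← Arr.two_w]
  simp

theorem Arr.AA_mem (X : Arr k) (ε : X.S → Bool) : X.AA ε ∈ X.T0 (2 * X.w) := by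
  rw [X.F1_two_w]
  exact X.T0_prod Finset.univ (fun t => X.a t (ε t)) (fun _ => 1) fun t _ => X.a_mem t (ε t)

theorem Arr.mm_mem (X : Arr k) (ε ε' : X.S → Bool) : X.mm ε ε' ∈ X.T0 (2 * X.w) := by
  rw [X.F1_two_w]
  refine X.T0_prod Finset.univ
    (fun t => if ε t = ε' t then X.a t (ε t) else X.ν t • X.σ (X.v t)) (fun _ => 1) fun t _ => ?_
  split_ifs
  · exact X.a_mem _ _
  · exact Submodule.smul_mem _ _ (X.σ_mem _)

theorem Arr.F1_pie_mul_pie (X : Arr k) (ε ε' : X.S → Bool) :
    X.pie ε * X.pie ε' = X.PI * X.mm ε ε' := by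
  unfold Arr.pie Arr.PI Arr.mm
  rw [← Finset.prod_mul_distrib, ← Finset.prod_mul_distrib]
  refine Finset.prod_congr rfl fun t _ => ?_
  have h := X.a_mul_a t
  cases h1 : ε t <;> cases h2 : ε' t
  · simp only [Bool.false_eq_true, if_false, if_true, h, sq]
  · simp only [Bool.false_eq_true, if_false, if_true]
    rw [mul_comm]
  · simp only [Bool.false_eq_true, if_false, if_true, reduceCtorEq]
  · simp only [if_true]

theorem Arr.F1_AA_mul_pie (X : Arr k) (ε ε' : X.S → Bool) :
    X.AA ε' * X.pie ε = X.mm ε ε' * X.pie ε' := by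
  unfold Arr.pie Arr.AA Arr.mm
  rw [← Finset.prod_mul_distrib, ← Finset.prod_mul_distrib]
  refine Finset.prod_congr rfl fun t _ => ?_
  have h := X.a_mul_a t
  cases h1 : ε t <;> cases h2 : ε' t
  · simp only [Bool.false_eq_true, if_false, if_true]
  · simp only [Bool.false_eq_true, if_false, if_true]
    rw [mul_comm]
  · simp only [Bool.false_eq_true, if_false, if_true, reduceCtorEq]
    rw [mul_comm, h, sq]
  · simp only [if_true]

theorem Arr.F1_mm_self (X : Arr k) (ε : X.S → Bool) : X.mm ε ε = X.AA ε := by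
  unfold Arr.mm Arr.AA
  simp only [↓reduceIte]

theorem gam_gam {Γ : V →ₗ[X.L] V} (h : IsTSp Γ) (ε ε' : X.S → Bool) (v : V) :
    gam Γ ε (gam Γ ε' v) = X.mm ε ε' • v := by
  unfold gam
  rw [map_smul, h v, smul_smul, smul_smul]
  congr 1
  have h0 := X.PI_ne_zero
  field_simp
  rw [X.F1_pie_mul_pie]

theorem AA_gam (Γ : V →ₗ[X.L] V) (ε ε' : X.S → Bool) (v : V) :
    X.AA ε' • gam Γ ε v = X.mm ε ε' • gam Γ ε' v := by
  unfold gam
  rw [smul_smul, smul_smul]
  congr 1
  rw [mul_div_assoc', mul_div_assoc', X.F1_AA_mul_pie]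

theorem F1_sigma_h (X : Arr k) (t : X.S) :
    X.σ (X.h t) = (2 * X.η t)⁻¹ • (X.a t true - X.a t false) := by
  have h2 := X.two_ne
  have h3 := X.η_ne t
  simp only [Arr.a, if_true, Bool.false_eq_true, if_false]
  rw [add_sub_sub_cancel, ← two_smul k, smul_smul, smul_smul, mul_assoc,
    inv_mul_cancel₀ (mul_ne_zero h2 h3), one_smul]

theorem F1_sigma_d (X : Arr k) (t : X.S) :
    X.σ (X.d t) = (2 * X.δ t)⁻¹ • (X.a t true + X.a t false) := by
  have h2 := X.two_ne
  have h3 := X.δ_ne t
  simp only [Arr.a, if_true, Bool.false_eq_true, if_false]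
  rw [add_add_sub_cancel, ← two_smul k, smul_smul, smul_smul, mul_assoc,
    inv_mul_cancel₀ (mul_ne_zero h2 h3), one_smul]

/-- mixed products of total degree `2M` -/
theorem F1_mixed {G : ℤ → Submodule k V} (t : X.S) {M : ℕ} {m : ℤ} {z : V}
    (h : ∀ r s : ℕ, r + s = 2 * M → (X.a t true ^ r * X.a t false ^ s) • z ∈ G (m + (2 * M : ℕ)))
    (i : ℕ) : ∀ j r s : ℕ, i + j + r + s = 2 * M →
      (X.σ (X.h t) ^ i * X.σ (X.d t) ^ j * (X.a t true ^ r * X.a t false ^ s)) • z ∈
        G (m + (2 * M : ℕ)) := by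
  induction i with
  | zero =>
    intro j
    induction j with
    | zero =>
      intro r s hrs
      simpa only [Nat.cast_mul, Nat.cast_ofNat, pow_zero, mul_one, one_mul] using h r s (by omega)
    | succ j ih =>
      intro r s hrs
      have h1 := ih (r + 1) s (by omega)
      have h2 := ih r (s + 1) (by omega)
      have h3 := Submodule.smul_mem _ (2 * X.δ t)⁻¹ (add_mem h1 h2)
      rw [← add_smul, ← smul_assoc] at h3
      convert h3 using 2
      rw [pow_succ (X.σ (X.d t)), F1_sigma_d X t]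
      simp only [Algebra.smul_def]
      ring
  | succ i ih =>
    intro j r s hrs
    have h1 := ih j (r + 1) s (by omega)
    have h2 := ih j r (s + 1) (by omega)
    have h3 := Submodule.smul_mem _ (2 * X.η t)⁻¹ (sub_mem h1 h2)
    rw [← sub_smul, ← smul_assoc] at h3
    convert h3 using 2
    rw [pow_succ (X.σ (X.h t)), F1_sigma_h X t]
    simp only [Algebra.smul_def]
    ring

theorem F1_one {G : ℤ → Submodule k V} (hG : IsBLat G) (hs : SigStable X G) (h2 : IsS2 G)
    (t : X.S) (M : ℕ) {m : ℤ} {z : V} (hp : X.a t true ^ M • z ∈ G (m + M))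
    (hm : X.a t false ^ M • z ∈ G (m + M)) : z ∈ G m := by
  have h1 : ∀ r s : ℕ, r + s = 2 * M →
      (X.a t true ^ r * X.a t false ^ s) • z ∈ G (m + (2 * M : ℕ)) := by
    intro r s hrs
    rcases le_total M r with hr | hr
    · obtain ⟨q, rfl⟩ := Nat.exists_eq_add_of_le hr
      have h3 := hs.T0_smul hG (X.T0_mul (X.T0_pow (X.a_mem t true) q)
        (X.T0_pow (X.a_mem t false) s)) hp
      rw [smul_smul] at h3
      have e1 : X.a t true ^ (M + q) * X.a t false ^ s =
          X.a t true ^ q * X.a t false ^ s * X.a t true ^ M := by ring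
      have e2 : m + ((2 * M : ℕ) : ℤ) = m + M + (q * 1 + s * 1) := by
        rw [← hrs]
        push_cast
        ring
      rw [e1, e2]
      exact h3
    · obtain ⟨q, hq⟩ := Nat.exists_eq_add_of_le (show M ≤ s by omega)
      subst hq
      have h3 := hs.T0_smul hG (X.T0_mul (X.T0_pow (X.a_mem t true) r)
        (X.T0_pow (X.a_mem t false) q)) hm
      rw [smul_smul] at h3
      have e1 : X.a t true ^ r * X.a t false ^ (M + q) =
          X.a t true ^ r * X.a t false ^ q * X.a t false ^ M := by ring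
      have e2 : m + ((2 * M : ℕ) : ℤ) = m + M + (r * 1 + q * 1) := by
        rw [← hrs]
        push_cast
        ring
      rw [e1, e2]
      exact h3
  have h3 : ∀ q : ℕ, q ≤ 2 * M → ∀ i j : ℕ, i + j = 2 * M - q →
      (X.σ (X.h t) ^ i * X.σ (X.d t) ^ j) • z ∈ G (m + (2 * M - q : ℕ)) := by
    intro q
    induction q with
    | zero =>
      intro _ i j hij
      have := F1_mixed t h1 i j 0 0 (by omega)
      simpa only [tsub_zero, Nat.cast_mul, Nat.cast_ofNat, pow_zero, mul_one] using this
    | succ q ih =>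
      intro hq i j hij
      have e1 : ((2 * M - q : ℕ) : ℤ) = ((2 * M - (q + 1) : ℕ) : ℤ) + 1 := by (clear * - hq; omega)
      have h4 := ih (by omega) (i + 1) j (by omega)
      have h5 := ih (by omega) i (j + 1) (by omega)
      rw [e1, ← add_assoc] at h4 h5
      refine hs.of_two hG h2 (X.hd t) ?_ ?_
      · rw [smul_smul]
        convert h4 using 2
        ring
      · rw [smul_smul]
        convert h5 using 2
        ring
  have h4 := h3 (2 * M) le_rfl 0 0 (by omega)
  simpa using h4

/-- peeling off the multiple points one by one: `a_t^+` and `a_t^-` are coprime -/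
theorem peel {G : ℤ → Submodule k V} (hG : IsBLat G) (hs : SigStable X G) (h2 : IsS2 G)
    (M : ℕ) {n : ℤ} {v : V}
    (h : ∀ ε : X.S → Bool, X.AA ε ^ M • v ∈ G (n + M * (2 * X.w))) : v ∈ G n := by
  classical
  have key : ∀ S' : Finset X.S,
      (∀ ε : X.S → Bool, (∏ t ∈ S', X.a t (ε t)) ^ M • v ∈ G (n + M * S'.card)) → v ∈ G n := by
    intro S'
    induction S' using Finset.induction_on with
    | empty =>
      intro h1
      simpa only [Finset.card_empty, CharP.cast_eq_zero, mul_zero, add_zero, Finset.prod_empty, one_pow,     one_smul] using h1 (fun _ => true)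
    | insert t S' ht ih =>
      intro h1
      refine ih fun ε => ?_
      have h3 : ∀ s : Bool, X.a t s ^ M • ((∏ t ∈ S', X.a t (ε t)) ^ M • v) ∈
          G (n + M * S'.card + M) := by
        intro s
        have h4 := h1 (Function.update ε t s)
        rw [Finset.prod_insert ht, Finset.card_insert_of_notMem ht, Function.update_self] at h4
        have h5 : ∏ x ∈ S', X.a x (Function.update ε t s x) = ∏ t ∈ S', X.a t (ε t) :=
          Finset.prod_congr rfl fun x hx => by
            have hne : x ≠ t := fun e => ht (by rw [← e]; exact hx)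
            rw [Function.update_of_ne hne]
        rw [h5, mul_pow, mul_smul] at h4
        convert h4 using 2
        push_cast
        ring
      exact F1_one hG hs h2 t M (h3 true) (h3 false)
  refine key Finset.univ fun ε => ?_
  have h1 := h ε
  have h3 : ((Finset.univ : Finset X.S).card : ℤ) = 2 * X.w := by
    rw [Finset.card_univ, ← Arr.two_w]
    push_cast
    ring
  rw [h3]
  exact h1

end noFrob

section frob

variable {k : Type} [Field k] {X : Arr k} {r : ℕ} (p : ℕ) [Fact p.Prime] [CharP k p]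

theorem frV_smul (f : X.L) (v : Fin r → X.L) : frV p (f • v) = f ^ p • frV p v := by
  funext i
  simp [frV, mul_pow]

theorem F1_charP (X : Arr k) : CharP X.L p :=
  charP_of_injective_algebraMap (algebraMap k X.L).injective p

theorem F1_odd (X : Arr k) : p = 2 * ((p - 1) / 2) + 1 := by
  have hp : p.Prime := Fact.out
  have h2 : p ≠ 2 := by
    rintro rfl
    have h3 : ((2 : ℕ) : k) = 0 := CharP.cast_eq_zero k 2
    exact X.two_ne (by exact_mod_cast h3)
  have h3 := hp.eq_two_or_odd
  omega

theorem frV_add (v w : Fin r → X.L) : frV p (v + w) = frV p v + frV p w := by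
  have := F1_charP p X
  funext i
  simp only [frV, Pi.add_apply]
  exact add_pow_char (v i) (w i) p

theorem F1_frV_zero : frV p (0 : Fin r → X.L) = 0 := by
  have hp : p.Prime := Fact.out
  funext i
  simp [frV, hp.ne_zero]

theorem F1_frV_sum {ι : Type} (s : Finset ι) (v : ι → Fin r → X.L) :
    frV p (∑ i ∈ s, v i) = ∑ i ∈ s, frV p (v i) := by
  classical
  induction s using Finset.induction_on with
  | empty => simpa using F1_frV_zero p
  | insert a s ha ih => rw [Finset.sum_insert ha, Finset.sum_insert ha, frV_add, ih]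

theorem frV_injective : Function.Injective (frV (r := r) (X := X) p) := by
  have := F1_charP p X
  intro v w h
  funext i
  have h1 : v i ^ p = w i ^ p := congrFun h i
  exact frobenius_inj X.L p h1

variable {E F : ℤ → Submodule k (Fin r → X.L)}

/-- the pullback of a lattice given by generators -/
theorem F1_PE_eq_genLat {ι : Type} [Fintype ι] {v : ι → Fin r → X.L} {c : ι → ℤ}
    (hgen : ∀ n, E n = genLat v c n) (l : ℤ) :
    PE p E l = genLat (fun js : ι × Finset X.J => X.mon js.2 • frV p (v js.1))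
      (fun js : ι × Finset X.J => p * c js.1 + js.2.card) l := by
  classical
  apply le_antisymm
  · refine Submodule.span_le.2 ?_
    rintro _ ⟨n, f, w, hf, hw, rfl⟩
    rw [hgen n, mem_genLat] at hw
    obtain ⟨a, ha, rfl⟩ := hw
    rw [F1_frV_sum, Finset.smul_sum]
    refine sum_mem fun j _ => ?_
    rw [← algebraMap_smul X.L (a j) (v j), frV_smul, smul_smul]
    have h1 : f * algebraMap (A k) X.L (a j) ^ p ∈ X.T0 (l - p * c j) := by
      have := X.T0_mul hf (X.T0_pow (X.algebraMap_mem_T0 (ha j)) p)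
      rwa [show l - p * n + p * (n - c j) = l - p * c j by ring] at this
    rw [Arr.T0_eq_genLat, mem_genLat] at h1
    obtain ⟨b, hb, hfb⟩ := h1
    rw [hfb, Finset.sum_smul]
    refine sum_mem fun s _ => ?_
    have h2 := genLat_smul_gen (k := k)
      (fun js : ι × Finset X.J => X.mon js.2 • frV p (v js.1))
      (fun js : ι × Finset X.J => (p * c js.1 + js.2.card : ℤ)) (n := l) (a := b s) (j, s)
      (by
        have := hb s
        rwa [sub_sub] at this)
    rw [smul_assoc]
    exact h2
  · intro x hx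
    obtain ⟨a, ha, rfl⟩ := mem_genLat.1 hx
    refine sum_mem fun js _ => ?_
    refine Submodule.subset_span ⟨c js.1, a js • X.mon js.2, v js.1, ?_, ?_, ?_⟩
    · rw [Algebra.smul_def]
      have h1 := X.T0_mul (X.algebraMap_mem_T0 (ha js)) (X.mon_mem js.2)
      rwa [show l - (p * c js.1 + js.2.card) + js.2.card = l - p * c js.1 by ring] at h1
    · rw [hgen]
      exact genLat_mem_gen v c js.1
    · rw [smul_assoc]

theorem isBLat_PE (hE : IsBLat E) (hs : SigStable X E) : IsBLat (PE p E) := by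
  obtain ⟨l, v, c, hv, hgen⟩ := hE.exists_gen
  have h1 : PE p E = genLat (fun js : Fin l × Finset X.J => X.mon js.2 • frV p (v js.1))
      (fun js : Fin l × Finset X.J => p * c js.1 + js.2.card) :=
    funext (F1_PE_eq_genLat p hgen)
  rw [h1]
  exact isBLat_genLat _ _

theorem sigStable_PE (hE : IsBLat E) (hs : SigStable X E) : SigStable X (PE p E) := by
  intro x n v hv
  unfold PE at hv
  induction hv using Submodule.span_induction with
  | mem v hv =>
    obtain ⟨j, f, w, hf, hw, rfl⟩ := hv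
    refine Submodule.subset_span ⟨j, X.σ x * f, w, ?_, hw, by rw [smul_smul]⟩
    have := X.T0_mul (X.σ_mem x) hf
    rwa [show 1 + (n - p * j) = n + 1 - p * j by ring] at this
  | zero => rw [smul_zero]; exact zero_mem _
  | add v w _ _ hv hw => rw [smul_add]; exact add_mem hv hw
  | smul c v _ hv => rw [← smul_comm_kL]; exact Submodule.smul_mem _ _ hv

theorem PE_mono (h : ∀ n, E n ≤ F n) (n : ℤ) : PE p E n ≤ PE p F n := by
  refine Submodule.span_mono ?_
  rintro _ ⟨j, f, w, hf, hw, rfl⟩
  exact ⟨j, f, w, hf, h j hw, rfl⟩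

theorem frV_mem_PE {n : ℤ} {v : Fin r → X.L} (hv : v ∈ E n) : frV p v ∈ PE p E (p * n) := by
  refine Submodule.subset_span ⟨n, 1, v, ?_, hv, by rw [one_smul]⟩
  rw [sub_self]
  exact X.one_mem_T0

/-- the span of the pullback is the pullback of the span -/
theorem span_PE (hE : IsBLat E) (hs : SigStable X E) :
    Submodule.span X.L (⋃ n, (PE p E n : Set (Fin r → X.L))) =
      Submodule.span X.L (frV p '' (Submodule.span X.L (⋃ n, (E n : Set (Fin r → X.L))) :
        Set (Fin r → X.L))) := by
  apply le_antisymm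
  · refine Submodule.span_le.2 ?_
    intro x hx
    obtain ⟨n, hn⟩ := Set.mem_iUnion.1 hx
    have hn' : x ∈ PE p E n := hn
    unfold PE at hn'
    show x ∈ Submodule.span X.L (frV p '' (Submodule.span X.L (⋃ n, (E n : Set (Fin r → X.L))) :
        Set (Fin r → X.L)))
    clear hn hx
    induction hn' using Submodule.span_induction with
    | mem v hv =>
      obtain ⟨j, f, w, hf, hw, rfl⟩ := hv
      exact Submodule.smul_mem _ _ (Submodule.subset_span
        ⟨w, Submodule.subset_span (Set.mem_iUnion.2 ⟨j, hw⟩), rfl⟩)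
    | zero => exact zero_mem _
    | add v w _ _ hv hw => exact add_mem hv hw
    | smul c v _ hv =>
      rw [← algebraMap_smul X.L c v]
      exact Submodule.smul_mem _ _ hv
  · refine Submodule.span_le.2 ?_
    rintro _ ⟨w, hw, rfl⟩
    have hw' : w ∈ Submodule.span X.L (⋃ n, (E n : Set (Fin r → X.L))) := hw
    show frV p w ∈ Submodule.span X.L (⋃ n, (PE p E n : Set (Fin r → X.L)))
    clear hw
    induction hw' using Submodule.span_induction with
    | mem v hv =>
      obtain ⟨n, hn⟩ := Set.mem_iUnion.1 hv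
      exact Submodule.subset_span (Set.mem_iUnion.2 ⟨p * n, frV_mem_PE p hn⟩)
    | zero => rw [F1_frV_zero]; exact zero_mem _
    | add v w _ _ hv hw => rw [frV_add]; exact add_mem hv hw
    | smul c v _ hv => rw [frV_smul]; exact Submodule.smul_mem _ _ hv

theorem F1_toLin_frV {r s : ℕ} (f : (Fin r → X.L) →ₗ[X.L] (Fin s → X.L)) (v : Fin r → X.L) :
    Matrix.toLin' ((LinearMap.toMatrix' f).map (· ^ p)) (frV p v) = frV p (f v) := by
  have := F1_charP p X
  funext i
  rw [Matrix.toLin'_apply]
  have h1 : f v = (LinearMap.toMatrix' f).mulVec v := (LinearMap.toMatrix'_mulVec f v).symm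
  rw [h1]
  have h2 := map_sum (frobenius X.L p) (fun j => LinearMap.toMatrix' f i j * v j) Finset.univ
  simp only [frobenius_def, mul_pow] at h2
  exact h2.symm

theorem F1_map_pow_mul {a b c : ℕ} (M : Matrix (Fin a) (Fin b) X.L)
    (N : Matrix (Fin b) (Fin c) X.L) :
    (M * N).map (· ^ p) = M.map (· ^ p) * N.map (· ^ p) := by
  have := F1_charP p X
  exact Matrix.map_mul (f := frobenius X.L p)

/-- the dimension of the span of the Frobenius image of a subspace -/
theorem F1_finrank_span (U : Submodule X.L (Fin r → X.L)) :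
    Module.finrank X.L (Submodule.span X.L (frV p '' (U : Set (Fin r → X.L)))) =
      Module.finrank X.L U := by
  have hp : p.Prime := Fact.out
  set s := Module.finrank X.L U with hs
  have e : (Fin s → X.L) ≃ₗ[X.L] U := LinearEquiv.ofFinrankEq _ _ (by simp only [Module.finrank_fintype_fun_eq_card, hs, Fintype.card_fin])
  let f : (Fin s → X.L) →ₗ[X.L] (Fin r → X.L) := U.subtype ∘ₗ e.toLinearMap
  have hf : Function.Injective f := U.injective_subtype.comp e.injective
  obtain ⟨g, hg⟩ := LinearMap.exists_leftInverse_of_injective f (LinearMap.ker_eq_bot.2 hf)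
  let h : (Fin s → X.L) →ₗ[X.L] (Fin r → X.L) :=
    Matrix.toLin' ((LinearMap.toMatrix' f).map (· ^ p))
  have hh : Function.Injective h := by
    let h' : (Fin r → X.L) →ₗ[X.L] (Fin s → X.L) :=
      Matrix.toLin' ((LinearMap.toMatrix' g).map (· ^ p))
    have h1 : h' ∘ₗ h = LinearMap.id := by
      change Matrix.toLin' _ ∘ₗ Matrix.toLin' _ = _
      rw [← Matrix.toLin'_mul, ← F1_map_pow_mul p, ← LinearMap.toMatrix'_comp, hg,
        LinearMap.toMatrix'_id]
      have h2 : ((1 : Matrix (Fin s) (Fin s) X.L).map (· ^ p)) = 1 := by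
        have := F1_charP p X
        ext i j
        by_cases hij : i = j
        · subst hij
          simp
        · simp [hij, hp.ne_zero]
      rw [h2, Matrix.toLin'_one]
    intro v w hvw
    have h2 : h' (h v) = h' (h w) := by rw [hvw]
    have h3 : ∀ v, h' (h v) = v := fun v => LinearMap.congr_fun h1 v
    rwa [h3, h3] at h2
  have hr : Submodule.span X.L (frV p '' (U : Set (Fin r → X.L))) = LinearMap.range h := by
    apply le_antisymm
    · refine Submodule.span_le.2 ?_
      rintro _ ⟨w, hw, rfl⟩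
      have h1 : f (e.symm ⟨w, hw⟩) = w := by
        change ((e (e.symm ⟨w, hw⟩) : U) : Fin r → X.L) = w
        rw [e.apply_symm_apply]
      refine ⟨frV p (e.symm ⟨w, hw⟩), ?_⟩
      change Matrix.toLin' _ _ = _
      rw [F1_toLin_frV, h1]
    · rintro _ ⟨c, rfl⟩
      have h1 : c = ∑ i, c i • (Pi.single i (1 : X.L) : Fin s → X.L) := by
        funext j
        simp only [Finset.sum_apply, Pi.smul_apply, Pi.single_apply, smul_eq_mul, mul_ite, mul_one, mul_zero, Finset.sum_ite_eq, Finset.mem_univ, ↓reduceIte]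
      rw [h1, map_sum]
      refine sum_mem fun i _ => ?_
      rw [map_smul]
      refine Submodule.smul_mem _ _ (Submodule.subset_span ⟨f (Pi.single i 1), ?_, ?_⟩)
      · change ((e (Pi.single i 1) : U) : Fin r → X.L) ∈ U
        exact (e (Pi.single i 1)).2
      · rw [← F1_toLin_frV]
        change h _ = h _
        congr 1
        funext j
        by_cases hij : j = i
        · subst hij
          simp [frV]
        · simp [frV, hij, hp.ne_zero]
  rw [hr, LinearMap.finrank_range_of_inj hh]
  simp only [Module.finrank_fintype_fun_eq_card, Fintype.card_fin]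

theorem rank_PE (hE : IsBLat E) (hs : SigStable X E) {N e g N' e' g' : ℤ}
    (h : HasHilb E N e g) (h' : HasHilb (PE p E) N' e' g') : N' = N := by
  have key : ∀ (G : ℤ → Submodule k (Fin r → X.L)) (hG : IsBLat G) (hs : SigStable X G),
      Module.finrank (KK k) (spanK G) = Module.finrank (KK k) X.L *
        Module.finrank X.L (Submodule.span X.L (⋃ n, (G n : Set (Fin r → X.L)))) := by
    intro G hG hs
    have h1 : spanK G =
        (Submodule.span X.L (⋃ n, (G n : Set (Fin r → X.L)))).restrictScalars (KK k) :=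
      SetLike.coe_injective (spanK_eq_spanL hG hs)
    rw [h1]
    exact (Module.finrank_mul_finrank (KK k) X.L
      (Submodule.span X.L (⋃ n, (G n : Set (Fin r → X.L))))).symm
  rw [h.N_eq hE, h'.N_eq (isBLat_PE p hE hs), key E hE hs,
    key (PE p E) (isBLat_PE p hE hs) (sigStable_PE p hE hs), span_PE p hE hs,
    F1_finrank_span]

theorem F1_genIn_genLat {V : Type} [AddCommGroup V] [Module k V] [Module (A k) V]
    [IsScalarTower k (A k) V] {ι : Type} [Fintype ι] (v : ι → V) (c : ι → ℤ) {D : ℤ}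
    (hc : ∀ i, c i ≤ D) : GenIn (genLat (k := k) v c) D := by
  intro n hn x hx
  obtain ⟨a, ha, rfl⟩ := mem_genLat.1 hx
  refine Submodule.sum_mem _ fun i _ => ?_
  have h1 := hc i
  have h2 := ha i
  rw [show n + 1 - c i = (n - c i) + 1 by ring, Ad_succ (by omega)] at h2
  refine Submodule.span_induction (p := fun b _ => b • v i ∈ Submodule.span k
    {w | ∃ a ∈ Ad k 1, ∃ v' ∈ genLat (k := k) v c n, w = a • v'}) ?_ ?_ ?_ ?_ h2
  · rintro _ ⟨a', ha', b', hb', rfl⟩
    apply Submodule.subset_span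
    exact ⟨a', ha', b' • v i, genLat_smul_gen v c i hb', by rw [mul_smul]⟩
  · rw [zero_smul]
    exact Submodule.zero_mem _
  · intro x y _ _ hx hy
    rw [add_smul]
    exact Submodule.add_mem _ hx hy
  · intro r x _ hx
    rw [smul_assoc]
    exact Submodule.smul_mem _ r hx

theorem genIn_PE (hE : IsBLat E) (hs : SigStable X E) {c : ℤ} (hc : GenIn E c) :
    GenIn (PE p E) (p * c + X.m - 3) := by
  obtain ⟨l, v, d, hv, hd, hgen⟩ := hE.exists_gen' hc
  have h1 : PE p E = genLat (fun js : Fin l × Finset X.J => X.mon js.2 • frV p (v js.1))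
      (fun js : Fin l × Finset X.J => p * d js.1 + js.2.card) :=
    funext (F1_PE_eq_genLat p hgen)
  rw [h1]
  refine F1_genIn_genLat _ _ fun js => ?_
  have h2 : js.2.card ≤ Fintype.card X.J := Finset.card_le_univ _
  have h3 := Arr.card_J X
  have h4 : (p : ℤ) * d js.1 ≤ p * c := mul_le_mul_of_nonneg_left (hd js.1) (by (clear * -; positivity))
  have h5 : (js.2.card : ℤ) + 3 ≤ X.m := by
    rw [← h3]
    push_cast
    have : (js.2.card : ℤ) ≤ Fintype.card X.J := by exact_mod_cast h2
    linarith only [h2]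
  linarith only [h4, h3, h2]

variable {Γ : (Fin r → X.L) →ₗ[X.L] (Fin r → X.L)}

theorem frG_frV (v : Fin r → X.L) :
    frG p Γ (frV p v) = (X.PI ^ ((p - 1) / 2))⁻¹ • frV p (Γ v) := by
  unfold frG
  rw [LinearMap.smul_apply, F1_toLin_frV]

theorem isTSp_frG (h : IsTSp Γ) : IsTSp (frG p Γ) := by
  have hp : p.Prime := Fact.out
  have := F1_charP p X
  have hodd := F1_odd p X
  set q := (p - 1) / 2 with hq
  have h0 := X.PI_ne_zero
  intro v
  have h1 : Γ ∘ₗ Γ = X.PI • LinearMap.id := LinearMap.ext fun v => h v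
  have h2 : LinearMap.toMatrix' Γ * LinearMap.toMatrix' Γ =
      X.PI • (1 : Matrix (Fin r) (Fin r) X.L) := by
    rw [← LinearMap.toMatrix'_comp, h1, map_smul, LinearMap.toMatrix'_id]
  have h3 : (LinearMap.toMatrix' Γ).map (· ^ p) * (LinearMap.toMatrix' Γ).map (· ^ p) =
      X.PI ^ p • (1 : Matrix (Fin r) (Fin r) X.L) := by
    rw [← F1_map_pow_mul, h2]
    ext i j
    by_cases hij : i = j
    · simp only [hij, Matrix.map_apply, Matrix.smul_apply, Matrix.one_apply_eq, smul_eq_mul, mul_one]
    · simp only [Matrix.map_apply, Matrix.smul_apply, ne_eq, hij, not_false_eq_true, Matrix.one_apply_ne, smul_eq_mul, mul_zero, hp.ne_zero, zero_pow]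
  have h4 : ∀ v, Matrix.toLin' ((LinearMap.toMatrix' Γ).map (· ^ p))
      (Matrix.toLin' ((LinearMap.toMatrix' Γ).map (· ^ p)) v) = X.PI ^ p • v := by
    intro v
    rw [← Matrix.toLin'_mul_apply, h3]
    simp only [map_smul, Matrix.toLin'_one, LinearMap.smul_apply, LinearMap.id_coe, id_eq]
  unfold frG
  rw [LinearMap.smul_apply, LinearMap.smul_apply, map_smul, h4, smul_smul, smul_smul]
  congr 1
  rw [← hq]
  have h5 : X.PI ^ p = X.PI ^ q * X.PI ^ q * X.PI := by
    conv_lhs => rw [hodd]
    ring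
  rw [h5]
  field_simp

theorem AA_gam_frV (h : IsTSp Γ) (ε : X.S → Bool) (v : Fin r → X.L) :
    frV p (gam Γ ε v) = X.AA ε ^ ((p - 1) / 2) • gam (frG p Γ) ε (frV p v) := by
  have hodd := F1_odd p X
  have h0 := X.PI_ne_zero
  unfold gam
  rw [frV_smul, frG_frV, smul_smul, smul_smul]
  congr 1
  set q := (p - 1) / 2 with hq
  have h1 : X.pie ε * X.pie ε = X.PI * X.AA ε := by
    rw [X.F1_pie_mul_pie, X.F1_mm_self]
  have h2 : (X.pie ε / X.PI) ^ p = (X.pie ε / X.PI) * (X.AA ε / X.PI) ^ q := by
    conv_lhs => rw [hodd]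
    rw [pow_succ, pow_mul, mul_comm]
    congr 2
    rw [div_pow, sq, h1]
    field_simp
  rw [h2, div_pow]
  field_simp

theorem AA_gam_frV' (h : IsTSp Γ) (ε ε' : X.S → Bool) (v : Fin r → X.L) :
    X.AA ε' ^ ((p + 1) / 2) • gam (frG p Γ) ε (frV p v) = X.mm ε ε' • frV p (gam Γ ε' v) := by
  have hodd := F1_odd p X
  have h1 : (p + 1) / 2 = (p - 1) / 2 + 1 := by omega
  rw [h1, pow_succ, mul_smul, AA_gam, AA_gam_frV p h, smul_smul, smul_smul, mul_comm]

theorem F1_gam_add (Δ : (Fin r → X.L) →ₗ[X.L] (Fin r → X.L)) (ε : X.S → Bool)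
    (v w : Fin r → X.L) : gam Δ ε (v + w) = gam Δ ε v + gam Δ ε w := by
  unfold gam
  rw [map_add, smul_add]

theorem F1_gam_smul (Δ : (Fin r → X.L) →ₗ[X.L] (Fin r → X.L)) (ε : X.S → Bool) (c : X.L)
    (v : Fin r → X.L) : gam Δ ε (c • v) = c • gam Δ ε v := by
  unfold gam
  rw [map_smul, smul_comm]

theorem F1_gam_mem (hΓ : IsTSp Γ) (hE : IsTLat Γ E) (ε : X.S → Bool) {n : ℤ}
    {x : Fin r → X.L} (hx : x ∈ PE p E n) :
    gam (frG p Γ) ε x ∈ hull (PE p E) (isBLat_PE p hE.toIsBLat hE.sig_mem) (n + X.w) := by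
  have hodd := F1_odd p X
  have hB := isBLat_PE p hE.toIsBLat hE.sig_mem
  unfold PE at hx
  induction hx using Submodule.span_induction with
  | mem x hx =>
    obtain ⟨j, f, v, hf, hv, rfl⟩ := hx
    refine peel (isBLat_hull hB) (SigStable.hull hB (sigStable_PE p hE.toIsBLat hE.sig_mem))
      (isS2_hull hB) ((p + 1) / 2) fun ε' => le_hull hB _ ?_
    rw [F1_gam_smul, smul_comm, AA_gam_frV' p hΓ, smul_smul]
    refine Submodule.subset_span ⟨j + X.w, f * X.mm ε ε', gam Γ ε' v, ?_, hE.gam_mem ε' hv, rfl⟩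
    have h1 := X.T0_mul hf (X.mm_mem ε ε')
    have h2 : (((p + 1) / 2 : ℕ) : ℤ) * (2 * X.w) = (p + 1) * X.w := by
      have h3 : (p + 1) / 2 * 2 = p + 1 := by omega
      have h4 : (((p + 1) / 2 : ℕ) : ℤ) * 2 = p + 1 := by exact_mod_cast h3
      rw [← mul_assoc, h4]
    rw [h2]
    convert h1 using 2
    ring
  | zero =>
    unfold gam
    rw [map_zero, smul_zero]
    exact zero_mem _
  | add v w _ _ hv hw => rw [F1_gam_add]; exact add_mem hv hw
  | smul c v _ hv =>
    rw [← algebraMap_smul X.L c v, F1_gam_smul, algebraMap_smul]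
    exact Submodule.smul_mem _ _ hv

/-- 4.1: the Frobenius pullback is a T-lattice -/
theorem isTLat_hull_PE (hΓ : IsTSp Γ) (hE : IsTLat Γ E) :
    IsTLat (frG p Γ) (hull (PE p E) (isBLat_PE p hE.toIsBLat hE.sig_mem)) := by
  have hB := isBLat_PE p hE.toIsBLat hE.sig_mem
  refine { toIsBLat := isBLat_hull hB, sig_mem := fun x n v hv => ?_,
           gam_mem := fun ε n v hv => ?_ }
  · exact SigStable.hull hB (sigStable_PE p hE.toIsBLat hE.sig_mem) x hv
  · refine isS2_hull hB _ _ ?_
    obtain ⟨h1, c, hc, h2⟩ := hv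
    refine ⟨fun π hπ => ?_, c, hc, ?_⟩
    · obtain ⟨i, c, hc, hcπ, h5⟩ := h1 π hπ
      refine ⟨i, c, hc, hcπ, ?_⟩
      rw [← gam_smul_A, add_right_comm]
      exact F1_gam_mem p hΓ hE ε h5
    · rw [← gam_smul_A, add_right_comm]
      exact F1_gam_mem p hΓ hE ε h2

end frob

end Vale.Agent.P190.D
end
end

section

section

/-! Section 4, file P0: further definitions for the characteristic `p` part. -/

set_option autoImplicit false
set_option linter.unusedSectionVars false

open MvPolynomial Filter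

namespace Vale.Agent.P190.D

variable {k : Type} [Field k] {X : Arr k} (p : ℕ)

/-- Frobenius twist of a linear map (`p`-th powers of the matrix entries) -/
noncomputable def tw {r s : ℕ} (f : (Fin r → X.L) →ₗ[X.L] (Fin s → X.L)) :
    (Fin r → X.L) →ₗ[X.L] (Fin s → X.L) :=
  Matrix.toLin' ((LinearMap.toMatrix' f).map (· ^ p))

/-- the lattice `E` spans `V` over `L` -/
def SpansL {V : Type} [AddCommGroup V] [Module k V] [Module X.L V]
    (E : ℤ → Submodule k V) : Prop :=
  Submodule.span X.L (⋃ n, (E n : Set V)) = ⊤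

/-- degree `n` part of the T-submodule generated by `e` placed in degree `d` -/
noncomputable def Tspan {V : Type} [AddCommGroup V] [Module k V] [Module X.L V]
    (Γ : V →ₗ[X.L] V) (d : ℤ) (e : V) (n : ℤ) : Submodule k V :=
  Submodule.span k {w | (∃ f ∈ X.T0 (n - d), w = f • e) ∨
    ∃ ε : X.S → Bool, ∃ f ∈ X.T0 (n - d - X.w), w = f • gam Γ ε e}

/-- the T-submodule generated by the family `e` placed in degree `d` -/
noncomputable def TspanF {V : Type} [AddCommGroup V] [Module k V] [Module X.L V]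
    (Γ : V →ₗ[X.L] V) (d : ℤ) {r₁ : ℕ} (e : Fin r₁ → V) (n : ℤ) : Submodule k V :=
  ⨆ i, Tspan Γ d (e i) n

end Vale.Agent.P190.D
end
end

section

section

/-! Section 4, file P1: more on the Frobenius pullback of a T-lattice. -/

set_option autoImplicit false
set_option linter.unusedSectionVars false

open MvPolynomial Filter

namespace Vale.Agent.P190.D

variable {k : Type} [Field k] [IsAlgClosed k] {X : Arr k} (p : ℕ) [Fact p.Prime] [CharP k p]

theorem charP_L (X : Arr k) : CharP X.L p :=
  charP_of_injective_algebraMap (algebraMap k X.L).injective p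

theorem p_odd (X : Arr k) : p % 2 = 1 := by
  rcases (Fact.out : p.Prime).eq_two_or_odd with h | h
  · exfalso
    apply X.two_ne
    have := CharP.cast_eq_zero k p
    rw [h] at this
    exact_mod_cast this
  · exact h

theorem P1_matrix_map_mul {r s t : ℕ} (M : Matrix (Fin t) (Fin s) X.L)
    (N : Matrix (Fin s) (Fin r) X.L) : (M * N).map (· ^ p) = M.map (· ^ p) * N.map (· ^ p) := by
  have := charP_L p X
  have h := Matrix.map_mul (L := M) (M := N) (f := frobenius X.L p)
  exact h

theorem P1_matrix_map_add {r s : ℕ} (M N : Matrix (Fin s) (Fin r) X.L) :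
    (M + N).map (· ^ p) = M.map (· ^ p) + N.map (· ^ p) := by
  have := charP_L p X
  ext i j
  simp only [Matrix.map_apply, Matrix.add_apply]
  exact add_pow_char _ _ _

theorem tw_comp {r s t : ℕ} (g : (Fin s → X.L) →ₗ[X.L] (Fin t → X.L))
    (f : (Fin r → X.L) →ₗ[X.L] (Fin s → X.L)) : tw p (g ∘ₗ f) = tw p g ∘ₗ tw p f := by
  unfold tw
  rw [LinearMap.toMatrix'_comp, P1_matrix_map_mul, Matrix.toLin'_mul]

theorem tw_add {r s : ℕ} (g f : (Fin r → X.L) →ₗ[X.L] (Fin s → X.L)) :
    tw p (g + f) = tw p g + tw p f := by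
  unfold tw
  rw [map_add, P1_matrix_map_add, map_add]

theorem tw_id {r : ℕ} : tw p (LinearMap.id : (Fin r → X.L) →ₗ[X.L] (Fin r → X.L)) =
    LinearMap.id := by
  unfold tw
  rw [LinearMap.toMatrix'_id]
  have : (1 : Matrix (Fin r) (Fin r) X.L).map (· ^ p) = 1 :=
    Matrix.map_one _ (zero_pow (Fact.out : p.Prime).ne_zero) (one_pow p)
  rw [this, Matrix.toLin'_one]

theorem tw_frV {r s : ℕ} (f : (Fin r → X.L) →ₗ[X.L] (Fin s → X.L)) (v : Fin r → X.L) :
    tw p f (frV p v) = frV p (f v) := by
  have := charP_L p X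
  ext i
  have h : f v = (LinearMap.toMatrix' f).mulVec v := by
    rw [← Matrix.toLin'_apply, Matrix.toLin'_toMatrix']
  rw [h]
  simp only [tw, Matrix.toLin'_apply, Matrix.mulVec, dotProduct, Matrix.map_apply, frV]
  rw [sum_pow_char]
  simp only [mul_pow]

theorem tw_injective {r s : ℕ} (f : (Fin r → X.L) →ₗ[X.L] (Fin s → X.L))
    (hf : Function.Injective f) : Function.Injective (tw p f) := by
  obtain ⟨g, hg⟩ := f.exists_leftInverse_of_injective (LinearMap.ker_eq_bot.2 hf)
  have h : tw p g ∘ₗ tw p f = LinearMap.id := by rw [← tw_comp, hg, tw_id]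
  intro x y hxy
  have h1 := LinearMap.congr_fun h x
  have h2 := LinearMap.congr_fun h y
  simp only [LinearMap.comp_apply, LinearMap.id_apply] at h1 h2
  rw [← h1, ← h2, hxy]

theorem tw_surjective {r s : ℕ} (f : (Fin r → X.L) →ₗ[X.L] (Fin s → X.L))
    (hf : Function.Surjective f) : Function.Surjective (tw p f) := by
  obtain ⟨g, hg⟩ := f.exists_rightInverse_of_surjective (LinearMap.range_eq_top.2 hf)
  have h : tw p f ∘ₗ tw p g = LinearMap.id := by rw [← tw_comp, hg, tw_id]
  intro x
  exact ⟨tw p g x, LinearMap.congr_fun h x⟩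

theorem P1_frV_zero {r : ℕ} : frV p (0 : Fin r → X.L) = 0 := by
  ext i
  exact zero_pow (Fact.out : p.Prime).ne_zero

theorem P1_frV_single {r : ℕ} (i : Fin r) :
    frV p (Pi.single i 1 : Fin r → X.L) = Pi.single i 1 := by
  ext j
  by_cases h : j = i
  · subst h
    simp [frV]
  · simp [frV, Pi.single_eq_of_ne h, (Fact.out : p.Prime).ne_zero]

/-- the kernel of the twist is the span of the Frobenius image of the kernel -/
theorem ker_tw {r s : ℕ} (f : (Fin r → X.L) →ₗ[X.L] (Fin s → X.L)) :
    LinearMap.ker (tw p f) = Submodule.span X.L (frV p '' (LinearMap.ker f : Set (Fin r → X.L))) := by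
  apply le_antisymm
  · -- a generalized inverse
    obtain ⟨j₀, hj₀⟩ := f.rangeRestrict.exists_rightInverse_of_surjective f.range_rangeRestrict
    obtain ⟨j, hj⟩ := LinearMap.exists_extend j₀
    have hfj : ∀ v, f (j (f v)) = f v := by
      intro v
      have h1 : j (f v) = j₀ ⟨f v, LinearMap.mem_range_self f v⟩ := by
        rw [← hj]; rfl
      have h2 := LinearMap.congr_fun hj₀ ⟨f v, LinearMap.mem_range_self f v⟩
      rw [h1]
      exact congrArg Subtype.val h2
    have hdec : LinearMap.id = (LinearMap.id - j ∘ₗ f) + j ∘ₗ f := by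
      rw [sub_add_cancel]
    intro w hw
    rw [LinearMap.mem_ker] at hw
    have hw2 : w = tw p (LinearMap.id - j ∘ₗ f) w := by
      have h3 : tw p (LinearMap.id : (Fin r → X.L) →ₗ[X.L] (Fin r → X.L)) w = w := by
        rw [tw_id]; rfl
      rw [hdec, tw_add, tw_comp] at h3
      simp only [LinearMap.add_apply, LinearMap.comp_apply, hw, map_zero, add_zero] at h3
      exact h3.symm
    rw [hw2]
    have hsum : w = ∑ i, w i • (Pi.single i 1 : Fin r → X.L) := by
      ext i
      simp only [Finset.sum_apply, Pi.smul_apply, Pi.single_apply, smul_eq_mul, mul_ite, mul_one, mul_zero, Finset.sum_ite_eq, Finset.mem_univ, ↓reduceIte]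
    rw [hsum, map_sum]
    refine sum_mem fun i _ => ?_
    rw [map_smul]
    refine Submodule.smul_mem _ _ (Submodule.subset_span ?_)
    refine ⟨(LinearMap.id - j ∘ₗ f : (Fin r → X.L) →ₗ[X.L] (Fin r → X.L)) (Pi.single i 1),
      ?_, ?_⟩
    · change f _ = 0
      rw [LinearMap.sub_apply, LinearMap.comp_apply, LinearMap.id_apply, map_sub, hfj, sub_self]
    · rw [← tw_frV, P1_frV_single]
  · rw [Submodule.span_le]
    rintro _ ⟨v, hv, rfl⟩
    have hv' : f v = 0 := hv
    change tw p f (frV p v) = 0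
    rw [tw_frV, hv', P1_frV_zero]

theorem frG_eq_tw {r : ℕ} (Γ : (Fin r → X.L) →ₗ[X.L] (Fin r → X.L)) :
    frG p Γ = (X.PI ^ ((p - 1) / 2))⁻¹ • tw p Γ := rfl

/-- intertwiners are twisted to intertwiners -/
theorem frG_tw {r s : ℕ} {Γ : (Fin r → X.L) →ₗ[X.L] (Fin r → X.L)}
    {Δ : (Fin s → X.L) →ₗ[X.L] (Fin s → X.L)} (f : (Fin r → X.L) →ₗ[X.L] (Fin s → X.L))
    (hf : ∀ v, f (Γ v) = Δ (f v)) (v : Fin r → X.L) : tw p f (frG p Γ v) = frG p Δ (tw p f v) := by
  have h : f ∘ₗ Γ = Δ ∘ₗ f := LinearMap.ext hf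
  have h2 : tw p f ∘ₗ tw p Γ = tw p Δ ∘ₗ tw p f := by rw [← tw_comp, ← tw_comp, h]
  have h3 := LinearMap.congr_fun h2 v
  simp only [LinearMap.comp_apply] at h3
  rw [frG_eq_tw, frG_eq_tw, LinearMap.smul_apply, LinearMap.smul_apply, map_smul, h3]

/-- `Fr(E_n)` as a `k`-subspace (`k` is perfect) -/
noncomputable def FrL {r : ℕ} (E : ℤ → Submodule k (Fin r → X.L)) (n : ℤ) :
    Submodule k (Fin r → X.L) := Submodule.span k (frV p '' (E n : Set (Fin r → X.L)))

theorem P1_frV_smul_k {r : ℕ} (c : k) (v : Fin r → X.L) : frV p (c • v) = c ^ p • frV p v := by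
  ext i
  exact smul_pow c (v i) p

theorem P1_frV_smul_A {r : ℕ} (c : A k) (v : Fin r → X.L) : frV p (c • v) = c ^ p • frV p v := by
  ext i
  exact smul_pow c (v i) p

theorem mem_FrL {r : ℕ} {E : ℤ → Submodule k (Fin r → X.L)} {n : ℤ} {w : Fin r → X.L} :
    w ∈ FrL p E n ↔ ∃ e ∈ E n, w = frV p e := by
  constructor
  · intro hw
    induction hw using Submodule.span_induction with
    | mem x hx =>
      obtain ⟨e, he, rfl⟩ := hx
      exact ⟨e, he, rfl⟩
    | zero => exact ⟨0, zero_mem _, (P1_frV_zero p).symm⟩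
    | add x y _ _ hx hy =>
      obtain ⟨e, he, rfl⟩ := hx
      obtain ⟨e', he', rfl⟩ := hy
      exact ⟨e + e', add_mem he he', (frV_add p e e').symm⟩
    | smul c x _ hx =>
      obtain ⟨e, he, rfl⟩ := hx
      obtain ⟨d, hd⟩ := IsAlgClosed.exists_pow_nat_eq c (Fact.out : p.Prime).pos
      exact ⟨d • e, Submodule.smul_mem _ _ he, by rw [P1_frV_smul_k, hd]⟩
  · rintro ⟨e, he, rfl⟩
    exact Submodule.subset_span ⟨e, he, rfl⟩

theorem finrank_FrL {r : ℕ} {E : ℤ → Submodule k (Fin r → X.L)} (hE : IsBLat E) (n : ℤ) :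
    Module.finrank k (FrL p E n) = Module.finrank k (E n) := by
  let j : E n ≃+ FrL p E n := AddEquiv.ofBijective
    ({ toFun := fun e => ⟨frV p e.1, (mem_FrL p).2 ⟨e.1, e.2, rfl⟩⟩
       map_zero' := by
        apply Subtype.ext
        exact P1_frV_zero p
       map_add' := fun e e' => by
        apply Subtype.ext
        exact frV_add p e.1 e'.1 } : E n →+ FrL p E n)
    ⟨fun e e' h => Subtype.ext (frV_injective p (congrArg Subtype.val h)),
      fun ⟨w, hw⟩ => by
        obtain ⟨e, he, rfl⟩ := (mem_FrL p).1 hw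
        exact ⟨⟨e, he⟩, rfl⟩⟩
  have hrank : Module.rank k (E n) = Module.rank k (FrL p E n) := by
    refine rank_eq_of_equiv_equiv (fun c : k => c ^ p) j ⟨?_, ?_⟩ ?_
    · intro c d h
      exact frobenius_inj k p h
    · intro c
      exact IsAlgClosed.exists_pow_nat_eq c (Fact.out : p.Prime).pos
    · intro c e
      apply Subtype.ext
      exact P1_frV_smul_k p c e.1
  unfold Module.finrank
  rw [hrank]

variable {r : ℕ} {Γ : (Fin r → X.L) →ₗ[X.L] (Fin r → X.L)} {E : ℤ → Submodule k (Fin r → X.L)}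

theorem mem_PE {n l : ℤ} {f : X.L} {e : Fin r → X.L} (hf : f ∈ X.T0 (l - p * n))
    (he : e ∈ E n) : f • frV p e ∈ PE p E l :=
  Submodule.subset_span ⟨n, f, e, hf, he, rfl⟩

theorem spansL_PE (hE : IsBLat E) (hs : SigStable X E) (hsp : SpansL (X := X) E) :
    SpansL (X := X) (PE p E) := by
  unfold SpansL at *
  rw [span_PE p hE hs, hsp, eq_top_iff]
  intro w _
  have hsum : w = ∑ i, w i • (Pi.single i 1 : Fin r → X.L) := by
    ext i
    simp only [Finset.sum_apply, Pi.smul_apply, Pi.single_apply, smul_eq_mul, mul_ite, mul_one, mul_zero, Finset.sum_ite_eq, Finset.mem_univ, ↓reduceIte]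
  rw [hsum]
  refine sum_mem fun i _ => Submodule.smul_mem _ _ (Submodule.subset_span ?_)
  exact ⟨Pi.single i 1, Submodule.mem_top, P1_frV_single p i⟩

/-- `P(f(E)) = f^(p)(P(E))` -/
theorem PE_map {s : ℕ} (f : (Fin r → X.L) →ₗ[X.L] (Fin s → X.L)) (l : ℤ) :
    PE p (mapLat (f.restrictScalars (A k)) E) l =
      mapLat ((tw p f).restrictScalars (A k)) (PE p E) l := by
  unfold mapLat PE
  rw [Submodule.map_span]
  congr 1
  ext x
  constructor
  · rintro ⟨n, g, v, hg, ⟨e, he, rfl⟩, rfl⟩
    refine ⟨g • frV p e, ⟨n, g, e, hg, he, rfl⟩, ?_⟩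
    change tw p f (g • frV p e) = g • frV p (f e)
    rw [map_smul, tw_frV]
  · rintro ⟨_, ⟨n, g, e, hg, he, rfl⟩, rfl⟩
    refine ⟨n, g, f e, hg, ⟨e, he, rfl⟩, ?_⟩
    change tw p f (g • frV p e) = g • frV p (f e)
    rw [map_smul, tw_frV]

theorem P1_Ad_pow {i : ℕ} {a : A k} (ha : a ∈ Ad k i) (q : ℕ) : a ^ q ∈ Ad k ((q * i : ℕ) : ℤ) := by
  rcases mem_Ad.1 ha with h | h
  · subst h
    by_cases hq : q = 0
    · subst hq
      refine mem_Ad.2 (Or.inr ?_)
      simp
    · rw [zero_pow hq]
      exact zero_mem _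
  · refine mem_Ad.2 (Or.inr ?_)
    have h1 := MvPolynomial.totalDegree_pow a q
    have h2 : a.totalDegree ≤ i := by exact_mod_cast h
    exact_mod_cast h1.trans (Nat.mul_le_mul_left q h2)

theorem P1_totalDegree_pow {a : A k} (ha : a ≠ 0) (q : ℕ) :
    (a ^ q).totalDegree = q * a.totalDegree := by
  induction q with
  | zero => simp
  | succ q ih =>
    rw [pow_succ, totalDegree_mul_of_isDomain (pow_ne_zero _ ha) ha, ih]
    ring

theorem P1_copForm_pow {i j : ℕ} {a b : A k} (h : CopForm i j a b) {q : ℕ} :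
    CopForm (q * i) (q * j) (a ^ q) (b ^ q) := by
  obtain ⟨ha, hb, ha0, hb0, hc, hd⟩ := h
  refine ⟨P1_Ad_pow ha q, P1_Ad_pow hb q, pow_ne_zero _ ha0, pow_ne_zero _ hb0, ?_, ?_⟩
  · rintro π hπ ⟨h1, h2⟩
    exact hc π hπ ⟨hπ.prime.dvd_of_dvd_pow h1, hπ.prime.dvd_of_dvd_pow h2⟩
  · rw [P1_totalDegree_pow ha0, P1_totalDegree_pow hb0]
    rcases hd with h | h
    · left; rw [h]
    · right; rw [h]

theorem P1_pow_smul_PE {E' : ℤ → Submodule k (Fin r → X.L)} {i : ℕ} {a : A k}
    (ha : ∀ n, ∀ v ∈ E' n, a • v ∈ E (n + i)) (l : ℤ) (v : Fin r → X.L) (hv : v ∈ PE p E' l) :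
    a ^ p • v ∈ PE p E (l + (p * i : ℕ)) := by
  induction hv using Submodule.span_induction with
  | mem x hx =>
    obtain ⟨n, f, e, hf, he, rfl⟩ := hx
    rw [smul_comm_AL, ← P1_frV_smul_A]
    refine mem_PE p (n := n + i) ?_ (ha n e he)
    have h1 : l + ((p * i : ℕ) : ℤ) - p * (n + i) = l - p * n := by
      push_cast; ring
    rw [h1]
    exact hf
  | zero => rw [smul_zero]; exact zero_mem _
  | add x y _ _ hx hy => rw [smul_add]; exact add_mem hx hy
  | smul c x _ hx => rw [smul_comm]; exact Submodule.smul_mem _ _ hx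

/-- a sublattice with the same `N`, `e` gives a `P` with the same `N`, `e` -/
theorem PE_hilb_eq {E' : ℤ → Submodule k (Fin r → X.L)} (hE : IsBLat E) (hE' : IsBLat E')
    (hs : SigStable X E) (hs' : SigStable X E') (h : ∀ n, E n ≤ E' n) {N e g g' : ℤ}
    (hh : HasHilb E N e g) (hh' : HasHilb E' N e g') {N₁ e₁ g₁ N₂ e₂ g₂ : ℤ}
    (h₁ : HasHilb (PE p E) N₁ e₁ g₁) (h₂ : HasHilb (PE p E') N₂ e₂ g₂) : N₁ = N₂ ∧ e₁ = e₂ := by
  obtain ⟨i, j, a, b, hab, ha, hb⟩ := exists_cop_mul_le hE hE' h hh hh'
  obtain ⟨h3, h4, _⟩ := hilb_eq_of_cop (isBLat_PE p hE hs) (isBLat_PE p hE' hs') (PE_mono p h)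
    (P1_copForm_pow hab (q := p)) (P1_pow_smul_PE p ha) (P1_pow_smul_PE p hb) h₁ h₂
  exact ⟨h3, h4⟩

/-- the hull of `P(E)`: the reflexive Frobenius pullback -/
noncomputable def GG (hE : IsBLat E) (hs : SigStable X E) : ℤ → Submodule k (Fin r → X.L) :=
  hull (PE p E) (isBLat_PE p hE hs)

theorem PE_le_GG (hE : IsBLat E) (hs : SigStable X E) (l : ℤ) : PE p E l ≤ GG p hE hs l :=
  le_hull _ l

/-- 4.1: `G` is a T-lattice. -/
theorem isTLat_GG (hΓ : IsTSp Γ) (hE : IsTLat Γ E) :
    IsTLat (frG p Γ) (GG p hE.toIsBLat hE.sig_mem) :=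
  isTLat_hull_PE p hΓ hE

theorem isS2_GG (hE : IsBLat E) (hs : SigStable X E) : IsS2 (GG p hE hs) :=
  isS2_hull _

theorem spansL_GG (hE : IsBLat E) (hs : SigStable X E) (hsp : SpansL (X := X) E) :
    SpansL (X := X) (GG p hE hs) := by
  have h := spansL_PE p hE hs hsp
  unfold SpansL at *
  rw [eq_top_iff, ← h]
  exact Submodule.span_mono (Set.iUnion_mono fun l => PE_le_GG p hE hs l)

end Vale.Agent.P190.D
end
end

section

section

/-! Section 1, file B7a: homogeneous polynomials in two variables. -/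

set_option autoImplicit false
set_option linter.unusedSectionVars false

open MvPolynomial Filter

namespace Vale.Agent.P190.D

variable {k : Type} [Field k]

/-- homogeneous polynomials of degree `m` in `y`, `z` -/
noncomputable def Ah (k : Type) [Field k] (m : ℤ) : Submodule k (A k) :=
  if 0 ≤ m then homogeneousSubmodule (Fin 2) k m.toNat else ⊥

theorem mem_Ah {m : ℤ} {a : A k} : a ∈ Ah k m ↔ a = 0 ∨ (0 ≤ m ∧ a.IsHomogeneous m.toNat) := by
  unfold Ah
  split_ifs with h
  · rw [mem_homogeneousSubmodule]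
    constructor
    · exact fun h' => Or.inr ⟨h, h'⟩
    · rintro (h' | h')
      · rw [h']; exact isHomogeneous_zero _ _ _
      · exact h'.2
  · simp only [Submodule.mem_bot, h, false_and, or_false]

theorem mem_Ah' {m : ℤ} {a : A k} : a ∈ Ah k m ↔ ∀ s, coeff s a ≠ 0 → (s.degree : ℤ) = m := by
  rw [mem_Ah]
  constructor
  · rintro (h | ⟨hm, h⟩) s hs
    · rw [h] at hs; simp at hs
    · have := h hs
      rw [Pi.one_def, ← Finsupp.degree_eq_weight_one] at this
      omega
  · intro h
    by_cases h0 : a = 0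
    · exact Or.inl h0
    · right
      obtain ⟨s, hs⟩ := (MvPolynomial.ne_zero_iff).1 h0
      have h1 := h s hs
      refine ⟨by omega, fun t ht => ?_⟩
      rw [Pi.one_def, ← Finsupp.degree_eq_weight_one]
      have := h t ht
      omega

theorem mem_Ad' {m : ℤ} {a : A k} : a ∈ Ad k m ↔ ∀ s, coeff s a ≠ 0 → (s.degree : ℤ) ≤ m := by
  rw [mem_Ad]
  constructor
  · rintro (h | h) s hs
    · rw [h] at hs; simp at hs
    · have := le_totalDegree (mem_support_iff.2 hs)
      have e : (s.sum fun _ e => e) = s.degree := rfl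
      rw [e] at this
      omega
  · intro h
    by_cases h0 : a = 0
    · exact Or.inl h0
    · right
      obtain ⟨s, hs⟩ := (MvPolynomial.ne_zero_iff).1 h0
      have h1 := h s hs
      have : a.totalDegree ≤ m.toNat := by
        refine Finset.sup_le fun t ht => ?_
        have h2 := h t (mem_support_iff.1 ht)
        have e : (t.sum fun _ e => e) = t.degree := rfl
        rw [e]
        omega
      omega

theorem Ah_le_Ad (m : ℤ) : Ah k m ≤ Ad k m := by
  intro a ha
  rw [mem_Ah'] at ha
  rw [mem_Ad']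
  exact fun s hs => (ha s hs).le

theorem Ah_mul {i j : ℤ} {a b : A k} (ha : a ∈ Ah k i) (hb : b ∈ Ah k j) :
    a * b ∈ Ah k (i + j) := by
  rw [mem_Ah] at *
  rcases ha with ha | ⟨hi, ha⟩
  · left; rw [ha, zero_mul]
  rcases hb with hb | ⟨hj, hb⟩
  · left; rw [hb, mul_zero]
  right
  refine ⟨by omega, ?_⟩
  rw [Int.toNat_add hi hj]
  exact ha.mul hb

theorem one_mem_Ah : (1 : A k) ∈ Ah k 0 := by
  rw [mem_Ah]
  exact Or.inr ⟨le_rfl, isHomogeneous_one _ _⟩

theorem Ah_nonneg {m : ℤ} {a : A k} (ha : a ∈ Ah k m) (h0 : a ≠ 0) :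
    0 ≤ m ∧ (a.totalDegree : ℤ) = m := by
  rw [mem_Ah] at ha
  rcases ha with ha | ⟨hm, ha⟩
  · exact absurd ha h0
  · refine ⟨hm, ?_⟩
    rw [ha.totalDegree h0]
    omega

theorem Ad_eq_sup (m : ℤ) : Ad k m = Ah k m ⊔ Ad k (m - 1) := by
  apply le_antisymm
  · intro a ha
    rw [mem_Ad'] at ha
    by_cases hm : 0 ≤ m
    · rw [Submodule.mem_sup]
      refine ⟨homogeneousComponent m.toNat a, ?_, a - homogeneousComponent m.toNat a, ?_, by ring⟩
      · rw [mem_Ah']
        intro s hs
        rw [coeff_homogeneousComponent] at hs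
        split_ifs at hs with h
        · omega
        · exact absurd rfl hs
      · rw [mem_Ad']
        intro s hs
        rw [coeff_sub, coeff_homogeneousComponent] at hs
        split_ifs at hs with h
        · rw [sub_self] at hs; exact absurd rfl hs
        · rw [sub_zero] at hs
          have := ha s hs
          omega
    · have ha' : a = 0 := by
        by_contra h0
        obtain ⟨s, hs⟩ := (MvPolynomial.ne_zero_iff).1 h0
        have := ha s hs
        omega
      rw [ha']
      exact zero_mem _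
  · exact sup_le (Ah_le_Ad m) (Ad_mono (by omega))

theorem Ah_inf (m : ℤ) : Ah k m ⊓ Ad k (m - 1) = ⊥ := by
  rw [eq_bot_iff]
  rintro a ⟨h1, h2⟩
  rw [SetLike.mem_coe, mem_Ah'] at h1
  rw [SetLike.mem_coe, mem_Ad'] at h2
  rw [Submodule.mem_bot]
  by_contra h0
  obtain ⟨s, hs⟩ := (MvPolynomial.ne_zero_iff).1 h0
  have := h1 s hs
  have := h2 s hs
  omega

instance Ah_fin (m : ℤ) : Module.Finite k (Ah k m) :=
  Submodule.finiteDimensional_of_le (Ah_le_Ad m)

theorem finrank_Ah (m : ℤ) : (Module.finrank k (Ah k m) : ℤ) = max 0 (m + 1) := by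
  have h1 := Submodule.finrank_sup_add_finrank_inf_eq (Ah k m) (Ad k (m - 1))
  rw [← Ad_eq_sup, Ah_inf, finrank_bot, add_zero] at h1
  by_cases hm : -1 ≤ m
  · have h2 := finrank_Ad (k := k) (by omega : -2 ≤ m)
    have h3 := finrank_Ad (k := k) (by omega : -2 ≤ m - 1)
    have h4 : (Module.finrank k (Ad k m) : ℚ) =
        Module.finrank k (Ah k m) + Module.finrank k (Ad k (m - 1)) := by exact_mod_cast h1
    rw [h2, h3] at h4
    rw [max_eq_right (by omega)]
    have h5 : (Module.finrank k (Ah k m) : ℚ) = ((m + 1 : ℤ) : ℚ) := by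
      unfold hp at h4
      push_cast at h4 ⊢
      linarith only [h4]
    exact_mod_cast h5
  · have h2 := finrank_Ad_neg (k := k) (by omega : m < 0)
    rw [max_eq_left (by omega)]
    omega

theorem X1_mem (t : k) : (X 1 - C t * X 0 : A k) ∈ Ah k 1 := by
  rw [mem_Ah]
  right
  refine ⟨by norm_num, ?_⟩
  refine (isHomogeneous_X k 1).sub ?_
  have := (isHomogeneous_C (Fin 2) t).mul (isHomogeneous_X k (0 : Fin 2))
  simpa using this

theorem X1_ne (t : k) : (X 1 - C t * X 0 : A k) ≠ 0 := by
  intro h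
  have := congrArg (eval ![0, 1]) h
  simp at this

/-- division of homogeneous polynomials by linear forms -/
theorem Ah_dvd {m : ℤ} {h : A k} (hh : h ∈ Ah k m) {t : k} (h0 : eval ![1, t] h = 0) :
    ∃ h' ∈ Ah k (m - 1), h = (X 1 - C t * X 0) * h' := by
  -- image of multiplication is the kernel of the evaluation, by dimension
  by_cases hm : 0 ≤ m
  · let ev : Ah k m →ₗ[k] k := ((aeval ![(1 : k), t]).toLinearMap).comp (Ah k m).subtype
    have hev : ∀ a : Ah k m, ev a = eval ![1, t] a.1 := by
      intro a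
      simp only [Nat.succ_eq_add_one, Nat.reduceAdd, LinearMap.coe_comp, AlgHom.coe_toLinearMap, aeval_eq_eval, Submodule.coe_subtype, Function.comp_apply, ev]
    have hsurj : Function.Surjective ev := by
      intro c
      refine ⟨⟨C c * X 0 ^ m.toNat, ?_⟩, ?_⟩
      · rw [mem_Ah]
        right
        refine ⟨hm, ?_⟩
        have := (isHomogeneous_C (Fin 2) c).mul ((isHomogeneous_X k (0 : Fin 2)).pow m.toNat)
        simpa using this
      · rw [hev]; simp
    have hker : Module.finrank k (LinearMap.ker ev) = Module.finrank k (Ah k m) - 1 := by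
      have h1 := LinearMap.finrank_range_add_finrank_ker ev
      rw [LinearMap.range_eq_top.2 hsurj, finrank_top, Module.finrank_self] at h1
      omega
    let mu : Ah k (m - 1) →ₗ[k] Ah k m :=
      { toFun := fun a => ⟨(X 1 - C t * X 0) * a.1, by
          have := Ah_mul (X1_mem t) a.2
          rwa [add_sub_cancel] at this⟩
        map_add' := fun a b => by
          apply Subtype.ext
          simp only [Fin.isValue, Submodule.coe_add, mul_add, AddMemClass.mk_add_mk]
        map_smul' := fun c a => by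
          apply Subtype.ext
          simp only [Fin.isValue, SetLike.val_smul, Algebra.mul_smul_comm, RingHom.id_apply, SetLike.mk_smul_mk] }
    have hmu : Function.Injective mu := by
      intro a b hab
      apply Subtype.ext
      have := congrArg Subtype.val hab
      exact mul_left_cancel₀ (X1_ne t) this
    have hle : LinearMap.range mu ≤ LinearMap.ker ev := by
      rintro _ ⟨a, rfl⟩
      rw [LinearMap.mem_ker, hev]
      simp [mu]
    have hr : Module.finrank k (LinearMap.range mu) = Module.finrank k (Ah k (m - 1)) :=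
      LinearMap.finrank_range_of_inj hmu
    have h1 := finrank_Ah (k := k) m
    have h2 := finrank_Ah (k := k) (m - 1)
    rw [max_eq_right (by omega)] at h1 h2
    have heq : LinearMap.range mu = LinearMap.ker ev := by
      apply Submodule.eq_of_le_of_finrank_eq hle
      omega
    have hmem : (⟨h, hh⟩ : Ah k m) ∈ LinearMap.ker ev := by
      rw [LinearMap.mem_ker, hev]
      exact h0
    rw [← heq] at hmem
    obtain ⟨a, ha⟩ := hmem
    exact ⟨a.1, a.2, (congrArg Subtype.val ha).symm⟩
  · refine ⟨0, zero_mem _, ?_⟩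
    rw [mul_zero]
    by_contra hne
    exact hm (Ah_nonneg hh hne).1

/-- scaling -/
theorem eval_scale {m : ℤ} {b : A k} (hb : b ∈ Ah k m) (r t : k) :
    eval ![r, r * t] b = r ^ m.toNat * eval ![1, t] b := by
  rw [mem_Ah'] at hb
  rw [eval_eq', eval_eq', Finset.mul_sum]
  refine Finset.sum_congr rfl fun d hd => ?_
  have h1 := hb d (mem_support_iff.1 hd)
  have h2 : d.degree = d 0 + d 1 := by
    rw [Finsupp.degree_eq_sum, Fin.sum_univ_two]
  have h3 : m.toNat = d 0 + d 1 := by omega
  rw [Fin.prod_univ_two, Fin.prod_univ_two, h3]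
  simp only [Matrix.cons_val_zero, Matrix.cons_val_one]
  rw [mul_pow, one_pow, pow_add]
  ring

/-- a nonzero homogeneous polynomial does not vanish at some `(1,t)` -/
theorem exists_eval_ne [Infinite k] {m : ℤ} {b : A k} (hb : b ∈ Ah k m) (h0 : b ≠ 0) :
    ∃ t : k, eval ![1, t] b ≠ 0 := by
  by_contra hcon
  push Not at hcon
  have h1 : (X 0 * b : A k) = 0 := by
    apply MvPolynomial.funext
    intro x
    rw [map_mul, eval_X, map_zero]
    by_cases hx : x 0 = 0
    · rw [hx, zero_mul]
    · have e : x = ![x 0, x 0 * ((x 0)⁻¹ * x 1)] := by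
        funext i
        fin_cases i
        · rfl
        · simp only [Fin.mk_one, Fin.isValue, Nat.succ_eq_add_one, Nat.reduceAdd, mul_inv_cancel_left₀ hx, Matrix.cons_val_one, Matrix.cons_val_fin_one]
      rw [e, eval_scale hb, hcon]
      simp only [Nat.succ_eq_add_one, Nat.reduceAdd, Fin.isValue, Matrix.cons_val_zero, mul_zero]
  rcases mul_eq_zero.1 h1 with h | h
  · exact X_ne_zero 0 h
  · exact h0 h

end Vale.Agent.P190.D
end
end

section

section

namespace Vale.Agent.P190

open MvPowerSeries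

section

variable {σ k : Type*} [CommRing k]

/-- power series all of whose monomials have some exponent `j ∈ S` at least `ν j`. -/
def cIdeal (k : Type*) [CommRing k] (S : Finset σ) (ν : σ → ℕ) : Ideal (MvPowerSeries σ k) where
  carrier := {f | ∀ m : σ →₀ ℕ, (∀ j ∈ S, m j < ν j) → coeff m f = 0}
  zero_mem' := fun m _ => map_zero _
  add_mem' := fun {a b} ha hb m hm => by
    rw [map_add, ha m hm, hb m hm, add_zero]
  smul_mem' := fun c f hf m hm => by
    classical
    rw [smul_eq_mul, coeff_mul, Finset.sum_eq_zero]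
    rintro ⟨a, b⟩ hab
    have hb : b ≤ m := by
      rw [Finset.HasAntidiagonal.mem_antidiagonal] at hab
      rw [← hab]
      exact le_add_left le_rfl
    rw [hf b (fun j hj => lt_of_le_of_lt (hb j) (hm j hj)), mul_zero]

theorem mem_cIdeal {S : Finset σ} {ν : σ → ℕ} {f : MvPowerSeries σ k} :
    f ∈ cIdeal k S ν ↔ ∀ m : σ →₀ ℕ, (∀ j ∈ S, m j < ν j) → coeff m f = 0 := Iff.rfl

theorem X_pow_mem_cIdeal {S : Finset σ} {ν : σ → ℕ} {j : σ} (hj : j ∈ S) :
    (X j : MvPowerSeries σ k) ^ (ν j) ∈ cIdeal k S ν := by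
  intro m hm
  classical
  rw [coeff_X_pow, if_neg]
  rintro rfl
  have := hm j hj
  simp at this

theorem cIdeal_eq_span (S : Finset σ) (ν : σ → ℕ) :
    cIdeal k S ν = Ideal.span ((fun j => (X j : MvPowerSeries σ k) ^ (ν j)) '' S) := by
  classical
  apply le_antisymm
  · induction S using Finset.induction_on with
    | empty =>
      intro f hf
      have : f = 0 := by
        ext m
        exact hf m (by simp)
      rw [this]
      exact Ideal.zero_mem _
    | insert s S hs ih =>
      intro f hf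
      let g : MvPowerSeries σ k := fun m => if m s < ν s then coeff m f else 0
      have hg : ∀ m, coeff m g = if m s < ν s then coeff m f else 0 := fun m => rfl
      have hgS : g ∈ cIdeal k S ν := by
        intro m hm
        rw [hg]
        split_ifs with h
        · apply hf m
          intro j hj
          rw [Finset.mem_insert] at hj
          rcases hj with rfl | hj
          · exact h
          · exact hm j hj
        · rfl
      have hd : (X s : MvPowerSeries σ k) ^ (ν s) ∣ f - g := by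
        rw [X_pow_dvd_iff]
        intro m hm
        rw [map_sub, hg, if_pos hm, sub_self]
      have h1 := ih hgS
      rw [Finset.coe_insert, Set.image_insert_eq, Ideal.span_insert]
      have h2 : f = (f - g) + g := by ring
      rw [h2]
      exact Submodule.add_mem_sup (Ideal.mem_span_singleton.mpr hd) h1
  · rw [Ideal.span_le]
    rintro _ ⟨j, hj, rfl⟩
    exact X_pow_mem_cIdeal hj

/-- `X i` is a nonzerodivisor modulo the ideal of powers of other variables. -/
theorem cIdeal_regular {S : Finset σ} {ν : σ → ℕ} {i : σ} (hi : i ∉ S) (n : ℕ)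
    {f : MvPowerSeries σ k} (hf : X i ^ n * f ∈ cIdeal k S ν) : f ∈ cIdeal k S ν := by
  classical
  intro m hm
  have := hf (Finsupp.single i n + m) (by
    intro j hj
    have hji : i ≠ j := by rintro rfl; exact hi hj
    simp only [Finsupp.coe_add, Pi.add_apply, ne_eq, hji, not_false_eq_true, Finsupp.single_eq_of_ne', zero_add, hm j hj])
  rwa [X_pow_eq, coeff_add_monomial_mul, one_mul] at this

/-- lowering the exponent of one variable. -/
theorem cIdeal_lower {S : Finset σ} {ν ν' : σ → ℕ} {i : σ} (n : ℕ)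
    (hν : ∀ j, j ≠ i → ν' j = ν j) (hνi : ν i = n + ν' i)
    {f : MvPowerSeries σ k} (hf : X i ^ n * f ∈ cIdeal k S ν) : f ∈ cIdeal k S ν' := by
  classical
  intro m hm
  have := hf (Finsupp.single i n + m) (by
    intro j hj
    by_cases hji : i = j
    · subst hji
      simp only [Finsupp.coe_add, Pi.add_apply, Finsupp.single_eq_same, hνi, add_lt_add_iff_left, hm i hj]
    · rw [← hν j (fun h => hji h.symm)]
      simp [hji, hm j hj])
  rwa [X_pow_eq, coeff_add_monomial_mul, one_mul] at this

/-- Koszul relations in degree one for the squares of three variables. -/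
theorem koszul_one {i j l : σ} (hij : i ≠ j) (hil : i ≠ l) (hjl : j ≠ l) (N : ℕ)
    (h12 h13 h23 : MvPowerSeries σ k)
    (h : X l ^ N * h12 - X j ^ N * h13 + X i ^ N * h23 = 0) :
    ∃ u1 u2 u3 : MvPowerSeries σ k,
      h12 = X j ^ N * u1 - X i ^ N * u2 ∧
      h13 = X l ^ N * u1 - X i ^ N * u3 ∧
      h23 = X l ^ N * u2 - X j ^ N * u3 := by
  classical
  have e1 : X l ^ N * h12 ∈ cIdeal k {i, j} (fun _ => N) := by
    have : X l ^ N * h12 = X j ^ N * h13 - X i ^ N * h23 := by linear_combination h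
    rw [this]
    exact Ideal.sub_mem _ (Ideal.mul_mem_right _ _ (X_pow_mem_cIdeal (ν := fun _ => N) (by simp)))
      (Ideal.mul_mem_right _ _ (X_pow_mem_cIdeal (ν := fun _ => N) (by simp)))
  have e2 := cIdeal_regular (by simp [hil.symm, hjl.symm]) N e1
  rw [cIdeal_eq_span] at e2
  have e3 : ((fun j => (X j : MvPowerSeries σ k) ^ N) '' ((({i, j} : Finset σ)) : Set σ)) =
      {(X i : MvPowerSeries σ k) ^ N, X j ^ N} := by
    rw [Finset.coe_insert, Set.image_insert_eq, Finset.coe_singleton, Set.image_singleton]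
  rw [e3, Ideal.mem_span_pair] at e2
  obtain ⟨a, b, hab⟩ := e2
  -- h12 = a X_i^N + b X_j^N; u1 = b, u2 = -a
  have e4 : X j ^ N * (X l ^ N * b - h13) ∈ cIdeal k {i} (fun _ => N) := by
    have : X j ^ N * (X l ^ N * b - h13) = X i ^ N * (-(X l ^ N * a) - h23) := by
      rw [← hab] at h
      linear_combination h
    rw [this]
    exact Ideal.mul_mem_right _ _ (X_pow_mem_cIdeal (ν := fun _ => N) (by simp))
  have e5 := cIdeal_regular (by simp [hij.symm]) N e4
  rw [cIdeal_eq_span, Finset.coe_singleton, Set.image_singleton, Ideal.mem_span_singleton] at e5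
  obtain ⟨c, hc⟩ := e5
  refine ⟨b, -a, c, ?_, ?_, ?_⟩
  · rw [← hab]; ring
  · have hc' : X l ^ N * b - h13 = X i ^ N * c := hc
    linear_combination -hc'
  · have hc' : X l ^ N * b - h13 = X i ^ N * c := hc
    have e6 : X i ^ N * (h23 - (X l ^ N * (-a) - X j ^ N * c)) = 0 := by
      rw [← hab] at h
      linear_combination h - X j ^ N * hc'
    have e7 : h23 - (X l ^ N * (-a) - X j ^ N * c) ∈ cIdeal k ∅ (fun _ => N) := by
      apply cIdeal_regular (i := i) (by simp) N
      rw [e6]
      exact Ideal.zero_mem _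
    rw [cIdeal_eq_span, Finset.coe_empty, Set.image_empty, Ideal.span_empty,
      Ideal.mem_bot, sub_eq_zero] at e7
    exact e7

end

end Vale.Agent.P190
end
end

section

section

namespace Vale.Agent.P190

universe u v

/-- `M` is a small Cohen–Macaulay module over the local ring `R`: it is finitely generated and
some `M`-regular sequence in the maximal ideal has length equal to the Krull dimension of `R`.
(A regular sequence in the sense of Mathlib forces `M` to be nonzero.) -/
def IsSmallCM (R : Type u) [CommRing R] [IsLocalRing R] (M : Type v) [AddCommGroup M]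
    [Module R M] : Prop :=
  Module.Finite R M ∧ ∃ rs : List R, (∀ r ∈ rs, r ∈ IsLocalRing.maximalIdeal R) ∧
    RingTheory.Sequence.IsRegular M rs ∧ ((rs.length : ℕ) : WithBot ℕ∞) = ringKrullDim R

end Vale.Agent.P190
end
end

section

section

/-! Universe transport for small Cohen-Macaulay modules. -/

set_option autoImplicit false

namespace Vale.Agent.P190

universe u v w

theorem IsSmallCM.of_equiv {R : Type u} [CommRing R] [IsLocalRing R] {M : Type v}
    [AddCommGroup M] [Module R M] {N : Type w} [AddCommGroup N] [Module R N] (e : M ≃ₗ[R] N)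
    (h : IsSmallCM R M) : IsSmallCM R N := by
  obtain ⟨hf, rs, h1, h2, h3⟩ := h
  exact ⟨Module.Finite.equiv e, rs, h1, (LinearEquiv.isRegular_congr e rs).1 h2, h3⟩

/-- a small Cohen-Macaulay module in any universe gives one in the universe of the ring -/
theorem IsSmallCM.shrink {R : Type u} [CommRing R] [IsLocalRing R] {M : Type v}
    [AddCommGroup M] [Module R M] (h : IsSmallCM R M) :
    ∃ (N : Type u) (_ : AddCommGroup N) (_ : Module R N), IsSmallCM R N := by
  obtain ⟨hf, -⟩ := id h
  obtain ⟨n, f, hsurj⟩ := Module.Finite.exists_fin' R M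
  exact ⟨(Fin n → R) ⧸ LinearMap.ker f, inferInstance, inferInstance,
    h.of_equiv (f.quotKerEquivOfSurjective hsurj).symm⟩

end Vale.Agent.P190
end
end

section

section

/-! Section 5, file U4a: coordinates from commuting operators. -/

set_option autoImplicit false
set_option linter.unusedSectionVars false

open MvPolynomial Filter

open scoped IsMulCommutative

namespace Vale.Agent.P190.D

variable {k : Type} [Field k] [Infinite k] {X : Arr k}

/-- the algebra homomorphism from `L` given by commuting operators -/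
theorem u4a_exists_hom {V : Type} [AddCommGroup V] [Module (KK k) V]
    (S : X.I → Module.End (KK k) V) (hcomm : ∀ x y, S x * S y = S y * S x)
    (hsq : ∀ x, S x * S x = algebraMap (A k) (KK k) (X.q x) • (1 : Module.End (KK k) V))
    (h0 : S (X.b 0) = 1)
    (h1 : S (X.b 1) = algebraMap (A k) (KK k) (MvPolynomial.X 0) • (1 : Module.End (KK k) V))
    (h2 : S (X.b 2) = algebraMap (A k) (KK k) (MvPolynomial.X 1) • (1 : Module.End (KK k) V)) :
    ∃ ρ : X.L →ₐ[KK k] Module.End (KK k) V, ∀ x, ρ (X.σ x) = S x := by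
  classical
  have hc : ∀ a ∈ Set.range S, ∀ b ∈ Set.range S, a * b = b * a := by
    rintro _ ⟨x, rfl⟩ _ ⟨y, rfl⟩
    exact hcomm x y
  have : IsMulCommutative (Algebra.adjoin (KK k) (Set.range S)) :=
    Algebra.isMulCommutative_adjoin (KK k) hc
  let ψ : MvPolynomial X.J (KK k) →ₐ[KK k] (Algebra.adjoin (KK k) (Set.range S)) :=
    aeval (fun j : X.J => (⟨S j.1, Algebra.subset_adjoin ⟨j.1, rfl⟩⟩ :
      Algebra.adjoin (KK k) (Set.range S)))
  let φ : MvPolynomial X.J (KK k) →ₐ[KK k] Module.End (KK k) V :=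
    (Algebra.adjoin (KK k) (Set.range S)).val.comp ψ
  have hφX : ∀ j : X.J, φ (MvPolynomial.X j) = S j.1 := by
    intro j
    change ((ψ (MvPolynomial.X j) : Algebra.adjoin (KK k) (Set.range S)) :
      Module.End (KK k) V) = S j.1
    rw [show ψ (MvPolynomial.X j) = (⟨S j.1, Algebra.subset_adjoin ⟨j.1, rfl⟩⟩ :
      Algebra.adjoin (KK k) (Set.range S)) from aeval_X _ j]
  have hker : ∀ a ∈ X.idl, φ a = 0 := by
    have h : X.idl ≤ RingHom.ker (φ : MvPolynomial X.J (KK k) →+* Module.End (KK k) V) := by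
      rw [Arr.idl, Ideal.span_le]
      rintro _ ⟨j, rfl⟩
      change φ _ = 0
      have e1 : φ (C (algebraMap (A k) (KK k) (X.q j.1))) =
          algebraMap (A k) (KK k) (X.q j.1) • (1 : Module.End (KK k) V) := by
        rw [← MvPolynomial.algebraMap_eq, AlgHom.commutes,
          Algebra.algebraMap_eq_smul_one (A := Module.End (KK k) V)]
      rw [map_sub, map_pow, hφX, pow_two, hsq, e1, sub_self]
    intro a ha
    exact h ha
  let ρ : X.L →ₐ[KK k] Module.End (KK k) V :=
    (Ideal.Quotient.liftₐ X.idl φ hker : (MvPolynomial X.J (KK k) ⧸ X.idl) →ₐ[KK k]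
      Module.End (KK k) V)
  have hρ : ∀ p, ρ (X.mkL p) = φ p := fun p => rfl
  refine ⟨ρ, fun x => ?_⟩
  have hAL : ∀ a : A k, ρ (algebraMap (A k) X.L a) =
      algebraMap (A k) (KK k) a • (1 : Module.End (KK k) V) := by
    intro a
    rw [IsScalarTower.algebraMap_apply (A k) (KK k) X.L, AlgHom.commutes,
      Algebra.algebraMap_eq_smul_one]
  by_cases hx : x ∈ Set.range X.b
  · obtain ⟨i, rfl⟩ := hx
    fin_cases i
    · change ρ (X.σ (X.b 0)) = S (X.b 0)
      rw [X.σ_base0, map_one, h0]
    · change ρ (X.σ (X.b 1)) = S (X.b 1)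
      rw [X.σ_base1, hAL, h1]
    · change ρ (X.σ (X.b 2)) = S (X.b 2)
      rw [X.σ_base2, hAL, h2]
  · obtain ⟨j, rfl⟩ : ∃ j : X.J, x = j.1 := ⟨(⟨x, hx⟩ : X.J), rfl⟩
    rw [← X.mkL_X j, hρ, hφX]

/-- U4a: commuting operators satisfying the relations of the `σ_x` define coordinates over `L` -/
theorem exists_coords {V : Type} [AddCommGroup V] [Module (KK k) V] [Module.Finite (KK k) V]
    (S : X.I → Module.End (KK k) V) (hcomm : ∀ x y, S x * S y = S y * S x)
    (hsq : ∀ x, S x * S x = algebraMap (A k) (KK k) (X.q x) • (1 : Module.End (KK k) V))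
    (h0 : S (X.b 0) = 1)
    (h1 : S (X.b 1) = algebraMap (A k) (KK k) (MvPolynomial.X 0) • (1 : Module.End (KK k) V))
    (h2 : S (X.b 2) = algebraMap (A k) (KK k) (MvPolynomial.X 1) • (1 : Module.End (KK k) V)) :
    ∃ (r : ℕ) (f : V ≃ₗ[KK k] (Fin r → X.L)), ∀ x w, f (S x w) = X.σ x • f w := by
  obtain ⟨ρ, hρ⟩ := u4a_exists_hom S hcomm hsq h0 h1 h2
  let _ : Module X.L V := Module.compHom V (ρ : X.L →+* Module.End (KK k) V)
  have hsm : ∀ (l : X.L) (v : V), l • v = ρ l v := fun l v => rfl
  have : IsScalarTower (KK k) X.L V := by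
    refine ⟨fun c l v => ?_⟩
    rw [hsm, hsm, map_smul, LinearMap.smul_apply]
  have : Module.Finite X.L V := Module.Finite.of_restrictScalars_finite (KK k) X.L V
  let bb := Module.finBasis X.L V
  refine ⟨_, (bb.equivFun).restrictScalars (KK k), fun x w => ?_⟩
  change bb.equivFun (S x w) = X.σ x • bb.equivFun w
  rw [← map_smul, hsm, hρ]

end Vale.Agent.P190.D
end
end

section

section

namespace Vale.Agent.P190

open nonZeroDivisors

/-- An archimedean divisibility property; for domains it says completely integrally closed. -/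
def ArchDiv (D : Type*) [CommRing D] : Prop :=
  ∀ a b c : D, c ≠ 0 → (∀ n : ℕ, b ^ n ∣ c * a ^ n) → b ∣ a

theorem archDiv_of_field (k : Type*) [Field k] : ArchDiv k := by
  intro a b c hc h
  by_cases hb : b = 0
  · have := h 1
    rw [pow_one, pow_one, hb, zero_dvd_iff, mul_eq_zero] at this
    rw [hb, this.resolve_left hc]
  · exact (isUnit_iff_ne_zero.mpr hb).dvd

theorem archDiv_of_ringEquiv {D E : Type*} [CommRing D] [CommRing E] (e : D ≃+* E)
    (h : ArchDiv D) : ArchDiv E := by
  intro a b c hc hn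
  have h1 := h (e.symm a) (e.symm b) (e.symm c) (by simpa using hc) (by
    intro n
    rw [← map_pow, ← map_pow, ← map_mul]
    exact map_dvd e.symm (hn n))
  have := map_dvd e h1
  simpa only [RingEquiv.apply_symm_apply] using this

section

open PowerSeries

variable {D : Type*} [CommRing D]

theorem exists_X_pow_mul (f : PowerSeries D) (hf : f ≠ 0) :
    ∃ (s : ℕ) (g : PowerSeries D), f = X ^ s * g ∧ constantCoeff g ≠ 0 := by
  classical
  have hex : ∃ n, coeff n f ≠ 0 := by
    by_contra hcon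
    push Not at hcon
    exact hf (PowerSeries.ext (by simpa only [map_zero, forall_coeff_eq_zero] using hcon))
  let s := Nat.find hex
  have h1 : X ^ s ∣ f := by
    rw [X_pow_dvd_iff]
    intro m hm
    by_contra hcon
    exact Nat.find_min hex hm hcon
  obtain ⟨g, hg⟩ := h1
  refine ⟨s, g, hg, ?_⟩
  have h2 : coeff s f ≠ 0 := Nat.find_spec hex
  rw [hg] at h2
  have h3 : coeff s (X ^ s * g) = coeff 0 g := by
    have := coeff_X_pow_mul g s 0
    simpa only [coeff_zero_eq_constantCoeff, zero_add] using this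
  rw [h3] at h2
  simpa only [ne_eq, coeff_zero_eq_constantCoeff] using h2

theorem X_not_dvd_of_constantCoeff {g : PowerSeries D} (hg : constantCoeff g ≠ 0) :
    ¬ (X : PowerSeries D) ∣ g := by
  rw [X_dvd_iff]
  exact hg

theorem dvd_of_dvd_X_pow_mul [IsDomain D] {b x : PowerSeries D} (hb : constantCoeff b ≠ 0) (n t : ℕ)
    (h : b ^ n ∣ X ^ t * x) : b ^ n ∣ x := by
  obtain ⟨e, he⟩ := h
  have h1 : (X : PowerSeries D) ^ t ∣ b ^ n * e := ⟨x, he.symm⟩
  have h2 : ¬ (X : PowerSeries D) ∣ b ^ n := by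
    apply X_not_dvd_of_constantCoeff
    rw [map_pow]
    exact pow_ne_zero n hb
  obtain ⟨e', rfl⟩ := X_prime.pow_dvd_of_dvd_mul_left t h2 h1
  refine ⟨e', ?_⟩
  have h3 : (X : PowerSeries D) ^ t * x = X ^ t * (b ^ n * e') := by
    rw [he]; ring
  exact mul_left_cancel₀ (pow_ne_zero t X_ne_zero) h3

theorem dvd_sub_pow {R : Type*} [CommRing R] {b c x y : R} (hy : b ∣ y)
    (hx : ∀ n : ℕ, b ^ n ∣ c * x ^ n) (n : ℕ) : b ^ n ∣ c * (x - y) ^ n := by
  rw [sub_eq_add_neg, add_pow, Finset.mul_sum]
  apply Finset.dvd_sum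
  intro i hi
  rw [Finset.mem_range] at hi
  have h1 : b ^ n = b ^ i * b ^ (n - i) := by
    rw [← pow_add]
    congr 1
    omega
  rw [h1, mul_assoc (x ^ i), ← mul_assoc c]
  apply mul_dvd_mul (hx i)
  apply Dvd.dvd.mul_right
  exact pow_dvd_pow_of_dvd ((dvd_neg).mpr hy) _

theorem approx [IsDomain D] {b c : PowerSeries D} (hD : ArchDiv D) (hb : constantCoeff b ≠ 0)
    (hc : constantCoeff c ≠ 0) (N : ℕ) :
    ∀ a : PowerSeries D, (∀ n : ℕ, b ^ n ∣ c * a ^ n) →
      ∃ z w : PowerSeries D, a = b * z + X ^ N * w := by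
  induction N with
  | zero =>
    intro a _
    exact ⟨0, a, by simp⟩
  | succ N ih =>
    intro a ha
    have h1 : constantCoeff b ∣ constantCoeff a := by
      apply hD _ _ (constantCoeff c) hc
      intro n
      have := map_dvd (constantCoeff (R := D)) (ha n)
      simpa only [map_pow, map_mul] using this
    obtain ⟨z0, hz0⟩ := h1
    have h2 : (X : PowerSeries D) ∣ a - b * C z0 := by
      rw [X_dvd_iff, map_sub, map_mul, hz0, constantCoeff_C, sub_self]
    obtain ⟨a3, ha3⟩ := h2
    have h3 : ∀ n : ℕ, b ^ n ∣ c * a3 ^ n := by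
      intro n
      apply dvd_of_dvd_X_pow_mul hb n n
      have h4 := dvd_sub_pow (b := b) (c := c) (x := a) (y := b * C z0) (dvd_mul_right _ _) ha n
      rw [ha3] at h4
      have e : X ^ n * (c * a3 ^ n) = c * (X * a3) ^ n := by ring
      rw [e]
      exact h4
    obtain ⟨z, w, hzw⟩ := ih a3 h3
    refine ⟨C z0 + X * z, w, ?_⟩
    have : a = b * C z0 + X * a3 := by
      rw [← ha3]; ring
    rw [this, hzw]
    ring

theorem archDiv_powerSeries [IsDomain D] [IsNoetherianRing D] (hD : ArchDiv D) :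
    ArchDiv (PowerSeries D) := by
  intro a b c hc h
  by_cases hb : b = 0
  · have := h 1
    rw [pow_one, pow_one, hb, zero_dvd_iff, mul_eq_zero] at this
    rw [hb, this.resolve_left hc]
  by_cases ha : a = 0
  · rw [ha]; exact dvd_zero b
  obtain ⟨s, b', hb1, hb2⟩ := exists_X_pow_mul b hb
  obtain ⟨t, c', hc1, hc2⟩ := exists_X_pow_mul c hc
  obtain ⟨u, a', ha1, ha2⟩ := exists_X_pow_mul a ha
  have hsu : s ≤ u := by
    by_contra hcon
    push Not at hcon
    have h1 := h (t + 1)
    have h2 : (X : PowerSeries D) ^ (s * (t + 1)) ∣ X ^ (t + u * (t + 1)) *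
        (c' * a' ^ (t + 1)) := by
      refine dvd_trans ?_ (dvd_trans h1 ?_)
      · rw [hb1, mul_pow, ← pow_mul]
        exact dvd_mul_right _ _
      · rw [hc1, ha1, mul_pow, ← pow_mul, pow_add]
        apply dvd_of_eq
        ring
    have h3 : t + u * (t + 1) + 1 ≤ s * (t + 1) := by nlinarith only [hcon]
    have h4 : (X : PowerSeries D) ^ (t + u * (t + 1)) * X ∣ X ^ (t + u * (t + 1)) *
        (c' * a' ^ (t + 1)) := by
      refine dvd_trans ?_ h2
      rw [← pow_succ]
      exact pow_dvd_pow _ h3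
    have h5 := (mul_dvd_mul_iff_left (pow_ne_zero _ X_ne_zero)).mp h4
    apply X_not_dvd_of_constantCoeff _ h5
    rw [map_mul, map_pow]
    exact mul_ne_zero hc2 (pow_ne_zero _ ha2)
  have ha3 : a = X ^ s * (X ^ (u - s) * a') := by
    rw [← mul_assoc, ← pow_add, Nat.add_sub_cancel' hsu]
    exact ha1
  set a'' := X ^ (u - s) * a' with ha''
  have h6 : ∀ n : ℕ, b' ^ n ∣ c' * a'' ^ n := by
    intro n
    apply dvd_of_dvd_X_pow_mul hb2 n t
    have h7 := h n
    rw [hb1, hc1, ha3, mul_pow, mul_pow] at h7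
    have h8 : (X ^ s) ^ n * b' ^ n ∣ (X ^ s) ^ n * (X ^ t * (c' * a'' ^ n)) := by
      refine dvd_trans h7 (dvd_of_eq ?_)
      ring
    exact (mul_dvd_mul_iff_left (pow_ne_zero _ (pow_ne_zero _ X_ne_zero))).mp h8
  have h9 : b' ∣ a'' := by
    have hX : Ideal.span {(X : PowerSeries D)} ≤ Ideal.jacobson ⊥ :=
      IsAdicComplete.le_jacobson_bot _
    have hH : IsHausdorff (Ideal.span {(X : PowerSeries D)})
        (PowerSeries D ⧸ Ideal.span {b'}) := IsHausdorff.of_le_jacobson _ _ hX
    rw [← Ideal.mem_span_singleton, ← Ideal.Quotient.eq_zero_iff_mem]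
    apply hH.haus'
    intro N
    obtain ⟨z, w, hzw⟩ := approx hD hb2 hc2 N a'' h6
    rw [SModEq.zero]
    have : Ideal.Quotient.mk (Ideal.span {b'}) a'' =
        (X : PowerSeries D) ^ N • (Ideal.Quotient.mk (Ideal.span {b'}) w) := by
      rw [hzw, map_add, Ideal.Quotient.eq_zero_iff_mem.mpr
        (Ideal.mul_mem_right _ _ (Ideal.mem_span_singleton_self b')), zero_add, map_mul]
      rfl
    rw [this]
    apply Submodule.smul_mem_smul
    · exact Ideal.pow_mem_pow (Ideal.mem_span_singleton_self _) N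
    · trivial
  rw [hb1, ha3]
  exact mul_dvd_mul_left _ h9

end

instance isDomain_mvPowerSeries (σ k : Type*) [Field k] : IsDomain (MvPowerSeries σ k) :=
  NoZeroDivisors.to_isDomain _

theorem archDiv_mvPowerSeries_fin (k : Type*) [Field k] (n : ℕ) :
    ArchDiv (MvPowerSeries (Fin n) k) := by
  induction n with
  | zero =>
    exact archDiv_of_ringEquiv (MvPowerSeries.isEmptyEquiv (Fin 0) k).toRingEquiv.symm
      (archDiv_of_field k)
  | succ n ih =>
    exact archDiv_of_ringEquiv (MvPowerSeries.finSuccEquiv k n).toRingEquiv.symm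
      (archDiv_powerSeries ih)

theorem archDiv_mvPowerSeries (σ k : Type*) [Finite σ] [Field k] :
    ArchDiv (MvPowerSeries σ k) := by
  cases nonempty_fintype σ
  exact archDiv_of_ringEquiv (MvPowerSeries.renameEquiv k (Fintype.equivFin σ)).toRingEquiv.symm
    (archDiv_mvPowerSeries_fin k (Fintype.card σ))

theorem isIntegrallyClosed_of_archDiv (D : Type*) [CommRing D] [IsDomain D]
    (h : ArchDiv D) : IsIntegrallyClosed D := by
  rw [isIntegrallyClosed_iff (FractionRing D)]
  intro x hx
  obtain ⟨a, b, hb, hab⟩ := IsFractionRing.div_surjective (A := D) x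
  obtain ⟨c, hc, hcx⟩ := FractionalIdeal.isFractional_adjoin_integral D⁰ x hx
  have hb0 : algebraMap D (FractionRing D) b ≠ 0 := by
    rw [ne_eq, FaithfulSMul.algebraMap_eq_zero_iff]
    exact nonZeroDivisors.ne_zero hb
  have h1 : b ∣ a := by
    apply h a b c (nonZeroDivisors.ne_zero hc)
    intro n
    obtain ⟨d, hd⟩ := hcx (x ^ n) (by
      exact pow_mem (Algebra.subset_adjoin (Set.mem_singleton x)) n)
    refine ⟨d, ?_⟩
    apply FaithfulSMul.algebraMap_injective D (FractionRing D)
    rw [map_mul, map_mul, map_pow, map_pow, hd, ← hab, Algebra.smul_def, div_pow]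
    field_simp
  obtain ⟨y, hy⟩ := h1
  refine ⟨y, ?_⟩
  rw [← hab, hy, map_mul]
  (clear h x hx a hab c hc hcx hy; field_simp)

end Vale.Agent.P190
end
end

section

section

/-! Section 4, file P8a: lower vanishing. -/

set_option autoImplicit false
set_option linter.unusedSectionVars false
set_option linter.unusedVariables false

open MvPolynomial Filter

namespace Vale.Agent.P190.D

section aux

variable {k : Type} [Field k] {X : Arr k} {V : Type} [AddCommGroup V] [Module k V]
  [Module (A k) V] [Module (KK k) V] [Module X.L V] [IsScalarTower k (A k) V]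
  [IsScalarTower k (KK k) V] [IsScalarTower k X.L V] [IsScalarTower (A k) (KK k) V]
  [IsScalarTower (A k) X.L V] [IsScalarTower (KK k) X.L V]

theorem P8a_smul_mem (a : X.L) (y : V) :
    a • y ∈ Submodule.span (KK k) (Set.range fun S : Finset X.J => X.mon S • y) := by
  have h2 : a ∈ Submodule.span (KK k) (Set.range X.mon) := by
    rw [X.mon_span]
    exact Submodule.mem_top
  induction h2 using Submodule.span_induction with
  | mem l hl =>
    obtain ⟨s, rfl⟩ := hl
    exact Submodule.subset_span ⟨s, rfl⟩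
  | zero => rw [zero_smul]; exact zero_mem _
  | add l l' _ _ hl hl' => rw [add_smul]; exact add_mem hl hl'
  | smul c l _ hl => rw [smul_assoc]; exact Submodule.smul_mem _ _ hl

theorem P8a_gam (Γ : V →ₗ[X.L] V) (x : V) : gam Γ (fun _ => true) x = Γ x := by
  have h : X.pie (fun _ => true) = X.PI := by
    unfold Arr.pie Arr.PI
    simp only [↓reduceIte]
  rw [gam, h, div_self X.PI_ne_zero, one_smul]

/-- the Hilbert polynomial of a free lattice with all generators in degree `d` -/
theorem P8a_hilb {ι : Type} [Fintype ι] {v : ι → V} (hv : LinearIndependent (A k) v) (d : ℤ) :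
    ∃ g : ℤ, HasHilb (genLat (k := k) v fun _ => d) (Fintype.card ι) (-d * Fintype.card ι) g := by
  obtain ⟨c, hc⟩ : ∃ c : ℤ, d * (d - 1) = c + c := Int.even_mul_pred_self d
  refine ⟨Fintype.card ι * c, ?_⟩
  unfold HasHilb
  filter_upwards [eventually_ge_atTop d] with n hn
  rw [finrank_genLat hv, Finset.sum_const, Finset.card_univ, nsmul_eq_mul]
  push_cast
  rw [finrank_Ad (by omega)]
  have hcq : (d : ℚ) * (d - 1) = c + c := by exact_mod_cast hc
  unfold hp
  push_cast
  linear_combination ((Fintype.card ι : ℚ) / 2) * hcq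

/-- a lattice which contains independent elements of degree `d` -/
theorem P8a_slope' {E : ℤ → Submodule k V} (hE : IsBLat E) {ι : Type} [Fintype ι] {v : ι → V}
    (hv : LinearIndependent (KK k) v) {d : ℤ} (hs : ∀ i, v i ∈ E d)
    {w f g : ℤ} (hw : w = Fintype.card ι) (h : HasHilb E w f g) : -d * w ≤ f := by
  subst hw
  have hlin : LinearIndependent (A k) v := by
    refine hv.restrict_scalars ?_
    intro a a' haa
    simp only [Algebra.smul_def, mul_one] at haa
    exact FaithfulSMul.algebraMap_injective _ _ haa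
  obtain ⟨g', hg'⟩ := P8a_hilb hlin d
  exact (hg'.mono hE (fun j => genLat_le hE hs j) h).1

theorem P8a_spanK {E : ℤ → Submodule k V} {s b : Set V} {d : ℤ}
    (hs : ∀ y ∈ s, y ∈ E d) (hspan : ∀ j, ∀ v ∈ E j, v ∈ Submodule.span (KK k) s)
    (hb1 : b ⊆ s) (hb2 : Submodule.span (KK k) b = Submodule.span (KK k) s) :
    spanK E = Submodule.span (KK k) b := by
  apply le_antisymm
  · rw [hb2]
    refine Submodule.span_le.2 ?_
    intro y hy
    obtain ⟨j, hj⟩ := Set.mem_iUnion.1 hy
    exact hspan j y hj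
  · refine Submodule.span_le.2 ?_
    intro y hy
    exact Submodule.subset_span (Set.mem_iUnion.2 ⟨d, hs y (hb1 hy)⟩)

/-- a lattice which is spanned over `KK` by its elements of degree `d` has slope `≥ -d` -/
theorem P8a_slope {E : ℤ → Submodule k V} (hE : IsBLat E) {s : Set V} (hsf : s.Finite) {d : ℤ}
    (hs : ∀ y ∈ s, y ∈ E d) (hspan : ∀ j, ∀ v ∈ E j, v ∈ Submodule.span (KK k) s)
    {w f g : ℤ} (h : HasHilb E w f g) {n : ℤ} {x : V} (hx : x ∈ E n) (hx0 : x ≠ 0) :
    0 < w ∧ -d * w ≤ f := by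
  have hw := h.N_eq hE
  obtain ⟨b, hb1, hb2, hb3⟩ := exists_linearIndependent (KK k) s
  have hbf : Finite b := (hsf.subset hb1).to_subtype
  let := Fintype.ofFinite b
  have hK : spanK E = Submodule.span (KK k) b := P8a_spanK hs hspan hb1 hb2
  have hcard : (w : ℤ) = Fintype.card b := by
    have h1 := finrank_span_eq_card hb3
    rw [Subtype.range_coe_subtype, Set.ofPred_mem_eq] at h1
    rw [hw, hK, ← h1]
  constructor
  · rw [hcard]
    have h1 : Nonempty b := by
      by_contra hbe
      have h2 : b = ∅ := Set.not_nonempty_iff_eq_empty.1 (fun ⟨y, hy⟩ => hbe ⟨⟨y, hy⟩⟩)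
      have h3 := hspan n x hx
      rw [← hb2, h2, Submodule.span_empty] at h3
      exact hx0 ((Submodule.mem_bot _).1 h3)
    exact_mod_cast Fintype.card_pos
  · exact P8a_slope' hE hb3 (fun y => hs y.1 (hb1 y.2)) hcard h

theorem P8a_sub {Γ : V →ₗ[X.L] V} (hΓ : IsTSp Γ) (x : V) :
    IsTSub Γ (Submodule.span X.L {x, Γ x}) := by
  intro v hv
  obtain ⟨a, b, rfl⟩ := Submodule.mem_span_pair.1 hv
  rw [map_add, map_smul, map_smul, hΓ x]
  exact add_mem (Submodule.smul_mem _ _ (Submodule.subset_span (Set.mem_insert_of_mem _ rfl)))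
    (Submodule.smul_mem _ _ (Submodule.smul_mem _ _ (Submodule.subset_span
      (Set.mem_insert _ _))))

theorem P8a_mem {Γ : V →ₗ[X.L] V} {G : ℤ → Submodule k V} (hG : IsTLat Γ G)
    {n : ℤ} {x : V} (hx : x ∈ G n) (S : Finset X.J) :
    X.mon S • x ∈ G (n + (X.m - 3)) := by
  have h1 := SigStable.T0_smul hG.toIsBLat hG.sigStable (X.mon_mem S) hx
  refine hG.toIsBLat.mono' ?_ h1
  have := Finset.card_le_univ S
  have hJ := X.card_J
  omega

/-- a T-lattice with a nonzero element of degree `n` has a T-sublattice of large slope -/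
theorem P8a_key {Γ : V →ₗ[X.L] V} {G : ℤ → Submodule k V} (hΓ : IsTSp Γ) (hG : IsTLat Γ G)
    {n : ℤ} {x : V} (hx : x ∈ G n) (hx0 : x ≠ 0) :
    ∃ U : Submodule X.L V, IsTSub Γ U ∧ ∃ w f g : ℤ, HasHilb (subLat G U) w f g ∧ 0 < w ∧
      -(n + (X.m - 3) + X.w) * w ≤ f := by
  have hU := P8a_sub hΓ x
  have hxU : x ∈ Submodule.span X.L {x, Γ x} := Submodule.subset_span (Set.mem_insert _ _)
  have hΓU : Γ x ∈ Submodule.span X.L {x, Γ x} :=
    Submodule.subset_span (Set.mem_insert_of_mem _ rfl)
  have hS := hG.sub hU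
  obtain ⟨w, f, g, h⟩ := hS.toIsBLat.exists_hilb
  refine ⟨_, hU, w, f, g, h, ?_⟩
  have hΓx : Γ x ∈ G (n + X.w) := by
    have := hG.gam_mem (fun _ => true) hx
    rwa [P8a_gam] at this
  refine P8a_slope hS.toIsBLat (s := Set.range (fun S : Finset X.J => X.mon S • x) ∪
    Set.range (fun S : Finset X.J => X.mon S • Γ x))
    ((Set.finite_range _).union (Set.finite_range _)) ?_ ?_ h (n := n) ⟨hx, hxU⟩ hx0
  · rintro y (⟨S, rfl⟩ | ⟨S, rfl⟩)
    · refine ⟨?_, Submodule.smul_mem _ _ hxU⟩
      exact hG.toIsBLat.mono' (by omega) (P8a_mem hG hx S)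
    · refine ⟨?_, Submodule.smul_mem _ _ hΓU⟩
      exact hG.toIsBLat.mono' (by omega) (P8a_mem hG hΓx S)
  · rintro j v ⟨-, hv⟩
    obtain ⟨a, b, rfl⟩ := Submodule.mem_span_pair.1 hv
    refine add_mem ?_ ?_
    · exact Submodule.span_mono Set.subset_union_left (P8a_smul_mem a x)
    · exact Submodule.span_mono Set.subset_union_right (P8a_smul_mem b (Γ x))

end aux

variable {k : Type} [Field k] [IsAlgClosed k] {X : Arr k}
  {r : ℕ} {Γ : (Fin r → X.L) →ₗ[X.L] (Fin r → X.L)} {G : ℤ → Submodule k (Fin r → X.L)}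

/-- 4.7 lower vanishing: a T-lattice whose T-sublattices have slopes bounded by `μ` has no
elements in degrees `< -μ - m - w` -/
theorem low_vanish (hr : 0 < r) (hΓ : IsTSp Γ) (hG : IsTLat Γ G) (hsp : SpansL (X := X) G)
    (μ : ℚ) (hμ : ∀ U : Submodule X.L (Fin r → X.L), IsTSub Γ U → ∀ w f g : ℤ,
      HasHilb (subLat G U) w f g → (f : ℚ) ≤ μ * w) (n : ℤ) (hn : (n : ℚ) < -μ - X.m - X.w) :
    G n = ⊥ := by
  by_contra hne
  obtain ⟨x, hx, hx0⟩ := (Submodule.ne_bot_iff _).1 hne
  obtain ⟨U, hU, w, f, g, h, hw, hf⟩ := P8a_key hΓ hG hx hx0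
  have h1 := hμ U hU w f g h
  have h2 : -((n : ℚ) + (X.m - 3) + X.w) * w ≤ f := by exact_mod_cast hf
  have h3 : (0 : ℚ) < w := by exact_mod_cast hw
  have h4 : -((n : ℚ) + (X.m - 3) + X.w) * w ≤ μ * w := h2.trans h1
  have h5 := le_of_mul_le_mul_right h4 h3
  linarith only [hn, h5]

end Vale.Agent.P190.D
end
end
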