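import Vale.Agent.P190.MathlibUsed
import Vale.Agent.P190.Bdl.B1
attribute [-instance] IdemCommSemiring.toIdemSemiring KleeneAlgebra.toIdemSemiring IdemSemiring.toSemiring LinearOrderedAddCommGroupWithTop.instLinearOrderedAddCommMonoidWithTop LinearOrderedAddCommGroupWithTop.toAddCommMonoid LinearOrderedAddCommMonoidWithTop.toAddCommMonoid instCoeT IdemCommSemiring.toCommSemiring OrderDual.instPow_1 instCoeTOfCoeDep DenselyNormedField.toNontriviallyNormedField RCLike.toDenselyNormedField DenselyNormedField.toNormedField NontriviallyNormedField.toNormedField NormedField.toField NormedField.toNormedDivisionRing NormedDivisionRing.toDivisionRing NormedField.toNormedCommRing NormedCommRing.toNormedRing NormedDivisionRing.toNormedRing instCoeTC instCoeTCOfCoe NormedCommRing.toSeminormedCommRing NormedRing.toSeminormedRing SeminormedCommRing.toSeminormedRing Field.toEuclideanDomain EuclideanDomain.toCommRing NormedCommRing.toCommRing SeminormedCommRing.toCommRing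 LieRing.toAddCommGroup NormedRing.toRing SeminormedRing.toRing NormedCommRing.toNonUnitalNormedCommRing NonUnitalNormedCommRing.toNonUnitalNormedRing NormedRing.toNonUnitalNormedRing NonAssocCommRing.toNonAssocCommSemiring CommSemiring.toNonAssocCommSemiring NonAssocCommSemiring.toNonAssocSemiring CommRing.toAddCommGroupWithOne NonUnitalNormedCommRing.toNonUnitalSeminormedCommRing SeminormedCommRing.toNonUnitalSeminormedCommRing NonUnitalNormedRing.toNonUnitalSeminormedRing NonUnitalSeminormedCommRing.toNonUnitalSeminormedRing SeminormedRing.toNonUnitalSeminormedRing Vector.instHMul AddCommGroupWithOne.toAddCommMonoidWithOne NonUnitalNormedCommRing.toNonUnitalCommRing NonUnitalSeminormedCommRing.toNonUnitalCommRing NonAssocCommRing.toNonUnitalNonAssocCommRing NonUnitalCommRing.toNonUnitalRing NonUnitalNormedRing.toNonUnitalRing NonUnitalSeminormedRing.toNonUnitalRing Ring.toNonUnitalRing NonUnitalRing.toNonUnitalNonAssocRing Pi.addMonoidWithOne NonUnitalRing.toNonUnitalSemiring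 Semiring.toNonUnitalSemiring NonAssocCommSemiring.toNonUnitalNonAssocCommSemiring NonUnitalNonAssocCommSemiring.toNonUnitalNonAssocSemiring NonUnitalSemiring.toNonUnitalNonAssocSemiring AbsoluteValue.funLike BoxIntegral.Box.instMembershipForallReal Pi.nonUnitalNonAssocSemiring instCoeHTC instCoeHTCT MonCat.monoidObj Pi.addGroupWithOne Pi.seminormedAddCommGroup TopologicalSpace.Compacts.instSetLike SemiRingCat.instSemiringObjForgetRingHomCarrier CommSemiRingCat.instCommSemiringObjForgetRingHomCarrier CompleteAtomicBooleanAlgebra.toCompleteBooleanAlgebra CompleteAtomicBooleanAlgebra.toCompletelyDistribLattice CompleteBooleanAlgebra.toCompleteDistribLattice CompleteLinearOrder.toCompletelyDistribLattice CompletelyDistribLattice.toCompleteDistribLattice CompleteDistribLattice.toCoframe CompleteDistribLattice.toFrame CompleteBooleanAlgebra.toCompleteLattice CompleteLinearOrder.toCompleteLattice CompletelyDistribLattice.toCompleteLattice Order.Coframe.toCompleteLattice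 Order.Frame.toCompleteLattice AddMonCat.addMonoidObj ChainCompletePartialOrder.instOfCompleteLattice ChainCompletePartialOrder.instOmegaCompletePartialOrder ChainCompletePartialOrder.toPartialOrder CompletePartialOrder.toOmegaCompletePartialOrder CompletePartialOrder.toPartialOrder OmegaCompletePartialOrder.toPartialOrder LinearOrderedCommGroupWithZero.toLinearOrderedCommMonoidWithZero CompleteLinearOrder.toConditionallyCompleteLinearOrderBot ConditionallyCompleteLinearOrderBot.toConditionallyCompleteLinearOrder Std.Time.WallTime.instHAddOffset_1 CommMonCat.str ContinuousAddMonoidHom.instCoeOutOfAddMonoidHomClassOfContinuousMapClass ContinuousMonoidHom.instCoeOutOfMonoidHomClassOfContinuousMapClass HomeomorphClass.instCoeOutHomeomorph IsometryClass.instCoeOutIsometryEquiv CompleteLinearOrder.toLinearOrder ConditionallyCompleteLinearOrder.toLinearOrder LinearOrderedAddCommGroupWithTop.toLinearOrder LinearOrderedAddCommMonoidWithTop.toLinearOrder LinearOrderedCommMonoidWithZero.toLinearOrder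 forall_prop_decidable Array.instDecidableForallForallMemOfDecidablePred Finset.decidableDforallFinset Fintype.decidableForallFintype Multiset.decidableDforallMultiset Option.decidableForallMem Vector.instDecidableForallForallMemOfDecidablePred coePNatNat Nat.Primes.coeNat Nat.Primes.coePNat LinearOrderedAddCommGroupWithTop.toSubNegMonoid NonUnitalNormedRing.toNormedAddCommGroup NormedCommGroup.toNormedGroup IsRegularRing.toIsNoetherian CompleteBooleanAlgebra.toBooleanAlgebra NormedCommGroup.toSeminormedCommGroup NormedGroup.toSeminormedGroup SeminormedCommGroup.toSeminormedGroup BooleanAlgebra.toBiheytingAlgebra CompleteDistribLattice.toBiheytingAlgebra CompleteLinearOrder.toBiheytingAlgebra CompletelyDistribLattice.toBiheytingAlgebra NumberField.instFiniteDimensional instIsNoetherianRingOfIsArtinianRing isNoetherian_of_finite isNoetherian_of_isNoetherianRing_of_finite isNoetherian_of_subsingleton IsDedekindDomainDvr.toIsNoetherian IsDedekindRing.toIsNoetherian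 IsRegularLocalRing.toIsNoetherian IsSemisimpleModule.instIsNoetherianOfFinite IsSimpleModule.instIsNoetherian PrincipalIdealRing.isNoetherianRing instFiniteOfFinitePresentation instFinitePresentation Algebra.instFiniteOfIsQuadraticExtension FiniteDimensional.finiteDimensional_self Module.instFiniteDimensionalOfIsReflexive Algebra.IsFiniteSplit.instFinitePresentation Module.Finite.of_finite Module.Finite.self Module.FinitePresentation.of_subsingleton RingHom.Finite.instFinite AddGrpCat.str CategoryTheory.Limits.Concrete.instUniqueToTypeTerminal BiheytingAlgebra.toCoheytingAlgebra BiheytingAlgebra.toHeytingAlgebra BooleanAlgebra.toGeneralizedBooleanAlgebra Order.Coframe.toCoheytingAlgebra Order.Frame.toHeytingAlgebra MulSemiringAction.toDistribMulAction CoheytingAlgebra.toGeneralizedCoheytingAlgebra GeneralizedBooleanAlgebra.toGeneralizedCoheytingAlgebra HeytingAlgebra.toGeneralizedHeytingAlgebra instConditionallyCompletePartialOrderSup CompleteLattice.toCompleteSemilatticeInf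 ConditionallyCompletePartialOrder.toConditionallyCompletePartialOrderInf BooleanAlgebra.toDistribLattice CompleteLattice.toPartialOrder' CompleteSemilatticeInf.toPartialOrder CompleteSemilatticeSup.toPartialOrder ConditionallyCompletePartialOrderInf.toPartialOrder GeneralizedBooleanAlgebra.toDistribLattice GeneralizedCoheytingAlgebra.toDistribLattice GeneralizedCoheytingAlgebra.toLattice GeneralizedHeytingAlgebra.toDistribLattice GeneralizedHeytingAlgebra.toLattice LinearOrder.toLattice Order.Coframe.toDistribLattice Order.Frame.toDistribLattice Pi.mulZeroOneClass CommGroup.toGroup NormedCommGroup.toCommGroup NormedGroup.toGroup SeminormedCommGroup.toCommGroup SeminormedGroup.toGroup Invertible.toNeZero Nat.AtLeastTwo.toNeZero Pi.mulOneClass instNonUnitalAlgHomClassOfNonUnitalAlgEquivClass Pi.distribSMul' NormedAddCommGroup.toNormedAddGroup Int.decidableLELE Int.decidableLELT Int.decidableLTLE Int.decidableLTLT List.instDecidableMemOfLawfulBEq OrderDual.instDivisionSemiring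 FloorSemiring.instCharZero IsStrictOrderedRing.toCharZero NumberField.to_charZero RCLike.charZero_rclike NonUnitalSeminormedRing.toSeminormedAddCommGroup NormedAddCommGroup.toSeminormedAddCommGroup OrderDual.instDivisionRing RingCat.instRingObjForgetRingHomCarrier Pi.nonUnitalSemiring SemimoduleCat.isAddCommMonoid instSubsingleton IsEmpty.instSubsingleton Torsor.toMulAction GradedMonoid.GradeZero.mulAction AbsoluteValue.mulHomClass instRingHomSurjectiveForallEvalRingHom MulOpposite.instMulOne CategoryTheory.instFinCategoryOfFintypeOfIsThin SetLike.instFintype Unique.fintype CategoryTheory.FinCategory.fintypeObj Pi.mulZeroClass Pi.instOne Monoid.End.instMonoidHomClass instIsSimpleModule Pi.preorder ValuationClass.toMonoidWithZeroHomClass Pi.smulZeroClass' IsSemisimpleRing.isSemisimpleModule Std.DTreeMap.Raw.instInsertSigma ConvexCone.instAddMemClass AlgEquivClass.toAlgHomClass AddOpposite.instAddZero AddCommGroupWithOne.toAddCommGroup NormedAddCommGroup.toAddCommGroup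 SeminormedAddCommGroup.toAddCommGroup instDistribSMul NormedAddGroup.toAddGroup NormedAddGroup.toSeminormedAddGroup SeminormedAddCommGroup.toSeminormedAddGroup SeminormedAddGroup.toAddGroup AbsoluteValue.zeroHomClass LieAlgebra.toModule NormedSpace.toModule ENormedAddCommMonoid.toESeminormedAddCommMonoid NormedAddCommGroup.toENormedAddCommMonoid LinOrd.str Std.DTreeMap.Raw.instSingletonSigma AddCancelCommMonoid.toAddCancelMonoid AddCancelMonoid.toAddLeftCancelMonoid AddLeftCancelMonoid.toAddMonoid AddRightCancelMonoid.toAddMonoid ENormedAddCommMonoid.toENormedAddMonoid ENormedAddMonoid.toESeminormedAddMonoid ESeminormedAddCommMonoid.toAddCommMonoid ESeminormedAddCommMonoid.toESeminormedAddMonoid ESeminormedAddMonoid.toAddMonoid LinearOrderedAddCommGroupWithTop.toSubtractionMonoid NonUnitalNormedRing.toMetricSpace NormedAddCommGroup.toMetricSpace NormedAddGroup.toENormedAddMonoid NormedAddGroup.toMetricSpace NormedCommGroup.toMetricSpace NormedDivisionRing.toMetricSpace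 NormedField.toMetricSpace NormedGroup.toMetricSpace NormedRing.toMetricSpace TopologicalSpace.UpgradedIsCompletelyMetrizableSpace.toMetricSpace LinearOrderedCommGroupWithZero.toCommGroupWithZero Pi.monoidWithZero Pi.semigroup Module.instIsReflexiveOfFiniteOfProjective Module.IsReflexive.of_finite_of_free instBEqOfDecidableEq Int.instLawfulBEq Std.LinearOrderPackage.toLinearPreorderPackage Std.LinearOrderPackage.toPartialOrderPackage Std.LinearPreorderPackage.toPreorderPackage Std.PartialOrderPackage.toPreorderPackage Std.PreorderPackage.toBEq EMetricSpace.toPseudoEMetricSpace MetricSpace.toEMetricSpace MetricSpace.toPseudoMetricSpace NonUnitalSeminormedRing.toPseudoMetricSpace PseudoEMetricSpace.toUniformSpace PseudoMetricSpace.toPseudoEMetricSpace PseudoMetricSpace.toUniformSpace SeminormedAddCommGroup.toPseudoMetricSpace SeminormedAddGroup.toPseudoMetricSpace SeminormedCommGroup.toPseudoMetricSpace SeminormedGroup.toPseudoMetricSpace SeminormedRing.toPseudoMetricSpace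 UniformSpace.toTopologicalSpace UpgradedStandardBorel.toTopologicalSpace Valued.toUniformSpace WithIdeal.instTopologicalSpace WithIdeal.instUniformSpace TopologicalSpace.UpgradedIsCompletelyPseudoMetrizableSpace.toPseudoMetricSpace Algebra.IsFiniteSplit.instFree CommRing.Pic.instFreeOfSubsingleton Std.Time.WallTime.instHSubDuration_1 Pi.divInvMonoid Algebra.Generators.instIsScalarTowerRing ClosedSubmodule.instAddSubmonoidClass LinearOrderedCommMonoidWithZero.toCommMonoidWithZero ModuleCat.isModule AlgebraicClosure.instGroupWithZero OrderAddMonoidHom.instAddMonoidHomClass IsStrictOrderedRing.noZeroDivisors NormMulClass.toNoZeroDivisors LinearOrder.toDecidableEq RCLike.toDecidableEq FractionRing.instIsScalarTower FractionRing.isScalarTower_liftAlgebra MulCharClass.toMonoidHomClass MulDistribMulActionSemiHomClass.toMonoidHomClass Algebra.IsQuadraticExtension.toFree Module.Free.self Pi.instMaxForall_mathlib decidableEq_of_subsingleton Pi.instInv instFiniteProp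 instSMulZeroClass ContinuousSemilinearEquivClass.continuousSemilinearMapClass ContinuousSemilinearMapClass.toSemilinearMapClass RingHomClass.toLinearMapClassNNRat RingHomClass.toLinearMapClassRat SemilinearIsometryClass.toContinuousSemilinearMapClass SemilinearIsometryClass.toSemilinearMapClass Set.instNoZeroDivisors OneHom.oneHomClass Pi.partialOrder instNonemptyOfMonad of_isDiscreteValuationRing ValuationRing.of_field SetLike.GradeZero.instSemiring Pi.instTopForall ComplexShape.instDecidableRelRelUp Module.FaithfullyFlat.of_isIntegral_of_isDomain Pi.instSemilatticeSup instIsDedekindDomainOfIsDomainOfIsDedekindRing CommGroup.toDivisionCommMonoid DivInvOneMonoid.toDivInvMonoid Group.toDivisionMonoid IsDedekindDomainDvr.isDedekindDomain Algebra.Smooth.flat AlgHomClass.linearMapClass NonUnitalAlgHomClass.instSemilinearMapClassOfNonUnitalAlgSemiHomClassToMonoidHomRingHom SemilinearEquivClass.instSemilinearMapClass SetLike.GradeZero.instCommRing instMonadLiftT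 instMonadLiftTOfMonadLift NormedAlgebra.toAlgebra NonUnitalAlgHomClass.toNonUnitalRingHomClass RingEquivClass.toNonUnitalRingHomClass Ordinal.leftDistribClass SubfieldClass.toField SubfieldClass.toNormedField MonoidWithZero.toSemigroupWithZero SemigroupWithZero.toMulZeroClass Pi.divisionCommMonoid Field.instIsLocalRing IsDiscreteValuationRing.toIsLocalRing ValuationRing.isLocalRing isPurelyInseparable_self Algebra.isSeparable_self IsAlgClosed.instIsAlgClosure IsAlgClosure.isAlgebraic IsAlgClosure.separable IsGalois.to_isSeparable IsPurelyInseparable.isIntegral IsSepClosure.isAlgClosure_of_perfectField IsSepClosure.isAlgClosure_of_perfectField_top IsSepClosure.isSeparable Normal.toIsAlgebraic Algebra.IsAlgebraic.isIntegral Algebra.IsAlgebraic.isPurelyInseparable_of_isSepClosed Algebra.IsAlgebraic.isSeparable_of_perfectField Algebra.IsAlgebraic.of_finite Algebra.IsIntegral.isAlgebraic Algebra.IsIntegral.of_finite Algebra.IsSeparable.isAlgebraic Algebra.IsSeparable.of_integral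 SubringClass.toCommRing SubringClass.toNormedCommRing SubringClass.toSeminormedCommRing Ideal.instIdemCommSemiring Submodule.instIdemCommSemiring Fin.completeLinearOrder Finite.of_subsingleton SetLike.instFinite MulSemiringActionSemiHomClass.toDistribMulActionSemiHomClass SemilinearIsometryEquivClass.toSemilinearIsometryClass instIsReducedForall IsDedekindDomain.isDedekindDomainDvr IsDedekindDomain.toIsDedekindRing Pi.commMagma Algebra.IsFiniteSplit.instOfIsSepClosedOfEssFiniteTypeOfFormallyEtale Pi.instMinForall_mathlib instFreeMvPolynomialKaehlerDifferential instIsSemisimpleModuleOfIsSimpleModule ValuationRing.instOfIsLocalRingOfIsBezout OrderRingHom.instRingHomClass Pi.instBotForall MulEquivClass.toMonoidWithZeroHomClass MulRingSeminormClass.toMonoidWithZeroHomClass instIsRegularRingOfIsDedekindDomain Algebra.instEtaleOfIsStandardSmoothOfRelativeDimensionOfNatNat Algebra.instIsStandardSmoothOfRelativeDimensionOfNatNatOfSubsingleton Algebra.instIsStandardSmoothOfSubsingleton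 Algebra.instSmoothOfIsStandardSmooth IsSepClosed.of_isAlgClosed ValuationRing.instIsBezout ValuationRing.toPreValuationRing Algebra.Etale.inst Algebra.Etale.instSmooth Algebra.IsStandardSmoothOfRelativeDimension.id Subsemigroup.instMulMemClass bot_nonempty infSet_to_nonempty instInhabitedOfMonad supSet_to_nonempty top_nonempty AddTorsor.nonempty ConnectedSpace.toNonempty IrreducibleSpace.toNonempty Nontrivial.to_nonempty One.instNonempty Torsor.nonempty Unique.instInhabited Zero.instNonempty CategoryTheory.IsConnected.is_nonempty Pi.hasDistribNeg Pi.instIsRightCancelAdd Fin.instBiheytingAlgebra instFreeSubtypeMemIdealOfFiniteOfIsTorsionFree instCoeHTCOfCoeHeadOfCoeOTC MonoidWithZero.toMulActionWithZero Module.Free.of_subsingleton Pi.normedAddCommGroup AddCommGroup.toGrindIntModule AddCommMonoid.toGrindNatModule CommRing.toGrindCommRing CommSemiring.toGrindCommSemiring Field.toGrindField MulZeroClass.negZeroClass Ring.toGrindRing Semiring.toGrindSemiring Pi.addCommMagma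 instIsAbelianGalois normal_self GaloisField.instIsGaloisOfFinite IsAbelianGalois.toIsGalois IsAlgClosure.isGalois IsGalois.self IsGalois.to_normal IsSepClosure.isGalois IsSepClosure.of_isAlgClosure_of_perfectField IsSepClosure.self_of_isSepClosed Algebra.IsQuadraticExtension.isGalois Pi.nonUnitalNonAssocRing instCoeHTCTOfCoeTailOfCoeHTC instCoeOutOfCoeFun instCoeTailIntOfIntCast instCoeTailNatOfNatCast instCoeTailRatOfRatCast LinearMapClass.instCoeToLinearMap NNRatCast.toCoeTail NonUnitalStarRingHomClass.instCoeHeadNonUnitalStarRingHom SemilinearMapClass.instCoeToSemilinearMap StarAlgEquivClass.instCoeHead StarRingEquivClass.instCoeHead Pi.subNegZeroMonoid AlgHom.instRingHomCompTripleComp SubringClass.toNegMemClass Algebra.EssFiniteType.of_finiteType Algebra.Etale.finitePresentation Algebra.Etale.instUnramified Algebra.FinitePresentation.self Algebra.FiniteType.of_finitePresentation Algebra.IsStandardSmooth.finitePresentation Algebra.Smooth.finitePresentation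 Algebra.Unramified.finiteType Module.Finite.finiteType MonomialOrder.orderBot Pi.instCompleteLattice NoMaxOrder.infinite NoMinOrder.infinite Pi.supSet System.FilePath.instHDivString EquivLike.toEmbeddingLike isNoetherian_pi isNoetherian_pi' NormedAlgebra.id Pi.instSemilatticeInf instMulActionSemiHomClassMulActionHom Pi.divisionMonoid ENormedCommMonoid.toESeminormedCommMonoid NormedCommGroup.toENormedCommMonoid instIsLeftCancelAddOfAddLeftReflectLE SetLike.GradeZero.instCommSemiring MvPolynomial.instCharZero instNontrivialCarrierObjModuleCatOfFullOfFaithful IdemSemiring.toCanonicallyOrderedAdd Pi.normedCommutativeRing Pi.seminormedCommRing instNeZeroNatIte OpenNormalAddSubgroup.instAddSubgroupClass DivisionRing.toNNRatCast DivisionRing.toRatCast DivisionSemiring.toNNRatCast SubalgebraClass.normedRing SubalgebraClass.seminormedRing SubfieldClass.toDivisionRing SubringClass.toNormedRing SubringClass.toRing SubringClass.toSeminormedRing SetLike.GradeZero.instRing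 instFinitePresentationForall FiniteDimensional.finiteDimensional_pi Module.Finite.pi Module.FinitePresentation.pi Fin.instCoheytingAlgebra Fin.instHeytingAlgebra Algebra.Generators.instRing MulSemiringActionSemiHomClass.toRingHomClass RingEquivClass.toRingHomClass instInfiniteOfUncountable instIsDomain instNontrivialOfCharZero CharZero.infinite Denumerable.instInfinite DivisionRing.isDomain DivisionRing.toNontrivial EuclideanDomain.instIsDomain EuclideanDomain.toNontrivial Field.isDomain Infinite.instNontrivial IsDedekindDomain.toIsDomain IsDomain.toNontrivial IsOrderedRing.toIsStrictOrderedRing IsSimpleAddGroup.toNontrivial IsSimpleGroup.toNontrivial IsSimpleOrder.toNontrivial IsSimpleRing.instNontrivial IsStrictOrderedRing.isDomain IsStrictOrderedRing.toNontrivial LinearOrderedAddCommGroupWithTop.toNontrivial NontriviallyNormedField.infinite Set.instEmptyCollection Ordinal.instIsLeftCancelMulZero Pi.commMonoidWithZero Pi.instCanonicallyOrderedAddForall AddMonoidAlgebra.distribSMul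 Set.instAddLeftMono Ideal.Quotient.instRingHomSurjectiveQuotientMk Set.instAddRightMono -- iprune

set_option linter.all false

namespace AFast4a92dfx5a
@[reducible] noncomputable def a0 {x1 : Type} [x2 : Field x1] {x3 : Vale.Agent.P190.D.Arr x1} : Module (Vale.Agent.P190.D.A x1) x3.L := inferInstance
@[reducible] noncomputable def a1 {x1 : Type} [x2 : Field x1] {x3 : Vale.Agent.P190.D.Arr x1} : Module (Vale.Agent.P190.D.KK x1) x3.L := inferInstance
@[reducible] noncomputable def a2 {x1 : Type} [x2 : Field x1] {x3 : ℕ} {x4 : Vale.Agent.P190.D.Arr x1} {x5 : Fin x3} : SemigroupAction (Vale.Agent.P190.D.A x1) ((fun a => x4.L) x5) := inferInstance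
@[reducible] noncomputable def a3 {x1 : Type} [x2 : Field x1] {x3 : ℕ} {x4 : Vale.Agent.P190.D.Arr x1} {x5 : Fin x3} : MulAction (Vale.Agent.P190.D.A x1) ((fun a => x4.L) x5) := inferInstance
@[reducible] noncomputable def a4 {x1 : Type} [x2 : Field x1] {x3 : ℕ} {x4 : Vale.Agent.P190.D.Arr x1} : Module (Vale.Agent.P190.D.A x1) (Fin x3 → x4.L) := inferInstance
@[reducible] noncomputable def a5 {x1 : Type} [x2 : Field x1] : AddCommMonoid (Vale.Agent.P190.D.KK x1) := inferInstance
@[reducible] noncomputable def a6 {x1 : Type} [x2 : Field x1] {x3 : ℕ} {x4 : Vale.Agent.P190.D.Arr x1} {x5 : Fin x3} : DistribMulAction (Vale.Agent.P190.D.A x1) ((fun a => x4.L) x5) := inferInstance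
@[reducible] noncomputable def a7 {x1 : Type} [x2 : Field x1] {x3 : Vale.Agent.P190.D.Arr x1} : SMul (Vale.Agent.P190.D.A x1) x3.L := inferInstance
@[reducible] noncomputable def a8 {x1 : Type} [x2 : Field x1] {x3 : Vale.Agent.P190.D.Arr x1} {x4 : ℕ} : SMulZeroClass x3.L (Fin x4 → x3.L) := inferInstance
theorem a9 {x1 : Type} [x2 : Field x1] {x3 : Vale.Agent.P190.D.Arr x1} : NoZeroDivisors x3.L := inferInstance
@[reducible] noncomputable def a10 {x1 : Type} [x2 : Field x1] {x3 : Type} [x4 : AddCommGroup x3] [x5 : Module (Vale.Agent.P190.D.A x1) x3] : SMul (Vale.Agent.P190.D.A x1) x3 := inferInstance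
@[reducible] noncomputable def a11 {x1 : Type} [x2 : Field x1] : Algebra (Vale.Agent.P190.D.A x1) (Vale.Agent.P190.D.KK x1) := inferInstance
@[reducible] noncomputable def a12 {x1 : Type} [x2 : Field x1] {x3 : Vale.Agent.P190.D.Arr x1} : Module x3.Lᵐᵒᵖ x3.L := inferInstance
@[reducible] noncomputable def a13 {x1 : Type} [x2 : Field x1] {x3 : Vale.Agent.P190.D.Arr x1} {x4 : ℕ} : DistribSMul x3.L (Fin x4 → x3.L) := inferInstance
@[reducible] noncomputable def a14 {x1 : Type} [x2 : Field x1] {x3 : Vale.Agent.P190.D.Arr x1} : NonAssocSemiring (TrivSqZeroExt x3.L x3.L) := inferInstance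
theorem a15 {x1 : Type} [x2 : Field x1] {x3 : Vale.Agent.P190.D.Arr x1} {x4 : ℕ} : IsScalarTower (Vale.Agent.P190.D.KK x1) x3.L (Fin x4 → x3.L) := inferInstance
@[reducible] noncomputable def a16 {x1 : Type} [x2 : Field x1] : SMul (Vale.Agent.P190.D.A x1) (Vale.Agent.P190.D.KK x1) := inferInstance
@[reducible] noncomputable def a17 {x1 : Type} [x2 : Field x1] : Semiring (Vale.Agent.P190.D.KK x1) := inferInstance
@[reducible] noncomputable def a18 {x1 : Type} [x2 : Field x1] : CommSemiring (Vale.Agent.P190.D.KK x1) := inferInstance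
theorem a19 {x1 : Type} [x2 : Field x1] {x3 : Vale.Agent.P190.D.Arr x1} {x4 : ℕ} : IsScalarTower (Vale.Agent.P190.D.A x1) x3.L (Fin x4 → x3.L) := inferInstance
theorem a20 {x1 : Type} [x2 : Field x1] {x3 : ℕ} {x4 : Vale.Agent.P190.D.Arr x1} : IsScalarTower (Vale.Agent.P190.D.A x1) (Vale.Agent.P190.D.KK x1) (Fin x3 → x4.L) := inferInstance
theorem a21 {x1 : Type} [x2 : Field x1] {x3 : Vale.Agent.P190.D.Arr x1} : IsReduced x3.L := inferInstance
@[reducible] noncomputable def a22 {x1 : Type} [x2 : Field x1] {x3 : ℕ} {x4 : Vale.Agent.P190.D.Arr x1} : SMulZeroClass (Vale.Agent.P190.D.A x1) (Fin x3 → x4.L) := inferInstance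
@[reducible] noncomputable def a23 {x1 : Type} {x2 : ℕ} [x3 : Field x1] {x4 : Vale.Agent.P190.D.Arr x1} : Max (Submodule x1 (Fin x2 → x4.L)) := inferInstance
@[reducible] noncomputable def a24 {x1 : Type} [x2 : Field x1] {x3 : Vale.Agent.P190.D.Arr x1} {x4 : ℕ} {x5 : Fin x4} : DistribMulAction x3.L ((fun a => x3.L) x5) := inferInstance
@[reducible] noncomputable def a25 {x1 : Type} {x2 : ℕ} [x3 : Field x1] {x4 : Vale.Agent.P190.D.Arr x1} : SemilatticeSup (Submodule x1 (Fin x2 → x4.L)) := inferInstance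
@[reducible] noncomputable def a26 {x1 : Type} [x2 : Field x1] {x3 : ℕ} {x4 : Vale.Agent.P190.D.Arr x1} : DistribMulAction (Vale.Agent.P190.D.A x1) (Fin x3 → x4.L) := inferInstance
theorem a27 {x1 : Type} [x2 : Field x1] {x3 : Vale.Agent.P190.D.Arr x1} : Nontrivial x3.L := inferInstance
@[reducible] noncomputable def a28 {x1 : Type} [x2 : Field x1] {x3 : Vale.Agent.P190.D.Arr x1} : SMulZeroClass x3.L x3.L := inferInstance
@[reducible] noncomputable def a29 {x1 : Type} [x2 : Field x1] {x3 : Vale.Agent.P190.D.Arr x1} : DistribMulAction (Vale.Agent.P190.D.A x1) x3.L := inferInstance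
@[reducible] noncomputable def a30 {x1 : Type} [x2 : Field x1] {x3 : Vale.Agent.P190.D.Arr x1} {x4 : Type} [x5 : AddCommGroup x4] [x6 : Module x3.L x4] : SMul x3.L x4 := inferInstance
theorem a31 {x1 : Type} [x2 : Field x1] {x3 : Vale.Agent.P190.D.Arr x1} : IsCancelMulZero x3.L := inferInstance
@[reducible] noncomputable def a32 {x1 : Type} [x2 : Field x1] {x3 : ℕ} {x4 : Vale.Agent.P190.D.Arr x1} : DistribSMul (Vale.Agent.P190.D.A x1) (Fin x3 → x4.L) := inferInstance
@[reducible] noncomputable def a33 {x1 : Type} [x2 : Field x1] {x3 : Vale.Agent.P190.D.Arr x1} : SMul x3.Lᵐᵒᵖ x3.L := inferInstance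
theorem a34 {x1 : Type} [x2 : Field x1] {x3 : Vale.Agent.P190.D.Arr x1} : IsLeftCancelMulZero x3.L := inferInstance
theorem a35 {x1 : Type} [x2 : Field x1] {x3 : Vale.Agent.P190.D.Arr x1} : MulHomClass (Vale.Agent.P190.D.A x1 →+* x3.L) (Vale.Agent.P190.D.A x1) x3.L := inferInstance
@[reducible] noncomputable def a36 {x1 : Type} [x2 : Field x1] {x3 : Vale.Agent.P190.D.Arr x1} : CommSemiring (TrivSqZeroExt x3.L x3.L) := inferInstance
@[reducible] noncomputable def a37 {x1 : Type} [x2 : Field x1] {x3 : Vale.Agent.P190.D.Arr x1} {x4 : ℕ} : DistribMulAction x3.L (Fin x4 → x3.L) := inferInstance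
theorem a38 {x1 : Type} [x2 : Field x1] {x3 : Vale.Agent.P190.D.Arr x1} : MonoidWithZeroHomClass (Vale.Agent.P190.D.A x1 →+* x3.L) (Vale.Agent.P190.D.A x1) x3.L := inferInstance
theorem a39 {x1 : Type} [x2 : Field x1] {x3 : Vale.Agent.P190.D.Arr x1} : MulHomClass (x1 →+* x3.L) x1 x3.L := inferInstance
theorem a40 {x1 : Type} [x2 : Field x1] {x3 : Vale.Agent.P190.D.Arr x1} : MonoidHomClass (Vale.Agent.P190.D.A x1 →+* x3.L) (Vale.Agent.P190.D.A x1) x3.L := inferInstance
theorem a41 {x1 : Type} [x2 : Field x1] {x3 : Vale.Agent.P190.D.Arr x1} : IsDomain x3.L := inferInstance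
@[reducible] noncomputable def a42 {x1 : Type} [x2 : Field x1] {x3 : ℕ} {x4 : Vale.Agent.P190.D.Arr x1} : SMul (Vale.Agent.P190.D.A x1) (Fin x3 → x4.L) := inferInstance
theorem a43 {x1 : Type} [x2 : Field x1] {x3 : Vale.Agent.P190.D.Arr x1} : MonoidHomClass (x1 →+* x3.L) x1 x3.L := inferInstance
@[reducible] noncomputable def a44 {x1 : Type} [x2 : Field x1] {x3 : Vale.Agent.P190.D.Arr x1} : MulOne (DualNumber x3.L) := inferInstance
@[reducible] noncomputable def a45 {x1 : Type} [x2 : Field x1] {x3 : Vale.Agent.P190.D.Arr x1} : MulOneClass (DualNumber x3.L) := inferInstance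
@[reducible] noncomputable def a46 {x1 : Type} [x2 : Field x1] {x3 : Vale.Agent.P190.D.Arr x1} : DistribMulAction x3.L x3.L := inferInstance
theorem a47 {x1 : Type} [x2 : Field x1] {x3 : Vale.Agent.P190.D.Arr x1} : MonoidWithZeroHomClass (x1 →+* x3.L) x1 x3.L := inferInstance
@[reducible] noncomputable def a48 {x1 : Type} [x2 : Field x1] {x3 : Vale.Agent.P190.D.Arr x1} : Mul (TrivSqZeroExt x3.L x3.L) := inferInstance
@[reducible] noncomputable def a49 {x1 : Type} [x2 : Field x1] {x3 : Vale.Agent.P190.D.Arr x1} : SMulZeroClass (Vale.Agent.P190.D.A x1) x3.L := inferInstance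
theorem a50 {x1 : Type} [x2 : Field x1] {x3 : Vale.Agent.P190.D.Arr x1} : IsRegularLocalRing x3.L := inferInstance
@[reducible] noncomputable def a51 {x1 : Type} [x2 : Field x1] {x3 : Vale.Agent.P190.D.Arr x1} : MulAction (Vale.Agent.P190.D.A x1) x3.L := inferInstance
@[reducible] noncomputable def a52 {x1 : Type} [x2 : Field x1] {x3 : Vale.Agent.P190.D.Arr x1} : SemigroupAction (Vale.Agent.P190.D.A x1) x3.L := inferInstance
theorem a53 {x1 : Type} [x2 : Field x1] : IsLocalization (nonZeroDivisors (Vale.Agent.P190.D.A x1)) (Localization (nonZeroDivisors (Vale.Agent.P190.D.A x1))) := inferInstance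
@[reducible] noncomputable def a54 {x1 : Type} [x2 : Field x1] {x3 : Vale.Agent.P190.D.Arr x1} : DistribSMul (Vale.Agent.P190.D.A x1) x3.L := inferInstance
theorem a55 {x1 : Type} [x2 : Field x1] {x3 : Vale.Agent.P190.D.Arr x1} : NonUnitalRingHomClass (Vale.Agent.P190.D.A x1 →+* x3.L) (Vale.Agent.P190.D.A x1) x3.L := inferInstance
theorem a56 {x1 : Type} [x2 : Field x1] {x3 : Vale.Agent.P190.D.Arr x1} : ZeroHomClass (Vale.Agent.P190.D.A x1 →+* x3.L) (Vale.Agent.P190.D.A x1) x3.L := inferInstance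
@[reducible] noncomputable def a57 {x1 : Type} [x2 : Field x1] {x3 : Vale.Agent.P190.D.Arr x1} : DistribMulAction x3.Lᵐᵒᵖ x3.L := inferInstance
@[reducible] noncomputable def a58 {x1 : Type} [x2 : Field x1] : NonAssocSemiring (Vale.Agent.P190.D.KK x1) := inferInstance
theorem a59 {x1 : Type} [x2 : Field x1] {x3 : Vale.Agent.P190.D.Arr x1} {x4 : ℕ} : LinearMap.CompatibleSMul x3.L (Fin x4 → x3.L) x1 (Vale.Agent.P190.D.A x1) := inferInstance
@[reducible] noncomputable def a60 {x1 : Type} [x2 : Field x1] {x3 : Vale.Agent.P190.D.Arr x1} : AddCommMonoidWithOne (DualNumber x3.L) := inferInstance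
theorem a61 {x1 : Type} [x2 : Field x1] {x3 : Vale.Agent.P190.D.Arr x1} : NonUnitalRingHomClass (x1 →+* x3.L) x1 x3.L := inferInstance
@[reducible] noncomputable def a62 {x1 : Type} [x2 : Field x1] {x3 : Vale.Agent.P190.D.Arr x1} : Mul (DualNumber x3.L) := inferInstance
@[reducible] noncomputable def a63 {x1 : Type} [x2 : Field x1] {x3 : Vale.Agent.P190.D.Arr x1} : SMulZeroClass x3.Lᵐᵒᵖ x3.L := inferInstance
@[reducible] noncomputable def a64 {x1 : Type} [x2 : Field x1] {x3 : Type} [x4 : AddCommGroup x3] [x5 : Module (Vale.Agent.P190.D.A x1) x3] : SMulZeroClass (Vale.Agent.P190.D.A x1) x3 := inferInstance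
theorem a65 {x1 : Type} [x2 : Field x1] {x3 : Vale.Agent.P190.D.Arr x1} : IsPrincipalIdealRing x3.L := inferInstance
theorem a66 {x1 : Type} [x2 : Field x1] {x3 : Vale.Agent.P190.D.Arr x1} : OneHomClass (x1 →+* x3.L) x1 x3.L := inferInstance
@[reducible] noncomputable def a67 {x1 : Type} [x2 : Field x1] {x3 : Vale.Agent.P190.D.Arr x1} : DistribSMul x3.Lᵐᵒᵖ x3.L := inferInstance
end AFast4a92dfx5a
attribute [local instance] AFast4a92dfx5a.a0 AFast4a92dfx5a.a1 AFast4a92dfx5a.a2 AFast4a92dfx5a.a3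
  AFast4a92dfx5a.a4 AFast4a92dfx5a.a5 AFast4a92dfx5a.a6 AFast4a92dfx5a.a7 AFast4a92dfx5a.a8
  AFast4a92dfx5a.a9 AFast4a92dfx5a.a10 AFast4a92dfx5a.a11 AFast4a92dfx5a.a12 AFast4a92dfx5a.a13
  AFast4a92dfx5a.a14 AFast4a92dfx5a.a15 AFast4a92dfx5a.a16 AFast4a92dfx5a.a17 AFast4a92dfx5a.a18
  AFast4a92dfx5a.a19 AFast4a92dfx5a.a20 AFast4a92dfx5a.a21 AFast4a92dfx5a.a22 AFast4a92dfx5a.a23
  AFast4a92dfx5a.a24 AFast4a92dfx5a.a25 AFast4a92dfx5a.a26 AFast4a92dfx5a.a27 AFast4a92dfx5a.a28
  AFast4a92dfx5a.a29 AFast4a92dfx5a.a30 AFast4a92dfx5a.a31 AFast4a92dfx5a.a32 AFast4a92dfx5a.a33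
  AFast4a92dfx5a.a34 AFast4a92dfx5a.a35 AFast4a92dfx5a.a36 AFast4a92dfx5a.a37 AFast4a92dfx5a.a38
  AFast4a92dfx5a.a39 AFast4a92dfx5a.a40 AFast4a92dfx5a.a41 AFast4a92dfx5a.a42 AFast4a92dfx5a.a43
  AFast4a92dfx5a.a44 AFast4a92dfx5a.a45 AFast4a92dfx5a.a46 AFast4a92dfx5a.a47 AFast4a92dfx5a.a48
  AFast4a92dfx5a.a49 AFast4a92dfx5a.a50 AFast4a92dfx5a.a51 AFast4a92dfx5a.a52 AFast4a92dfx5a.a53
  AFast4a92dfx5a.a54 AFast4a92dfx5a.a55 AFast4a92dfx5a.a56 AFast4a92dfx5a.a57 AFast4a92dfx5a.a58
  AFast4a92dfx5a.a59 AFast4a92dfx5a.a60 AFast4a92dfx5a.a61 AFast4a92dfx5a.a62 AFast4a92dfx5a.a63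
  AFast4a92dfx5a.a64 AFast4a92dfx5a.a65 AFast4a92dfx5a.a66 AFast4a92dfx5a.a67
namespace AFast4a92dfx5b
@[reducible] noncomputable def a0 {x1 : Type} [x2 : Field x1] {x3 : ℕ} {x4 : Vale.Agent.P190.D.Arr x1} {x5 : Fin x3} : SemigroupAction (Vale.Agent.P190.D.KK x1) ((fun a => x4.L) x5) := inferInstance
@[reducible] noncomputable def a1 {x1 : Type} [x2 : Field x1] {x3 : ℕ} {x4 : Vale.Agent.P190.D.Arr x1} {x5 : Fin x3} : MulAction (Vale.Agent.P190.D.KK x1) ((fun a => x4.L) x5) := inferInstance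
@[reducible] noncomputable def a2 {x1 : Type} [x2 : Field x1] {x3 : Vale.Agent.P190.D.Arr x1} : SMul (Vale.Agent.P190.D.KK x1) x3.L := inferInstance
@[reducible] noncomputable def a3 {x1 : Type} [x2 : Field x1] {x3 : ℕ} {x4 : Vale.Agent.P190.D.Arr x1} {x5 : Fin x3} : DistribMulAction (Vale.Agent.P190.D.KK x1) ((fun a => x4.L) x5) := inferInstance
@[reducible] noncomputable def a4 {x1 : Type} [x2 : Field x1] {x3 : ℕ} {x4 : Vale.Agent.P190.D.Arr x1} : Module (Vale.Agent.P190.D.KK x1) (Fin x3 → x4.L) := inferInstance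
theorem a5 {x1 : Type} [x2 : Field x1] {x3 : Vale.Agent.P190.D.Arr x1} : AddHomClass (Vale.Agent.P190.D.A x1 →+* x3.L) (Vale.Agent.P190.D.A x1) x3.L := inferInstance
theorem a6 {x1 : Type} [x2 : Field x1] {x3 : Vale.Agent.P190.D.Arr x1} : AddMonoidHomClass (Vale.Agent.P190.D.A x1 →+* x3.L) (Vale.Agent.P190.D.A x1) x3.L := inferInstance
@[reducible] noncomputable def a7 {x1 : Type} [x2 : Field x1] {x3 : Type} [x4 : AddCommGroup x3] [x5 : Module (Vale.Agent.P190.D.KK x1) x3] : SMul (Vale.Agent.P190.D.KK x1) x3 := inferInstance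
theorem a8 {x1 : Type} [x2 : Field x1] {x3 : Vale.Agent.P190.D.Arr x1} : AddMonoidHomClass (x1 →+* x3.L) x1 x3.L := inferInstance
theorem a9 {x1 : Type} [x2 : Field x1] {x3 : Vale.Agent.P190.D.Arr x1} : AddMonoidHomClass (MvPolynomial x3.J (Vale.Agent.P190.D.KK x1) →+* DualNumber x3.L) (MvPolynomial x3.J (Vale.Agent.P190.D.KK x1)) (DualNumber x3.L) := inferInstance
@[reducible] noncomputable def a10 {x1 : Type} [x2 : Field x1] {x3 : Vale.Agent.P190.D.Arr x1} : SMulZeroClass (Vale.Agent.P190.D.KK x1) x3.L := inferInstance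
theorem a11 {x1 : Type} [x2 : Field x1] {x3 : Vale.Agent.P190.D.Arr x1} : AddHomClass (MvPolynomial x3.J (Vale.Agent.P190.D.KK x1) →ₐ[Vale.Agent.P190.D.KK x1] x3.L) (MvPolynomial x3.J (Vale.Agent.P190.D.KK x1)) x3.L := inferInstance
theorem a12 {x1 : Type} [x2 : Field x1] {x3 : Vale.Agent.P190.D.Arr x1} : LinearMapClass (MvPolynomial x3.J (Vale.Agent.P190.D.KK x1) →ₐ[Vale.Agent.P190.D.KK x1] x3.L) (Vale.Agent.P190.D.KK x1) (MvPolynomial x3.J (Vale.Agent.P190.D.KK x1)) x3.L := inferInstance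
theorem a13 {x1 : Type} [x2 : Field x1] : AddHomClass (x1 →+* MvPolynomial (Fin 2) x1) x1 (MvPolynomial (Fin 2) x1) := inferInstance
theorem a14 {x1 : Type} {x2 : Type} [x3 : Field x1] [x4 : CommRing x2] : AddMonoidHomClass (x1 →+* x2) x1 x2 := inferInstance
theorem a15 {x1 : Type} [x2 : Field x1] : AddMonoidHomClass (x1 →+* MvPolynomial (Fin 2) x1) x1 (MvPolynomial (Fin 2) x1) := inferInstance
theorem a16 {x1 : Type} [x2 : Field x1] {x3 : Vale.Agent.P190.D.Arr x1} {x4 : ℕ} : ZeroHomClass ((Fin x4 → x3.L) →ₗ[x3.L] Fin x4 → x3.L) (Fin x4 → x3.L) (Fin x4 → x3.L) := inferInstance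
@[reducible] noncomputable def a17 {x1 : Type} [x2 : Field x1] {x3 : Vale.Agent.P190.D.Arr x1} : DistribSMul (Vale.Agent.P190.D.KK x1) x3.L := inferInstance
@[reducible] noncomputable def a18 {x1 : Type} [x2 : Field x1] {x3 : Vale.Agent.P190.D.Arr x1} : DistribMulAction (Vale.Agent.P190.D.KK x1) x3.L := inferInstance
end AFast4a92dfx5b
attribute [local instance] AFast4a92dfx5b.a0 AFast4a92dfx5b.a1 AFast4a92dfx5b.a2 AFast4a92dfx5b.a3
  AFast4a92dfx5b.a4 AFast4a92dfx5b.a5 AFast4a92dfx5b.a6 AFast4a92dfx5b.a7 AFast4a92dfx5b.a8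
  AFast4a92dfx5b.a9 AFast4a92dfx5b.a10 AFast4a92dfx5b.a11 AFast4a92dfx5b.a12 AFast4a92dfx5b.a13
  AFast4a92dfx5b.a14 AFast4a92dfx5b.a15 AFast4a92dfx5b.a16 AFast4a92dfx5b.a17 AFast4a92dfx5b.a18
section

section

/-! Section 4, file P4b: affine charts at the nodes over a triple point. -/

set_option autoImplicit false
set_option linter.unusedSectionVars false

open MvPolynomial Filter

namespace Vale.Agent.P190.D

variable {k : Type} [Field k] [IsAlgClosed k] {X : Arr k}

/-- the three lines of a triple point -/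
def Arr.tri (X : Arr k) (t : X.S) : Set X.I := {X.v t, X.h t, X.d t}

/-- multiplication by an element of `L`, as a `k`-linear map -/
noncomputable def mulLL {r : ℕ} (l : X.L) : (Fin r → X.L) →ₗ[k] (Fin r → X.L) :=
  (l • (LinearMap.id : (Fin r → X.L) →ₗ[X.L] (Fin r → X.L))).restrictScalars k

theorem mulLL_apply {r : ℕ} (l : X.L) (v : Fin r → X.L) : mulLL l v = l • v := rfl

/-- affine coordinates `τ_a = σ_a / σ_{b₀}` -/
noncomputable def tau (b₀ a : X.I) : X.L := X.σ a / X.σ b₀

/-- `γ_ε = σ_{b₀}^(-w) Γ_ε` -/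
noncomputable def gama {r : ℕ} (Γ : (Fin r → X.L) →ₗ[X.L] (Fin r → X.L)) (b₀ : X.I)
    (ε : X.S → Bool) : (Fin r → X.L) →ₗ[X.L] (Fin r → X.L) :=
  ((X.σ b₀ ^ X.w)⁻¹ * (X.pie ε / X.PI)) • Γ

/-- the affine lattice `⋃ σ_{b₀}^(-n) E_n` -/
noncomputable def affM {r : ℕ} (E : ℤ → Submodule k (Fin r → X.L)) (b₀ : X.I) :
    Submodule k (Fin r → X.L) :=
  Submodule.span k {v | ∃ n : ℤ, X.σ b₀ ^ n • v ∈ E n}

variable {r : ℕ} {Γ : (Fin r → X.L) →ₗ[X.L] (Fin r → X.L)} {E : ℤ → Submodule k (Fin r → X.L)}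

theorem P4b_mono (hs : SigStable X E) {b₀ : X.I} {v : Fin r → X.L} {n m : ℤ} (h : n ≤ m)
    (hv : X.σ b₀ ^ n • v ∈ E n) : X.σ b₀ ^ m • v ∈ E m := by
  obtain ⟨j, rfl⟩ : ∃ j : ℕ, m = n + j := ⟨(m - n).toNat, by (clear * - h; omega)⟩
  have h1 := hs.pow_smul b₀ j hv
  rw [smul_smul] at h1
  rwa [add_comm n (j : ℤ), zpow_add₀ (X.σ_ne_zero b₀), zpow_natCast, add_comm (j : ℤ) n]

theorem mem_affM (hE : IsBLat E) (hs : SigStable X E) {b₀ : X.I} {v : Fin r → X.L} :
    v ∈ affM E b₀ ↔ ∃ n : ℤ, X.σ b₀ ^ n • v ∈ E n := by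
  constructor
  · intro hv
    unfold affM at hv
    induction hv using Submodule.span_induction with
    | mem v hv => exact hv
    | zero => exact ⟨0, by rw [smul_zero]; exact zero_mem _⟩
    | add v w _ _ hv hw =>
      obtain ⟨n, hn⟩ := hv
      obtain ⟨m, hm⟩ := hw
      refine ⟨max n m, ?_⟩
      rw [smul_add]
      exact add_mem (P4b_mono hs (le_max_left n m) hn) (P4b_mono hs (le_max_right n m) hm)
    | smul c v _ hv =>
      obtain ⟨n, hn⟩ := hv
      refine ⟨n, ?_⟩
      rw [← smul_comm_kL]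
      exact Submodule.smul_mem _ _ hn
  · intro hv
    exact Submodule.subset_span hv

theorem tau_affM (hE : IsBLat E) (hs : SigStable X E) {b₀ a : X.I} {v : Fin r → X.L}
    (hv : v ∈ affM E b₀) : tau b₀ a • v ∈ affM E b₀ := by
  rw [mem_affM hE hs] at hv ⊢
  obtain ⟨n, hn⟩ := hv
  refine ⟨n + 1, ?_⟩
  have h1 := hs a hn
  have h0 := X.σ_ne_zero b₀
  have h2 : X.σ b₀ ^ (n + 1) • tau b₀ a • v = X.σ a • X.σ b₀ ^ n • v := by
    rw [smul_smul, smul_smul]
    congr 1
    rw [tau, zpow_add_one₀ h0]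
    (clear * - h0; field_simp)
  rw [h2]
  exact h1

theorem gama_affM (hE : IsTLat Γ E) {b₀ : X.I} (ε : X.S → Bool) {v : Fin r → X.L}
    (hv : v ∈ affM E b₀) : gama Γ b₀ ε v ∈ affM E b₀ := by
  rw [mem_affM hE.toIsBLat hE.sigStable] at hv ⊢
  obtain ⟨n, hn⟩ := hv
  refine ⟨n + X.w, ?_⟩
  have h1 := hE.gam_mem ε hn
  have h0 := X.σ_ne_zero b₀
  have h2 : X.σ b₀ ^ (n + X.w) • gama Γ b₀ ε v = gam Γ ε (X.σ b₀ ^ n • v) := by
    unfold gam gama
    rw [LinearMap.smul_apply, map_smul, smul_smul, smul_smul]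
    congr 1
    rw [zpow_add₀ h0, zpow_natCast]
    have h3 : X.σ b₀ ^ X.w ≠ 0 := pow_ne_zero _ h0
    field_simp
  rw [h2]
  exact h1

/-- S2 in the affine chart -/
theorem sat_affM (hE : IsBLat E) (hs : SigStable X E) (h2 : IsS2 E) {b₀ x y : X.I}
    (hxy : x ≠ y) {v : Fin r → X.L} (hx : tau b₀ x • v ∈ affM E b₀)
    (hy : tau b₀ y • v ∈ affM E b₀) : v ∈ affM E b₀ := by
  rw [mem_affM hE hs] at hx hy ⊢
  obtain ⟨n, hn⟩ := hx
  obtain ⟨m, hm⟩ := hy
  have h0 := X.σ_ne_zero b₀
  have key : ∀ z : X.I, X.σ b₀ ^ (max n m) • tau b₀ z • v =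
      X.σ z • X.σ b₀ ^ (max n m - 1) • v := by
    intro z
    rw [smul_smul, smul_smul]
    congr 1
    rw [tau, zpow_sub_one₀ h0]
    (clear * - h0; field_simp)
  have h1 := P4b_mono hs (le_max_left n m) hn
  have h3 := P4b_mono hs (le_max_right n m) hm
  rw [key] at h1 h3
  refine ⟨max n m - 1, ?_⟩
  refine SigStable.of_two hE hs h2 hxy ?_ ?_
  · rw [sub_add_cancel]
    exact h1
  · rw [sub_add_cancel]
    exact h3

theorem spansL_affM (hsp : SpansL (X := X) E) (b₀ : X.I) :
    Submodule.span X.L (affM E b₀ : Set (Fin r → X.L)) = ⊤ := by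
  rw [eq_top_iff, ← hsp, Submodule.span_le]
  intro v hv
  obtain ⟨n, hn⟩ := Set.mem_iUnion.1 hv
  have h0 := X.σ_ne_zero b₀
  have h1 : X.σ b₀ ^ n • X.σ b₀ ^ (-n) • v = v := by
    rw [smul_smul, ← zpow_add₀ h0, add_neg_cancel, zpow_zero, one_smul]
  rw [← h1]
  refine Submodule.smul_mem _ _ (Submodule.subset_span ?_)
  refine Submodule.subset_span ⟨n, ?_⟩
  rw [h1]
  exact hn

theorem P4b_T0 (b₀ : X.I) {n : ℤ} {f : X.L} (hf : f ∈ X.T0 n) :
    ∃ F : MvPolynomial X.I k, X.σ b₀ ^ (-n) * f = aeval (tau b₀) F := by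
  have h0 := X.σ_ne_zero b₀
  unfold Arr.T0 at hf
  induction hf using Submodule.span_induction with
  | mem f hf =>
    obtain ⟨u, hu, rfl⟩ := hf
    refine ⟨∏ x, MvPolynomial.X x ^ u x, ?_⟩
    rw [map_prod, ← hu]
    simp only [map_pow, aeval_X]
    unfold tau
    simp only [div_pow]
    rw [Finset.prod_div_distrib, Finset.prod_pow_eq_pow_sum, zpow_neg, zpow_natCast]
    (clear * - h0; field_simp)
  | zero => exact ⟨0, by simp⟩
  | add f g _ _ hf hg =>
    obtain ⟨F, hF⟩ := hf
    obtain ⟨G, hG⟩ := hg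
    exact ⟨F + G, by rw [map_add, ← hF, ← hG, mul_add]⟩
  | smul c f _ hf =>
    obtain ⟨F, hF⟩ := hf
    exact ⟨c • F, by rw [map_smul, ← hF, mul_smul_comm]⟩

/-- `M` is finitely generated over `k[τ]` -/
theorem fg_affM (hE : IsBLat E) (hs : SigStable X E) (b₀ : X.I) :
    ∃ s : Finset (Fin r → X.L), (∀ v ∈ s, v ∈ affM E b₀) ∧ ∀ v ∈ affM E b₀,
      ∃ F : (Fin r → X.L) → MvPolynomial X.I k, v = ∑ g ∈ s, aeval (tau b₀) (F g) • g := by
  classical
  have h0 := X.σ_ne_zero b₀
  obtain ⟨l, u, c, hu, hgen⟩ := hE.exists_gen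
  let g : Fin l → (Fin r → X.L) := fun i => X.σ b₀ ^ (-(c i)) • u i
  refine ⟨Finset.univ.image g, ?_, ?_⟩
  · intro v hv
    obtain ⟨i, -, rfl⟩ := Finset.mem_image.1 hv
    rw [mem_affM hE hs]
    refine ⟨c i, ?_⟩
    have h1 : X.σ b₀ ^ (c i) • g i = u i := by
      show X.σ b₀ ^ (c i) • X.σ b₀ ^ (-(c i)) • u i = u i
      rw [smul_smul, ← zpow_add₀ h0, add_neg_cancel, zpow_zero, one_smul]
    rw [h1]
    exact hu i
  · intro v hv
    rw [mem_affM hE hs] at hv
    obtain ⟨n, hn⟩ := hv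
    rw [hgen n, mem_genLat] at hn
    obtain ⟨a, ha, hv⟩ := hn
    have h2 : ∀ i, ∃ F : MvPolynomial X.I k,
        X.σ b₀ ^ (-(n - c i)) * algebraMap (A k) X.L (a i) = aeval (tau b₀) F :=
      fun i => P4b_T0 b₀ (X.algebraMap_mem_T0 (ha i))
    choose F hF using h2
    refine ⟨fun w => ∑ i ∈ Finset.univ.filter (fun i => g i = w), F i, ?_⟩
    have h3 : v = ∑ i, aeval (tau b₀) (F i) • g i := by
      have h4 : v = X.σ b₀ ^ (-n) • X.σ b₀ ^ n • v := by
        rw [smul_smul, ← zpow_add₀ h0, neg_add_cancel, zpow_zero, one_smul]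
      rw [h4, hv, Finset.smul_sum]
      refine Finset.sum_congr rfl fun i _ => ?_
      rw [← hF i, ← algebraMap_smul X.L (a i) (u i)]
      show _ = _ • X.σ b₀ ^ (-(c i)) • u i
      rw [smul_smul, smul_smul]
      congr 1
      rw [mul_right_comm, ← zpow_add₀ h0]
      congr 2
      ring
    rw [h3]
    rw [← Finset.sum_fiberwise_of_maps_to (s := Finset.univ) (t := Finset.univ.image g) (g := g)
      (fun i hi => Finset.mem_image_of_mem g hi)]
    refine Finset.sum_congr rfl fun w _ => ?_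
    rw [map_sum, Finset.sum_smul]
    refine Finset.sum_congr rfl fun i hi => ?_
    rw [(Finset.mem_filter.1 hi).2]

/-- the ideal `(σ_h, σ_d)`, `K = τ_h M + τ_d M` -/
noncomputable def Knode (E : ℤ → Submodule k (Fin r → X.L)) (b₀ : X.I) (t : X.S) :
    Submodule k (Fin r → X.L) :=
  (affM E b₀).map (mulLL (tau b₀ (X.h t))) ⊔ (affM E b₀).map (mulLL (tau b₀ (X.d t)))

/-- a node over the triple point `t`, in the chart `σ_{b₀} = 1` -/
structure IsNode (X : Arr k) (t : X.S) (b₀ : X.I) (ξ : X.I → k) : Prop where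
  one : ξ b₀ = 1
  zero : ∀ a ∈ X.tri t, ξ a = 0
  ne : ∀ a, a ∉ X.tri t → ξ a ≠ 0
  rel : ∃ P : Fin 3 → k, ∀ a, ξ a ^ 2 = ∑ i, X.l a i * P i

/-- `K_ξ`: the submodule of sections vanishing at the point of `Proj T` over the node `ξ` -/
noncomputable def Kxi (Γ : (Fin r → X.L) →ₗ[X.L] (Fin r → X.L))
    (E : ℤ → Submodule k (Fin r → X.L)) (b₀ : X.I) (ξ : X.I → k) :
    Submodule k (Fin r → X.L) :=
  (⨆ a, (affM E b₀).map (mulLL (tau b₀ a - algebraMap k X.L (ξ a)))) ⊔
    ⨆ ε, (affM E b₀).map ((gama Γ b₀ ε).restrictScalars k)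

end Vale.Agent.P190.D
end
end

section

section

/-! Section 2, file C3: the ideals `𝔍`. -/

set_option autoImplicit false
set_option linter.unusedSectionVars false

open MvPolynomial Filter

namespace Vale.Agent.P190.D

namespace Arr

variable {k : Type} [Field k] (X : Arr k)

/-- graded pieces of the ideal `𝔍_{S'} = ∏_{t ∈ S'} (a_t^+, σ_{v_t})` -/
noncomputable def JJ (S' : Finset X.S) (n : ℤ) : Submodule k X.L :=
  Submodule.span k {f | ∃ (ε : X.S → Bool) (g : X.L), g ∈ X.T0 (n - S'.card) ∧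
    f = g * ∏ t ∈ S', if ε t then X.a t true else X.σ (X.v t)}

theorem C3_prod_mem (S' : Finset X.S) (ε : X.S → Bool) :
    (∏ t ∈ S', if ε t then X.a t true else X.σ (X.v t)) ∈ X.T0 S'.card := by
  classical
  induction S' using Finset.induction_on with
  | empty =>
    refine Submodule.subset_span ⟨0, ?_, ?_⟩
    · simp only [Pi.zero_apply, Finset.sum_const_zero, CharP.cast_eq_zero, Finset.card_empty]
    · simp only [Finset.prod_empty, Pi.zero_apply, pow_zero, Finset.prod_const_one]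
  | insert t S' ht ih =>
    rw [Finset.prod_insert ht, Finset.card_insert_of_notMem ht]
    push_cast
    rw [add_comm]
    refine X.T0_mul ?_ ih
    split_ifs
    · exact X.a_mem t true
    · exact X.σ_mem _

theorem C3_JJ_T0_mul {S' : Finset X.S} {i n : ℤ} {f v : X.L} (hf : f ∈ X.T0 i)
    (hv : v ∈ X.JJ S' n) : f * v ∈ X.JJ S' (n + i) := by
  unfold JJ at hv
  induction hv using Submodule.span_induction with
  | mem x hx =>
    obtain ⟨ε, g, hg, rfl⟩ := hx
    refine Submodule.subset_span ⟨ε, f * g, ?_, by ring⟩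
    have := X.T0_mul hf hg
    rwa [show i + (n - (S'.card : ℤ)) = n + i - (S'.card : ℤ) by ring] at this
  | zero => simp
  | add x y _ _ hx hy =>
    rw [mul_add]
    exact add_mem hx hy
  | smul r x _ hx =>
    rw [mul_smul_comm]
    exact Submodule.smul_mem _ _ hx

theorem C3_JJ_le_T0 (S' : Finset X.S) (n : ℤ) : X.JJ S' n ≤ X.T0 n := by
  refine Submodule.span_le.2 ?_
  rintro _ ⟨ε, g, hg, rfl⟩
  have := X.T0_mul hg (X.C3_prod_mem S' ε)
  rwa [sub_add_cancel] at this

theorem C3_JJ_smul {S' : Finset X.S} {i n : ℤ} {a : A k} {v : X.L} (ha : a ∈ Ad k i)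
    (hv : v ∈ X.JJ S' n) : a • v ∈ X.JJ S' (n + i) := by
  rw [Algebra.smul_def]
  exact X.C3_JJ_T0_mul (X.algebraMap_mem_T0 ha) hv

theorem isBLat_JJ (S' : Finset X.S) : IsBLat (X.JJ S') :=
  X.isBLat_T0.of_le (X.C3_JJ_le_T0 S') (fun ha hv => X.C3_JJ_smul ha hv)

theorem C3_JJ_empty (n : ℤ) : X.JJ ∅ n = X.T0 n := by
  refine le_antisymm (X.C3_JJ_le_T0 ∅ n) ?_
  intro g hg
  refine Submodule.subset_span ⟨fun _ => true, g, by simpa using hg, by simp only [↓reduceIte, Finset.prod_empty, mul_one]⟩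

theorem C3_mul_JJ {S' : Finset X.S} {t : X.S} (ht : t ∉ S') {n : ℤ} (s : Bool) {u : X.L}
    (hu : u ∈ X.JJ S' n) :
    (if s then X.a t true else X.σ (X.v t)) * u ∈ X.JJ (insert t S') (n + 1) := by
  unfold JJ at hu
  induction hu using Submodule.span_induction with
  | mem x hx =>
    obtain ⟨ε, g, hg, rfl⟩ := hx
    refine Submodule.subset_span ⟨Function.update ε t s, g, ?_, ?_⟩
    · rw [Finset.card_insert_of_notMem ht]
      push_cast
      convert hg using 2
      ring
    · rw [Finset.prod_insert ht, Function.update_self]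
      have : ∏ x ∈ S', (if Function.update ε t s x then X.a x true else X.σ (X.v x)) =
          ∏ x ∈ S', (if ε x then X.a x true else X.σ (X.v x)) := by
        refine Finset.prod_congr rfl fun x hx => ?_
        have hxt : x ≠ t := by
          rintro rfl
          exact ht hx
        rw [Function.update_of_ne hxt]
      rw [this]
      ring
  | zero => simp
  | add x y _ _ hx hy =>
    rw [mul_add]
    exact add_mem hx hy
  | smul r x _ hx =>
    rw [mul_smul_comm]
    exact Submodule.smul_mem _ _ hx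

theorem C3_a_mul_JJ {S' : Finset X.S} {t : X.S} (ht : t ∉ S') {n : ℤ} {u : X.L}
    (hu : u ∈ X.JJ S' n) : X.a t true * u ∈ X.JJ (insert t S') (n + 1) := by
  simpa using X.C3_mul_JJ ht true hu

theorem C3_v_mul_JJ {S' : Finset X.S} {t : X.S} (ht : t ∉ S') {n : ℤ} {u : X.L}
    (hu : u ∈ X.JJ S' n) : X.σ (X.v t) * u ∈ X.JJ (insert t S') (n + 1) := by
  simpa using X.C3_mul_JJ ht false hu

theorem C3_mem_insert {S' : Finset X.S} {t : X.S} (ht : t ∉ S') {n : ℤ} {f : X.L}
    (hf : f ∈ X.JJ (insert t S') n) : ∃ u ∈ X.JJ S' (n - 1), ∃ w ∈ X.JJ S' (n - 1),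
      f = X.a t true * u + X.σ (X.v t) * w := by
  unfold JJ at hf
  induction hf using Submodule.span_induction with
  | mem x hx =>
    obtain ⟨ε, g, hg, rfl⟩ := hx
    rw [Finset.prod_insert ht]
    rw [Finset.card_insert_of_notMem ht] at hg
    have h1 : g * ∏ x ∈ S', (if ε x then X.a x true else X.σ (X.v x)) ∈ X.JJ S' (n - 1) := by
      refine Submodule.subset_span ⟨ε, g, ?_, rfl⟩
      push_cast at hg
      convert hg using 2
      ring
    by_cases h : ε t = true
    · refine ⟨_, h1, 0, Submodule.zero_mem _, ?_⟩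
      rw [if_pos h]
      ring
    · refine ⟨0, Submodule.zero_mem _, _, h1, ?_⟩
      rw [if_neg h]
      ring
  | zero => exact ⟨0, Submodule.zero_mem _, 0, Submodule.zero_mem _, by simp⟩
  | add x y _ _ hx hy =>
    obtain ⟨u, hu, w, hw, rfl⟩ := hx
    obtain ⟨u', hu', w', hw', rfl⟩ := hy
    exact ⟨u + u', add_mem hu hu', w + w', add_mem hw hw', by ring⟩
  | smul r x _ hx =>
    obtain ⟨u, hu, w, hw, rfl⟩ := hx
    refine ⟨r • u, Submodule.smul_mem _ _ hu, r • w, Submodule.smul_mem _ _ hw, ?_⟩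
    rw [smul_add, mul_smul_comm, mul_smul_comm]

/-- the kernel lattice -/
noncomputable def C3_Om (S' : Finset X.S) (t : X.S) (m : ℤ) : Submodule k X.L :=
  (X.JJ S' (m + 1)).comap (LinearMap.mulLeft k (X.σ (X.v t))) ⊓
    (X.JJ S' (m + 1)).comap (LinearMap.mulLeft k (X.a t true))

theorem C3_mem_Om {S' : Finset X.S} {t : X.S} {m : ℤ} {o : X.L} :
    o ∈ X.C3_Om S' t m ↔ X.σ (X.v t) * o ∈ X.JJ S' (m + 1) ∧ X.a t true * o ∈ X.JJ S' (m + 1) :=
  Iff.rfl

theorem C3_isBLat_Om (S' : Finset X.S) (t : X.S) : IsBLat (X.C3_Om S' t) := by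
  have h0 : IsBLat (mapLat (LinearMap.mulLeft (A k) (X.σ (X.v t))⁻¹) (shiftLat (X.JJ S') 1)) :=
    ((X.isBLat_JJ S').shift 1).map _
  refine h0.of_le (fun n o ho => ?_) (fun {i n a v} ha hv => ?_)
  · refine ⟨X.σ (X.v t) * o, (X.C3_mem_Om.1 ho).1, ?_⟩
    show (X.σ (X.v t))⁻¹ * (X.σ (X.v t) * o) = o
    rw [← mul_assoc, inv_mul_cancel₀ (X.σ_ne_zero _), one_mul]
  · obtain ⟨h1, h2⟩ := X.C3_mem_Om.1 hv
    refine X.C3_mem_Om.2 ⟨?_, ?_⟩
    · rw [mul_smul_comm]
      have := X.C3_JJ_smul ha h1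
      rwa [show n + i + 1 = n + 1 + i by ring]
    · rw [mul_smul_comm]
      have := X.C3_JJ_smul ha h2
      rwa [show n + i + 1 = n + 1 + i by ring]

/-- dimension count -/
theorem C3_finrank {S' : Finset X.S} {t : X.S} (ht : t ∉ S') (n : ℤ) :
    Module.finrank k (X.JJ (insert t S') n) + Module.finrank k (X.C3_Om S' t (n - 2)) =
      2 * Module.finrank k (X.JJ S' (n - 1)) := by
  have hfin : Module.Finite k (X.JJ S' (n - 1)) := (X.isBLat_JJ S').fin _
  set J1 := X.JJ S' (n - 1) with hJ1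
  -- the surjection
  let Φ : (J1 × J1) →ₗ[k] X.L :=
    ((LinearMap.mulLeft k (X.a t true)).comp J1.subtype).coprod
      ((LinearMap.mulLeft k (X.ν t • X.σ (X.v t))).comp J1.subtype)
  have hΦ : ∀ p : J1 × J1, Φ p = X.a t true * p.1 + (X.ν t • X.σ (X.v t)) * p.2 := fun p => rfl
  have hν : X.ν t ≠ 0 := X.ν_ne t
  have hrange : LinearMap.range Φ = X.JJ (insert t S') n := by
    apply le_antisymm
    · rintro _ ⟨⟨u, w⟩, rfl⟩
      rw [hΦ]
      have h1 := X.C3_a_mul_JJ ht u.2
      have h2 := X.C3_v_mul_JJ ht w.2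
      rw [sub_add_cancel] at h1 h2
      refine add_mem h1 ?_
      rw [smul_mul_assoc]
      exact Submodule.smul_mem _ _ h2
    · intro f hf
      obtain ⟨u, hu, w, hw, rfl⟩ := X.C3_mem_insert ht hf
      refine ⟨(⟨u, hu⟩, (X.ν t)⁻¹ • ⟨w, hw⟩), ?_⟩
      rw [hΦ]
      show X.a t true * u + (X.ν t • X.σ (X.v t)) * ((X.ν t)⁻¹ • w) = _
      rw [mul_smul_comm, smul_mul_assoc, smul_smul, inv_mul_cancel₀ hν, one_smul]
  have hσ0 : X.ν t • X.σ (X.v t) ≠ 0 := by
    intro h
    rcases smul_eq_zero.1 h with h | h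
    · exact hν h
    · exact X.σ_ne_zero _ h
  -- the kernel
  let Om := X.C3_Om S' t (n - 2)
  have hOm : ∀ o ∈ Om, X.σ (X.v t) * o ∈ J1 ∧ X.a t true * o ∈ J1 := by
    intro o ho
    have := X.C3_mem_Om.1 ho
    rwa [show n - 2 + 1 = n - 1 by ring] at this
  let Ψ1 : Om →ₗ[k] J1 := LinearMap.codRestrict J1
    ((LinearMap.mulLeft k (X.ν t • X.σ (X.v t))).comp Om.subtype) (fun o => by
      show (X.ν t • X.σ (X.v t)) * (o : X.L) ∈ J1
      rw [smul_mul_assoc]
      exact Submodule.smul_mem _ _ (hOm o o.2).1)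
  let Ψ2 : Om →ₗ[k] J1 := LinearMap.codRestrict J1
    ((LinearMap.mulLeft k (-X.a t true)).comp Om.subtype) (fun o => by
      show (-X.a t true) * (o : X.L) ∈ J1
      rw [neg_mul]
      exact Submodule.neg_mem _ (hOm o o.2).2)
  let Ψ : Om →ₗ[k] (J1 × J1) := Ψ1.prod Ψ2
  have hΨ1 : ∀ o : Om, ((Ψ o).1 : X.L) = (X.ν t • X.σ (X.v t)) * o := fun o => rfl
  have hΨ2 : ∀ o : Om, ((Ψ o).2 : X.L) = (-X.a t true) * o := fun o => rfl
  have hinj : Function.Injective Ψ := by
    intro o o' h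
    have : ((Ψ o).1 : X.L) = (Ψ o').1 := by rw [h]
    rw [hΨ1, hΨ1] at this
    exact Subtype.ext (mul_left_cancel₀ hσ0 this)
  have hker : LinearMap.range Ψ = LinearMap.ker Φ := by
    apply le_antisymm
    · rintro _ ⟨o, rfl⟩
      rw [LinearMap.mem_ker, hΦ, hΨ1, hΨ2]
      ring
    · rintro ⟨u, w⟩ hp
      rw [LinearMap.mem_ker, hΦ] at hp
      have hp' : X.a t true * (u : X.L) + (X.ν t • X.σ (X.v t)) * (w : X.L) = 0 := hp
      set o : X.L := (X.ν t • X.σ (X.v t))⁻¹ * (u : X.L) with ho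
      have h1 : (X.ν t • X.σ (X.v t)) * o = u := by
        rw [ho, ← mul_assoc, mul_inv_cancel₀ hσ0, one_mul]
      have h2 : (-X.a t true) * o = w := by
        apply mul_left_cancel₀ hσ0
        calc (X.ν t • X.σ (X.v t)) * (-X.a t true * o)
            = -(X.a t true * ((X.ν t • X.σ (X.v t)) * o)) := by ring
          _ = -(X.a t true * (u : X.L)) := by rw [h1]
          _ = (X.ν t • X.σ (X.v t)) * (w : X.L) := by
              rw [eq_comm, ← sub_eq_zero, sub_neg_eq_add, add_comm]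
              exact hp'
      have hoOm : o ∈ Om := by
        refine X.C3_mem_Om.2 ?_
        rw [show n - 2 + 1 = n - 1 by ring]
        constructor
        · have : X.σ (X.v t) * o = (X.ν t)⁻¹ • (u : X.L) := by
            rw [← h1, smul_mul_assoc, smul_smul, inv_mul_cancel₀ hν, one_smul]
          rw [this]
          exact Submodule.smul_mem _ _ u.2
        · have : X.a t true * o = -(w : X.L) := by
            rw [← h2]; ring
          rw [this]
          exact Submodule.neg_mem _ w.2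
      refine ⟨⟨o, hoOm⟩, ?_⟩
      refine Prod.ext (Subtype.ext ?_) (Subtype.ext ?_)
      · rw [hΨ1]; exact h1
      · rw [hΨ2]; exact h2
  have key := LinearMap.finrank_range_add_finrank_ker Φ
  rw [hrange, ← hker, LinearMap.finrank_range_of_inj hinj, Module.finrank_prod] at key
  rw [two_mul]
  exact key

/-- the multiple `(1/a_t^+) 𝔍_{S' ∪ t}` -/
noncomputable def C3_Q (S' : Finset X.S) (t : X.S) : ℤ → Submodule k X.L :=
  mapLat (LinearMap.mulLeft (A k) (X.a t true)⁻¹) (shiftLat (X.JJ (insert t S')) 1)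

theorem C3_isBLat_Q (S' : Finset X.S) (t : X.S) : IsBLat (X.C3_Q S' t) :=
  ((X.isBLat_JJ (insert t S')).shift 1).map _

theorem C3_mem_Q {S' : Finset X.S} {t : X.S} {m : ℤ} {o : X.L} :
    o ∈ X.C3_Q S' t m ↔ X.a t true * o ∈ X.JJ (insert t S') (m + 1) := by
  constructor
  · rintro ⟨x, hx, rfl⟩
    show X.a t true * ((X.a t true)⁻¹ * x) ∈ _
    rw [← mul_assoc, mul_inv_cancel₀ (X.a_ne_zero t true), one_mul]
    exact hx
  · intro h
    refine ⟨X.a t true * o, h, ?_⟩
    show (X.a t true)⁻¹ * (X.a t true * o) = o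
    rw [← mul_assoc, inv_mul_cancel₀ (X.a_ne_zero t true), one_mul]

theorem C3_aa (t : X.S) : X.a t true * X.a t false = (X.ν t ^ 2) • (X.σ (X.v t)) ^ 2 := by
  rw [a_mul_a, smul_pow]

theorem C3_Q_le_Om {S' : Finset X.S} {t : X.S} (ht : t ∉ S') (m : ℤ) :
    X.C3_Q S' t m ≤ X.C3_Om S' t m := by
  intro o ho
  have h := X.C3_mem_Q.1 ho
  obtain ⟨u, hu, w, hw, h⟩ := X.C3_mem_insert ht h
  have ha := X.a_ne_zero t true
  have hν : X.ν t ≠ 0 := X.ν_ne t
  rw [add_sub_cancel_right] at hu hw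
  refine X.C3_mem_Om.2 ⟨?_, ?_⟩
  · have h2 : X.σ (X.v t) * o = X.σ (X.v t) * u + ((X.ν t)⁻¹) ^ 2 • (X.a t false * w) := by
      apply mul_left_cancel₀ ha
      calc X.a t true * (X.σ (X.v t) * o) = X.σ (X.v t) * (X.a t true * o) := by ring
        _ = X.σ (X.v t) * (X.a t true * u + X.σ (X.v t) * w) := by rw [h]
        _ = X.a t true * (X.σ (X.v t) * u) + X.σ (X.v t) ^ 2 * w := by ring
        _ = X.a t true * (X.σ (X.v t) * u) +
            ((X.ν t)⁻¹) ^ 2 • ((X.a t true * X.a t false) * w) := by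
              rw [C3_aa, smul_mul_assoc, smul_smul, ← mul_pow, inv_mul_cancel₀ hν, one_pow,
                one_smul]
        _ = _ := by
              rw [mul_add, mul_smul_comm, mul_assoc (X.a t true) (X.a t false) w]
    rw [h2]
    refine add_mem ?_ (Submodule.smul_mem _ _ ?_)
    · have := X.C3_JJ_T0_mul (X.σ_mem (X.v t)) hu
      exact this
    · have := X.C3_JJ_T0_mul (X.a_mem t false) hw
      exact this
  · rw [h]
    refine add_mem ?_ ?_
    · exact X.C3_JJ_T0_mul (X.a_mem t true) hu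
    · exact X.C3_JJ_T0_mul (X.σ_mem (X.v t)) hw

theorem C3_Q_T0 {S' : Finset X.S} {t : X.S} {i m : ℤ} {f o : X.L} (hf : f ∈ X.T0 i)
    (ho : o ∈ X.C3_Q S' t m) : f * o ∈ X.C3_Q S' t (m + i) := by
  have h := X.C3_mem_Q.1 ho
  refine X.C3_mem_Q.2 ?_
  have := X.C3_JJ_T0_mul hf h
  rw [show X.a t true * (f * o) = f * (X.a t true * o) by ring,
    show m + i + 1 = m + 1 + i by ring]
  exact this

theorem C3_v_Om {S' : Finset X.S} {t : X.S} (ht : t ∉ S') {m : ℤ} {o : X.L}
    (ho : o ∈ X.C3_Om S' t m) : X.σ (X.v t) * o ∈ X.C3_Q S' t (m + 1) := by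
  obtain ⟨h1, h2⟩ := X.C3_mem_Om.1 ho
  exact X.C3_mem_Q.2 (X.C3_a_mul_JJ ht h1)

theorem C3_a_Om {S' : Finset X.S} {t : X.S} (ht : t ∉ S') {m : ℤ} {o : X.L}
    (ho : o ∈ X.C3_Om S' t m) : X.a t true * o ∈ X.C3_Q S' t (m + 1) := by
  obtain ⟨h1, h2⟩ := X.C3_mem_Om.1 ho
  exact X.C3_mem_Q.2 (X.C3_a_mul_JJ ht h2)

theorem C3_a'_Om {S' : Finset X.S} {t : X.S} (ht : t ∉ S') {m : ℤ} {o : X.L}
    (ho : o ∈ X.C3_Om S' t m) : X.a t false * o ∈ X.C3_Q S' t (m + 1) := by
  obtain ⟨h1, h2⟩ := X.C3_mem_Om.1 ho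
  refine X.C3_mem_Q.2 ?_
  rw [← mul_assoc, C3_aa, smul_mul_assoc, pow_two (X.σ (X.v t)), mul_assoc]
  exact Submodule.smul_mem _ _ (X.C3_v_mul_JJ ht h1)

theorem C3_h_Om {S' : Finset X.S} {t : X.S} (ht : t ∉ S') {m : ℤ} {o : X.L}
    (ho : o ∈ X.C3_Om S' t m) : X.σ (X.h t) * o ∈ X.C3_Q S' t (m + 1) := by
  have h1 := X.C3_a_Om ht ho
  have h2 := X.C3_a'_Om ht ho
  have h3 := Submodule.smul_mem _ (2 * X.η t)⁻¹ (Submodule.sub_mem _ h1 h2)
  have hη : 2 * X.η t ≠ 0 := mul_ne_zero X.two_ne (X.η_ne t)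
  convert h3 using 1
  have e1 : X.a t true - X.a t false = (2 * X.η t) • X.σ (X.h t) := by
    unfold a
    simp only [if_true, Bool.false_eq_true, if_false]
    rw [mul_smul, two_smul]
    abel
  rw [← sub_mul, e1, smul_mul_assoc, smul_smul, inv_mul_cancel₀ hη, one_smul]

/-- the numerical content -/
theorem C3_num {N N' e e' g g' e'' g'' : ℤ} {gq : ℤ} {c κ : ℚ}
    (hP : ∀ n : ℚ, hp N e g n = (N : ℚ) / 2 * (n - c) ^ 2 - κ)
    (hgq : (gq : ℚ) = hp N' e' g' 0)
    (he : e' + N' = e'') (hg : gq ≤ g'')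
    (hev : ∀ᶠ n : ℤ in atTop, hp N' e' g' n + hp N' e'' g'' ((n - 2 : ℤ) : ℚ) =
      2 * hp N e g ((n - 1 : ℤ) : ℚ)) :
    N' = N ∧ ∃ κ' : ℚ, κ + (N : ℚ) / 8 ≤ κ' ∧
      ∀ n : ℚ, hp N e' g' n = (N : ℚ) / 2 * (n - c - 1 / 2) ^ 2 - κ' := by
  obtain ⟨n₀, hn₀⟩ := eventually_atTop.1 hev
  have h0 := hn₀ n₀ le_rfl
  have h1 := hn₀ (n₀ + 1) (by omega)
  have h2 := hn₀ (n₀ + 2) (by omega)
  have p0 := hP 0
  have p1 := hP 1
  have p2 := hP (-1)
  unfold hp at *
  push_cast at h0 h1 h2
  have hN : (N' : ℚ) = N := by linear_combination (h2 - 2 * h1 + h0) / 2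
  have hN' : N' = N := by exact_mod_cast hN
  have he' : (e'' : ℚ) = e' + N' := by rw [← he]; push_cast; ring
  have hcc : (e : ℚ) = -(N : ℚ) * (c + 3 / 2) := by linear_combination (p1 - p2) / 2
  have hgg : (g : ℚ) = (N : ℚ) / 2 * (c + 1) ^ 2 - κ := by linear_combination p2
  have he1 : (e' : ℚ) = e - N / 2 := by
    rw [he', hN] at h0 h1
    linear_combination (h1 - h0) / 2
  refine ⟨hN', κ + N / 8 + (g'' - gq) / 2, ?_, fun n => ?_⟩
  · have : (gq : ℚ) ≤ g'' := by exact_mod_cast hg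
    linarith only [this]
  · rw [he', hN] at h0
    rw [he1, hcc] at h0 ⊢
    rw [hgg] at h0
    rw [hN] at hgq
    rw [he1, hcc] at hgq
    linear_combination h0 / 2 - hgq / 2

/-- 2.2: `P_{𝔍_{S'}}(n) = (N₀/2)(n - c₀ - |S'|/2)² - κ` with
`κ ≥ N₀ |S'|/8 - N₀ (m-4)/8` -/
theorem hilb_JJ [Infinite k] (S' : Finset X.S) : ∃ (e g : ℤ) (κ : ℚ), HasHilb (X.JJ S') (2 ^ (X.m - 3)) e g ∧
    (2 ^ (X.m - 3) : ℚ) * ((S'.card : ℚ) - ((X.m : ℚ) - 4)) / 8 ≤ κ ∧
    ∀ n : ℚ, hp (2 ^ (X.m - 3)) e g n = (2 ^ (X.m - 3) : ℚ) / 2 *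
      (n - ((X.m : ℚ) - 6) / 2 - (S'.card : ℚ) / 2) ^ 2 - κ := by
  classical
  induction S' using Finset.induction_on with
  | empty =>
    obtain ⟨e, g, h, hP⟩ := X.hilb_T0
    refine ⟨e, g, -((2 ^ (X.m - 3) : ℚ) * ((X.m : ℚ) - 4) / 8), ?_, ?_, ?_⟩
    · have : X.JJ ∅ = X.T0 := funext X.C3_JJ_empty
      rw [this]
      exact h
    · simp only [Finset.card_empty, Nat.cast_zero]
      apply le_of_eq
      ring
    · intro n
      rw [hP n]
      simp only [Finset.card_empty, Nat.cast_zero]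
      ring
  | insert t S' ht ih =>
    obtain ⟨e, g, κ, hJ, hκ, hP⟩ := ih
    obtain ⟨N', e', g', hJ'⟩ := (X.isBLat_JJ (insert t S')).exists_hilb
    obtain ⟨N'', e'', g'', hOm⟩ := (X.C3_isBLat_Om S' t).exists_hilb
    obtain ⟨gq, hsh, hgq⟩ := hJ'.shift 1
    have hQ : HasHilb (X.C3_Q S' t) N' (e' + 1 * N') gq :=
      hsh.map_injective _ (fun x y hxy =>
        mul_left_cancel₀ (inv_ne_zero (X.a_ne_zero t true)) hxy)
    have hcop : CopForm 2 2 (X.q (X.v t)) (X.q (X.h t)) := X.cop_q (X.vh t)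
    have hle := X.C3_Q_le_Om ht
    have hv2 : ∀ n, ∀ o ∈ X.C3_Om S' t n, X.q (X.v t) • o ∈ X.C3_Q S' t (n + (2 : ℕ)) := by
      intro n o ho
      rw [Algebra.smul_def, ← σ_sq, pow_two, mul_assoc]
      have := X.C3_Q_T0 (X.σ_mem (X.v t)) (X.C3_v_Om ht ho)
      convert this using 2
      push_cast
      ring
    have hh2 : ∀ n, ∀ o ∈ X.C3_Om S' t n, X.q (X.h t) • o ∈ X.C3_Q S' t (n + (2 : ℕ)) := by
      intro n o ho
      rw [Algebra.smul_def, ← σ_sq, pow_two, mul_assoc]
      have := X.C3_Q_T0 (X.σ_mem (X.h t)) (X.C3_h_Om ht ho)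
      convert this using 2
      push_cast
      ring
    obtain ⟨hN, he, hg⟩ := hilb_eq_of_cop (X.C3_isBLat_Q S' t) (X.C3_isBLat_Om S' t) hle hcop
      hv2 hh2 hQ hOm
    subst hN
    have hev : ∀ᶠ n : ℤ in atTop, hp N' e' g' n + hp N' e'' g'' ((n - 2 : ℤ) : ℚ) =
        2 * hp (2 ^ (X.m - 3)) e g ((n - 1 : ℤ) : ℚ) := by
      have t1 : Tendsto (fun n : ℤ => n - 1) atTop atTop := tendsto_atTop_add_const_right _ _ tendsto_id
      have t2 : Tendsto (fun n : ℤ => n - 2) atTop atTop := tendsto_atTop_add_const_right _ _ tendsto_id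
      filter_upwards [hJ', t1.eventually hJ, t2.eventually hOm] with n a1 a2 a3
      rw [← a1, ← a2, ← a3]
      exact_mod_cast X.C3_finrank ht n
    have hP2 : ∀ n : ℚ, hp (2 ^ (X.m - 3)) e g n = (((2 : ℤ) ^ (X.m - 3) : ℤ) : ℚ) / 2 *
        (n - (((X.m : ℚ) - 6) / 2 + (S'.card : ℚ) / 2)) ^ 2 - κ := by
      intro n
      rw [hP n]
      push_cast
      ring
    obtain ⟨hNN, κ', hκ', hP'⟩ := C3_num hP2 (by rw [hgq]; norm_num) (by linarith only [he]) hg hev
    refine ⟨e', g', κ', hNN ▸ hJ', ?_, ?_⟩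
    · rw [Finset.card_insert_of_notMem ht]
      push_cast at hκ' ⊢
      linarith only [hκ', hκ]
    · intro n
      rw [hP' n, Finset.card_insert_of_notMem ht]
      push_cast
      ring

end Arr

end Vale.Agent.P190.D
end
end

section

section

/-! Section 4, file P2: `L` over `L^p`, derivations, Cartier descent. -/

set_option autoImplicit false
set_option linter.unusedSectionVars false

open MvPolynomial Filter

namespace Vale.Agent.P190.D

variable {k : Type} [Field k] [IsAlgClosed k] (X : Arr k) (p : ℕ) [Fact p.Prime] [CharP k p]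

theorem P2_expChar : ExpChar X.L p :=
  have := charP_L p X
  ExpChar.prime (Fact.out : p.Prime)

/-- the subfield of `p`-th powers -/
noncomputable def P2_Lp : Subfield X.L :=
  have := P2_expChar X p
  (frobenius X.L p).fieldRange

theorem P2_mem_Lp {f : X.L} : f ∈ P2_Lp X p ↔ ∃ g, g ^ p = f := Iff.rfl

theorem P2_pow_mem (f : X.L) : f ^ p ∈ P2_Lp X p := ⟨f, rfl⟩

/-- the span of the monomials `s^b t^c`, `b, c < p`, over the `p`-th powers -/
noncomputable def P2_W (s t : X.L) : Submodule (P2_Lp X p) X.L :=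
  Submodule.span (P2_Lp X p) (Set.range fun q : Fin p × Fin p => s ^ (q.1 : ℕ) * t ^ (q.2 : ℕ))

theorem P2_ppow_mul {s t f : X.L} (c : X.L) (hf : f ∈ P2_W X p s t) :
    c ^ p * f ∈ P2_W X p s t := by
  have h := (P2_W X p s t).smul_mem (⟨c ^ p, P2_pow_mem X p c⟩ : P2_Lp X p) hf
  exact h

theorem P2_mon_mem (s t : X.L) (i j : ℕ) : s ^ i * t ^ j ∈ P2_W X p s t := by
  have hp : 0 < p := (Fact.out : p.Prime).pos
  have h1 : s ^ i * t ^ j = (s ^ (i / p) * t ^ (j / p)) ^ p * (s ^ (i % p) * t ^ (j % p)) := by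
    have hi : s ^ i = (s ^ (i / p)) ^ p * s ^ (i % p) := by
      rw [← pow_mul, ← pow_add, Nat.div_add_mod' i p]
    have hj : t ^ j = (t ^ (j / p)) ^ p * t ^ (j % p) := by
      rw [← pow_mul, ← pow_add, Nat.div_add_mod' j p]
    rw [hi, hj]; ring
  rw [h1]
  apply P2_ppow_mul
  exact Submodule.subset_span ⟨(⟨i % p, Nat.mod_lt _ hp⟩, ⟨j % p, Nat.mod_lt _ hp⟩), rfl⟩

theorem P2_mul_mem {s t f g : X.L} (hf : f ∈ P2_W X p s t) (hg : g ∈ P2_W X p s t) :
    f * g ∈ P2_W X p s t := by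
  unfold P2_W at hf
  induction hf using Submodule.span_induction with
  | mem f hf =>
    obtain ⟨q, rfl⟩ := hf
    unfold P2_W at hg
    induction hg using Submodule.span_induction with
    | mem g hg =>
      obtain ⟨r, rfl⟩ := hg
      have h := P2_mon_mem X p s t ((q.1 : ℕ) + r.1) ((q.2 : ℕ) + r.2)
      rw [pow_add, pow_add] at h
      simp only
      convert h using 1
      ring
    | zero => rw [mul_zero]; exact Submodule.zero_mem _
    | add g g' _ _ hg hg' => rw [mul_add]; exact Submodule.add_mem _ hg hg'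
    | smul c g _ hg => rw [mul_smul_comm]; exact Submodule.smul_mem _ _ hg
  | zero => rw [zero_mul]; exact Submodule.zero_mem _
  | add f f' _ _ hf hf' => rw [add_mul]; exact Submodule.add_mem _ hf hf'
  | smul c f _ hf => rw [smul_mul_assoc]; exact Submodule.smul_mem _ _ hf

theorem P2_one_mem (s t : X.L) : (1 : X.L) ∈ P2_W X p s t := by
  have h := P2_mon_mem X p s t 0 0
  rwa [pow_zero, pow_zero, mul_one] at h

theorem P2_ppow_mem (s t c : X.L) : c ^ p ∈ P2_W X p s t := by
  have h := P2_ppow_mul X p c (P2_one_mem X p s t)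
  rwa [mul_one] at h

/-- the span is a field -/
noncomputable def P2_F (s t : X.L) : Subfield X.L where
  carrier := P2_W X p s t
  mul_mem' := P2_mul_mem X p
  one_mem' := P2_one_mem X p s t
  add_mem' := (P2_W X p s t).add_mem
  zero_mem' := (P2_W X p s t).zero_mem
  neg_mem' := (P2_W X p s t).neg_mem
  inv_mem' := by
    intro f hf
    have hpow : ∀ n : ℕ, f ^ n ∈ P2_W X p s t := by
      intro n
      induction n with
      | zero => rw [pow_zero]; exact P2_one_mem X p s t
      | succ n ih => rw [pow_succ]; exact P2_mul_mem X p ih hf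
    by_cases hf0 : f = 0
    · rw [hf0, inv_zero]; exact (P2_W X p s t).zero_mem
    · have hp : 0 < p := (Fact.out : p.Prime).pos
      have h1 : f⁻¹ = (f⁻¹) ^ p * f ^ (p - 1) := by
        obtain ⟨m, rfl⟩ : ∃ m, p = m + 1 := ⟨p - 1, by omega⟩
        rw [Nat.add_sub_cancel, pow_succ, mul_assoc, mul_comm f⁻¹, ← mul_assoc, ← mul_pow,
          inv_mul_cancel₀ hf0, one_pow, one_mul]
      rw [h1]
      exact P2_ppow_mul X p _ (hpow _)

theorem P2_mem_F {s t f : X.L} : f ∈ P2_F X p s t ↔ f ∈ P2_W X p s t := Iff.rfl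

theorem P2_k_mem (s t : X.L) (c : k) : algebraMap k X.L c ∈ P2_F X p s t := by
  obtain ⟨d, hd⟩ := IsAlgClosed.exists_pow_nat_eq c (Fact.out : p.Prime).pos
  rw [← hd, map_pow]
  exact P2_ppow_mem X p s t _

theorem P2_fst_mem (s t : X.L) : s ∈ P2_F X p s t := by
  have h := P2_mon_mem X p s t 1 0
  rwa [pow_one, pow_zero, mul_one] at h

theorem P2_snd_mem (s t : X.L) : t ∈ P2_F X p s t := by
  have h := P2_mon_mem X p s t 0 1
  rwa [pow_one, pow_zero, one_mul] at h

theorem P2_σ_ne (x : X.I) : X.σ x ≠ 0 := by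
  intro h
  have h1 := Arr.σ_sq X x
  rw [h, zero_pow two_ne_zero] at h1
  have h2 : Function.Injective (algebraMap (A k) X.L) := by
    rw [IsScalarTower.algebraMap_eq (A k) (KK k) X.L]
    exact (algebraMap (KK k) X.L).injective.comp (IsFractionRing.injective (A k) (KK k))
  exact X.q_ne_zero0 x (h2 (by rw [← h1, map_zero]))

/-- if the field contains all squares `σ_x²` it is everything. -/
theorem P2_F_top {s t : X.L} (h : ∀ x, X.σ x ^ 2 ∈ P2_F X p s t) (f : X.L) :
    f ∈ P2_F X p s t := by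
  have hσ : ∀ x, X.σ x ∈ P2_F X p s t := by
    intro x
    have hodd : p % 2 = 1 := p_odd p X
    have h1 : X.σ x = X.σ x ^ p / (X.σ x ^ 2) ^ ((p - 1) / 2) := by
      rw [eq_div_iff (pow_ne_zero _ (pow_ne_zero _ (P2_σ_ne X x))), ← pow_mul, ← pow_succ']
      congr 1
      (clear * - hodd; omega)
    rw [h1]
    exact div_mem (P2_ppow_mem X p s t _) (pow_mem (h x) _)
  have hA : ∀ a : A k, algebraMap (A k) X.L a ∈ P2_F X p s t := by
    intro a
    induction a using MvPolynomial.induction_on with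
    | C c =>
      have e : algebraMap (A k) X.L (C c) = algebraMap k X.L c := by
        rw [IsScalarTower.algebraMap_apply k (A k) X.L]
        rfl
      rw [e]
      exact P2_k_mem X p s t c
    | add a b ha hb => rw [map_add]; exact add_mem ha hb
    | mul_X a i ha =>
      rw [map_mul]
      refine mul_mem ha ?_
      fin_cases i
      · have := hσ (X.b 1)
        rwa [Arr.σ_base1] at this
      · have := hσ (X.b 2)
        rwa [Arr.σ_base2] at this
  have hK : ∀ a : KK k, algebraMap (KK k) X.L a ∈ P2_F X p s t := by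
    intro a
    obtain ⟨u, w, hw, rfl⟩ := IsFractionRing.div_surjective (A := A k) a
    rw [map_div₀, ← IsScalarTower.algebraMap_apply (A k) (KK k) X.L,
      ← IsScalarTower.algebraMap_apply (A k) (KK k) X.L]
    exact div_mem (hA u) (hA w)
  obtain ⟨P, rfl⟩ := X.mkL_surjective f
  induction P using MvPolynomial.induction_on with
  | C a =>
    have e : X.mkL (C a) = algebraMap (KK k) X.L a := by
      rw [← MvPolynomial.algebraMap_eq]
      exact AlgHom.commutes X.mkL a
    rw [e]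
    exact hK a
  | add a b ha hb => rw [map_add]; exact add_mem ha hb
  | mul_X a j ha =>
    rw [map_mul, X.mkL_X]
    exact mul_mem ha (hσ _)

/-- coefficients -/
theorem P2_exists_coeff {s t f : X.L} (hf : f ∈ P2_F X p s t) : ∃ c : Fin p → Fin p → X.L,
    f = ∑ b, ∑ b', c b b' ^ p * (s ^ (b : ℕ) * t ^ (b' : ℕ)) := by
  have h1 : f ∈ Submodule.span (P2_Lp X p)
      (Set.range fun q : Fin p × Fin p => s ^ (q.1 : ℕ) * t ^ (q.2 : ℕ)) := hf
  obtain ⟨c, hc⟩ := (Submodule.mem_span_range_iff_exists_fun (P2_Lp X p)).1 h1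
  have h2 : ∀ q, ∃ d : X.L, d ^ p = (c q : X.L) := fun q => (c q).2
  choose d hd using h2
  refine ⟨fun b b' => d (b, b'), ?_⟩
  rw [← hc, Fintype.sum_prod_type]
  refine Finset.sum_congr rfl fun b _ => Finset.sum_congr rfl fun b' _ => ?_
  rw [hd]
  rfl

theorem P2_q_sq (x : X.I) : X.σ x ^ 2 = algebraMap k X.L (X.l x 0) * X.σ (X.b 0) ^ 2 +
    algebraMap k X.L (X.l x 1) * X.σ (X.b 1) ^ 2 +
    algebraMap k X.L (X.l x 2) * X.σ (X.b 2) ^ 2 := by
  rw [Arr.σ_sq, Arr.σ_base0, Arr.σ_base1, Arr.σ_base2, Arr.q]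
  have e : ∀ c : k, algebraMap (A k) X.L (C c) = algebraMap k X.L c := by
    intro c
    rw [IsScalarTower.algebraMap_apply k (A k) X.L]
    rfl
  simp only [map_add, map_mul, map_pow, e]
  ring

/-- `L = ⊕ L^p y^b z^c`, spanning -/
theorem pbasis_span (f : X.L) : ∃ c : Fin p → Fin p → X.L, f = ∑ b, ∑ b', c b b' ^ p *
    (algebraMap (A k) X.L (MvPolynomial.X 0) ^ (b : ℕ) *
      algebraMap (A k) X.L (MvPolynomial.X 1) ^ (b' : ℕ)) := by
  apply P2_exists_coeff
  apply P2_F_top
  intro x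
  rw [P2_q_sq, Arr.σ_base0, Arr.σ_base1, Arr.σ_base2]
  exact add_mem (add_mem (mul_mem (P2_k_mem X p _ _ _) (pow_mem (one_mem _) _))
    (mul_mem (P2_k_mem X p _ _ _) (pow_mem (P2_fst_mem X p _ _) _)))
    (mul_mem (P2_k_mem X p _ _ _) (pow_mem (P2_snd_mem X p _ _) _))


/-! ### independence -/

theorem P2_fin_inj {p : ℕ} {x x' c b : ℕ} (hc : c < p) (hb : b < p)
    (h : p * x' + c = p * x + b) : x' = x ∧ c = b := by
  have h1 : (p * x' + c) % p = c := by
    rw [Nat.mul_add_mod, Nat.mod_eq_of_lt hc]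
  have h2 : (p * x + b) % p = b := by
    rw [Nat.mul_add_mod, Nat.mod_eq_of_lt hb]
  have h3 : c = b := by rw [← h1, h, h2]
  refine ⟨?_, h3⟩
  rw [h3] at h
  exact Nat.eq_of_mul_eq_mul_left (by omega) (Nat.add_right_cancel h)

theorem P2_coeff {p : ℕ} [Fact p.Prime] [CharP k p] (a : A k) (m : Fin 2 →₀ ℕ)
    (b b' c c' : Fin p) :
    coeff (p • m + (Finsupp.single 0 (b : ℕ) + Finsupp.single 1 (b' : ℕ)))
      (a ^ p * (MvPolynomial.X 0 ^ (c : ℕ) * MvPolynomial.X 1 ^ (c' : ℕ))) =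
      if c = b ∧ c' = b' then coeff m a ^ p else 0 := by
  classical
  have h1 : a ^ p = ∑ v ∈ a.support, monomial (p • v) (coeff v a ^ p) := by
    conv_lhs => rw [a.as_sum]
    rw [sum_pow_char p]
    exact Finset.sum_congr rfl fun v _ => monomial_pow
  have h2 : (MvPolynomial.X 0 ^ (c : ℕ) * MvPolynomial.X 1 ^ (c' : ℕ) : A k) =
      monomial (Finsupp.single 0 (c : ℕ) + Finsupp.single 1 (c' : ℕ)) 1 := by
    rw [X_pow_eq_monomial, X_pow_eq_monomial, monomial_mul, one_mul]
  rw [h1, h2, Finset.sum_mul, coeff_sum]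
  simp only [monomial_mul, mul_one, coeff_monomial]
  have h3 : ∀ v : Fin 2 →₀ ℕ, (p • v + (Finsupp.single 0 (c : ℕ) + Finsupp.single 1 (c' : ℕ)) =
      p • m + (Finsupp.single 0 (b : ℕ) + Finsupp.single 1 (b' : ℕ))) ↔
      (v = m ∧ c = b ∧ c' = b') := by
    intro v
    constructor
    · intro h
      have e0 := DFunLike.congr_fun h 0
      have e1 := DFunLike.congr_fun h 1
      simp only [Fin.isValue, Finsupp.coe_add, Finsupp.coe_smul, nsmul_eq_mul, Pi.add_apply, Pi.mul_apply, Pi.natCast_apply, Nat.cast_id, Finsupp.single_eq_same, ne_eq, zero_ne_one, not_false_eq_true, Finsupp.single_eq_of_ne, add_zero, one_ne_zero, zero_add] at e0 e1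
      obtain ⟨f0, g0⟩ := P2_fin_inj c.2 b.2 e0
      obtain ⟨f1, g1⟩ := P2_fin_inj c'.2 b'.2 e1
      refine ⟨?_, Fin.ext g0, Fin.ext g1⟩
      ext i
      fin_cases i
      · exact f0
      · exact f1
    · rintro ⟨rfl, rfl, rfl⟩
      rfl
  simp only [h3]
  by_cases hcb : c = b ∧ c' = b'
  · simp only [hcb, and_true, if_true]
    rw [Finset.sum_ite_eq' a.support m]
    split_ifs with hm
    · rfl
    · rw [notMem_support_iff.1 hm, zero_pow (Fact.out : p.Prime).ne_zero]
  · simp only [hcb, and_false, if_false, Finset.sum_const_zero]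

theorem P2_indep_A {p : ℕ} [Fact p.Prime] [CharP k p] (a : Fin p → Fin p → A k)
    (h : ∑ b, ∑ b', a b b' ^ p *
      (MvPolynomial.X 0 ^ (b : ℕ) * MvPolynomial.X 1 ^ (b' : ℕ)) = 0) (b b' : Fin p) :
    a b b' = 0 := by
  ext m
  have h1 := congrArg (coeff (p • m + (Finsupp.single 0 (b : ℕ) +
    Finsupp.single 1 (b' : ℕ)))) h
  rw [coeff_sum, Finset.sum_eq_single b] at h1
  · rw [coeff_sum, Finset.sum_eq_single b'] at h1
    · rw [P2_coeff, if_pos ⟨rfl, rfl⟩, coeff_zero] at h1
      rw [coeff_zero]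
      exact pow_eq_zero_iff (Fact.out : p.Prime).ne_zero |>.1 h1
    · intro c' _ hc'
      rw [P2_coeff, if_neg (fun hh => hc' hh.2)]
    · intro hh; exact absurd (Finset.mem_univ _) hh
  · intro c _ hc
    rw [coeff_sum]
    refine Finset.sum_eq_zero fun c' _ => ?_
    rw [P2_coeff, if_neg (fun hh => hc hh.1)]
  · intro hh; exact absurd (Finset.mem_univ _) hh

theorem P2_indep_KK {p : ℕ} [Fact p.Prime] [CharP k p] (c : Fin p → Fin p → KK k)
    (h : ∑ b, ∑ b', c b b' ^ p * (algebraMap (A k) (KK k) (MvPolynomial.X 0) ^ (b : ℕ) *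
      algebraMap (A k) (KK k) (MvPolynomial.X 1) ^ (b' : ℕ)) = 0) (b b' : Fin p) :
    c b b' = 0 := by
  obtain ⟨d, hd⟩ := IsLocalization.exist_integer_multiples_of_finite (nonZeroDivisors (A k))
    (fun q : Fin p × Fin p => c q.1 q.2)
  choose a ha using hd
  have hd0 : algebraMap (A k) (KK k) (d : A k) ≠ 0 := by
    intro h0
    have h1 : (d : A k) = 0 := IsFractionRing.injective (A k) (KK k) (by rw [h0, map_zero])
    exact nonZeroDivisors.coe_ne_zero d h1
  have hac : ∀ b b', algebraMap (A k) (KK k) (a (b, b')) =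
      algebraMap (A k) (KK k) (d : A k) * c b b' := by
    intro b b'
    rw [ha (b, b'), Algebra.smul_def]
  have h1 : ∑ b, ∑ b', (a (b, b')) ^ p *
      (MvPolynomial.X 0 ^ (b : ℕ) * MvPolynomial.X 1 ^ (b' : ℕ)) = (0 : A k) := by
    apply IsFractionRing.injective (A k) (KK k)
    rw [map_zero, map_sum]
    have h2 := congrArg (fun t => algebraMap (A k) (KK k) (d : A k) ^ p * t) h
    simp only [mul_zero, Finset.mul_sum] at h2
    rw [← h2]
    refine Finset.sum_congr rfl fun b _ => ?_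
    rw [map_sum]
    refine Finset.sum_congr rfl fun b' _ => ?_
    rw [map_mul, map_mul, map_pow, map_pow, map_pow, hac, mul_pow]
    ring
  have h3 := P2_indep_A (fun b b' => a (b, b')) h1 b b'
  have h4 := hac b b'
  rw [h3, map_zero] at h4
  rcases mul_eq_zero.1 h4.symm with h5 | h5
  · exact absurd h5 hd0
  · exact h5

/-- the `p`-th power of a squarefree monomial -/
theorem P2_mon_pow (s : Finset X.J) : X.mon s ^ p =
    ((∏ j ∈ s, algebraMap (A k) (KK k) (X.q j.1)) ^ ((p - 1) / 2)) • X.mon s := by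
  have hodd : p % 2 = 1 := p_odd p X
  have h1 : X.mon s ^ 2 = algebraMap (KK k) X.L (∏ j ∈ s, algebraMap (A k) (KK k) (X.q j.1)) := by
    rw [Arr.mon, ← Finset.prod_pow, map_prod]
    exact Finset.prod_congr rfl fun j _ => X.σ_J_sq j
  rw [Algebra.smul_def, map_pow, ← h1, ← pow_mul, ← pow_succ]
  congr 1
  omega

/-- `L = ⊕ L^p y^b z^c`, independence -/
theorem pbasis_indep (c : Fin p → Fin p → X.L) (h : ∑ b, ∑ b', c b b' ^ p *
    (algebraMap (A k) X.L (MvPolynomial.X 0) ^ (b : ℕ) *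
      algebraMap (A k) X.L (MvPolynomial.X 1) ^ (b' : ℕ)) = 0) (b b' : Fin p) : c b b' = 0 := by
  classical
  have hch := charP_L p X
  have hex : ∀ f : X.L, ∃ g : Finset X.J → KK k, f = ∑ s, g s • X.mon s := by
    intro f
    have h1 : f ∈ Submodule.span (KK k) (Set.range X.mon) := by
      rw [X.mon_span]; trivial
    obtain ⟨g, hg⟩ := (Submodule.mem_span_range_iff_exists_fun (KK k)).1 h1
    exact ⟨g, hg.symm⟩
  choose g hg using fun b b' => hex (c b b')
  have hpow : ∀ b b', c b b' ^ p = ∑ s, (g b b' s ^ p *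
      (∏ j ∈ s, algebraMap (A k) (KK k) (X.q j.1)) ^ ((p - 1) / 2)) • X.mon s := by
    intro b b'
    conv_lhs => rw [hg b b']
    rw [sum_pow_char p]
    refine Finset.sum_congr rfl fun s _ => ?_
    rw [smul_pow, P2_mon_pow, smul_smul]
  have hAK : ∀ a : A k, algebraMap (A k) X.L a =
      algebraMap (KK k) X.L (algebraMap (A k) (KK k) a) := fun a =>
    IsScalarTower.algebraMap_apply (A k) (KK k) X.L a
  have h1 : ∑ s, (∑ b, ∑ b', (g b b' s ^ p *
      (∏ j ∈ s, algebraMap (A k) (KK k) (X.q j.1)) ^ ((p - 1) / 2)) *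
      (algebraMap (A k) (KK k) (MvPolynomial.X 0) ^ (b : ℕ) *
      algebraMap (A k) (KK k) (MvPolynomial.X 1) ^ (b' : ℕ))) • X.mon s = 0 := by
    rw [← h]
    simp only [Finset.sum_smul]
    rw [Finset.sum_comm]
    refine Finset.sum_congr rfl fun b _ => ?_
    rw [Finset.sum_comm]
    refine Finset.sum_congr rfl fun b' _ => ?_
    rw [hpow b b', Finset.sum_mul]
    refine Finset.sum_congr rfl fun s _ => ?_
    rw [hAK, hAK, Algebra.smul_def, Algebra.smul_def]
    simp only [map_mul, map_pow]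
    ring
  have h2 := Fintype.linearIndependent_iff.1 X.mon_linearIndependent _ h1
  have hq0 : ∀ s : Finset X.J, (∏ j ∈ s, algebraMap (A k) (KK k) (X.q j.1)) ^ ((p - 1) / 2) ≠ 0 := by
    intro s
    apply pow_ne_zero
    rw [Finset.prod_ne_zero_iff]
    intro j _ h0
    exact X.q_ne_zero0 j.1 (IsFractionRing.injective (A k) (KK k) (by rw [h0, map_zero]))
  have h3 : ∀ s, g b b' s = 0 := by
    intro s
    refine P2_indep_KK (fun b b' => g b b' s) ?_ b b'
    have h4 := h2 s
    have h5 : (∏ j ∈ s, algebraMap (A k) (KK k) (X.q j.1)) ^ ((p - 1) / 2) *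
        (∑ b, ∑ b', g b b' s ^ p * (algebraMap (A k) (KK k) (MvPolynomial.X 0) ^ (b : ℕ) *
          algebraMap (A k) (KK k) (MvPolynomial.X 1) ^ (b' : ℕ))) = 0 := by
      rw [← h4, Finset.mul_sum]
      refine Finset.sum_congr rfl fun b _ => ?_
      rw [Finset.mul_sum]
      exact Finset.sum_congr rfl fun b' _ => by ring
    exact (mul_eq_zero.1 h5).resolve_left (hq0 s)
  rw [hg b b']
  exact Finset.sum_eq_zero fun s _ => by rw [h3 s, zero_smul]

/-! ### the monomials in three independent lines -/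

theorem P2_linearIndependent : LinearIndependent (P2_Lp X p)
    (fun q : Fin p × Fin p => algebraMap (A k) X.L (MvPolynomial.X 0) ^ (q.1 : ℕ) *
      algebraMap (A k) X.L (MvPolynomial.X 1) ^ (q.2 : ℕ)) := by
  rw [Fintype.linearIndependent_iff]
  intro g hg q
  have h2 : ∀ q, ∃ d : X.L, d ^ p = (g q : X.L) := fun q => (g q).2
  choose d hd using h2
  have h3 := pbasis_indep X p (fun b b' => d (b, b')) (by
    rw [← hg, Fintype.sum_prod_type]
    refine Finset.sum_congr rfl fun b _ => Finset.sum_congr rfl fun b' _ => ?_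
    rw [hd]
    rfl) q.1 q.2
  apply Subtype.ext
  have h4 : d q = 0 := h3
  have h5 := hd q
  rw [h4, zero_pow (Fact.out : p.Prime).ne_zero] at h5
  rw [← h5]
  rfl

theorem P2_finrank : Module.finrank (P2_Lp X p) X.L = p * p := by
  have h1 : ⊤ ≤ Submodule.span (P2_Lp X p) (Set.range
      (fun q : Fin p × Fin p => algebraMap (A k) X.L (MvPolynomial.X 0) ^ (q.1 : ℕ) *
        algebraMap (A k) X.L (MvPolynomial.X 1) ^ (q.2 : ℕ))) := by
    intro f _
    have h2 : f ∈ P2_F X p (algebraMap (A k) X.L (MvPolynomial.X 0))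
        (algebraMap (A k) X.L (MvPolynomial.X 1)) := by
      apply P2_F_top
      intro x
      rw [P2_q_sq, Arr.σ_base0, Arr.σ_base1, Arr.σ_base2]
      exact add_mem (add_mem (mul_mem (P2_k_mem X p _ _ _) (pow_mem (one_mem _) _))
        (mul_mem (P2_k_mem X p _ _ _) (pow_mem (P2_fst_mem X p _ _) _)))
        (mul_mem (P2_k_mem X p _ _ _) (pow_mem (P2_snd_mem X p _ _) _))
    exact h2
  rw [Module.finrank_eq_card_basis (Module.Basis.mk (P2_linearIndependent X p) h1),
    Fintype.card_prod, Fintype.card_fin]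

theorem P2_indep_of_top {s t : X.L} (h : ∀ f, f ∈ P2_F X p s t) (c : Fin p → Fin p → X.L)
    (hc : ∑ b, ∑ b', c b b' ^ p * (s ^ (b : ℕ) * t ^ (b' : ℕ)) = 0) (b b' : Fin p) :
    c b b' = 0 := by
  have h1 : ⊤ ≤ Submodule.span (P2_Lp X p)
      (Set.range fun q : Fin p × Fin p => s ^ (q.1 : ℕ) * t ^ (q.2 : ℕ)) := fun f _ => h f
  have h2 := linearIndependent_of_top_le_span_of_card_eq_finrank h1 (by
    rw [P2_finrank, Fintype.card_prod, Fintype.card_fin])
  rw [Fintype.linearIndependent_iff] at h2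
  have h3 := h2 (fun q => ⟨c q.1 q.2 ^ p, P2_pow_mem X p _⟩) (by
    rw [← hc, Fintype.sum_prod_type]
    rfl) (b, b')
  have h4 : c b b' ^ p = 0 := congrArg Subtype.val h3
  exact pow_eq_zero_iff (Fact.out : p.Prime).ne_zero |>.1 h4

theorem P2_sq_comb (x : Fin 3 → X.I)
    (hx : LinearIndependent k ![X.l (x 0), X.l (x 1), X.l (x 2)]) (y : X.I) :
    ∃ α : Fin 3 → k, X.σ y ^ 2 = algebraMap k X.L (α 0) * X.σ (x 0) ^ 2 +
      algebraMap k X.L (α 1) * X.σ (x 1) ^ 2 + algebraMap k X.L (α 2) * X.σ (x 2) ^ 2 := by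
  have h1 : Submodule.span k (Set.range ![X.l (x 0), X.l (x 1), X.l (x 2)]) = ⊤ :=
    hx.span_eq_top_of_card_eq_finrank' (by simp only [Nat.succ_eq_add_one, zero_add, Nat.reduceAdd, Fintype.card_fin, Module.finrank_fintype_fun_eq_card])
  have h2 : X.l y ∈ Submodule.span k (Set.range ![X.l (x 0), X.l (x 1), X.l (x 2)]) := by
    rw [h1]; trivial
  obtain ⟨α, hα⟩ := (Submodule.mem_span_range_iff_exists_fun k).1 h2
  refine ⟨α, ?_⟩
  rw [Fin.sum_univ_three] at hα
  have h3 : ∀ j, X.l y j = α 0 * X.l (x 0) j + α 1 * X.l (x 1) j + α 2 * X.l (x 2) j := by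
    intro j
    rw [← hα]
    simp only [Fin.isValue, Nat.succ_eq_add_one, Nat.reduceAdd, Matrix.cons_val_zero, Matrix.cons_val_one, Matrix.cons_val, Pi.add_apply, Pi.smul_apply, smul_eq_mul]
  rw [P2_q_sq X y, P2_q_sq X (x 0), P2_q_sq X (x 1), P2_q_sq X (x 2), h3 0, h3 1, h3 2]
  simp only [map_add, map_mul]
  ring

/-- the ratios of three independent `σ` generate -/
theorem P2_ratio_top (x : Fin 3 → X.I)
    (hx : LinearIndependent k ![X.l (x 0), X.l (x 1), X.l (x 2)]) (f : X.L) :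
    f ∈ P2_F X p (X.σ (x 1) / X.σ (x 0)) (X.σ (x 2) / X.σ (x 0)) := by
  set s := X.σ (x 1) / X.σ (x 0) with hs
  set t := X.σ (x 2) / X.σ (x 0) with ht
  have h0 : X.σ (x 0) ≠ 0 := P2_σ_ne X _
  have h1 : ∀ y, X.σ y ^ 2 / X.σ (x 0) ^ 2 ∈ P2_F X p s t := by
    intro y
    obtain ⟨α, hα⟩ := P2_sq_comb X x hx y
    have h2 : X.σ y ^ 2 / X.σ (x 0) ^ 2 = algebraMap k X.L (α 0) +
        algebraMap k X.L (α 1) * s ^ 2 + algebraMap k X.L (α 2) * t ^ 2 := by
      rw [hα, hs, ht]
      field_simp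
    rw [h2]
    exact add_mem (add_mem (P2_k_mem X p _ _ _)
      (mul_mem (P2_k_mem X p _ _ _) (pow_mem (P2_fst_mem X p _ _) _)))
      (mul_mem (P2_k_mem X p _ _ _) (pow_mem (P2_snd_mem X p _ _) _))
  have h3 : X.σ (x 0) ^ 2 ∈ P2_F X p s t := by
    have h4 := h1 (X.b 0)
    rw [Arr.σ_base0, one_pow, one_div] at h4
    have h5 := inv_mem h4
    rwa [inv_inv] at h5
  apply P2_F_top
  intro y
  have h6 := mul_mem (h1 y) h3
  rwa [div_mul_cancel₀ _ (pow_ne_zero _ h0)] at h6

/-- reordering of the index set -/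
def P2_equiv (p : ℕ) : (Fin 3 → Fin p) ≃ Fin p × Fin p × Fin p where
  toFun u := (u 1, u 2, u 0)
  invFun q := ![q.2.2, q.1, q.2.1]
  left_inv u := by
    funext i
    fin_cases i <;> rfl
  right_inv q := rfl

/-- the monomials `σ_i^a σ_j^b σ_l^c` with `a + b + c ≡ n`, for independent lines `i j l`, are
independent over `L^p` -/
theorem pbasis_sigma (x : Fin 3 → X.I) (hx : LinearIndependent k ![X.l (x 0), X.l (x 1), X.l (x 2)])
    (n : ℤ) (c : (Fin 3 → Fin p) → X.L)
    (hc : ∀ u : Fin 3 → Fin p, ¬ (p : ℤ) ∣ n - ∑ i, ((u i : ℕ) : ℤ) → c u = 0)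
    (h : ∑ u : Fin 3 → Fin p, c u ^ p * ∏ i, X.σ (x i) ^ (u i : ℕ) = 0) (u : Fin 3 → Fin p) :
    c u = 0 := by
  have hp0 : (0 : ℤ) < p := by exact_mod_cast (Fact.out : p.Prime).pos
  have hpne : p ≠ 0 := (Fact.out : p.Prime).ne_zero
  have h0 : X.σ (x 0) ≠ 0 := P2_σ_ne X _
  -- the exponent of `σ (x 0)`
  have hex : ∀ b b' : Fin p, ∃ a : Fin p, ∃ T : ℤ, (n : ℤ) - ((a : ℕ) + (b : ℕ) + (b' : ℕ)) = p * T ∧
      ∀ a' : Fin p, (p : ℤ) ∣ n - ((a' : ℕ) + (b : ℕ) + (b' : ℕ)) → a' = a := by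
    intro b b'
    have hmod0 := Int.emod_nonneg (n - ((b : ℕ) + (b' : ℕ))) hp0.ne'
    have hmod1 := Int.emod_lt_of_pos (n - ((b : ℕ) + (b' : ℕ))) hp0
    have hlt : ((n - ((b : ℕ) + (b' : ℕ))) % p).toNat < p := by omega
    refine ⟨⟨((n - ((b : ℕ) + (b' : ℕ))) % p).toNat, hlt⟩, (n - ((b : ℕ) + (b' : ℕ))) / p, ?_, ?_⟩
    · have h1 := Int.emod_add_mul_ediv (n - ((b : ℕ) + (b' : ℕ))) p
      simp only [Int.toNat_of_nonneg hmod0]
      linarith only [h1]
    · intro a' ha'
      apply Fin.ext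
      simp only
      have h1 : (((a' : ℕ) : ℤ)) % p = (n - ((b : ℕ) + (b' : ℕ))) % p := by
        apply Int.emod_eq_emod_iff_emod_sub_eq_zero.2
        have h2 : (p : ℤ) ∣ ((a' : ℕ) : ℤ) - (n - ((b : ℕ) + (b' : ℕ))) := by
          have h3 := (dvd_neg (α := ℤ)).2 ha'
          have e : ((a' : ℕ) : ℤ) - (n - ((b : ℕ) + (b' : ℕ))) =
              -(n - ((a' : ℕ) + (b : ℕ) + (b' : ℕ))) := by ring
          rw [e]
          exact h3
        exact Int.emod_eq_zero_of_dvd h2
      have h4 : (((a' : ℕ) : ℤ)) % p = (a' : ℕ) :=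
        Int.emod_eq_of_lt (by (clear * -; positivity)) (by exact_mod_cast a'.2)
      omega
  choose a T hT ha using hex
  have key : ∀ b b', c ![a b b', b, b'] * X.σ (x 0) ^ (- T b b') = 0 := by
    intro b b'
    refine P2_indep_of_top X p (P2_ratio_top X p x hx)
      (fun b b' => c ![a b b', b, b'] * X.σ (x 0) ^ (- T b b')) ?_ b b'
    have h1 : X.σ (x 0) ^ n * ∑ b, ∑ b', (c ![a b b', b, b'] * X.σ (x 0) ^ (- T b b')) ^ p *
        ((X.σ (x 1) / X.σ (x 0)) ^ (b : ℕ) * (X.σ (x 2) / X.σ (x 0)) ^ (b' : ℕ)) = 0 := by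
      rw [← h, ← Equiv.sum_comp (P2_equiv p).symm, Fintype.sum_prod_type, Finset.mul_sum]
      refine Finset.sum_congr rfl fun b _ => ?_
      rw [Fintype.sum_prod_type, Finset.mul_sum]
      refine Finset.sum_congr rfl fun b' _ => ?_
      rw [Finset.sum_eq_single (a b b')]
      · have e1 : (P2_equiv p).symm (b, b', a b b') = ![a b b', b, b'] := rfl
        rw [e1, Fin.prod_univ_three]
        have e2 : (![a b b', b, b'] : Fin 3 → Fin p) 0 = a b b' := rfl
        have e3 : (![a b b', b, b'] : Fin 3 → Fin p) 1 = b := rfl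
        have e4 : (![a b b', b, b'] : Fin 3 → Fin p) 2 = b' := rfl
        rw [e2, e3, e4, mul_pow, div_pow, div_pow, ← zpow_natCast (X.σ (x 0) ^ (- T b b')) p,
          ← zpow_mul]
        have e5 : n = (((a b b' : ℕ) + (b : ℕ) + (b' : ℕ) : ℕ) : ℤ) + p * T b b' := by
          have := hT b b'
          push_cast
          linarith
        have e6 : X.σ (x 0) ^ n * X.σ (x 0) ^ (- T b b' * (p : ℤ)) =
            X.σ (x 0) ^ ((a b b' : ℕ) + (b : ℕ) + (b' : ℕ)) := by
          rw [← zpow_add₀ h0, ← zpow_natCast]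
          congr 1
          rw [e5]
          ring
        have e7 : X.σ (x 0) ^ n * (c ![a b b', b, b'] ^ p * X.σ (x 0) ^ (- T b b' * (p : ℤ)) *
            (X.σ (x 1) ^ (b : ℕ) / X.σ (x 0) ^ (b : ℕ) *
              (X.σ (x 2) ^ (b' : ℕ) / X.σ (x 0) ^ (b' : ℕ)))) =
            c ![a b b', b, b'] ^ p * (X.σ (x 0) ^ n * X.σ (x 0) ^ (- T b b' * (p : ℤ))) *
            (X.σ (x 1) ^ (b : ℕ) / X.σ (x 0) ^ (b : ℕ) *
              (X.σ (x 2) ^ (b' : ℕ) / X.σ (x 0) ^ (b' : ℕ))) := by ring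
        rw [e7, e6, pow_add, pow_add]
        have hb := pow_ne_zero (b : ℕ) h0
        have hb' := pow_ne_zero (b' : ℕ) h0
        field_simp
      · intro a' _ ha'
        have e1 : (P2_equiv p).symm (b, b', a') = ![a', b, b'] := rfl
        rw [e1, hc, zero_pow hpne, zero_mul]
        intro hd
        apply ha'
        apply ha b b' a'
        rw [Fin.sum_univ_three] at hd
        exact hd
      · intro hh; exact absurd (Finset.mem_univ _) hh
    exact (mul_eq_zero.1 h1).resolve_left (zpow_ne_zero _ h0)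
  by_cases hu : (p : ℤ) ∣ n - ∑ i, ((u i : ℕ) : ℤ)
  · rw [Fin.sum_univ_three] at hu
    have h1 := ha (u 1) (u 2) (u 0) hu
    have h2 : u = ![a (u 1) (u 2), u 1, u 2] := by
      rw [← h1]
      funext i
      fin_cases i <;> rfl
    have h3 := key (u 1) (u 2)
    rw [← h2] at h3
    exact (mul_eq_zero.1 h3).resolve_right (zpow_ne_zero _ h0)
  · exact hc u hu

end Vale.Agent.P190.D
end
end
namespace AFast4a92dfx1314a
@[reducible] noncomputable def a0 {x1 : Type} [x2 : Field x1] {x3 : Vale.Agent.P190.D.Arr x1} [x4 : IsAlgClosed x1] {x5 : ℕ} [x6 : Fact (Nat.Prime x5)] [x7 : CharP x1 x5] : SMulZeroClass (↥(Vale.Agent.P190.D.P2_Lp x3 x5)) x3.L := inferInstance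
@[reducible] noncomputable def a1 {x1 : Type} [x2 : Field x1] {x3 : Vale.Agent.P190.D.Arr x1} [x4 : IsAlgClosed x1] {x5 : ℕ} [x6 : Fact (Nat.Prime x5)] [x7 : CharP x1 x5] : DistribSMul (↥(Vale.Agent.P190.D.P2_Lp x3 x5)) x3.L := inferInstance
@[reducible] noncomputable def a2 {x1 : Type} [x2 : Field x1] {x3 : Vale.Agent.P190.D.Arr x1} [x4 : IsAlgClosed x1] {x5 : ℕ} [x6 : Fact (Nat.Prime x5)] [x7 : CharP x1 x5] : Semiring ↥(Vale.Agent.P190.D.P2_Lp x3 x5) := inferInstance
end AFast4a92dfx1314a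
attribute [local instance] AFast4a92dfx1314a.a0 AFast4a92dfx1314a.a1 AFast4a92dfx1314a.a2

section

section

/-! Section 4, file P2d: derivations of `L`. -/

set_option autoImplicit false
set_option linter.unusedSectionVars false

open MvPolynomial Filter

namespace Vale.Agent.P190.D

section P2d

variable {k : Type} [Field k] (X : Arr k)

/-- the ring hom `a ↦ a + ε ∂_i a` -/
noncomputable def P2d_fA (i : Fin 2) : A k →+* DualNumber X.L where
  toFun a := TrivSqZeroExt.inl (algebraMap (A k) X.L a) +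
    TrivSqZeroExt.inr (algebraMap (A k) X.L (pderiv i a))
  map_one' := by
    ext <;> simp
  map_mul' a b := by
    ext
    · simp
    · simp only [TrivSqZeroExt.snd_add, TrivSqZeroExt.snd_inl, TrivSqZeroExt.snd_inr, zero_add,
        DualNumber.snd_mul, TrivSqZeroExt.fst_add, TrivSqZeroExt.fst_inl, TrivSqZeroExt.fst_inr,
        add_zero, Derivation.leibniz, map_add, smul_eq_mul, map_mul]
      ring
  map_zero' := by
    ext <;> simp
  map_add' a b := by
    ext
    · simp only [map_add, TrivSqZeroExt.fst_add, TrivSqZeroExt.fst_inl, TrivSqZeroExt.fst_inr,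
        add_zero]
    · simp only [map_add, TrivSqZeroExt.snd_add, TrivSqZeroExt.snd_inl, TrivSqZeroExt.snd_inr,
        zero_add]

theorem P2d_fA_fst (i : Fin 2) (a : A k) :
    (P2d_fA X i a).fst = algebraMap (A k) X.L a := by
  simp [P2d_fA]

theorem P2d_fA_snd (i : Fin 2) (a : A k) :
    (P2d_fA X i a).snd = algebraMap (A k) X.L (pderiv i a) := by
  change (TrivSqZeroExt.inl (algebraMap (A k) X.L a) +
    TrivSqZeroExt.inr (algebraMap (A k) X.L (pderiv i a)) : DualNumber X.L).snd = _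
  rw [TrivSqZeroExt.snd_add, TrivSqZeroExt.snd_inl, TrivSqZeroExt.snd_inr, zero_add]

theorem P2d_unit (i : Fin 2) (y : nonZeroDivisors (A k)) : IsUnit (P2d_fA X i y) := by
  rw [TrivSqZeroExt.isUnit_iff_isUnit_fst, P2d_fA_fst, isUnit_iff_ne_zero]
  intro h
  exact nonZeroDivisors.coe_ne_zero y (X.algebraMap_injective (by rw [h, map_zero]))

/-- extension to the fraction field -/
noncomputable def P2d_fK (i : Fin 2) : KK k →+* DualNumber X.L :=
  IsLocalization.lift (M := nonZeroDivisors (A k)) (P2d_unit X i)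

theorem P2d_fK_algebraMap (i : Fin 2) (a : A k) :
    P2d_fK X i (algebraMap (A k) (KK k) a) = P2d_fA X i a :=
  IsLocalization.lift_eq _ _

/-- extension to the polynomial ring -/
noncomputable def P2d_fP (i : Fin 2) : MvPolynomial X.J (KK k) →+* DualNumber X.L :=
  eval₂Hom (P2d_fK X i) (fun j => TrivSqZeroExt.inl (X.σ j.1) +
    TrivSqZeroExt.inr (algebraMap (A k) X.L (pderiv i (X.q j.1)) / (2 * X.σ j.1)))

theorem P2d_two_ne : (2 : X.L) ≠ 0 := by
  intro h
  have h1 : algebraMap k X.L 2 = algebraMap k X.L 0 := by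
    rw [map_ofNat, map_zero]
    exact h
  exact X.two_ne ((algebraMap k X.L).injective h1)

theorem P2d_fP_idl (i : Fin 2) : ∀ a ∈ X.idl, P2d_fP X i a = 0 := by
  have h : X.idl ≤ RingHom.ker (P2d_fP X i) := by
    unfold Arr.idl
    rw [Ideal.span_le]
    rintro _ ⟨j, rfl⟩
    simp only [SetLike.mem_coe]
    rw [RingHom.mem_ker, map_sub, map_pow, sub_eq_zero]
    have e1 : P2d_fP X i (MvPolynomial.X j) = TrivSqZeroExt.inl (X.σ j.1) +
        TrivSqZeroExt.inr (algebraMap (A k) X.L (pderiv i (X.q j.1)) / (2 * X.σ j.1)) := by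
      simp only [P2d_fP, DualNumber.inr_eq_smul_eps, eval₂Hom_X']
    have e2 : P2d_fP X i (C (algebraMap (A k) (KK k) (X.q j.1))) = P2d_fA X i (X.q j.1) := by
      rw [P2d_fP, coe_eval₂Hom, eval₂_C, P2d_fK_algebraMap]
    rw [e1, e2]
    have hσ := X.σ_ne_zero j.1
    have h2 := P2d_two_ne X
    ext
    · rw [P2d_fA_fst, ← X.σ_sq j.1]
      simp only [DualNumber.inr_eq_smul_eps, TrivSqZeroExt.fst_pow, TrivSqZeroExt.fst_add, TrivSqZeroExt.fst_inl, TrivSqZeroExt.fst_smul, DualNumber.fst_eps, smul_eq_mul, mul_zero, add_zero]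
    · rw [P2d_fA_snd, pow_two, DualNumber.snd_mul]
      simp only [TrivSqZeroExt.snd_add, TrivSqZeroExt.snd_inl, TrivSqZeroExt.snd_inr, zero_add,
        TrivSqZeroExt.fst_add, TrivSqZeroExt.fst_inl, TrivSqZeroExt.fst_inr, add_zero]
      field_simp
      ring
  exact h

/-- extension to `L` -/
noncomputable def P2d_fL (i : Fin 2) : X.L →+* DualNumber X.L :=
  (Ideal.Quotient.lift X.idl (P2d_fP X i) (P2d_fP_idl X i) :
    (MvPolynomial X.J (KK k) ⧸ X.idl) →+* DualNumber X.L)

theorem P2d_fL_mkL (i : Fin 2) (P : MvPolynomial X.J (KK k)) :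
    P2d_fL X i (X.mkL P) = P2d_fP X i P := rfl

theorem P2d_fK_fst (i : Fin 2) (c : KK k) :
    (P2d_fK X i c).fst = algebraMap (KK k) X.L c := by
  have h : ((TrivSqZeroExt.fstHom X.L X.L X.L : DualNumber X.L →ₐ[X.L] X.L) :
      DualNumber X.L →+* X.L).comp (P2d_fK X i) = algebraMap (KK k) X.L := by
    refine IsLocalization.ringHom_ext (nonZeroDivisors (A k)) ?_
    refine RingHom.ext fun a => ?_
    change (P2d_fK X i (algebraMap (A k) (KK k) a)).fst =
      algebraMap (KK k) X.L (algebraMap (A k) (KK k) a)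
    rw [P2d_fK_algebraMap, P2d_fA_fst, IsScalarTower.algebraMap_apply (A k) (KK k) X.L]
  exact RingHom.congr_fun h c

theorem P2d_fP_fst (i : Fin 2) (P : MvPolynomial X.J (KK k)) :
    (P2d_fP X i P).fst = X.mkL P := by
  induction P using MvPolynomial.induction_on with
  | C a =>
    rw [P2d_fP, coe_eval₂Hom, eval₂_C, P2d_fK_fst, ← MvPolynomial.algebraMap_eq,
      AlgHom.commutes]
  | add p q hp hq => rw [map_add, TrivSqZeroExt.fst_add, hp, hq, map_add]
  | mul_X p j hp =>
    rw [map_mul, TrivSqZeroExt.fst_mul, hp, map_mul, X.mkL_X]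
    congr 1
    simp only [P2d_fP, DualNumber.inr_eq_smul_eps, eval₂Hom_X', TrivSqZeroExt.fst_add, TrivSqZeroExt.fst_inl, TrivSqZeroExt.fst_smul, DualNumber.fst_eps, smul_eq_mul, mul_zero, add_zero]

theorem P2d_fL_fst (i : Fin 2) (f : X.L) : (P2d_fL X i f).fst = f := by
  obtain ⟨P, rfl⟩ := X.mkL_surjective f
  rw [P2d_fL_mkL, P2d_fP_fst]

theorem P2d_fL_algebraMap (i : Fin 2) (a : A k) :
    P2d_fL X i (algebraMap (A k) X.L a) = P2d_fA X i a := by
  have e : algebraMap (A k) X.L a = X.mkL (C (algebraMap (A k) (KK k) a)) := by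
    rw [← MvPolynomial.algebraMap_eq, AlgHom.commutes,
      IsScalarTower.algebraMap_apply (A k) (KK k) X.L]
  rw [e, P2d_fL_mkL, P2d_fP, coe_eval₂Hom, eval₂_C, P2d_fK_algebraMap]

/-- the partial derivatives extend to `L` -/
theorem P2d_exists_der (i : Fin 2) : ∃ D : Derivation k X.L X.L, ∀ a : A k,
    D (algebraMap (A k) X.L a) = algebraMap (A k) X.L (pderiv i a) := by
  refine ⟨Derivation.mk' { toFun := fun f => (P2d_fL X i f).snd, map_add' := ?_, map_smul' := ?_ }
    ?_, fun a => ?_⟩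
  · intro f g
    rw [map_add, TrivSqZeroExt.snd_add]
  · intro c f
    have e : algebraMap k X.L c = algebraMap (A k) X.L (C c) := by
      rw [IsScalarTower.algebraMap_apply k (A k) X.L, MvPolynomial.algebraMap_eq]
    rw [Algebra.smul_def, map_mul, DualNumber.snd_mul, e, P2d_fL_algebraMap, P2d_fA_fst,
      P2d_fA_snd, pderiv_C, map_zero, zero_mul, add_zero, ← e, RingHom.id_apply,
      Algebra.smul_def]
  · intro f g
    change (P2d_fL X i (f * g)).snd = f • (P2d_fL X i g).snd + g • (P2d_fL X i f).snd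
    rw [map_mul, DualNumber.snd_mul, P2d_fL_fst, P2d_fL_fst, smul_eq_mul, smul_eq_mul]
    ring
  · change (P2d_fL X i (algebraMap (A k) X.L a)).snd = _
    rw [P2d_fL_algebraMap, P2d_fA_snd]

theorem P2d_der_σ {i : Fin 2} {D : Derivation k X.L X.L}
    (hD : ∀ a : A k, D (algebraMap (A k) X.L a) = algebraMap (A k) X.L (pderiv i a)) (x : X.I) :
    X.σ x * D (X.σ x) = X.l x (i.succ) • algebraMap (A k) X.L (MvPolynomial.X i) := by
  have h1 := congrArg D (X.σ_sq x)
  rw [hD, pow_two, Derivation.leibniz, smul_eq_mul] at h1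
  have h2 : pderiv i (X.q x) = C (2 * X.l x i.succ) * MvPolynomial.X i := by
    fin_cases i
    · exact X.pderiv_q0 x
    · exact X.pderiv_q1 x
  have h3 : algebraMap (A k) X.L (C (2 * X.l x i.succ) * MvPolynomial.X i) =
      2 * (X.l x (i.succ) • algebraMap (A k) X.L (MvPolynomial.X i)) := by
    rw [map_mul, ← MvPolynomial.algebraMap_eq, ← IsScalarTower.algebraMap_apply k (A k) X.L,
      map_mul, Algebra.smul_def, map_ofNat]
    ring
  rw [h2, h3] at h1
  have h4 : (2 : X.L) * (X.σ x * D (X.σ x)) =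
      2 * (X.l x (i.succ) • algebraMap (A k) X.L (MvPolynomial.X i)) := by
    rw [← h1]
    ring
  exact mul_left_cancel₀ (P2d_two_ne X) h4

theorem P2d_X_mem (i : Fin 2) : algebraMap (A k) X.L (MvPolynomial.X i) ∈ X.T0 1 := by
  fin_cases i
  · have h := X.σ_mem (X.b 1)
    rwa [X.σ_b1] at h
  · have h := X.σ_mem (X.b 2)
    rwa [X.σ_b2] at h

/-- degrees: the derivation `Q ∂_i` on the generators -/
theorem P2d_deg_σ {i : Fin 2} {D : Derivation k X.L X.L}
    (hD : ∀ a : A k, D (algebraMap (A k) X.L a) = algebraMap (A k) X.L (pderiv i a)) (x : X.I) :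
    (X.mon Finset.univ • D) (X.σ x) ∈ X.T0 (1 + ((X.m : ℤ) - 4)) := by
  classical
  have hc := X.card_J
  have hu : (X.mon Finset.univ) ∈ X.T0 (1 + ((X.m : ℤ) - 4)) := by
    have h := X.mon_mem Finset.univ
    rw [Finset.card_univ] at h
    rwa [show 1 + ((X.m : ℤ) - 4) = (Fintype.card X.J : ℤ) by omega]
  rw [Derivation.smul_apply, smul_eq_mul]
  by_cases hx : x ∈ Set.range X.b
  · obtain ⟨s, rfl⟩ := hx
    have hs : D (X.σ (X.b s)) = 0 ∨ D (X.σ (X.b s)) = 1 := by
      fin_cases s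
      · left
        change D (X.σ (X.b 0)) = 0
        rw [X.σ_b0, Derivation.map_one_eq_zero]
      · change D (X.σ (X.b 1)) = 0 ∨ D (X.σ (X.b 1)) = 1
        rw [X.σ_b1, hD]
        by_cases h : (0 : Fin 2) = i
        · right
          rw [← h, pderiv_X_self, map_one]
        · left
          rw [pderiv_X_of_ne h, map_zero]
      · change D (X.σ (X.b 2)) = 0 ∨ D (X.σ (X.b 2)) = 1
        rw [X.σ_b2, hD]
        by_cases h : (1 : Fin 2) = i
        · right
          rw [← h, pderiv_X_self, map_one]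
        · left
          rw [pderiv_X_of_ne h, map_zero]
    rcases hs with h | h
    · rw [h, mul_zero]
      exact Submodule.zero_mem _
    · rw [h, mul_one]
      exact hu
  · set j : X.J := ⟨x, hx⟩ with hj
    have e : X.mon Finset.univ = X.mon (Finset.univ.erase j) * X.σ x := by
      unfold Arr.mon
      rw [Finset.prod_erase_mul _ _ (Finset.mem_univ j)]
    rw [e, mul_assoc, P2d_der_σ X hD, mul_smul_comm]
    refine Submodule.smul_mem _ _ ?_
    have h := X.T0_mul (X.mon_mem (Finset.univ.erase j)) (P2d_X_mem X i)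
    rw [Finset.card_erase_of_mem (Finset.mem_univ j), Finset.card_univ] at h
    have hpos : 0 < Fintype.card X.J := Fintype.card_pos_iff.2 ⟨j⟩
    rwa [show 1 + ((X.m : ℤ) - 4) = ((Fintype.card X.J - 1 : ℕ) : ℤ) + 1 by omega]

/-- degrees: products -/
theorem P2d_deg_mul {c : ℤ} (D : Derivation k X.L X.L) {a b : ℤ} {f g : X.L}
    (hf : f ∈ X.T0 a) (hf' : D f ∈ X.T0 (a + c)) (hg : g ∈ X.T0 b) (hg' : D g ∈ X.T0 (b + c)) :
    D (f * g) ∈ X.T0 (a + b + c) := by
  rw [Derivation.leibniz, smul_eq_mul, smul_eq_mul]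
  refine add_mem ?_ ?_
  · have h := X.T0_mul hf hg'
    rwa [show a + (b + c) = a + b + c by ring] at h
  · have h := X.T0_mul hg hf'
    rwa [show b + (a + c) = a + b + c by ring] at h

theorem P2d_deg_one {c : ℤ} (D : Derivation k X.L X.L) : D 1 ∈ X.T0 (0 + c) := by
  rw [Derivation.map_one_eq_zero]
  exact Submodule.zero_mem _

theorem P2d_deg_pow {c : ℤ} (D : Derivation k X.L X.L) {x : X.I}
    (h : D (X.σ x) ∈ X.T0 (1 + c)) (n : ℕ) : D (X.σ x ^ n) ∈ X.T0 ((n : ℤ) + c) := by
  induction n with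
  | zero =>
    rw [pow_zero]
    exact P2d_deg_one X D
  | succ n ih =>
    have h1 := X.T0_pow (X.σ_mem x) n
    rw [mul_one] at h1
    have h2 := P2d_deg_mul X D h1 ih (X.σ_mem x) h
    rw [pow_succ]
    rwa [show ((n + 1 : ℕ) : ℤ) + c = (n : ℤ) + 1 + c by push_cast; ring]

theorem P2d_deg_prod {c : ℤ} (D : Derivation k X.L X.L)
    (h : ∀ x, D (X.σ x) ∈ X.T0 (1 + c)) (u : X.I → ℕ) (s : Finset X.I) :
    (∏ x ∈ s, X.σ x ^ u x) ∈ X.T0 (∑ x ∈ s, (u x : ℤ)) ∧
      D (∏ x ∈ s, X.σ x ^ u x) ∈ X.T0 ((∑ x ∈ s, (u x : ℤ)) + c) := by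
  induction s using Finset.induction_on with
  | empty =>
    simp only [Finset.prod_empty, Finset.sum_empty]
    exact ⟨X.one_mem_T0, P2d_deg_one X D⟩
  | insert a s ha ih =>
    rw [Finset.prod_insert ha, Finset.sum_insert ha]
    have h1 := X.T0_pow (X.σ_mem a) (u a)
    rw [mul_one] at h1
    exact ⟨X.T0_mul h1 ih.1, P2d_deg_mul X D h1 (P2d_deg_pow X D (h a) (u a)) ih.1 ih.2⟩

theorem P2d_deg {c : ℤ} (D : Derivation k X.L X.L)
    (h : ∀ x, D (X.σ x) ∈ X.T0 (1 + c)) {n : ℤ} {f : X.L} (hf : f ∈ X.T0 n) :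
    D f ∈ X.T0 (n + c) := by
  induction hf using Submodule.span_induction with
  | mem f hf =>
    obtain ⟨u, hu, rfl⟩ := hf
    have h1 := (P2d_deg_prod X D h u Finset.univ).2
    have h2 : (∑ x, (u x : ℤ)) = n := by
      rw [← hu]
      push_cast
      rfl
    rwa [h2] at h1
  | zero => rw [map_zero]; exact Submodule.zero_mem _
  | add f g _ _ h1 h2 => rw [map_add]; exact add_mem h1 h2
  | smul a f _ h1 => rw [Derivation.map_smul]; exact Submodule.smul_mem _ _ h1

end P2d

section P2dChar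

variable {k : Type} [Field k] [IsAlgClosed k] (X : Arr k) (p : ℕ) [Fact p.Prime] [CharP k p]

theorem P2d_der_pow (D : Derivation k X.L X.L) (c : X.L) : D (c ^ p) = 0 := by
  have := charP_L p X
  rw [Derivation.leibniz_pow, ← Nat.cast_smul_eq_nsmul X.L, CharP.cast_eq_zero, zero_smul]

theorem P2d_cast_pow (n : ℕ) : ((n : X.L)) ^ p = (n : X.L) := by
  have := charP_L p X
  have h := map_natCast (frobenius X.L p) n
  rwa [frobenius_def] at h

theorem P2d_cast_ne {n : ℕ} (hn : n ≠ 0) (hp : n < p) : (n : X.L) ≠ 0 := by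
  have := charP_L p X
  intro h
  have h1 := (CharP.cast_eq_zero_iff X.L p n).1 h
  exact absurd (Nat.le_of_dvd (Nat.pos_of_ne_zero hn) h1) (not_le.2 hp)

/-- the Euler operator `y ∂_y` on the basis -/
theorem P2d_euler {D : Derivation k X.L X.L} {y z : X.L} (hy : D y = 1) (hz : D z = 0)
    (c : X.L) (a b : ℕ) :
    y * D (c ^ p * (y ^ a * z ^ b)) = ((a : X.L) * c) ^ p * (y ^ a * z ^ b) := by
  rw [Derivation.leibniz, Derivation.leibniz, P2d_der_pow X p, smul_zero, add_zero,
    Derivation.leibniz_pow, Derivation.leibniz_pow, hy, hz, mul_pow, P2d_cast_pow]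
  simp only [smul_eq_mul, mul_one, mul_zero, smul_zero, zero_add, nsmul_eq_mul]
  rcases Nat.eq_zero_or_pos a with rfl | ha
  · simp only [Nat.cast_zero, zero_tsub, pow_zero, mul_one, mul_zero, zero_mul, one_mul]
  · obtain ⟨a', rfl⟩ : ∃ a', a = a' + 1 := ⟨a - 1, by omega⟩
    rw [Nat.add_sub_cancel, pow_succ]
    ring

/-- 4.3: two derivations of `L` of degree `m - 4` on `T₀`, with field of constants `L^p` -/
theorem exists_derivations : ∃ D : Fin 2 → Derivation k X.L X.L,
    (∀ (i : Fin 2) (n : ℤ) (f : X.L), f ∈ X.T0 n → D i f ∈ X.T0 (n + ((X.m : ℤ) - 4))) ∧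
    ∀ f : X.L, (∀ i, D i f = 0) → ∃ g, f = g ^ p := by
  choose D hD using fun i : Fin 2 => P2d_exists_der X i
  refine ⟨fun i => X.mon Finset.univ • D i, fun i n f hf =>
    P2d_deg X _ (fun x => P2d_deg_σ X (hD i) x) hf, fun f hf => ?_⟩
  have hQ : X.mon Finset.univ ≠ 0 := Finset.prod_ne_zero_iff.2 fun j _ => X.σ_ne_zero j.1
  have hD0 : ∀ i, D i f = 0 := by
    intro i
    have h := hf i
    rw [Derivation.smul_apply, smul_eq_mul] at h
    exact (mul_eq_zero.1 h).resolve_left hQ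
  obtain ⟨c, hc⟩ := pbasis_span X p f
  set y : X.L := algebraMap (A k) X.L (MvPolynomial.X 0) with hy
  set z : X.L := algebraMap (A k) X.L (MvPolynomial.X 1) with hz
  have y0 : D 0 y = 1 := by rw [hy, hD, pderiv_X_self, map_one]
  have z0 : D 0 z = 0 := by rw [hz, hD, pderiv_X_of_ne (by decide), map_zero]
  have y1 : D 1 y = 0 := by rw [hy, hD, pderiv_X_of_ne (by decide), map_zero]
  have z1 : D 1 z = 1 := by rw [hz, hD, pderiv_X_self, map_one]
  have e0 : ∑ b : Fin p, ∑ b' : Fin p, (((b : ℕ) : X.L) * c b b') ^ p *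
      (y ^ (b : ℕ) * z ^ (b' : ℕ)) = 0 := by
    have h := congrArg (fun t => y * t) (congrArg (D 0) hc)
    simp only [hD0, mul_zero, map_sum, Finset.mul_sum] at h
    rw [h]
    refine Finset.sum_congr rfl fun b _ => Finset.sum_congr rfl fun b' _ => ?_
    exact (P2d_euler X p y0 z0 _ _ _).symm
  have e1 : ∑ b : Fin p, ∑ b' : Fin p, (((b' : ℕ) : X.L) * c b b') ^ p *
      (y ^ (b : ℕ) * z ^ (b' : ℕ)) = 0 := by
    have h := congrArg (fun t => z * t) (congrArg (D 1) hc)
    simp only [hD0, mul_zero, map_sum, Finset.mul_sum] at h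
    rw [h]
    refine Finset.sum_congr rfl fun b _ => Finset.sum_congr rfl fun b' _ => ?_
    rw [mul_comm (y ^ (b : ℕ)), P2d_euler X p z1 y1]
  have i0 := fun b b' => pbasis_indep X p _ e0 b b'
  have i1 := fun b b' => pbasis_indep X p _ e1 b b'
  have hp0 : 0 < p := (Fact.out : p.Prime).pos
  refine ⟨c ⟨0, hp0⟩ ⟨0, hp0⟩, ?_⟩
  have hzero : ∀ b b' : Fin p, (b ≠ ⟨0, hp0⟩ ∨ b' ≠ ⟨0, hp0⟩) → c b b' = 0 := by
    intro b b' h
    rcases h with h | h
    · have hb : (b : ℕ) ≠ 0 := fun h' => h (Fin.ext h')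
      exact (mul_eq_zero.1 (i0 b b')).resolve_left (P2d_cast_ne X p hb b.2)
    · have hb : (b' : ℕ) ≠ 0 := fun h' => h (Fin.ext h')
      exact (mul_eq_zero.1 (i1 b b')).resolve_left (P2d_cast_ne X p hb b'.2)
  have hp1 : p ≠ 0 := hp0.ne'
  rw [hc, Finset.sum_eq_single (⟨0, hp0⟩ : Fin p), Finset.sum_eq_single (⟨0, hp0⟩ : Fin p)]
  · simp only [Fin.mk_zero', pow_zero, mul_one]
  · intro b' _ hb'
    rw [hzero _ _ (Or.inr hb'), zero_pow hp1, zero_mul]
  · intro h
    exact absurd (Finset.mem_univ _) h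
  · intro b _ hb
    refine Finset.sum_eq_zero fun b' _ => ?_
    rw [hzero _ _ (Or.inl hb), zero_pow hp1, zero_mul]
  · intro h
    exact absurd (Finset.mem_univ _) h

end P2dChar

end Vale.Agent.P190.D
end
end

section

section

/-! Section 4, file P4d: the nodes over a triple point. -/

set_option autoImplicit false
set_option linter.unusedSectionVars false

open MvPolynomial Filter

namespace Vale.Agent.P190.D

variable {k : Type} [Field k] [IsAlgClosed k] {X : Arr k}

/-! ### the point under a node -/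

theorem P4d_v_tri (t : X.S) : X.v t ∈ X.tri t := by simp only [Arr.tri, Set.mem_insert_iff, Set.mem_singleton_iff, true_or]
theorem P4d_h_tri (t : X.S) : X.h t ∈ X.tri t := by simp [Arr.tri]
theorem P4d_d_tri (t : X.S) : X.d t ∈ X.tri t := by simp [Arr.tri]

/-- the lines `h`, `d` and a line not through the triple point are independent -/
theorem P4d_indep {t : X.S} {a : X.I} (ha : a ∉ X.tri t) :
    LinearIndependent k ![X.l (X.h t), X.l (X.d t), X.l a] := by
  have h1 : X.h t ≠ a := fun h => ha (h ▸ P4d_h_tri t)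
  have h2 : X.d t ≠ a := fun h => ha (h ▸ P4d_d_tri t)
  rcases X.indep (X.h t) (X.d t) a (X.hd t) h1 h2 with h | ⟨t', ht'⟩
  · exact h
  · exfalso
    have m1 : X.h t ∈ ({X.v t', X.h t', X.d t'} : Set X.I) := by rw [← ht']; simp only [Set.mem_insert_iff, Set.mem_singleton_iff, true_or]
    have m2 : X.d t ∈ ({X.v t', X.h t', X.d t'} : Set X.I) := by rw [← ht']; simp only [Set.mem_insert_iff, Set.mem_singleton_iff, true_or, or_true]
    have m3 : a ∈ ({X.v t', X.h t', X.d t'} : Set X.I) := by rw [← ht']; simp only [Set.mem_insert_iff, Set.mem_singleton_iff, or_true]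
    have := X.share t t' (X.h t) (X.d t) (X.hd t) (P4d_h_tri t) (P4d_d_tri t) m1 m2
    subst this
    exact ha m3

/-- uniqueness: a point killed by three independent forms is zero -/
theorem P4d_zero {a b c : Fin 3 → k} (h : LinearIndependent k ![a, b, c]) {P : Fin 3 → k}
    (ha : ∑ i, a i * P i = 0) (hb : ∑ i, b i * P i = 0) (hc : ∑ i, c i * P i = 0) : P = 0 := by
  have h1 : IsUnit (Matrix.of ![a, b, c]) := by
    rw [← Matrix.linearIndependent_rows_iff_isUnit]
    exact h
  have h2 : (Matrix.of ![a, b, c]).mulVec P = 0 := by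
    funext i
    fin_cases i
    · exact ha
    · exact hb
    · exact hc
  have h3 := Matrix.mulVec_injective_of_isUnit h1
  exact h3 (by rw [h2, Matrix.mulVec_zero])

theorem P4d_exists {a b c : Fin 3 → k} (h : LinearIndependent k ![a, b, c]) :
    ∃ P : Fin 3 → k, ∑ i, a i * P i = 0 ∧ ∑ i, b i * P i = 0 ∧ ∑ i, c i * P i = 1 := by
  have h1 : IsUnit (Matrix.of ![a, b, c]) := by
    rw [← Matrix.linearIndependent_rows_iff_isUnit]
    exact h
  obtain ⟨P, hP⟩ := (Matrix.mulVec_surjective_iff_isUnit.mpr h1) ![0, 0, 1]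
  exact ⟨P, congrFun hP 0, congrFun hP 1, congrFun hP 2⟩

theorem P4d_v {t : X.S} {P : Fin 3 → k} (hh : ∑ i, X.l (X.h t) i * P i = 0)
    (hd : ∑ i, X.l (X.d t) i * P i = 0) : ∑ i, X.l (X.v t) i * P i = 0 := by
  have h1 : ∀ i, X.ν t ^ 2 * X.l (X.v t) i =
      X.δ t ^ 2 * X.l (X.d t) i - X.η t ^ 2 * X.l (X.h t) i := by
    intro i
    have := congrFun (X.rel t) i
    simp only [Pi.sub_apply, Pi.smul_apply, smul_eq_mul] at this
    exact this.symm
  have h2 : X.ν t ^ 2 * ∑ i, X.l (X.v t) i * P i =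
      X.δ t ^ 2 * ∑ i, X.l (X.d t) i * P i - X.η t ^ 2 * ∑ i, X.l (X.h t) i * P i := by
    rw [Finset.mul_sum, Finset.mul_sum, Finset.mul_sum, ← Finset.sum_sub_distrib]
    refine Finset.sum_congr rfl fun i _ => ?_
    rw [← mul_assoc, h1]
    ring
  rw [hh, hd, mul_zero, mul_zero, sub_zero] at h2
  exact (mul_eq_zero.mp h2).resolve_left (pow_ne_zero 2 (X.ν_ne t))

theorem P4d_tri_zero {t : X.S} {P : Fin 3 → k} (hh : ∑ i, X.l (X.h t) i * P i = 0)
    (hd : ∑ i, X.l (X.d t) i * P i = 0) {a : X.I} (ha : a ∈ X.tri t) :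
    ∑ i, X.l a i * P i = 0 := by
  simp only [Arr.tri, Set.mem_insert_iff, Set.mem_singleton_iff] at ha
  rcases ha with rfl | rfl | rfl
  · exact P4d_v hh hd
  · exact hh
  · exact hd

theorem node_card {t : X.S} {b₀ : X.I} (hb : b₀ ∉ X.tri t) : ∃ Nd : Finset (X.I → k),
    (∀ ξ, ξ ∈ Nd ↔ IsNode X t b₀ ξ) ∧ Nd.card = 2 ^ (X.m - 4) := by
  classical
  obtain ⟨P, hPh, hPd, hPb⟩ := P4d_exists (P4d_indep hb)
  have hne : ∀ a, a ∉ X.tri t → ∑ i, X.l a i * P i ≠ 0 := by
    intro a ha h0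
    have := P4d_zero (P4d_indep ha) hPh hPd h0
    rw [this] at hPb
    simp at hPb
  have hr : ∀ a, ∃ r : k, r ^ 2 = ∑ i, X.l a i * P i := fun a =>
    IsAlgClosed.exists_pow_nat_eq _ (by norm_num)
  choose r hr using hr
  have hrne : ∀ a, a ∉ X.tri t → r a ≠ 0 := by
    intro a ha h0
    apply hne a ha
    rw [← hr a, h0]
    simp
  let T : X.I → Finset k := fun a =>
    if a ∈ X.tri t then {0} else if a = b₀ then {1} else {r a, - r a}
  refine ⟨Fintype.piFinset T, fun ξ => ?_, ?_⟩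
  · rw [Fintype.mem_piFinset]
    constructor
    · intro h
      have h1 : ∀ a ∈ X.tri t, ξ a = 0 := by
        intro a ha
        have := h a
        simp only [T, if_pos ha, Finset.mem_singleton] at this
        exact this
      have h2 : ξ b₀ = 1 := by
        have := h b₀
        simp only [T, if_neg hb, if_true, Finset.mem_singleton] at this
        exact this
      have h3 : ∀ a, a ∉ X.tri t → a ≠ b₀ → ξ a = r a ∨ ξ a = - r a := by
        intro a ha hab
        have := h a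
        simp only [T, if_neg ha, if_neg hab, Finset.mem_insert, Finset.mem_singleton] at this
        exact this
      refine ⟨h2, h1, fun a ha => ?_, P, fun a => ?_⟩
      · by_cases hab : a = b₀
        · rw [hab, h2]; exact one_ne_zero
        · rcases h3 a ha hab with h | h
          · rw [h]; exact hrne a ha
          · rw [h]; exact neg_ne_zero.mpr (hrne a ha)
      · by_cases ha : a ∈ X.tri t
        · rw [h1 a ha, P4d_tri_zero hPh hPd ha]; simp
        · by_cases hab : a = b₀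
          · rw [hab, h2, hPb]; simp
          · rw [← hr a]
            rcases h3 a ha hab with h | h
            · rw [h]
            · rw [h]; ring
    · intro h
      obtain ⟨P', hP'⟩ := h.rel
      have e1 : P' = P := by
        have : P' - P = 0 := by
          apply P4d_zero (P4d_indep hb)
          · simp only [Pi.sub_apply, mul_sub, Finset.sum_sub_distrib]
            rw [← hP', hPh, h.zero _ (P4d_h_tri t)]; simp
          · simp only [Pi.sub_apply, mul_sub, Finset.sum_sub_distrib]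
            rw [← hP', hPd, h.zero _ (P4d_d_tri t)]; simp
          · simp only [Pi.sub_apply, mul_sub, Finset.sum_sub_distrib]
            rw [← hP', hPb, h.one]; simp
        exact sub_eq_zero.mp this
      intro a
      by_cases ha : a ∈ X.tri t
      · simp only [T, if_pos ha, Finset.mem_singleton]
        exact h.zero a ha
      · by_cases hab : a = b₀
        · simp only [T, if_neg ha, if_pos hab, Finset.mem_singleton]
          rw [hab]; exact h.one
        · simp only [T, if_neg ha, if_neg hab, Finset.mem_insert, Finset.mem_singleton]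
          apply sq_eq_sq_iff_eq_or_eq_neg.mp
          rw [hP', e1, hr]
  · rw [Fintype.card_piFinset]
    have hc : ∀ a, (T a).card = if a ∈ X.tri t ∨ a = b₀ then 1 else 2 := by
      intro a
      by_cases ha : a ∈ X.tri t
      · simp only [ha, ↓reduceIte, Finset.card_singleton, true_or, T]
      · by_cases hab : a = b₀
        · simp only [hab, hb, ↓reduceIte, Finset.card_singleton, or_true, T]
        · simp only [if_neg ha, if_neg hab, T]
          rw [if_neg (by tauto)]
          apply Finset.card_pair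
          intro h0
          have : (2 : k) * r a = 0 := by linear_combination h0
          rcases mul_eq_zero.mp this with h | h
          · exact X.two_ne h
          · exact hrne a ha h
    rw [Finset.prod_congr rfl fun a _ => hc a]
    rw [Finset.prod_ite]
    simp only [Finset.prod_const_one, Finset.prod_const, one_mul]
    congr 1
    have h1 : (Finset.univ.filter fun a : X.I => ¬ (a ∈ X.tri t ∨ a = b₀)) =
        Finset.univ \ {X.v t, X.h t, X.d t, b₀} := by
      ext a
      simp only [Arr.tri, Finset.mem_filter, Finset.mem_univ, true_and, Set.mem_insert_iff,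
        Set.mem_singleton_iff, Finset.mem_sdiff, Finset.mem_insert, Finset.mem_singleton]
      (clear * -; tauto)
    rw [h1, Finset.card_sdiff_of_subset (Finset.subset_univ _), Finset.card_univ]
    have h2 : ({X.v t, X.h t, X.d t, b₀} : Finset X.I).card = 4 := by
      have n1 : X.v t ≠ b₀ := fun h => hb (h ▸ P4d_v_tri t)
      have n2 : X.h t ≠ b₀ := fun h => hb (h ▸ P4d_h_tri t)
      have n3 : X.d t ≠ b₀ := fun h => hb (h ▸ P4d_d_tri t)
      rw [Finset.card_insert_of_notMem (by simp only [Finset.mem_insert, X.vh t, X.vd t, Finset.mem_singleton, n1, or_self, not_false_eq_true]),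
        Finset.card_insert_of_notMem (by simp [X.hd t, n2]), Finset.card_pair n3]
    rw [h2]
    rfl

/-! ### normal forms of monomials -/

/-- the lines of `J` with odd exponent -/
noncomputable def P4dS (X : Arr k) (u : X.I → ℕ) : Finset X.J :=
  Finset.univ.filter fun j : X.J => u j.1 % 2 = 1

/-- the factor of a monomial in the base lines -/
noncomputable def P4dh (X : Arr k) (u : X.I → ℕ) : MvPolynomial (Fin 3) k :=
  (∏ j : X.J, (∑ i, C (X.l j.1 i) * MvPolynomial.X i ^ 2) ^ (u j.1 / 2)) *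
    ∏ i, MvPolynomial.X i ^ u (X.b i)

theorem P4d_prod_split {R : Type} [CommMonoid R] (X : Arr k) (g : X.I → R) :
    ∏ a, g a = (∏ i, g (X.b i)) * ∏ j : X.J, g j.1 := by
  classical
  have h1 : ∏ a, g a = (∏ a ∈ Finset.univ.filter (fun a => a ∈ Set.range X.b), g a) *
      ∏ a ∈ Finset.univ.filter (fun a => ¬ a ∈ Set.range X.b), g a :=
    (Finset.prod_filter_mul_prod_filter_not _ _ _).symm
  rw [h1]
  congr 1
  · have : Finset.univ.filter (fun a => a ∈ Set.range X.b) = Finset.univ.image X.b := by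
      ext a; simp only [Set.mem_range, Finset.univ_filter_exists, Finset.mem_image, Finset.mem_univ, true_and]
    rw [this, Finset.prod_image (fun x _ y _ h => X.b_inj h)]
  · exact Finset.prod_subtype _ (by intro x; simp only [Set.mem_range, not_exists, Finset.mem_filter, Finset.mem_univ, true_and]) g

theorem P4d_mono {R : Type} [CommRing R] [Algebra k R] (f : X.I → R)
    (hf : ∀ a, f a ^ 2 = ∑ i, algebraMap k R (X.l a i) * f (X.b i) ^ 2) (u : X.I → ℕ) :
    ∏ a, f a ^ u a = aeval (fun i => f (X.b i)) (P4dh X u) * ∏ j ∈ P4dS X u, f j.1 := by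
  rw [P4d_prod_split X (fun a => f a ^ u a)]
  unfold P4dh P4dS
  have h1 : ∀ j : X.J, f j.1 ^ u j.1 =
      (∑ i, algebraMap k R (X.l j.1 i) * f (X.b i) ^ 2) ^ (u j.1 / 2) *
        if u j.1 % 2 = 1 then f j.1 else 1 := by
    intro j
    rw [← hf]
    have h2 := Nat.div_add_mod (u j.1) 2
    conv_lhs => rw [← h2]
    rw [pow_add, pow_mul]
    congr 1
    rcases Nat.mod_two_eq_zero_or_one (u j.1) with h | h
    · rw [h]; simp only [pow_zero, zero_ne_one, ↓reduceIte]
    · rw [h]; simp only [pow_one, ↓reduceIte]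
  rw [Finset.prod_congr rfl fun j _ => h1 j, Finset.prod_mul_distrib, Finset.prod_filter]
  simp only [map_mul, map_prod, map_pow, map_sum, aeval_C, aeval_X]
  ring

theorem P4d_h_hom (X : Arr k) (u : X.I → ℕ) :
    (P4dh X u).IsHomogeneous ((∑ j : X.J, 2 * (u j.1 / 2)) + ∑ i, u (X.b i)) := by
  unfold P4dh
  apply IsHomogeneous.mul
  · apply IsHomogeneous.prod
    intro j _
    apply IsHomogeneous.pow
    apply IsHomogeneous.sum
    intro i _
    exact isHomogeneous_C_mul_X_pow _ _ _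
  · apply IsHomogeneous.prod
    intro i _
    exact isHomogeneous_X_pow _ _

theorem P4d_sum_split (X : Arr k) (u : X.I → ℕ) :
    ∑ a, u a = ((∑ j : X.J, 2 * (u j.1 / 2)) + ∑ i, u (X.b i)) + (P4dS X u).card := by
  have h := P4d_prod_split X (fun a => Multiplicative.ofAdd (u a))
  have h1 : ∑ a, u a = (∑ i, u (X.b i)) + ∑ j : X.J, u j.1 := by
    have := congrArg Multiplicative.toAdd h
    simpa only [toAdd_prod, toAdd_ofAdd, toAdd_mul] using this
  rw [h1]
  unfold P4dS
  rw [Finset.card_filter]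
  have h2 : ∀ j : X.J, u j.1 = 2 * (u j.1 / 2) + if u j.1 % 2 = 1 then 1 else 0 := by
    intro j
    split_ifs <;> omega
  rw [Finset.sum_congr rfl fun j _ => h2 j, Finset.sum_add_distrib]
  ring

/-- dehomogenisation is injective on homogeneous polynomials -/
theorem P4d_dehom {n : ℕ} {g : MvPolynomial (Fin 3) k} (hg : g.IsHomogeneous n)
    (h : aeval ![(1 : A k), MvPolynomial.X 0, MvPolynomial.X 1] g = 0) : g = 0 := by
  have h1 : ∀ x : Fin 3 → k, x 0 ≠ 0 → eval x g = 0 := by
    intro x hx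
    have h2 : eval x g = x 0 ^ n * eval ![1, x 1 / x 0, x 2 / x 0] g := by
      rw [eval_eq', eval_eq', Finset.mul_sum]
      refine Finset.sum_congr rfl fun d hd => ?_
      have h3 : n = ∑ i, d i := by
        rw [hg.degree_eq_sum_deg_support hd]
        exact Finset.sum_subset (Finset.subset_univ _) (by simp)
      rw [h3, Fin.sum_univ_three, Fin.prod_univ_three, Fin.prod_univ_three]
      simp only [Matrix.cons_val_zero, Matrix.cons_val_one, Matrix.cons_val]
      rw [pow_add, pow_add, div_pow, div_pow, one_pow]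
      field_simp
    have h4 : eval ![1, x 1 / x 0, x 2 / x 0] g =
        eval ![x 1 / x 0, x 2 / x 0] (aeval ![(1 : A k), MvPolynomial.X 0, MvPolynomial.X 1] g) := by
      have h6 := comp_aeval_apply ![(1 : A k), MvPolynomial.X 0, MvPolynomial.X 1]
        (aeval ![x 1 / x 0, x 2 / x 0] : A k →ₐ[k] k) g
      simp only [aeval_eq_eval] at h6
      rw [h6]
      congr 2
      funext i
      fin_cases i <;> simp
    rw [h2, h4, h, map_zero, mul_zero]
  have h5 : MvPolynomial.X 0 * g = 0 := by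
    apply MvPolynomial.funext
    intro x
    rw [map_mul, eval_X, map_zero]
    by_cases hx : x 0 = 0
    · rw [hx, zero_mul]
    · rw [h1 x hx, mul_zero]
  exact (mul_eq_zero.mp h5).resolve_left (X_ne_zero 0)

theorem P4d_sig (a : X.I) : X.σ a ^ 2 = ∑ i, algebraMap k X.L (X.l a i) * X.σ (X.b i) ^ 2 := by
  rw [Arr.σ_sq, Fin.sum_univ_three, Arr.σ_b0, Arr.σ_b1, Arr.σ_b2, Arr.q]
  simp only [map_add, map_mul, map_pow]
  have : ∀ c : k, algebraMap (A k) X.L (C c) = algebraMap k X.L c := by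
    intro c
    rw [IsScalarTower.algebraMap_apply k (A k) X.L]
    rfl
  rw [this, this, this]
  ring

theorem P4d_fam {ι : Type} (s : Finset ι) (c : ι → k) (u : ι → X.I → ℕ) (n : ℕ)
    (hn : ∀ i ∈ s, ∑ a, u i a = n)
    (h : ∑ i ∈ s, algebraMap k X.L (c i) * ∏ a, X.σ a ^ u i a = 0) (ξ : X.I → k)
    (hξ : ∀ a, ξ a ^ 2 = ∑ i, X.l a i * ξ (X.b i) ^ 2) :
    ∑ i ∈ s, c i * ∏ a, ξ a ^ u i a = 0 := by
  classical
  let g : Finset X.J → MvPolynomial (Fin 3) k := fun S =>
    ∑ i ∈ s with P4dS X (u i) = S, C (c i) * P4dh X (u i)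
  have hdecomp : ∀ (R : Type) [CommRing R] [Algebra k R] (f : X.I → R),
      (∀ a, f a ^ 2 = ∑ i, algebraMap k R (X.l a i) * f (X.b i) ^ 2) →
      ∑ i ∈ s, algebraMap k R (c i) * ∏ a, f a ^ u i a =
        ∑ S : Finset X.J, aeval (fun i => f (X.b i)) (g S) * ∏ j ∈ S, f j.1 := by
    intro R _ _ f hf
    rw [← Finset.sum_fiberwise s (fun i => P4dS X (u i))]
    refine Finset.sum_congr rfl fun S _ => ?_
    simp only [g, map_sum, map_mul, aeval_C]
    rw [Finset.sum_mul]
    refine Finset.sum_congr rfl fun i hi => ?_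
    rw [Finset.mem_filter] at hi
    rw [P4d_mono f hf, hi.2]
    ring
  have h1 := hdecomp X.L X.σ P4d_sig
  rw [h] at h1
  have h2 : ∀ S, aeval (fun i => X.σ (X.b i)) (g S) =
      algebraMap (A k) X.L (aeval ![(1 : A k), MvPolynomial.X 0, MvPolynomial.X 1] (g S)) := by
    intro S
    rw [← aeval_algebraMap_apply]
    congr 2
    funext i
    fin_cases i
    · simp only [Fin.zero_eta, Fin.isValue, Arr.σ_b0, Nat.succ_eq_add_one, Nat.reduceAdd, Function.comp_apply, Matrix.cons_val_zero, map_one]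
    · simp only [Fin.mk_one, Fin.isValue, Arr.σ_b1, Nat.succ_eq_add_one, Nat.reduceAdd, Function.comp_apply, Matrix.cons_val_one, Matrix.cons_val_zero]
    · simp only [Fin.reduceFinMk, Fin.isValue, Arr.σ_b2, Nat.succ_eq_add_one, Nat.reduceAdd, Function.comp_apply, Matrix.cons_val]
  have h3 : ∀ S, aeval ![(1 : A k), MvPolynomial.X 0, MvPolynomial.X 1] (g S) = 0 := by
    apply Fintype.linearIndependent_iff.mp X.mon_li
    rw [h1]
    refine Finset.sum_congr rfl fun S _ => ?_
    rw [h2 S, Algebra.smul_def]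
    rfl
  have h4 : ∀ S, g S = 0 := by
    intro S
    have hg : (g S).IsHomogeneous (n - S.card) := by
      apply IsHomogeneous.sum
      intro i hi
      rw [Finset.mem_filter] at hi
      apply IsHomogeneous.C_mul
      have e1 := P4d_h_hom X (u i)
      have e2 := P4d_sum_split X (u i)
      rw [hn i hi.1, hi.2] at e2
      have e3 : n - S.card = (∑ j : X.J, 2 * (u i j.1 / 2)) + ∑ i', u i (X.b i') := by omega
      rw [e3]
      exact e1
    exact P4d_dehom hg (h3 S)
  have h5 := hdecomp k ξ (by intro a; simpa only [Algebra.algebraMap_self, RingHom.id_apply] using hξ a)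
  simp only [h4, map_zero, zero_mul, Finset.sum_const_zero] at h5
  simpa only [Algebra.algebraMap_self, RingHom.id_apply] using h5

theorem P4d_rel {t : X.S} {b₀ : X.I} {ξ : X.I → k} (hξ : IsNode X t b₀ ξ) (a : X.I) :
    ξ a ^ 2 = ∑ i, X.l a i * ξ (X.b i) ^ 2 := by
  obtain ⟨P, hP⟩ := hξ.rel
  have h1 : ∀ i, ξ (X.b i) ^ 2 = P i := by
    intro i
    rw [hP, X.l_b]
    simp [Pi.single_apply]
  rw [hP]
  simp_rw [h1]

/-- evaluation at a node is well defined -/
theorem eval_node {t : X.S} {b₀ : X.I} {ξ : X.I → k} (hξ : IsNode X t b₀ ξ)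
    (F : MvPolynomial X.I k) (hF : aeval (tau b₀) F = (0 : X.L)) : eval ξ F = 0 := by
  classical
  set n := F.totalDegree with hn
  let u : (X.I →₀ ℕ) → X.I → ℕ := fun d a => d a + if a = b₀ then n - ∑ a', d a' else 0
  have hle : ∀ d ∈ F.support, ∑ a, d a ≤ n := by
    intro d hd
    have := le_totalDegree hd
    rwa [Finsupp.sum_fintype _ _ (fun _ => rfl)] at this
  have hprod : ∀ (R : Type) [CommRing R] (f : X.I → R) (d : X.I →₀ ℕ),
      ∏ a, f a ^ u d a = (∏ a, f a ^ d a) * f b₀ ^ (n - ∑ a', d a') := by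
    intro R _ f d
    simp only [u, pow_add, Finset.prod_mul_distrib]
    congr 1
    rw [Finset.prod_eq_single b₀]
    · rw [if_pos rfl]
    · intro a _ ha
      rw [if_neg ha, pow_zero]
    · intro h; exact absurd (Finset.mem_univ _) h
  have hσ : X.σ b₀ ≠ 0 := X.σ_ne_zero b₀
  have h1 : ∑ d ∈ F.support, algebraMap k X.L (F.coeff d) * ∏ a, X.σ a ^ u d a = 0 := by
    have h2 : X.σ b₀ ^ n * aeval (tau b₀) F = (0 : X.L) := by rw [hF, mul_zero]
    rw [aeval_def, eval₂_eq', Finset.mul_sum] at h2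
    rw [← h2]
    refine Finset.sum_congr rfl fun d hd => ?_
    rw [hprod X.L X.σ d]
    have h3 : ∏ a, tau b₀ a ^ d a = (∏ a, X.σ a ^ d a) / X.σ b₀ ^ (∑ a, d a) := by
      simp only [tau, div_pow, Finset.prod_div_distrib]
      congr 1
      exact Finset.prod_pow_eq_pow_sum _ _ _
    rw [h3, pow_sub₀ _ hσ (hle d hd)]
    field_simp
  have h4 := P4d_fam F.support (fun d => F.coeff d) u n (fun d hd => by
    simp only [u, Finset.sum_add_distrib, Finset.sum_ite_eq', Finset.mem_univ, if_true]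
    have := hle d hd
    (clear * - this; omega)) h1 ξ (P4d_rel hξ)
  rw [eval_eq']
  rw [← h4]
  refine Finset.sum_congr rfl fun d hd => ?_
  rw [hprod k ξ d, hξ.one, one_pow, mul_one]

end Vale.Agent.P190.D
end
end

section

section

/-! Section 4, file P4f, auxiliary: the idempotents of the nodes. -/

set_option autoImplicit false
set_option linter.unusedSectionVars false

open MvPolynomial Filter

namespace Vale.Agent.P190.D

variable {k : Type} [Field k] [IsAlgClosed k] {X : Arr k} {r : ℕ}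

/-- stabiliser of a subspace -/
def P4f_st (M : Submodule k (Fin r → X.L)) : Subalgebra k X.L where
  carrier := {g | ∀ v ∈ M, g • v ∈ M}
  mul_mem' := fun {a b} ha hb v hv => by rw [mul_smul]; exact ha _ (hb _ hv)
  add_mem' := fun {a b} ha hb v hv => by rw [add_smul]; exact M.add_mem (ha _ hv) (hb _ hv)
  algebraMap_mem' := fun c v hv => by rw [algebraMap_smul]; exact M.smul_mem _ hv

/-- transporter of a subspace into another one -/
def P4f_tr (M K : Submodule k (Fin r → X.L)) : Submodule k X.L where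
  carrier := {g | ∀ v ∈ M, g • v ∈ K}
  zero_mem' := fun v _ => by rw [zero_smul]; exact K.zero_mem
  add_mem' := fun {a b} ha hb v hv => by rw [add_smul]; exact K.add_mem (ha _ hv) (hb _ hv)
  smul_mem' := fun c g hg v hv => by rw [smul_assoc]; exact K.smul_mem _ (hg _ hv)

lemma P4f_mem_st {M : Submodule k (Fin r → X.L)} {g : X.L} :
    g ∈ P4f_st M ↔ ∀ v ∈ M, g • v ∈ M := Iff.rfl

lemma P4f_mem_tr {M K : Submodule k (Fin r → X.L)} {g : X.L} :
    g ∈ P4f_tr M K ↔ ∀ v ∈ M, g • v ∈ K := Iff.rfl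

lemma P4f_tr_mul {M K : Submodule k (Fin r → X.L)} {f g : X.L} (hf : f ∈ P4f_tr M K)
    (hg : g ∈ P4f_st M) : f * g ∈ P4f_tr M K := fun v hv => by
  rw [mul_smul]; exact hf _ (hg _ hv)

/-! ### the arrangement -/

lemma P4f_coord {t : X.S} {b₀ : X.I} (hb : b₀ ∉ X.tri t) (a : X.I) :
    ∃ x y c : k, ∀ i, X.l a i = x * X.l (X.h t) i + y * X.l (X.d t) i + c * X.l b₀ i := by
  have hi := P4d_indep hb
  have hs : Submodule.span k (Set.range ![X.l (X.h t), X.l (X.d t), X.l b₀]) = ⊤ :=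
    hi.span_eq_top_of_card_eq_finrank (by simp only [Nat.succ_eq_add_one, zero_add, Nat.reduceAdd, Fintype.card_fin, Module.finrank_fintype_fun_eq_card])
  have hm : X.l a ∈ Submodule.span k (Set.range ![X.l (X.h t), X.l (X.d t), X.l b₀]) := by
    rw [hs]; exact Submodule.mem_top
  obtain ⟨c, hc⟩ := (Submodule.mem_span_range_iff_exists_fun k).1 hm
  refine ⟨c 0, c 1, c 2, fun i => ?_⟩
  rw [← hc, Fin.sum_univ_three]
  simp only [Fin.isValue, Nat.succ_eq_add_one, Nat.reduceAdd, Matrix.cons_val_zero, Matrix.cons_val_one, Matrix.cons_val, Pi.add_apply, Pi.smul_apply, smul_eq_mul]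

lemma P4f_tau_sq {t : X.S} {b₀ : X.I} (hb : b₀ ∉ X.tri t) {ξ : X.I → k}
    (hξ : IsNode X t b₀ ξ) (a : X.I) : ∃ x y : k,
    tau b₀ a ^ 2 - algebraMap k X.L (ξ a) ^ 2 =
      x • tau b₀ (X.h t) ^ 2 + y • tau b₀ (X.d t) ^ 2 := by
  obtain ⟨x, y, c, h⟩ := P4f_coord hb a
  have key : ∀ (R : Type) [CommRing R] [Algebra k R] (f : X.I → R),
      (∀ a, f a ^ 2 = ∑ i, algebraMap k R (X.l a i) * f (X.b i) ^ 2) →
      f a ^ 2 = algebraMap k R x * f (X.h t) ^ 2 + algebraMap k R y * f (X.d t) ^ 2 +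
        algebraMap k R c * f b₀ ^ 2 := by
    intro R _ _ f hf
    rw [hf a, hf (X.h t), hf (X.d t), hf b₀, Finset.mul_sum, Finset.mul_sum, Finset.mul_sum,
      ← Finset.sum_add_distrib, ← Finset.sum_add_distrib]
    refine Finset.sum_congr rfl fun i _ => ?_
    rw [h i]
    simp only [map_add, map_mul]
    ring
  have h1 := key X.L X.σ P4d_sig
  have h2 := key k ξ (by intro a; simpa only [Algebra.algebraMap_self, RingHom.id_apply] using P4d_rel hξ a)
  rw [hξ.zero _ (P4d_h_tri t), hξ.zero _ (P4d_d_tri t), hξ.one] at h2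
  simp only [Algebra.algebraMap_self, RingHom.id_apply, ne_eq, OfNat.ofNat_ne_zero,
    not_false_eq_true, zero_pow, mul_zero, add_zero, one_pow, mul_one, zero_add] at h2
  refine ⟨x, y, ?_⟩
  rw [← map_pow, h2, Algebra.smul_def, Algebra.smul_def]
  unfold tau
  have hσ := X.σ_ne_zero b₀
  rw [div_pow, div_pow, div_pow, h1]
  field_simp
  ring

/-- explicit description of the nodes -/
theorem P4f_nodes {t : X.S} {b₀ : X.I} (hb : b₀ ∉ X.tri t) : ∃ T : X.I → Finset k,
    (∀ ξ, ξ ∈ Fintype.piFinset T ↔ IsNode X t b₀ ξ) ∧ (∀ a ∈ X.tri t, T a = {0}) ∧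
      T b₀ = {1} ∧ ∀ a, a ∉ X.tri t → a ≠ b₀ → ∃ s : k, s ≠ 0 ∧
        ∀ x, x ∈ T a ↔ x = s ∨ x = -s := by
  classical
  obtain ⟨P, hPh, hPd, hPb⟩ := P4d_exists (P4d_indep hb)
  have hne : ∀ a, a ∉ X.tri t → ∑ i, X.l a i * P i ≠ 0 := by
    intro a ha h0
    have := P4d_zero (P4d_indep ha) hPh hPd h0
    rw [this] at hPb
    simp at hPb
  have hr : ∀ a, ∃ r : k, r ^ 2 = ∑ i, X.l a i * P i := fun a =>
    IsAlgClosed.exists_pow_nat_eq _ (by norm_num)
  choose r hr using hr
  have hrne : ∀ a, a ∉ X.tri t → r a ≠ 0 := by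
    intro a ha h0
    apply hne a ha
    rw [← hr a, h0]
    simp
  let T : X.I → Finset k := fun a =>
    if a ∈ X.tri t then {0} else if a = b₀ then {1} else {r a, - r a}
  refine ⟨T, fun ξ => ?_, fun a ha => if_pos ha, ?_, fun a ha hab => ⟨r a, hrne a ha, ?_⟩⟩
  · rw [Fintype.mem_piFinset]
    constructor
    · intro h
      have h1 : ∀ a ∈ X.tri t, ξ a = 0 := by
        intro a ha
        have := h a
        simp only [T, if_pos ha, Finset.mem_singleton] at this
        exact this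
      have h2 : ξ b₀ = 1 := by
        have := h b₀
        simp only [T, if_neg hb, if_true, Finset.mem_singleton] at this
        exact this
      have h3 : ∀ a, a ∉ X.tri t → a ≠ b₀ → ξ a = r a ∨ ξ a = - r a := by
        intro a ha hab
        have := h a
        simp only [T, if_neg ha, if_neg hab, Finset.mem_insert, Finset.mem_singleton] at this
        exact this
      refine ⟨h2, h1, fun a ha => ?_, P, fun a => ?_⟩
      · by_cases hab : a = b₀
        · rw [hab, h2]; exact one_ne_zero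
        · rcases h3 a ha hab with h | h
          · rw [h]; exact hrne a ha
          · rw [h]; exact neg_ne_zero.mpr (hrne a ha)
      · by_cases ha : a ∈ X.tri t
        · rw [h1 a ha, P4d_tri_zero hPh hPd ha]; simp
        · by_cases hab : a = b₀
          · rw [hab, h2, hPb]; simp
          · rw [← hr a]
            rcases h3 a ha hab with h | h
            · rw [h]
            · rw [h]; ring
    · intro h
      obtain ⟨P', hP'⟩ := h.rel
      have e1 : P' = P := by
        have : P' - P = 0 := by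
          apply P4d_zero (P4d_indep hb)
          · simp only [Pi.sub_apply, mul_sub, Finset.sum_sub_distrib]
            rw [← hP', hPh, h.zero _ (P4d_h_tri t)]; simp
          · simp only [Pi.sub_apply, mul_sub, Finset.sum_sub_distrib]
            rw [← hP', hPd, h.zero _ (P4d_d_tri t)]; simp
          · simp only [Pi.sub_apply, mul_sub, Finset.sum_sub_distrib]
            rw [← hP', hPb, h.one]; simp
        exact sub_eq_zero.mp this
      intro a
      by_cases ha : a ∈ X.tri t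
      · simp only [T, if_pos ha, Finset.mem_singleton]
        exact h.zero a ha
      · by_cases hab : a = b₀
        · simp only [T, if_neg ha, if_pos hab, Finset.mem_singleton]
          rw [hab]; exact h.one
        · simp only [T, if_neg ha, if_neg hab, Finset.mem_insert, Finset.mem_singleton]
          apply sq_eq_sq_iff_eq_or_eq_neg.mp
          rw [hP', e1, hr]
  · simp only [if_neg hb, if_true, T]
  · intro x
    simp only [T, if_neg ha, if_neg hab, Finset.mem_insert, Finset.mem_singleton]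

/-! ### the idempotents -/

open Classical in
/-- the factors of the idempotent of a node -/
noncomputable def P4f_f (t : X.S) (b₀ a : X.I) (x : k) : X.L :=
  if a ∈ X.tri t ∨ a = b₀ then 1
  else algebraMap k X.L 2⁻¹ * (1 + algebraMap k X.L x⁻¹ * tau b₀ a)

/-- the idempotent of a node -/
noncomputable def P4f_e (t : X.S) (b₀ : X.I) (ξ : X.I → k) : X.L :=
  ∏ a, P4f_f t b₀ a (ξ a)

lemma P4f_f_mem (t : X.S) (b₀ a : X.I) (x : k) (S : Subalgebra k X.L) (h : tau b₀ a ∈ S) :
    P4f_f t b₀ a x ∈ S := by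
  unfold P4f_f
  split_ifs
  · exact S.one_mem
  · exact S.mul_mem (S.algebraMap_mem _) (S.add_mem S.one_mem (S.mul_mem (S.algebraMap_mem _) h))

lemma P4f_e_mem (t : X.S) (b₀ : X.I) (ξ : X.I → k) (S : Subalgebra k X.L)
    (h : ∀ a, tau b₀ a ∈ S) : P4f_e t b₀ ξ ∈ S :=
  S.prod_mem fun a _ => P4f_f_mem t b₀ a _ S (h a)

/-- the idempotents add up to `1` -/
lemma P4f_sum_e {t : X.S} {b₀ : X.I} {T : X.I → Finset k} (h0 : ∀ a ∈ X.tri t, T a = {0})
    (h1 : T b₀ = {1})
    (h2 : ∀ a, a ∉ X.tri t → a ≠ b₀ → ∃ s : k, s ≠ 0 ∧ ∀ x, x ∈ T a ↔ x = s ∨ x = -s) :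
    ∑ ξ ∈ Fintype.piFinset T, P4f_e t b₀ ξ = 1 := by
  classical
  unfold P4f_e
  rw [← Finset.prod_univ_sum T (fun a x => P4f_f t b₀ a x)]
  refine Finset.prod_eq_one fun a _ => ?_
  by_cases ha : a ∈ X.tri t
  · rw [h0 a ha, Finset.sum_singleton]
    unfold P4f_f
    rw [if_pos (Or.inl ha)]
  · by_cases hab : a = b₀
    · rw [hab, h1, Finset.sum_singleton]
      unfold P4f_f
      rw [if_pos (Or.inr rfl)]
    · obtain ⟨s, hs, hT'⟩ := h2 a ha hab
      have hT : T a = {s, -s} := by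
        ext x
        rw [hT', Finset.mem_insert, Finset.mem_singleton]
      have hss : s ≠ -s := by
        intro h
        have : (2 : k) * s = 0 := by linear_combination h
        rcases mul_eq_zero.mp this with h | h
        · exact X.two_ne h
        · exact hs h
      rw [hT, Finset.sum_pair hss]
      unfold P4f_f
      rw [if_neg (by (clear * - ha hab; tauto)), if_neg (by (clear * - ha hab; tauto)), inv_neg, map_neg]
      have h2 : (2 : X.L) * algebraMap k X.L 2⁻¹ = 1 := by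
        have := congrArg (algebraMap k X.L) (mul_inv_cancel₀ X.two_ne)
        rw [map_mul, map_one, map_ofNat] at this
        exact this
      linear_combination h2

lemma P4f_tau_e {t : X.S} {b₀ : X.I} (hb : b₀ ∉ X.tri t) {ξ : X.I → k}
    (hξ : IsNode X t b₀ ξ) {M K : Submodule k (Fin r → X.L)}
    (hM : ∀ a, tau b₀ a ∈ P4f_st M) (hh : tau b₀ (X.h t) ∈ P4f_tr M K)
    (hd : tau b₀ (X.d t) ∈ P4f_tr M K) {a : X.I} (ha : a ∉ X.tri t) :
    (tau b₀ a - algebraMap k X.L (ξ a)) * P4f_e t b₀ ξ ∈ P4f_tr M K := by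
  classical
  by_cases hab : a = b₀
  · subst hab
    rw [hξ.one, map_one, tau, div_self (X.σ_ne_zero _), sub_self, zero_mul]
    exact Submodule.zero_mem _
  · have h1 : (tau b₀ a - algebraMap k X.L (ξ a)) * P4f_f t b₀ a (ξ a) ∈ P4f_tr M K := by
      obtain ⟨x, y, h⟩ := P4f_tau_sq hb hξ a
      unfold P4f_f
      rw [if_neg (by (clear * - ha hab; tauto))]
      have h3 : algebraMap k X.L (ξ a) * algebraMap k X.L (ξ a)⁻¹ = 1 := by
        rw [← map_mul, mul_inv_cancel₀ (hξ.ne a ha), map_one]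
      have e1 : (tau b₀ a - algebraMap k X.L (ξ a)) *
          (algebraMap k X.L 2⁻¹ * (1 + algebraMap k X.L (ξ a)⁻¹ * tau b₀ a)) =
          (2⁻¹ * (ξ a)⁻¹) • (tau b₀ a ^ 2 - algebraMap k X.L (ξ a) ^ 2) := by
        rw [Algebra.smul_def, map_mul]
        linear_combination (algebraMap k X.L 2⁻¹ * (algebraMap k X.L (ξ a) - tau b₀ a)) * h3
      rw [e1, h]
      refine Submodule.smul_mem _ _ (Submodule.add_mem _ (Submodule.smul_mem _ _ ?_)
        (Submodule.smul_mem _ _ ?_))
      · rw [pow_two]; exact P4f_tr_mul hh (hM _)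
      · rw [pow_two]; exact P4f_tr_mul hd (hM _)
    unfold P4f_e
    rw [← Finset.mul_prod_erase _ _ (Finset.mem_univ a), ← mul_assoc]
    exact P4f_tr_mul h1 ((P4f_st M).prod_mem fun b _ => P4f_f_mem t b₀ b _ _ (hM b))

/-- orthogonality -/
lemma P4f_orth {t : X.S} {b₀ : X.I} (hb : b₀ ∉ X.tri t) {ξ ξ' : X.I → k}
    (hξ : IsNode X t b₀ ξ) (hξ' : IsNode X t b₀ ξ') (hne : ξ ≠ ξ')
    {M K : Submodule k (Fin r → X.L)}
    (hM : ∀ a, tau b₀ a ∈ P4f_st M) (hh : tau b₀ (X.h t) ∈ P4f_tr M K)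
    (hd : tau b₀ (X.d t) ∈ P4f_tr M K) :
    P4f_e t b₀ ξ * P4f_e t b₀ ξ' ∈ P4f_tr M K := by
  obtain ⟨a, ha⟩ := Function.ne_iff.1 hne
  have hat : a ∉ X.tri t := fun h => ha (by rw [hξ.zero a h, hξ'.zero a h])
  have h1 := P4f_tr_mul (P4f_tau_e hb hξ hM hh hd hat) (P4f_e_mem t b₀ ξ' (P4f_st M) hM)
  have h2 := P4f_tr_mul (P4f_tau_e hb hξ' hM hh hd hat) (P4f_e_mem t b₀ ξ (P4f_st M) hM)
  have h3 := Submodule.smul_mem _ (ξ a - ξ' a)⁻¹ (Submodule.sub_mem _ h2 h1)
  have e1 : (ξ a - ξ' a)⁻¹ • ((tau b₀ a - algebraMap k X.L (ξ' a)) * P4f_e t b₀ ξ' *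
      P4f_e t b₀ ξ - (tau b₀ a - algebraMap k X.L (ξ a)) * P4f_e t b₀ ξ *
      P4f_e t b₀ ξ') = P4f_e t b₀ ξ * P4f_e t b₀ ξ' := by
    have h4 : (tau b₀ a - algebraMap k X.L (ξ' a)) * P4f_e t b₀ ξ' *
      P4f_e t b₀ ξ - (tau b₀ a - algebraMap k X.L (ξ a)) * P4f_e t b₀ ξ *
      P4f_e t b₀ ξ' = (ξ a - ξ' a) • (P4f_e t b₀ ξ * P4f_e t b₀ ξ') := by
      rw [Algebra.smul_def, map_sub]
      ring
    rw [h4, smul_smul, inv_mul_cancel₀ (sub_ne_zero.2 ha), one_smul]
  rwa [e1] at h3

/-- idempotent -/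
lemma P4f_idem {t : X.S} {b₀ : X.I} (hb : b₀ ∉ X.tri t) {ξ : X.I → k}
    (hξ : IsNode X t b₀ ξ) {M K : Submodule k (Fin r → X.L)}
    (hM : ∀ a, tau b₀ a ∈ P4f_st M) (hh : tau b₀ (X.h t) ∈ P4f_tr M K)
    (hd : tau b₀ (X.d t) ∈ P4f_tr M K) :
    P4f_e t b₀ ξ * P4f_e t b₀ ξ - P4f_e t b₀ ξ ∈ P4f_tr M K := by
  classical
  have key : ∀ s : Finset X.I,
      (∏ a ∈ s, P4f_f t b₀ a (ξ a)) * P4f_e t b₀ ξ - P4f_e t b₀ ξ ∈ P4f_tr M K := by
    intro s
    induction s using Finset.induction_on with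
    | empty => rw [Finset.prod_empty, one_mul, sub_self]; exact Submodule.zero_mem _
    | insert a s ha ih =>
      rw [Finset.prod_insert ha]
      by_cases hc : a ∈ X.tri t ∨ a = b₀
      · have : P4f_f t b₀ a (ξ a) = 1 := by unfold P4f_f; rw [if_pos hc]
        rw [this, one_mul]
        exact ih
      · push Not at hc
        have h1 := Submodule.smul_mem _ (2⁻¹ * (ξ a)⁻¹ : k) (P4f_tau_e hb hξ hM hh hd hc.1)
        have h2 := Submodule.add_mem _ (P4f_tr_mul ih (P4f_f_mem t b₀ a (ξ a) _ (hM a))) h1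
        have h3 : algebraMap k X.L (ξ a) * algebraMap k X.L (ξ a)⁻¹ = 1 := by
          rw [← map_mul, mul_inv_cancel₀ (hξ.ne a hc.1), map_one]
        have h4 : (2 : X.L) * algebraMap k X.L 2⁻¹ = 1 := by
          have := congrArg (algebraMap k X.L) (mul_inv_cancel₀ X.two_ne)
          rw [map_mul, map_one, map_ofNat] at this
          exact this
        convert h2 using 1
        unfold P4f_f
        rw [if_neg (by (clear * - hc; tauto)), Algebra.smul_def, map_mul]
        linear_combination (P4f_e t b₀ ξ) * h4 +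
          (P4f_e t b₀ ξ * algebraMap k X.L 2⁻¹) * h3
  exact key Finset.univ

/-- `e - 1` is in the ideal generated by the `τ_a - ξ_a` -/
lemma P4f_e_sub_one {t : X.S} {b₀ : X.I} {ξ : X.I → k}
    (hξ : IsNode X t b₀ ξ) {M K : Submodule k (Fin r → X.L)}
    (hM : ∀ a, tau b₀ a ∈ P4f_st M)
    (hK : ∀ a, tau b₀ a - algebraMap k X.L (ξ a) ∈ P4f_tr M K) :
    P4f_e t b₀ ξ - 1 ∈ P4f_tr M K := by
  classical
  have key : ∀ s : Finset X.I, (∏ a ∈ s, P4f_f t b₀ a (ξ a)) - 1 ∈ P4f_tr M K := by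
    intro s
    induction s using Finset.induction_on with
    | empty => rw [Finset.prod_empty, sub_self]; exact Submodule.zero_mem _
    | insert a s ha ih =>
      rw [Finset.prod_insert ha]
      by_cases hc : a ∈ X.tri t ∨ a = b₀
      · have : P4f_f t b₀ a (ξ a) = 1 := by unfold P4f_f; rw [if_pos hc]
        rw [this, one_mul]
        exact ih
      · push Not at hc
        have h1 := Submodule.smul_mem _ (2⁻¹ * (ξ a)⁻¹ : k) (hK a)
        have h2 := Submodule.add_mem _ (P4f_tr_mul ih (P4f_f_mem t b₀ a (ξ a) _ (hM a))) h1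
        have h3 : algebraMap k X.L (ξ a) * algebraMap k X.L (ξ a)⁻¹ = 1 := by
          rw [← map_mul, mul_inv_cancel₀ (hξ.ne a hc.1), map_one]
        have h4 : (2 : X.L) * algebraMap k X.L 2⁻¹ = 1 := by
          have := congrArg (algebraMap k X.L) (mul_inv_cancel₀ X.two_ne)
          rw [map_mul, map_one, map_ofNat] at this
          exact this
        convert h2 using 1
        unfold P4f_f
        rw [if_neg (by (clear * - hc; tauto)), Algebra.smul_def, map_mul]
        linear_combination h4 + (algebraMap k X.L 2⁻¹) * h3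
  exact key Finset.univ

end Vale.Agent.P190.D
end
end

section

section

/-! Section 4, file P4c: `dim M/(τ_h, τ_d) M = N`. -/

set_option autoImplicit false
set_option linter.unusedSectionVars false

open MvPolynomial Filter

namespace Vale.Agent.P190.D

section general

variable {k : Type} [Field k] {V W : Type} [AddCommGroup V] [Module k V] [AddCommGroup W]
  [Module k W]

theorem P4c_rank_nullity (F : Submodule k V) [Module.Finite k F] (f : V →ₗ[k] W) :
    Module.finrank k (F.map f) + Module.finrank k (F ⊓ LinearMap.ker f : Submodule k V) =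
      Module.finrank k F := by
  have h1 := LinearMap.finrank_range_add_finrank_ker (f.domRestrict F)
  have h2 : LinearMap.range (f.domRestrict F) = F.map f := by
    rw [LinearMap.range_domRestrict]
  have h3 : Module.finrank k (LinearMap.ker (f.domRestrict F)) =
      Module.finrank k (F ⊓ LinearMap.ker f : Submodule k V) := by
    have h4 : (LinearMap.ker (f.domRestrict F)).map F.subtype = F ⊓ LinearMap.ker f := by
      ext v
      constructor
      · rintro ⟨w, hw, rfl⟩
        exact ⟨w.2, hw⟩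
      · rintro ⟨hv, hv'⟩
        exact ⟨⟨v, hv⟩, hv', rfl⟩
    rw [← h4]
    exact (LinearEquiv.finrank_eq (Submodule.equivMapOfInjective _ F.injective_subtype _))
  rw [h2, h3] at h1
  exact h1

end general

variable {k : Type} [Field k] [IsAlgClosed k] {X : Arr k}
  {r : ℕ} {Γ : (Fin r → X.L) →ₗ[X.L] (Fin r → X.L)} {E : ℤ → Submodule k (Fin r → X.L)}

/-- `σ_x E_(n-1) + σ_y E_(n-1)` -/
noncomputable def P4c_R (E : ℤ → Submodule k (Fin r → X.L)) (x y : X.I) (n : ℤ) :
    Submodule k (Fin r → X.L) :=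
  (E (n - 1)).map (mulLL (X.σ x)) ⊔ (E (n - 1)).map (mulLL (X.σ y))

theorem P4c_mem_R {x y : X.I} {n : ℤ} {v : Fin r → X.L} :
    v ∈ P4c_R E x y n ↔ ∃ b ∈ E (n - 1), ∃ c ∈ E (n - 1), v = X.σ x • b + X.σ y • c := by
  unfold P4c_R
  rw [Submodule.mem_sup]
  constructor
  · rintro ⟨_, ⟨b, hb, rfl⟩, _, ⟨c, hc, rfl⟩, rfl⟩
    exact ⟨b, hb, c, hc, by rw [mulLL_apply, mulLL_apply]⟩
  · rintro ⟨b, hb, c, hc, rfl⟩
    exact ⟨X.σ x • b, ⟨b, hb, mulLL_apply _ _⟩, X.σ y • c, ⟨c, hc, mulLL_apply _ _⟩, rfl⟩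

theorem P4c_R_le (hs : SigStable X E) (x y : X.I) (n : ℤ) : P4c_R E x y n ≤ E n := by
  intro v hv
  obtain ⟨b, hb, c, hc, rfl⟩ := P4c_mem_R.1 hv
  have h1 := hs x hb
  have h2 := hs y hc
  rw [sub_add_cancel] at h1 h2
  exact add_mem h1 h2

theorem P4c_R_sig (hs : SigStable X E) (x y z : X.I) {n : ℤ} {v : Fin r → X.L}
    (hv : v ∈ P4c_R E x y n) : X.σ z • v ∈ P4c_R E x y (n + 1) := by
  obtain ⟨b, hb, c, hc, rfl⟩ := P4c_mem_R.1 hv
  refine P4c_mem_R.2 ⟨X.σ z • b, ?_, X.σ z • c, ?_, ?_⟩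
  · have := hs z hb
    rwa [sub_add_eq_add_sub] at this
  · have := hs z hc
    rwa [sub_add_eq_add_sub] at this
  · rw [smul_add, smul_comm (X.σ z) (X.σ x), smul_comm (X.σ z) (X.σ y)]

theorem P4c_finrank_R (hE : IsBLat E) (hs : SigStable X E) (h2 : IsS2 E) {x y : X.I}
    (hxy : x ≠ y) (n : ℤ) : Module.finrank k (P4c_R E x y n) + Module.finrank k (E (n - 2)) =
      2 * Module.finrank k (E (n - 1)) := by
  have f1 := hE.fin (n - 1)
  have f2 := hE.fin (n - 2)
  let Φ : (E (n - 1) × E (n - 1)) →ₗ[k] (Fin r → X.L) :=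
    ((mulLL (X.σ x)).comp (E (n - 1)).subtype).coprod ((mulLL (X.σ y)).comp (E (n - 1)).subtype)
  have hΦ : ∀ p, Φ p = X.σ x • (p.1 : Fin r → X.L) + X.σ y • (p.2 : Fin r → X.L) := by
    intro p
    show mulLL (X.σ x) (p.1 : Fin r → X.L) + mulLL (X.σ y) (p.2 : Fin r → X.L) = _
    rw [mulLL_apply, mulLL_apply]
  have hrange : LinearMap.range Φ = P4c_R E x y n := by
    rw [LinearMap.range_coprod, LinearMap.range_comp, LinearMap.range_comp,
      Submodule.range_subtype]
    rfl
  have hst : ∀ (z : X.I) (u : E (n - 2)), X.σ z • (u : Fin r → X.L) ∈ E (n - 1) := by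
    intro z u
    have := hs z u.2
    rwa [show n - 2 + 1 = n - 1 by ring] at this
  let Ψ : E (n - 2) →ₗ[k] (E (n - 1) × E (n - 1)) :=
    { toFun := fun u => (⟨X.σ y • (u : Fin r → X.L), hst y u⟩,
        ⟨-(X.σ x • (u : Fin r → X.L)), neg_mem (hst x u)⟩)
      map_add' := by
        intro u v
        refine Prod.ext (Subtype.ext ?_) (Subtype.ext ?_)
        · simp only [Submodule.coe_add, smul_add, Prod.mk_add_mk, AddMemClass.mk_add_mk]
        · simp only [Submodule.coe_add, smul_add, neg_add, Prod.mk_add_mk, AddMemClass.mk_add_mk]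
      map_smul' := by
        intro c u
        refine Prod.ext (Subtype.ext ?_) (Subtype.ext ?_)
        · show X.σ y • (c • (u : Fin r → X.L)) = c • (X.σ y • (u : Fin r → X.L))
          rw [smul_comm_kL]
        · show -(X.σ x • (c • (u : Fin r → X.L))) = c • (-(X.σ x • (u : Fin r → X.L)))
          rw [smul_neg, smul_comm_kL] }
  have hΨ1 : ∀ u, ((Ψ u).1 : Fin r → X.L) = X.σ y • (u : Fin r → X.L) := fun u => rfl
  have hΨ2 : ∀ u, ((Ψ u).2 : Fin r → X.L) = -(X.σ x • (u : Fin r → X.L)) := fun u => rfl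
  have hΨi : Function.Injective Ψ := by
    intro u v huv
    have h1 : X.σ y • (u : Fin r → X.L) = X.σ y • (v : Fin r → X.L) := by
      rw [← hΨ1, ← hΨ1, huv]
    exact Subtype.ext (smul_right_injective _ (X.σ_ne_zero y) h1)
  have hker : LinearMap.range Ψ = LinearMap.ker Φ := by
    ext p
    rw [LinearMap.mem_range, LinearMap.mem_ker, hΦ]
    constructor
    · rintro ⟨u, rfl⟩
      rw [hΨ1, hΨ2, smul_neg, smul_comm (X.σ x) (X.σ y), add_neg_cancel]
    · intro hp
      have hu : (X.σ y)⁻¹ • (p.1 : Fin r → X.L) ∈ E (n - 2) := by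
        refine SigStable.of_two hE hs h2 hxy ?_ ?_
        · have h1 : X.σ x • ((X.σ y)⁻¹ • (p.1 : Fin r → X.L)) = -(p.2 : Fin r → X.L) := by
            rw [smul_comm, eq_neg_of_add_eq_zero_left hp, smul_neg, smul_smul,
              inv_mul_cancel₀ (X.σ_ne_zero y), one_smul]
          rw [h1, show n - 2 + 1 = n - 1 by ring]
          exact neg_mem p.2.2
        · rw [smul_smul, mul_inv_cancel₀ (X.σ_ne_zero y), one_smul,
            show n - 2 + 1 = n - 1 by ring]
          exact p.1.2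
      refine ⟨⟨_, hu⟩, Prod.ext (Subtype.ext ?_) (Subtype.ext ?_)⟩
      · rw [hΨ1]
        show X.σ y • ((X.σ y)⁻¹ • (p.1 : Fin r → X.L)) = _
        rw [smul_smul, mul_inv_cancel₀ (X.σ_ne_zero y), one_smul]
      · rw [hΨ2]
        show -(X.σ x • ((X.σ y)⁻¹ • (p.1 : Fin r → X.L))) = _
        rw [smul_comm, eq_neg_of_add_eq_zero_left hp, smul_neg, smul_smul,
          inv_mul_cancel₀ (X.σ_ne_zero y), one_smul, neg_neg]
  have h3 := LinearMap.finrank_range_add_finrank_ker Φ
  rw [hrange, ← hker, LinearMap.finrank_range_of_inj hΨi, Module.finrank_prod] at h3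
  omega

/-- diagonal quadratic forms -/
noncomputable def P4c_Q (u : Fin 3 → k) : A k :=
  C (u 0) + C (u 1) * MvPolynomial.X 0 ^ 2 + C (u 2) * MvPolynomial.X 1 ^ 2

theorem P4c_Q_add (u v : Fin 3 → k) : P4c_Q (u + v) = P4c_Q u + P4c_Q v := by
  simp only [P4c_Q, Pi.add_apply, map_add]
  ring

theorem P4c_Q_smul (c : k) (u : Fin 3 → k) : P4c_Q (c • u) = c • P4c_Q u := by
  simp only [P4c_Q, Pi.smul_apply, smul_eq_mul, map_mul, MvPolynomial.smul_eq_C_mul]
  ring

theorem P4c_gen (hE : IsBLat E) (hs : SigStable X E) {x y z : X.I}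
    (hli : LinearIndependent k ![X.l x, X.l y, X.l z]) :
    ∃ n₀ : ℤ, ∀ n ≥ n₀, E n ≤ P4c_R E x y n ⊔ (E (n - 1)).map (mulLL (X.σ z)) := by
  obtain ⟨l, v, c, hv, hgen⟩ := hE.exists_gen
  obtain ⟨n₁, hn₁⟩ := (Set.finite_range c).bddAbove
  refine ⟨n₁ + 4, fun n hn => ?_⟩
  set F := P4c_R E x y n ⊔ (E (n - 1)).map (mulLL (X.σ z)) with hF
  have hsq : ∀ a : X.I, (∀ b ∈ E (n - 1), X.σ a • b ∈ F) → ∀ w ∈ E (n - 2), X.q a • w ∈ F := by
    intro a ha w hw
    rw [← algebraMap_smul X.L (X.q a) w, ← X.σ_sq, sq, mul_smul]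
    refine ha _ ?_
    have := hs a hw
    rwa [show n - 2 + 1 = n - 1 by ring] at this
  let T : Submodule k (Fin 3 → k) :=
    { carrier := {u | ∀ w ∈ E (n - 2), P4c_Q u • w ∈ F}
      add_mem' := by
        intro a b ha hb w hw
        rw [P4c_Q_add, add_smul]
        exact add_mem (ha w hw) (hb w hw)
      zero_mem' := by
        intro w hw
        have : P4c_Q (0 : Fin 3 → k) = 0 := by simp [P4c_Q]
        rw [this, zero_smul]
        exact zero_mem _
      smul_mem' := by
        intro a b hb w hw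
        rw [P4c_Q_smul, smul_assoc]
        exact Submodule.smul_mem _ _ (hb w hw) }
  have hq : ∀ a : X.I, P4c_Q (X.l a) = X.q a := fun a => rfl
  have hxT : X.l x ∈ T := by
    intro w hw
    rw [hq]
    refine hsq x (fun b hb => ?_) w hw
    exact Submodule.mem_sup_left (Submodule.mem_sup_left ⟨b, hb, mulLL_apply _ _⟩)
  have hyT : X.l y ∈ T := by
    intro w hw
    rw [hq]
    refine hsq y (fun b hb => ?_) w hw
    exact Submodule.mem_sup_left (Submodule.mem_sup_right ⟨b, hb, mulLL_apply _ _⟩)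
  have hzT : X.l z ∈ T := by
    intro w hw
    rw [hq]
    refine hsq z (fun b hb => ?_) w hw
    exact Submodule.mem_sup_right ⟨b, hb, mulLL_apply _ _⟩
  have hT : T = ⊤ := by
    rw [eq_top_iff, ← hli.span_eq_top_of_card_eq_finrank' (by simp only [Nat.succ_eq_add_one, zero_add, Nat.reduceAdd, Fintype.card_fin, Module.finrank_fintype_fun_eq_card]), Submodule.span_le]
    rintro _ ⟨i, rfl⟩
    fin_cases i
    · exact hxT
    · exact hyT
    · exact hzT
  have hall : ∀ (u : Fin 3 → k), ∀ w ∈ E (n - 2), P4c_Q u • w ∈ F := by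
    intro u
    have : u ∈ T := by rw [hT]; exact Submodule.mem_top
    exact this
  have h1F : ∀ w ∈ E (n - 2), w ∈ F := by
    intro w hw
    have h := hall (Pi.single 0 1) w hw
    have e : P4c_Q (Pi.single 0 1 : Fin 3 → k) = 1 := by simp [P4c_Q]
    rwa [e, one_smul] at h
  have hyF : ∀ w ∈ E (n - 2), (MvPolynomial.X 0 ^ 2 : A k) • w ∈ F := by
    intro w hw
    have h := hall (Pi.single 1 1) w hw
    have e : P4c_Q (Pi.single 1 1 : Fin 3 → k) = MvPolynomial.X 0 ^ 2 := by simp only [P4c_Q, Fin.isValue, ne_eq, zero_ne_one, not_false_eq_true, Pi.single_eq_of_ne, C_0, Pi.single_eq_same, C_1, one_mul, zero_add, Fin.reduceEq, zero_mul, add_zero]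
    rwa [e] at h
  have hzF : ∀ w ∈ E (n - 2), (MvPolynomial.X 1 ^ 2 : A k) • w ∈ F := by
    intro w hw
    have h := hall (Pi.single 2 1) w hw
    have e : P4c_Q (Pi.single 2 1 : Fin 3 → k) = MvPolynomial.X 1 ^ 2 := by simp only [P4c_Q, Fin.isValue, ne_eq, Fin.reduceEq, not_false_eq_true, Pi.single_eq_of_ne, C_0, zero_mul, add_zero, Pi.single_eq_same, C_1, one_mul, zero_add]
    rwa [e] at h
  have hmon : ∀ (j : Fin l) (s : Fin 2 →₀ ℕ) (a : k), (s.degree : ℤ) ≤ n - c j →
      (monomial s a : A k) • v j ∈ F := by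
    intro j s a hs'
    have hcj : c j ≤ n₁ := hn₁ ⟨j, rfl⟩
    have hmem : ∀ (s' : Fin 2 →₀ ℕ), (s'.degree : ℤ) ≤ n - 2 - c j →
        (monomial s' a : A k) • v j ∈ E (n - 2) := by
      intro s' h'
      have h1 : (monomial s' a : A k) ∈ Ad k (n - 2 - c j) := by
        rw [mem_Ad']
        intro u hu
        classical
        rw [coeff_monomial] at hu
        split_ifs at hu with h
        · rw [← h]; exact h'
        · exact absurd rfl hu
      have h2 := hE.smul_mem h1 (hv j)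
      rwa [show c j + (n - 2 - c j) = n - 2 by ring] at h2
    have hdeg : (s.degree : ℤ) = s 0 + s 1 := by
      rw [Finsupp.degree_eq_sum]
      simp only [Fin.sum_univ_two, Fin.isValue, Nat.cast_add]
    have hsub : ∀ i : Fin 2, 2 ≤ s i → (monomial s a : A k) • v j ∈ F := by
      intro i hi
      have e1 : (monomial s a : A k) =
          MvPolynomial.X i ^ 2 * monomial (s - Finsupp.single i 2) a := by
        rw [MvPolynomial.X_pow_eq_monomial, monomial_mul, one_mul,
          add_tsub_cancel_of_le (Finsupp.single_le_iff.2 hi)]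
      have e2 : ((s - Finsupp.single i 2).degree : ℤ) ≤ n - 2 - c j := by
        have h5 : ((s - Finsupp.single i 2).degree : ℤ) =
            ((s - Finsupp.single i 2 : Fin 2 →₀ ℕ) 0 : ℕ) +
              ((s - Finsupp.single i 2 : Fin 2 →₀ ℕ) 1 : ℕ) := by
          rw [Finsupp.degree_eq_sum]
          simp only [Finsupp.coe_tsub, Pi.sub_apply, Fin.sum_univ_two, Fin.isValue, Nat.cast_add]
        rw [h5, Finsupp.tsub_apply, Finsupp.tsub_apply]
        fin_cases i
        · simp only [Finsupp.single_apply] at hi ⊢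
          simp only [Fin.zero_eta, Fin.isValue, ↓reduceIte, zero_ne_one, tsub_zero, ge_iff_le] at hi ⊢
          omega
        · simp only [Finsupp.single_apply] at hi ⊢
          simp only [Fin.mk_one, Fin.isValue, one_ne_zero, ↓reduceIte, tsub_zero, ge_iff_le] at hi ⊢
          omega
      rw [e1, mul_smul]
      have h6 := hmem _ e2
      fin_cases i
      · exact hyF _ h6
      · exact hzF _ h6
    by_cases h0 : 2 ≤ s 0
    · exact hsub 0 h0
    by_cases h1 : 2 ≤ s 1
    · exact hsub 1 h1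
    refine h1F _ (hmem s ?_)
    omega
  intro w hw
  rw [hgen, mem_genLat] at hw
  obtain ⟨a, ha, rfl⟩ := hw
  refine Submodule.sum_mem _ fun j _ => ?_
  rw [(a j).as_sum, Finset.sum_smul]
  refine Submodule.sum_mem _ fun s hs' => hmon j s _ ?_
  exact mem_Ad'.1 (ha j) s (mem_support_iff.1 hs')

theorem P4c_indep {b₀ : X.I} {t : X.S} (hb : b₀ ∉ X.tri t) :
    LinearIndependent k ![X.l (X.h t), X.l (X.d t), X.l b₀] := by
  have hbh : X.h t ≠ b₀ := fun h => hb (by rw [← h]; simp only [Arr.tri, Set.mem_insert_iff, Set.mem_singleton_iff, true_or, or_true])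
  have hbd : X.d t ≠ b₀ := fun h => hb (by rw [← h]; simp only [Arr.tri, Set.mem_insert_iff, Set.mem_singleton_iff, or_true])
  rcases X.indep (X.h t) (X.d t) b₀ (X.hd t) hbh hbd with h | ⟨t', ht'⟩
  · exact h
  · exfalso
    have h1 : X.h t ∈ ({X.v t', X.h t', X.d t'} : Set X.I) := by rw [← ht']; simp only [Set.mem_insert_iff, Set.mem_singleton_iff, true_or]
    have h2 : X.d t ∈ ({X.v t', X.h t', X.d t'} : Set X.I) := by rw [← ht']; simp only [Set.mem_insert_iff, Set.mem_singleton_iff, true_or, or_true]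
    have h3 : b₀ ∈ ({X.v t', X.h t', X.d t'} : Set X.I) := by rw [← ht']; simp only [Set.mem_insert_iff, Set.mem_singleton_iff, or_true]
    have h4 := X.share t t' (X.h t) (X.d t) (X.hd t) (by simp only [Set.mem_insert_iff, Set.mem_singleton_iff, true_or, or_true]) (by simp only [Set.mem_insert_iff, Set.mem_singleton_iff, or_true]) h1 h2
    rw [← h4] at h3
    exact hb h3

/-- 4.5a: `dim M / (τ_h, τ_d) M = N` -/
theorem finrank_node (hE : IsBLat E) (hs : SigStable X E) (h2 : IsS2 E) {N e g : ℤ}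
    (hh : HasHilb E N e g) {b₀ : X.I} {t : X.S} (hb : b₀ ∉ X.tri t) :
    Module.Finite k ((affM E b₀).map (Knode E b₀ t).mkQ) ∧
      (Module.finrank k ((affM E b₀).map (Knode E b₀ t).mkQ) : ℤ) = N := by
  set x := X.h t with hx
  set y := X.d t with hy
  have hxy : x ≠ y := X.hd t
  set R : ℤ → Submodule k (Fin r → X.L) := P4c_R E x y with hR
  have hσ : X.σ b₀ ≠ 0 := X.σ_ne_zero b₀
  obtain ⟨n₁, hn₁⟩ := eventually_atTop.1 hh
  obtain ⟨n₂, hn₂⟩ := P4c_gen hE hs (P4c_indep hb)
  have hfinE : ∀ n, Module.Finite k (E n) := hE.fin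
  have hRE : ∀ n, R n ≤ E n := fun n => P4c_R_le hs x y n
  have hfinR : ∀ n, Module.Finite k (R n) := fun n =>
    Submodule.finiteDimensional_of_le (hRE n)
  -- dimension of the quotients
  have hdim : ∀ n ≥ n₁ + 2, (Module.finrank k (E n) : ℤ) = Module.finrank k (R n) + N := by
    intro n hn
    have e0 := hn₁ n (by (clear * - hn; omega))
    have e1 := hn₁ (n - 1) (by omega)
    have e2 := hn₁ (n - 2) (by omega)
    have e3 := P4c_finrank_R hE hs h2 hxy n
    have e4 : (Module.finrank k (R n) : ℚ) + Module.finrank k (E (n - 2)) =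
        2 * Module.finrank k (E (n - 1)) := by exact_mod_cast e3
    rw [e1, e2] at e4
    have e5 : (Module.finrank k (E n) : ℚ) = Module.finrank k (R n) + N := by
      rw [e0]
      simp only [hp] at e4 ⊢
      push_cast at e4 ⊢
      linarith only [e4]
    exact_mod_cast e5
  -- injectivity of `σ_b₀` on the quotients
  have hinj : ∀ n ≥ max (n₁ + 2) n₂, ∀ v ∈ E n, X.σ b₀ • v ∈ R (n + 1) → v ∈ R n := by
    intro n hn v hv hv'
    have hn' : n₁ + 2 ≤ n ∧ n₂ ≤ n := by
      constructor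
      · exact le_trans (le_max_left _ _) hn
      · exact le_trans (le_max_right _ _) hn
    let f : (Fin r → X.L) →ₗ[k] (Fin r → X.L) ⧸ R (n + 1) := (R (n + 1)).mkQ ∘ₗ mulLL (X.σ b₀)
    have hf : ∀ w, f w = (R (n + 1)).mkQ (X.σ b₀ • w) := by
      intro w
      show (R (n + 1)).mkQ (mulLL (X.σ b₀) w) = _
      rw [mulLL_apply]
    have hf0 : ∀ w, f w = 0 ↔ X.σ b₀ • w ∈ R (n + 1) := by
      intro w
      rw [hf, Submodule.mkQ_apply, Submodule.Quotient.mk_eq_zero]
    have hmap : (E n).map f = (E (n + 1)).map (R (n + 1)).mkQ := by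
      apply le_antisymm
      · rintro _ ⟨w, hw, rfl⟩
        exact ⟨X.σ b₀ • w, hs b₀ hw, (hf w).symm⟩
      · rintro _ ⟨w, hw, rfl⟩
        have h1 := hn₂ (n + 1) (by omega) hw
        rw [show n + 1 - 1 = n by ring] at h1
        obtain ⟨a, ha, _, ⟨b, hb', rfl⟩, rfl⟩ := Submodule.mem_sup.1 h1
        refine ⟨b, hb', ?_⟩
        rw [hf, map_add, mulLL_apply]
        have : (R (n + 1)).mkQ a = 0 := by
          rw [Submodule.mkQ_apply, Submodule.Quotient.mk_eq_zero]
          exact ha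
        rw [this, zero_add]
    have e1 := P4c_rank_nullity (E n) f
    have e2 := P4c_rank_nullity (E (n + 1)) (R (n + 1)).mkQ
    have e3 : E (n + 1) ⊓ LinearMap.ker (R (n + 1)).mkQ = R (n + 1) := by
      rw [Submodule.ker_mkQ]
      exact inf_eq_right.2 (hRE _)
    rw [e3] at e2
    rw [hmap] at e1
    have e4 := hdim n (by omega)
    have e5 := hdim (n + 1) (by omega)
    have hle : R n ≤ E n ⊓ LinearMap.ker f := by
      intro w hw
      exact ⟨hRE n hw, LinearMap.mem_ker.2 ((hf0 w).2 (P4c_R_sig hs x y b₀ hw))⟩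
    have hfi : Module.Finite k (E n ⊓ LinearMap.ker f : Submodule k (Fin r → X.L)) :=
      Submodule.finiteDimensional_of_le (inf_le_left : E n ⊓ LinearMap.ker f ≤ E n)
    have heq : R n = E n ⊓ LinearMap.ker f := by
      refine Submodule.eq_of_le_of_finrank_eq hle ?_
      omega
    rw [heq]
    exact ⟨hv, LinearMap.mem_ker.2 ((hf0 v).2 hv')⟩
  set n := max (n₁ + 2) n₂ with hn
  have hinj' : ∀ (j : ℕ) (v : Fin r → X.L), v ∈ E n → X.σ b₀ ^ j • v ∈ R (n + j) → v ∈ R n := by
    intro j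
    induction j with
    | zero =>
      intro v hv h
      simpa using h
    | succ j ih =>
      intro v hv h
      refine ih v hv (hinj (n + j) (by omega) _ (hs.pow_smul b₀ j hv) ?_)
      rw [pow_succ', mul_smul] at h
      push_cast at h
      rwa [← add_assoc] at h
  let f : (Fin r → X.L) →ₗ[k] (Fin r → X.L) ⧸ Knode E b₀ t :=
    (Knode E b₀ t).mkQ ∘ₗ mulLL (X.σ b₀ ^ (-n))
  have hf : ∀ w, f w = (Knode E b₀ t).mkQ (X.σ b₀ ^ (-n) • w) := by
    intro w
    show (Knode E b₀ t).mkQ (mulLL (X.σ b₀ ^ (-n)) w) = _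
    rw [mulLL_apply]
  have hzz : ∀ (m : ℤ) (w : Fin r → X.L), X.σ b₀ ^ m • (X.σ b₀ ^ (-m) • w) = w := by
    intro m w
    rw [smul_smul, ← zpow_add₀ hσ, add_neg_cancel, zpow_zero, one_smul]
  have hzz' : ∀ (m : ℤ) (w : Fin r → X.L), X.σ b₀ ^ (-m) • (X.σ b₀ ^ m • w) = w := by
    intro m w
    rw [smul_smul, ← zpow_add₀ hσ, neg_add_cancel, zpow_zero, one_smul]
  have hMmem : ∀ (m : ℤ) (w : Fin r → X.L), w ∈ E m → X.σ b₀ ^ (-m) • w ∈ affM E b₀ := by
    intro m w hw
    rw [mem_affM hE hs]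
    exact ⟨m, by rw [hzz]; exact hw⟩
  -- `σ^(-m) R_m ⊆ K`
  have hRK : ∀ (m : ℤ) (w : Fin r → X.L), w ∈ R m → X.σ b₀ ^ (-m) • w ∈ Knode E b₀ t := by
    intro m w hw
    obtain ⟨b, hb', c, hc, rfl⟩ := P4c_mem_R.1 hw
    have key : ∀ (a : X.I) (b : Fin r → X.L), X.σ b₀ ^ (-m) • (X.σ a • b) =
        mulLL (tau b₀ a) (X.σ b₀ ^ (-(m - 1)) • b) := by
      intro a b
      rw [mulLL_apply, smul_smul, smul_smul, tau]
      congr 1
      rw [show -(m - 1) = -m + 1 by ring, zpow_add₀ hσ, zpow_one]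
      field_simp
    rw [smul_add, key, key]
    refine Submodule.add_mem_sup ?_ ?_
    · exact ⟨_, hMmem _ _ hb', rfl⟩
    · exact ⟨_, hMmem _ _ hc, rfl⟩
  -- raising the degree
  have hraise : ∀ (m m' : ℤ) (v : Fin r → X.L), m ≤ m' → X.σ b₀ ^ m • v ∈ E m →
      X.σ b₀ ^ m' • v ∈ E m' := by
    intro m m' v hmm hv
    obtain ⟨j, rfl⟩ : ∃ j : ℕ, m' = m + j := ⟨(m' - m).toNat, by omega⟩
    have := hs.pow_smul b₀ j hv
    rwa [smul_smul, ← zpow_natCast, ← zpow_add₀ hσ, add_comm (j : ℤ) m] at this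
  have hmap : (E n).map f = (affM E b₀).map (Knode E b₀ t).mkQ := by
    apply le_antisymm
    · rintro _ ⟨w, hw, rfl⟩
      exact ⟨_, hMmem n w hw, (hf w).symm⟩
    · rintro _ ⟨v, hv, rfl⟩
      have key : ∀ (j : ℕ) (v : Fin r → X.L), X.σ b₀ ^ (n + j) • v ∈ E (n + j) →
          (Knode E b₀ t).mkQ v ∈ (E n).map f := by
        intro j
        induction j with
        | zero =>
          intro v hv
          rw [Nat.cast_zero, add_zero] at hv
          refine ⟨_, hv, ?_⟩
          rw [hf, hzz']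
        | succ j ih =>
          intro v hv
          have h1 := hn₂ (n + (j + 1 : ℕ)) (by omega) hv
          obtain ⟨a, ha, _, ⟨b, hb', rfl⟩, hab⟩ := Submodule.mem_sup.1 h1
          rw [mulLL_apply] at hab
          have h2 : v = X.σ b₀ ^ (-(n + (j + 1 : ℕ))) • a +
              X.σ b₀ ^ (-(n + (j : ℤ))) • b := by
            rw [← hzz' (n + (j + 1 : ℕ)) v, ← hab, smul_add, smul_smul]
            congr 3
            rw [show -(n + (j : ℤ)) = -(n + (j + 1 : ℕ)) + 1 by push_cast; ring,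
              zpow_add₀ hσ, zpow_one]
          rw [h2, map_add]
          have h3 : (Knode E b₀ t).mkQ (X.σ b₀ ^ (-(n + (j + 1 : ℕ))) • a) = 0 := by
            rw [Submodule.mkQ_apply, Submodule.Quotient.mk_eq_zero]
            exact hRK _ _ ha
          rw [h3, zero_add]
          refine ih _ ?_
          rw [hzz]
          rwa [show n + ((j + 1 : ℕ) : ℤ) - 1 = n + j by push_cast; ring] at hb'
      obtain ⟨m, hm⟩ := (mem_affM hE hs).1 hv
      have h1 := hraise m (n + ((m - n).toNat : ℕ)) v (by omega) hm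
      exact key _ v h1
  have hker : E n ⊓ LinearMap.ker f = R n := by
    apply le_antisymm
    · rintro v ⟨hv, hv'⟩
      replace hv' : f v = 0 := hv'
      rw [hf, Submodule.mkQ_apply, Submodule.Quotient.mk_eq_zero] at hv'
      obtain ⟨_, ⟨b, hb', rfl⟩, _, ⟨c, hc, rfl⟩, hbc⟩ := Submodule.mem_sup.1 hv'
      obtain ⟨m, hm⟩ := (mem_affM hE hs).1 hb'
      obtain ⟨m', hm'⟩ := (mem_affM hE hs).1 hc
      set J : ℕ := (max (m - n) (m' - n)).toNat with hJ
      have hJ1 : m ≤ n + J := by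
        have := le_max_left (m - n) (m' - n)
        (clear * -; omega)
      have hJ2 : m' ≤ n + J := by
        have := le_max_right (m - n) (m' - n)
        omega
      refine hinj' (J + 1) v hv (P4c_mem_R.2 ⟨X.σ b₀ ^ (n + (J : ℤ)) • b, ?_,
        X.σ b₀ ^ (n + (J : ℤ)) • c, ?_, ?_⟩)
      · have := hraise m (n + J) b hJ1 hm
        rwa [show n + ((J + 1 : ℕ) : ℤ) - 1 = n + J by push_cast; ring]
      · have := hraise m' (n + J) c hJ2 hm'
        rwa [show n + ((J + 1 : ℕ) : ℤ) - 1 = n + J by push_cast; ring]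
      · rw [← hzz n v, ← hbc, mulLL_apply, mulLL_apply, smul_add, smul_add]
        have key : ∀ (a : X.I) (b : Fin r → X.L), X.σ b₀ ^ (J + 1) • (X.σ b₀ ^ n •
            (tau b₀ a • b)) = X.σ a • (X.σ b₀ ^ (n + (J : ℤ)) • b) := by
          intro a b
          rw [smul_smul, smul_smul, smul_smul, tau]
          congr 1
          rw [zpow_add₀ hσ, zpow_natCast, pow_succ]
          (clear * - hσ; field_simp)
        rw [key, key]
    · intro v hv
      refine ⟨hRE n hv, LinearMap.mem_ker.2 ?_⟩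
      rw [hf, Submodule.mkQ_apply, Submodule.Quotient.mk_eq_zero]
      exact hRK n v hv
  have e1 := P4c_rank_nullity (E n) f
  rw [hmap, hker] at e1
  have e2 := hdim n (le_max_left _ _)
  refine ⟨?_, by omega⟩
  rw [← hmap]
  infer_instance

end Vale.Agent.P190.D
end
end

section

section

/-! Section 4, file P6b: `F_P^* E` as a graded submodule of `𝔖^r`, `𝔖 = L[(ℤ/p)^I]`. -/

set_option autoImplicit false
set_option linter.unusedSectionVars false
set_option linter.unusedVariables false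

open MvPolynomial Filter

namespace Vale.Agent.P190.D

variable {k : Type} [Field k] [IsAlgClosed k] (X : Arr k) (p : ℕ) [Fact p.Prime] [CharP k p]

/-- the group algebra `𝔖 = L[(ℤ/p)^I]`; `s_a = σ_a g_a` -/
abbrev SS := AddMonoidAlgebra X.L (X.I → ZMod p)

/-- `s_a = σ_a g_a`, so that `s_a^p = σ_a^p` -/
noncomputable def sS (a : X.I) : SS X p := AddMonoidAlgebra.single (Pi.single a 1) (X.σ a)

/-- `f_j = s_j² - ∑ l_{j,i} s_{b_i}²` -/
noncomputable def fS (j : X.J) : SS X p :=
  sS X p j.1 ^ 2 - ∑ i, algebraMap k (SS X p) (X.l j.1 i) * sS X p (X.b i) ^ 2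

/-- the weight of an exponent vector -/
def wt (u : X.I → ZMod p) : ℤ := ∑ a, ((u a).val : ℤ)

/-- the augmentation `g ↦ 1`, `s_a ↦ σ_a` -/
noncomputable def aug : SS X p →ₐ[X.L] X.L :=
  AddMonoidAlgebra.lift X.L X.L (X.I → ZMod p) 1

/-- the ambient space -/
abbrev Amb (r : ℕ) := Fin r → SS X p

variable {X}

/-- the coefficient vector at `u` -/
noncomputable def coef {r : ℕ} (u : X.I → ZMod p) (φ : Amb X p r) : Fin r → X.L := fun i => (φ i).coeff u

/-- the evaluation map -/
noncomputable def ev {r : ℕ} (φ : Amb X p r) : Fin r → X.L := fun i => aug X p (φ i)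

/-- degree `l` part of `F_P^* E = ⊕_u s^u Fr(E)` -/
noncomputable def Etil {r : ℕ} (E : ℤ → Submodule k (Fin r → X.L)) (l : ℤ) :
    Submodule k (Amb X p r) :=
  Submodule.span k {φ | ∀ u : X.I → ZMod p, ∃ w : Fin r → X.L,
    coef p u φ = (∏ a, X.σ a ^ (u a).val) • w ∧
    (((p : ℤ) ∣ l - wt X p u ∧ w ∈ FrL p E ((l - wt X p u) / p)) ∨ w = 0)}

/-- degree `l` part of `F_P^* W + (f)` -/
noncomputable def Dtil {r : ℕ} (E W : ℤ → Submodule k (Fin r → X.L)) (l : ℤ) :
    Submodule k (Amb X p r) :=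
  Etil p W l ⊔ ⨆ j : X.J, (Etil p E (l - 2)).map
    ((fS X p j • (LinearMap.id : Amb X p r →ₗ[SS X p] Amb X p r)).restrictScalars k)


section P6bBasic

theorem P6b_charP_SS : CharP (SS X p) p := by
  have h1 := charP_L p X
  exact charP_of_injective_algebraMap (algebraMap X.L (SS X p)).injective p

theorem sS_pow_p (a : X.I) : sS X p a ^ p = algebraMap X.L (SS X p) (X.σ a ^ p) := by
  unfold sS
  rw [AddMonoidAlgebra.single_pow]
  have h1 : p • (Pi.single a 1 : X.I → ZMod p) = 0 := by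
    ext x
    simp only [Pi.smul_apply, nsmul_eq_mul, CharP.cast_eq_zero, zero_mul, Pi.zero_apply]
  rw [h1]
  rfl

theorem P6b_sum_sig (x : X.I) : X.σ x ^ 2 = ∑ i, algebraMap k X.L (X.l x i) * X.σ (X.b i) ^ 2 := by
  rw [X.σ_sq x, Fin.sum_univ_three, X.σ_base0, X.σ_base1, X.σ_base2, Arr.q, map_add, map_add,
    map_mul, map_mul, map_pow, map_pow, one_pow, mul_one]
  rfl

theorem fS_pow_p (j : X.J) : fS X p j ^ p = 0 := by
  have := P6b_charP_SS (X := X) p
  have hs : ∀ a : X.I, (sS X p a ^ 2) ^ p = algebraMap X.L (SS X p) ((X.σ a ^ 2) ^ p) := by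
    intro a
    rw [← pow_mul, mul_comm, pow_mul, sS_pow_p, ← map_pow, ← pow_mul, mul_comm, pow_mul]
  unfold fS
  rw [sub_pow_char, sum_pow_char, hs]
  have h2 : ∀ i : Fin 3, (algebraMap k (SS X p) (X.l j.1 i) * sS X p (X.b i) ^ 2) ^ p =
      algebraMap X.L (SS X p) ((algebraMap k X.L (X.l j.1 i) * X.σ (X.b i) ^ 2) ^ p) := by
    intro i
    rw [mul_pow, hs, mul_pow, map_mul, ← map_pow, ← map_pow, IsScalarTower.algebraMap_apply k X.L (SS X p)]
  have hL := charP_L p X
  rw [Finset.sum_congr rfl fun i _ => h2 i, ← map_sum, ← map_sub, ← sum_pow_char, ← sub_pow_char,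
    ← P6b_sum_sig, sub_self, zero_pow (Fact.out : p.Prime).ne_zero, map_zero]

theorem aug_sS (a : X.I) : aug X p (sS X p a) = X.σ a := by
  unfold aug sS
  rw [AddMonoidAlgebra.lift_single]
  simp

theorem aug_fS (j : X.J) : aug X p (fS X p j) = 0 := by
  unfold fS
  rw [map_sub, map_sum, map_pow, aug_sS]
  have h2 : ∀ i : Fin 3, aug X p (algebraMap k (SS X p) (X.l j.1 i) * sS X p (X.b i) ^ 2) =
      algebraMap k X.L (X.l j.1 i) * X.σ (X.b i) ^ 2 := by
    intro i
    rw [map_mul, map_pow, aug_sS, IsScalarTower.algebraMap_apply k X.L (SS X p), AlgHom.commutes]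
    rfl
  rw [Finset.sum_congr rfl fun i _ => h2 i, ← P6b_sum_sig, sub_self]

end P6bBasic


section P6bSing

variable {r : ℕ}

/-- an element supported at `u` -/
noncomputable def P6b_sing (u : X.I → ZMod p) (c : Fin r → X.L) : Amb X p r :=
  fun i => AddMonoidAlgebra.single u (c i)

/-- the coefficient map -/
noncomputable def P6b_coefL (u : X.I → ZMod p) : Amb X p r →ₗ[k] (Fin r → X.L) where
  toFun := coef p u
  map_add' _ _ := rfl
  map_smul' _ _ := rfl

theorem P6b_coef_sing (u v : X.I → ZMod p) (c : Fin r → X.L) [Decidable (v = u)] :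
    coef p v (P6b_sing p u c) = if v = u then c else 0 := by
  classical
  ext i
  change (Finsupp.single u (c i)) v = _
  rw [Finsupp.single_apply]
  by_cases h : v = u
  · rw [if_pos h, if_pos h.symm]
  · rw [if_neg h, if_neg (fun h' => h h'.symm)]
    rfl

theorem P6b_ext {φ ψ : Amb X p r} (h : ∀ u, coef p u φ = coef p u ψ) : φ = ψ := by
  ext i u
  exact congrFun (h u) i

theorem P6b_coef_sum {ι : Type} (s : Finset ι) (φ : ι → Amb X p r) (u : X.I → ZMod p) :
    coef p u (∑ j ∈ s, φ j) = ∑ j ∈ s, coef p u (φ j) :=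
  map_sum (P6b_coefL (k := k) (X := X) p u) φ s

theorem P6b_sum_sing (φ : Amb X p r) : ∑ u, P6b_sing p u (coef p u φ) = φ := by
  classical
  apply P6b_ext
  intro v
  rw [P6b_coef_sum, Finset.sum_eq_single v]
  · rw [P6b_coef_sing, if_pos rfl]
  · intro u _ hu
    rw [P6b_coef_sing, if_neg (Ne.symm hu)]
  · intro h
    exact absurd (Finset.mem_univ v) h

theorem P6b_sS_sing (a : X.I) (u : X.I → ZMod p) (c : Fin r → X.L) :
    sS X p a • P6b_sing p u c = P6b_sing p (Pi.single a 1 + u) (X.σ a • c) := by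
  funext i
  change sS X p a * AddMonoidAlgebra.single u (c i) = AddMonoidAlgebra.single _ (X.σ a * c i)
  unfold sS
  rw [AddMonoidAlgebra.single_mul_single]

/-- evaluation of a homogeneous element -/
theorem P6b_ev_sing (u : X.I → ZMod p) (c : Fin r → X.L) : ev p (P6b_sing p u c) = c := by
  funext i
  change aug X p (AddMonoidAlgebra.single u (c i)) = c i
  unfold aug
  rw [AddMonoidAlgebra.lift_single]
  simp

/-- `ev` as a linear map -/
noncomputable def P6b_evL : Amb X p r →ₗ[k] (Fin r → X.L) where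
  toFun := ev p
  map_add' φ ψ := by
    funext i
    exact map_add (aug X p) _ _
  map_smul' c φ := by
    funext i
    exact LinearMap.map_smul ((aug X p).toLinearMap.restrictScalars k) c (φ i)

theorem P6b_ev_eq (φ : Amb X p r) : ev p φ = ∑ u, coef p u φ := by
  conv_lhs => rw [← P6b_sum_sing p φ]
  have h1 := map_sum (P6b_evL (k := k) (X := X) (r := r) p)
    (fun u => P6b_sing p u (coef p u φ)) Finset.univ
  refine h1.trans (Finset.sum_congr rfl fun u _ => P6b_ev_sing p u _)

/-- the monomial `σ^u` -/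
noncomputable def P6b_sig (u : X.I → ZMod p) : X.L := ∏ a, X.σ a ^ (u a).val

theorem P6b_sig_ne_zero (u : X.I → ZMod p) : P6b_sig p u ≠ 0 :=
  Finset.prod_ne_zero_iff.2 fun a _ => pow_ne_zero _ (X.σ_ne_zero a)

/-- adding `e_a` without overflow -/
theorem P6b_add_lt (a : X.I) (u : X.I → ZMod p) (h : (u a).val + 1 < p) :
    P6b_sig p (Pi.single a 1 + u) = X.σ a * P6b_sig p u ∧
      wt X p (Pi.single a 1 + u) = wt X p u + 1 := by
  classical
  have hp : Fact (1 < p) := ⟨(Fact.out : p.Prime).one_lt⟩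
  have ha : (Pi.single a 1 + u : X.I → ZMod p) a = 1 + u a := by simp
  have hv : (1 + u a : ZMod p).val = (u a).val + 1 := by
    rw [ZMod.val_add_of_lt, ZMod.val_one p, add_comm]
    rw [ZMod.val_one p]
    omega
  have hne : ∀ x ∈ Finset.univ.erase a, (Pi.single a 1 + u : X.I → ZMod p) x = u x := by
    intro x hx
    have : x ≠ a := (Finset.mem_erase.1 hx).1
    simp [this]
  constructor
  · unfold P6b_sig
    rw [← Finset.mul_prod_erase _ _ (Finset.mem_univ a), ← Finset.mul_prod_erase Finset.univ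
      (fun x => X.σ x ^ (u x).val) (Finset.mem_univ a), ha, hv, pow_succ', mul_assoc]
    congr 2
    exact Finset.prod_congr rfl fun x hx => by rw [hne x hx]
  · unfold wt
    rw [← Finset.add_sum_erase _ _ (Finset.mem_univ a), ← Finset.add_sum_erase Finset.univ
      (fun x => ((u x).val : ℤ)) (Finset.mem_univ a), ha, hv]
    rw [Finset.sum_congr rfl fun x hx => by rw [hne x hx]]
    push_cast
    ring

/-- adding `e_a` with overflow -/
theorem P6b_add_eq (a : X.I) (u : X.I → ZMod p) (h : (u a).val + 1 = p) :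
    X.σ a ^ p * P6b_sig p (Pi.single a 1 + u) = X.σ a * P6b_sig p u ∧
      wt X p (Pi.single a 1 + u) + p = wt X p u + 1 := by
  classical
  have ha : (Pi.single a 1 + u : X.I → ZMod p) a = 1 + u a := by simp
  have hv : (1 + u a : ZMod p) = 0 := by
    have h1 : (((u a).val + 1 : ℕ) : ZMod p) = 0 := by
      rw [h]
      exact ZMod.natCast_self p
    rw [Nat.cast_add, ZMod.natCast_zmod_val, Nat.cast_one, add_comm] at h1
    exact h1
  have hne : ∀ x ∈ Finset.univ.erase a, (Pi.single a 1 + u : X.I → ZMod p) x = u x := by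
    intro x hx
    have : x ≠ a := (Finset.mem_erase.1 hx).1
    simp [this]
  constructor
  · unfold P6b_sig
    rw [← Finset.mul_prod_erase _ _ (Finset.mem_univ a), ← Finset.mul_prod_erase Finset.univ
      (fun x => X.σ x ^ (u x).val) (Finset.mem_univ a), ha, hv, ZMod.val_zero, pow_zero, one_mul,
      ← mul_assoc, ← pow_succ', h]
    congr 1
    exact Finset.prod_congr rfl fun x hx => by rw [hne x hx]
  · unfold wt
    rw [← Finset.add_sum_erase _ _ (Finset.mem_univ a), ← Finset.add_sum_erase Finset.univ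
      (fun x => ((u x).val : ℤ)) (Finset.mem_univ a), ha, hv, ZMod.val_zero]
    rw [Finset.sum_congr rfl fun x hx => by rw [hne x hx]]
    have h2 : ((u a).val : ℤ) + 1 = p := by exact_mod_cast h
    push_cast
    linarith

end P6bSing


section P6bLat

variable {r : ℕ}

theorem P6b_frV_smul_k (c : k) (v : Fin r → X.L) : frV p (c • v) = c ^ p • frV p v := by
  rw [← algebraMap_smul X.L c v, frV_smul, ← map_pow, algebraMap_smul]

theorem P6b_frV_zero : frV p (0 : Fin r → X.L) = 0 := by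
  funext i
  exact zero_pow (Fact.out : p.Prime).ne_zero

/-- homogeneous coefficients at `u` of the elements of degree `l` -/
def P6b_Q (E : ℤ → Submodule k (Fin r → X.L)) (l : ℤ) (u : X.I → ZMod p)
    (c : Fin r → X.L) : Prop :=
  c = 0 ∨ ∃ m : ℤ, (p : ℤ) * m = l - wt X p u ∧ ∃ e ∈ E m, c = P6b_sig p u • frV p e

theorem P6b_Q_iff (E : ℤ → Submodule k (Fin r → X.L)) (l : ℤ) (u : X.I → ZMod p)
    (c : Fin r → X.L) : P6b_Q p E l u c ↔ ∃ w : Fin r → X.L,
      c = (∏ a, X.σ a ^ (u a).val) • w ∧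
      (((p : ℤ) ∣ l - wt X p u ∧ w ∈ FrL p E ((l - wt X p u) / p)) ∨ w = 0) := by
  have hp0 : (p : ℤ) ≠ 0 := by exact_mod_cast (Fact.out : p.Prime).ne_zero
  constructor
  · rintro (rfl | ⟨m, hm, e, he, rfl⟩)
    · exact ⟨0, by rw [smul_zero], Or.inr rfl⟩
    · refine ⟨frV p e, rfl, Or.inl ⟨⟨m, hm.symm⟩, ?_⟩⟩
      rw [← hm, Int.mul_ediv_cancel_left _ hp0]
      exact (mem_FrL p).2 ⟨e, he, rfl⟩
  · rintro ⟨w, rfl, ⟨⟨m, hm⟩, hw⟩ | rfl⟩
    · rw [hm, Int.mul_ediv_cancel_left _ hp0] at hw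
      obtain ⟨e, he, rfl⟩ := (mem_FrL p).1 hw
      exact Or.inr ⟨m, hm.symm, e, he, rfl⟩
    · left
      rw [smul_zero]

/-- the space of homogeneous coefficients at `u` -/
noncomputable def P6b_M (E : ℤ → Submodule k (Fin r → X.L)) (l : ℤ) (u : X.I → ZMod p) :
    Submodule k (Fin r → X.L) where
  carrier := {c | P6b_Q p E l u c}
  zero_mem' := Or.inl rfl
  add_mem' := by
    rintro c c' (rfl | ⟨m, hm, e, he, rfl⟩) hc'
    · rwa [zero_add]
    rcases hc' with rfl | ⟨m', hm', e', he', rfl⟩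
    · rw [add_zero]
      exact Or.inr ⟨m, hm, e, he, rfl⟩
    · have hp0 : (p : ℤ) ≠ 0 := by exact_mod_cast (Fact.out : p.Prime).ne_zero
      have h1 : m = m' := mul_left_cancel₀ hp0 (hm.trans hm'.symm)
      subst h1
      exact Or.inr ⟨m, hm, e + e', (E m).add_mem he he', by rw [frV_add, smul_add]⟩
  smul_mem' := by
    rintro a c (rfl | ⟨m, hm, e, he, rfl⟩)
    · rw [smul_zero]
      exact Or.inl rfl
    · obtain ⟨b, rfl⟩ := IsAlgClosed.exists_pow_nat_eq a (Fact.out : p.Prime).pos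
      refine Or.inr ⟨m, hm, b • e, (E m).smul_mem b he, ?_⟩
      rw [P6b_frV_smul_k, smul_comm]

theorem P6b_mem_M {E : ℤ → Submodule k (Fin r → X.L)} {l : ℤ} {u : X.I → ZMod p}
    {c : Fin r → X.L} : c ∈ P6b_M p E l u ↔ P6b_Q p E l u c := Iff.rfl

theorem P6b_Etil_eq (E : ℤ → Submodule k (Fin r → X.L)) (l : ℤ) :
    Etil p E l = ⨅ u, (P6b_M p E l u).comap (P6b_coefL p u) := by
  apply le_antisymm
  · refine Submodule.span_le.2 ?_
    intro φ hφ
    rw [SetLike.mem_coe, Submodule.mem_iInf]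
    intro u
    exact (P6b_Q_iff p E l u _).2 (hφ u)
  · intro φ hφ
    rw [Submodule.mem_iInf] at hφ
    refine Submodule.subset_span ?_
    intro u
    exact (P6b_Q_iff p E l u _).1 (hφ u)

theorem P6b_mem {E : ℤ → Submodule k (Fin r → X.L)} {l : ℤ} {φ : Amb X p r} :
    φ ∈ Etil p E l ↔ ∀ u, P6b_Q p E l u (coef p u φ) := by
  rw [P6b_Etil_eq, Submodule.mem_iInf]
  exact Iff.rfl

theorem P6b_sing_mem {E : ℤ → Submodule k (Fin r → X.L)} {l : ℤ} {u : X.I → ZMod p}
    {c : Fin r → X.L} (h : P6b_Q p E l u c) : P6b_sing p u c ∈ Etil p E l := by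
  classical
  rw [P6b_mem]
  intro v
  rw [P6b_coef_sing]
  split_ifs with hv
  · rw [hv]
    exact h
  · exact Or.inl rfl

/-- multiplication by an element of `L` -/
noncomputable def P6b_mul (s : X.L) : (Fin r → X.L) →ₗ[k] (Fin r → X.L) :=
  (s • (LinearMap.id : (Fin r → X.L) →ₗ[X.L] (Fin r → X.L))).restrictScalars k

theorem P6b_mul_injective {s : X.L} (hs : s ≠ 0) :
    Function.Injective (P6b_mul (k := k) (r := r) s) := by
  intro v w h
  have h1 : s • v = s • w := h
  exact smul_right_injective _ hs h1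

theorem P6b_M_eq (E : ℤ → Submodule k (Fin r → X.L)) {l m : ℤ} {u : X.I → ZMod p}
    (hm : (p : ℤ) * m = l - wt X p u) :
    P6b_M p E l u = (FrL p E m).map (P6b_mul (P6b_sig p u)) := by
  have hp0 : (p : ℤ) ≠ 0 := by exact_mod_cast (Fact.out : p.Prime).ne_zero
  ext c
  constructor
  · rintro (rfl | ⟨m', hm', e, he, rfl⟩)
    · exact zero_mem _
    · have h1 : m' = m := mul_left_cancel₀ hp0 (hm'.trans hm.symm)
      subst h1
      exact ⟨frV p e, (mem_FrL p).2 ⟨e, he, rfl⟩, rfl⟩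
  · rintro ⟨w, hw, rfl⟩
    obtain ⟨e, he, rfl⟩ := (mem_FrL p).1 hw
    exact Or.inr ⟨m, hm, e, he, rfl⟩

theorem P6b_M_bot (E : ℤ → Submodule k (Fin r → X.L)) {l : ℤ} {u : X.I → ZMod p}
    (hm : ¬ (p : ℤ) ∣ l - wt X p u) : P6b_M p E l u = ⊥ := by
  rw [eq_bot_iff]
  rintro c (rfl | ⟨m, hm', -⟩)
  · exact zero_mem _
  · exact absurd ⟨m, hm'.symm⟩ hm

theorem P6b_finite_FrL {E : ℤ → Submodule k (Fin r → X.L)} (hE : IsBLat E) (n : ℤ) :
    Module.Finite k (FrL p E n) := by
  classical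
  have h1 := hE.fin n
  rw [Module.Finite.iff_fg] at h1
  obtain ⟨S, hS⟩ := h1
  have h2 : FrL p E n ≤ Submodule.span k ((S.image (frV p) : Finset (Fin r → X.L)) : Set _) := by
    refine Submodule.span_le.2 ?_
    rintro _ ⟨e, he, rfl⟩
    rw [SetLike.mem_coe] at he ⊢
    rw [← hS] at he
    induction he using Submodule.span_induction with
    | mem e he => exact Submodule.subset_span (by rw [Finset.coe_image]; exact ⟨e, he, rfl⟩)
    | zero => rw [P6b_frV_zero]; exact zero_mem _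
    | add e e' _ _ h h' => rw [frV_add]; exact add_mem h h'
    | smul c e _ h => rw [P6b_frV_smul_k]; exact Submodule.smul_mem _ _ h
  exact Submodule.finiteDimensional_of_le h2

theorem P6b_finite_M {E : ℤ → Submodule k (Fin r → X.L)} (hE : IsBLat E) (l : ℤ)
    (u : X.I → ZMod p) : Module.Finite k (P6b_M p E l u) := by
  by_cases h : (p : ℤ) ∣ l - wt X p u
  · obtain ⟨m, hm⟩ := h
    have := P6b_finite_FrL p hE m
    rw [P6b_M_eq p E hm.symm]
    infer_instance
  · rw [P6b_M_bot p E h]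
    infer_instance

/-- `F_P^* E` is the product of its coefficient spaces -/
noncomputable def P6b_equiv (E : ℤ → Submodule k (Fin r → X.L)) (l : ℤ) :
    Etil p E l ≃ₗ[k] (∀ u, P6b_M p E l u) where
  toFun φ u := ⟨coef p u φ.1, P6b_mem p |>.1 φ.2 u⟩
  map_add' _ _ := rfl
  map_smul' _ _ := rfl
  invFun c := ⟨∑ u, P6b_sing p u (c u).1, sum_mem fun u _ => P6b_sing_mem p (c u).2⟩
  left_inv φ := Subtype.ext (P6b_sum_sing p φ.1)
  right_inv c := by
    classical
    funext v
    apply Subtype.ext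
    change coef p v (∑ u, P6b_sing p u (c u).1) = _
    rw [P6b_coef_sum, Finset.sum_eq_single v]
    · rw [P6b_coef_sing, if_pos rfl]
    · intro u _ hu
      rw [P6b_coef_sing, if_neg (Ne.symm hu)]
    · intro h
      exact absurd (Finset.mem_univ v) h

end P6bLat

variable {r : ℕ} {Γ : (Fin r → X.L) →ₗ[X.L] (Fin r → X.L)} {E : ℤ → Submodule k (Fin r → X.L)}

theorem mem_Etil (hE : IsBLat E) {l : ℤ} {φ : Amb X p r} : φ ∈ Etil p E l ↔
    ∀ u : X.I → ZMod p, ∃ w : Fin r → X.L, coef p u φ = (∏ a, X.σ a ^ (u a).val) • w ∧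
    (((p : ℤ) ∣ l - wt X p u ∧ w ∈ FrL p E ((l - wt X p u) / p)) ∨ w = 0) := by
  rw [P6b_mem]
  exact forall_congr' fun u => P6b_Q_iff p E l u _

theorem finite_Etil (hE : IsBLat E) (l : ℤ) : Module.Finite k (Etil p E l) := by
  have := P6b_finite_M p hE l
  exact Module.Finite.equiv (P6b_equiv p E l).symm

theorem P6b_finrank_M (hE : IsBLat E) (l : ℤ) (u : X.I → ZMod p) :
    (Module.finrank k (P6b_M p E l u) : ℤ) = if (p : ℤ) ∣ l - wt X p u then
      (Module.finrank k (E ((l - wt X p u) / p)) : ℤ) else 0 := by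
  have hp0 : (p : ℤ) ≠ 0 := by exact_mod_cast (Fact.out : p.Prime).ne_zero
  split_ifs with h
  · obtain ⟨m, hm⟩ := h
    rw [P6b_M_eq p E hm.symm, hm, Int.mul_ediv_cancel_left _ hp0, ← finrank_FrL p hE,
      (Submodule.equivMapOfInjective (P6b_mul (k := k) (r := r) (P6b_sig p u))
        (P6b_mul_injective (P6b_sig_ne_zero p u)) (FrL p E m)).finrank_eq]
  · rw [P6b_M_bot p E h, finrank_bot]
    rfl

theorem P6b_val (n : ℕ) [NeZero n] (a : Fin n) : (ZMod.finEquiv n a).val = (a : ℕ) := by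
  cases n with
  | zero => exact a.elim0
  | succ n => rfl

theorem finrank_Etil (hE : IsBLat E) (l : ℤ) : (Module.finrank k (Etil p E l) : ℤ) =
    ∑ u : X.I → Fin p, (if (p : ℤ) ∣ l - ∑ a, ((u a : ℕ) : ℤ) then
      (Module.finrank k (E ((l - ∑ a, ((u a : ℕ) : ℤ)) / p)) : ℤ) else 0) := by
  have h0 := P6b_finite_M p hE l
  rw [(P6b_equiv p E l).finrank_eq, Module.finrank_pi_fintype]
  push_cast
  rw [Finset.sum_congr rfl fun u _ => P6b_finrank_M p hE l u]
  refine (Fintype.sum_equiv (Equiv.arrowCongr (Equiv.refl X.I) (ZMod.finEquiv p).toEquiv)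
    _ _ fun u => ?_).symm
  have h1 : wt X p ((Equiv.arrowCongr (Equiv.refl X.I) (ZMod.finEquiv p).toEquiv) u) =
      ∑ a, ((u a : ℕ) : ℤ) := by
    unfold wt
    refine Finset.sum_congr rfl fun a _ => ?_
    have h2 := P6b_val p (u a)
    exact_mod_cast h2
  rw [h1]

theorem Etil_mono {W : ℤ → Submodule k (Fin r → X.L)} (hE : IsBLat E)
    (h : ∀ n, W n ≤ E n) (l : ℤ) : Etil p W l ≤ Etil p E l := by
  intro φ hφ
  rw [P6b_mem] at hφ ⊢
  intro u
  rcases hφ u with h1 | ⟨m, hm, e, he, h1⟩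
  · exact Or.inl h1
  · exact Or.inr ⟨m, hm, e, h m he, h1⟩



theorem P6b_Q_sS (hs : SigStable X E) (a : X.I) {l : ℤ} {u : X.I → ZMod p} {c : Fin r → X.L}
    (h : P6b_Q p E l u c) : P6b_Q p E (l + 1) (Pi.single a 1 + u) (X.σ a • c) := by
  rcases h with rfl | ⟨m, hm, e, he, rfl⟩
  · exact Or.inl (smul_zero _)
  have hlt : (u a).val < p := ZMod.val_lt _
  by_cases hu : (u a).val + 1 < p
  · obtain ⟨h1, h2⟩ := P6b_add_lt (X := X) p a u hu
    exact Or.inr ⟨m, by rw [h2]; linarith only [hm], e, he, by rw [h1, mul_smul]⟩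
  · obtain ⟨h1, h2⟩ := P6b_add_eq (X := X) p a u (by omega)
    refine Or.inr ⟨m + 1, by rw [mul_add]; linarith, X.σ a • e, hs a he, ?_⟩
    rw [frV_smul, smul_smul, smul_smul, ← h1, mul_comm]

theorem sS_Etil (hE : IsBLat E) (hs : SigStable X E) (a : X.I) {l : ℤ} {φ : Amb X p r}
    (hφ : φ ∈ Etil p E l) : sS X p a • φ ∈ Etil p E (l + 1) := by
  rw [P6b_mem] at hφ
  rw [← P6b_sum_sing p φ, Finset.smul_sum]
  refine sum_mem fun u _ => ?_
  rw [P6b_sS_sing]
  exact P6b_sing_mem p (P6b_Q_sS p hs a (hφ u))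

theorem fS_Etil (hE : IsBLat E) (hs : SigStable X E) (j : X.J) {l : ℤ} {φ : Amb X p r}
    (hφ : φ ∈ Etil p E l) : fS X p j • φ ∈ Etil p E (l + 2) := by
  have h1 : ∀ a : X.I, sS X p a ^ 2 • φ ∈ Etil p E (l + 2) := by
    intro a
    have h2 := sS_Etil p hE hs a (sS_Etil p hE hs a hφ)
    rw [smul_smul, ← sq, add_assoc] at h2
    exact h2
  unfold fS
  rw [sub_smul, Finset.sum_smul]
  refine sub_mem (h1 _) (sum_mem fun i _ => ?_)
  rw [mul_smul, algebraMap_smul]
  exact Submodule.smul_mem _ _ (h1 _)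

theorem P6b_sing_add (u : X.I → ZMod p) (c c' : Fin r → X.L) :
    P6b_sing p u (c + c') = P6b_sing p u c + P6b_sing p u c' := by
  funext i
  exact AddMonoidAlgebra.single_add _ _ _

theorem P6b_sing_smul (u : X.I → ZMod p) (a : k) (c : Fin r → X.L) :
    P6b_sing p u (a • c) = a • P6b_sing p u c := by
  funext i
  exact (AddMonoidAlgebra.smul_single a u (c i)).symm

theorem P6b_sing_zero (u : X.I → ZMod p) : P6b_sing p u (0 : Fin r → X.L) = 0 := by
  funext i
  exact AddMonoidAlgebra.single_zero _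

theorem P6b_deg_one (u : X.I → ℕ) (hu : ∑ x, u x = 1) : ∃ x, ∏ y, X.σ y ^ u y = X.σ x := by
  classical
  obtain ⟨x, -, hx⟩ := Finset.exists_ne_zero_of_sum_ne_zero (hu.trans_ne one_ne_zero)
  have h1 := Finset.add_sum_erase Finset.univ u (Finset.mem_univ x)
  rw [hu] at h1
  have h2 : ∑ y ∈ Finset.univ.erase x, u y = 0 := by omega
  have h3 : u x = 1 := by (clear * - h1 h2; omega)
  refine ⟨x, ?_⟩
  rw [← Finset.mul_prod_erase _ _ (Finset.mem_univ x), h3, pow_one, Finset.prod_eq_one, mul_one]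
  intro y hy
  rw [Finset.sum_eq_zero_iff.1 h2 y hy, pow_zero]

/-- `F_P^* E` is generated in bounded degrees -/
theorem gen_Etil (hE : IsBLat E) (hs : SigStable X E) : ∃ n₀ n₁ : ℤ,
    (∀ n < n₀, Etil p E n = ⊥) ∧ ∀ n ≥ n₁, Etil p E (n + 1) ≤ Submodule.span k
      {w | ∃ a : X.I, ∃ v ∈ Etil p E n, w = sS X p a • v} := by
  classical
  have hp : (0 : ℤ) < p := by exact_mod_cast (Fact.out : p.Prime).pos
  obtain ⟨m₀, hm₀⟩ := hE.bdd
  obtain ⟨m₁, hm₁⟩ := hE.fg
  refine ⟨p * m₀, p * (m₁ + 1), ?_, ?_⟩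
  · intro n hn
    rw [eq_bot_iff]
    intro φ hφ
    rw [Submodule.mem_bot]
    apply P6b_ext
    intro u
    rcases (P6b_mem p).1 hφ u with h1 | ⟨m, hm, e, he, h1⟩
    · exact h1
    · have hw : 0 ≤ wt X p u := Finset.sum_nonneg fun a _ => Int.natCast_nonneg _
      have h2 : m < m₀ := by
        by_contra hcon
        rw [not_lt] at hcon
        have h3 := mul_le_mul_of_nonneg_left hcon hp.le
        linarith only [hn, hm, hw, h3]
      rw [hm₀ m h2, Submodule.mem_bot] at he
      rw [h1, he, P6b_frV_zero, smul_zero]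
      rfl
  · intro n hn φ hφ
    rw [P6b_mem] at hφ
    set Sp := Submodule.span k {w | ∃ a : X.I, ∃ v ∈ Etil p E n, w = sS X p a • v} with hSp
    rw [← P6b_sum_sing p φ]
    refine sum_mem fun u _ => ?_
    rcases hφ u with h1 | ⟨m, hm, e, he, h1⟩
    · rw [h1, P6b_sing_zero]
      exact zero_mem _
    rw [h1]
    by_cases hu : ∃ a, u a ≠ 0
    · obtain ⟨a, ha⟩ := hu
      set u' : X.I → ZMod p := -Pi.single a 1 + u with hu'
      have h2 : Pi.single a 1 + u' = u := by
        rw [hu', add_neg_cancel_left]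
      have h3 : (u' a).val + 1 < p := by
        have h4 : u' a = u a - 1 := by
          rw [hu']
          simp only [Pi.add_apply, Pi.neg_apply, Pi.single_eq_same, sub_eq_neg_add]
        have hp1 : Fact (1 < p) := ⟨(Fact.out : p.Prime).one_lt⟩
        have h5 : (u a - 1).val = (u a).val - 1 := by
          rw [ZMod.val_sub, ZMod.val_one p]
          rw [ZMod.val_one p]
          have := (ZMod.val_ne_zero (u a)).2 ha
          omega
        have h6 := ZMod.val_lt (u a)
        have h7 := (ZMod.val_ne_zero (u a)).2 ha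
        rw [h4, h5]
        omega
      obtain ⟨h4, h5⟩ := P6b_add_lt (X := X) p a u' h3
      rw [h2] at h4 h5
      refine Submodule.subset_span ⟨a, P6b_sing p u' (P6b_sig p u' • frV p e),
        P6b_sing_mem p (Or.inr ⟨m, by linarith only [hm, h5], e, he, rfl⟩), ?_⟩
      rw [P6b_sS_sing, h2, h4, mul_smul]
    · push Not at hu
      have hu0 : u = 0 := funext hu
      subst hu0
      have hw0 : wt X p (0 : X.I → ZMod p) = 0 := by
        unfold wt
        simp only [Pi.zero_apply, ZMod.val_zero, CharP.cast_eq_zero, Finset.sum_const_zero]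
      have hs0 : P6b_sig (X := X) p (0 : X.I → ZMod p) = 1 := by
        unfold P6b_sig
        simp only [Pi.zero_apply, ZMod.val_zero, pow_zero, Finset.prod_const_one]
      rw [hw0, sub_zero] at hm
      rw [hs0, one_smul]
      have hm1 : m₁ ≤ m - 1 := by
        by_contra hcon
        rw [not_le] at hcon
        have h3 : m ≤ m₁ := by omega
        have h4 := mul_le_mul_of_nonneg_left h3 hp.le
        rw [mul_add, mul_one] at hn
        omega
      have hgen : ∀ (x : X.I), ∀ v ∈ E (m - 1), P6b_sing p 0 (frV p (X.σ x • v)) ∈ Sp := by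
        intro x v hv
        have h2 : (Pi.single x 1 : X.I → ZMod p) + -Pi.single x 1 = 0 := add_neg_cancel _
        have h3 : ((-Pi.single x 1 : X.I → ZMod p) x).val + 1 = p := by
          have h4 : (-Pi.single x 1 : X.I → ZMod p) x = -1 := by simp
          rw [h4]
          have h5 := ZMod.val_neg_one (p - 1)
          have h6 : (p - 1).succ = p := by
            have := (Fact.out : p.Prime).pos
            omega
          rw [h6] at h5
          omega
        obtain ⟨h4, h5⟩ := P6b_add_eq (X := X) p x (-Pi.single x 1) h3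
        rw [h2, hs0, mul_one] at h4
        rw [h2, hw0] at h5
        refine Submodule.subset_span ⟨x, P6b_sing p (-Pi.single x 1)
          (P6b_sig p (-Pi.single x 1) • frV p v),
          P6b_sing_mem p (Or.inr ⟨m - 1, by rw [mul_sub]; linarith, v, hv, rfl⟩), ?_⟩
        rw [P6b_sS_sing, h2, frV_smul, h4, mul_smul]
      have he' : e ∈ E (m - 1 + 1) := by rwa [sub_add_cancel]
      have he2 := hm₁ (m - 1) hm1 he'
      clear he' h1 he
      induction he2 using Submodule.span_induction with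
      | mem e hmem =>
        obtain ⟨a, ha, v, hv, rfl⟩ := hmem
        have h2 := X.algebraMap_mem_T0 ha
        rw [← algebraMap_smul X.L a v]
        generalize algebraMap (A k) X.L a = f at h2
        unfold Arr.T0 at h2
        induction h2 using Submodule.span_induction with
        | mem f hf =>
          obtain ⟨u, hu, rfl⟩ := hf
          obtain ⟨x, hx⟩ := P6b_deg_one (X := X) u (by exact_mod_cast hu)
          rw [hx]
          exact hgen x v hv
        | zero => rw [zero_smul, P6b_frV_zero, P6b_sing_zero]; exact zero_mem _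
        | add f g _ _ hf hg =>
          rw [add_smul, frV_add, P6b_sing_add]
          exact add_mem hf hg
        | smul c f _ hf =>
          rw [smul_assoc, P6b_frV_smul_k, P6b_sing_smul]
          exact Submodule.smul_mem _ _ hf
      | zero => rw [P6b_frV_zero, P6b_sing_zero]; exact zero_mem _
      | add e e' _ _ hf hg =>
        rw [frV_add, P6b_sing_add]
        exact add_mem hf hg
      | smul c e _ hf =>
        rw [P6b_frV_smul_k, P6b_sing_smul]
        exact Submodule.smul_mem _ _ hf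

theorem ev_smul (s : SS X p) (φ : Amb X p r) : ev p (s • φ) = aug X p s • ev p φ := by
  funext i
  exact map_mul (aug X p) s (φ i)

/-- `ev` maps `F_P^* E` onto `P(E)` -/
theorem ev_Etil (hE : IsBLat E) (hs : SigStable X E) (l : ℤ) {w : Fin r → X.L} :
    w ∈ PE p E l ↔ ∃ φ ∈ Etil p E l, ev p φ = w := by
  constructor
  · intro hw
    have hle : PE p E l ≤ (Etil p E l).map (P6b_evL (k := k) (X := X) (r := r) p) := by
      refine Submodule.span_le.2 ?_
      rintro _ ⟨n, f, v, hf, hv, rfl⟩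
      rw [SetLike.mem_coe]
      unfold Arr.T0 at hf
      induction hf using Submodule.span_induction with
      | mem f hf =>
        obtain ⟨u, hu, rfl⟩ := hf
        set u' : X.I → ZMod p := fun x => (u x : ZMod p) with hu'
        have h1 : (∏ x, X.σ x ^ u x) • frV p v =
            P6b_sig p u' • frV p ((∏ x, X.σ x ^ (u x / p)) • v) := by
          rw [frV_smul, smul_smul]
          congr 1
          unfold P6b_sig
          rw [← Finset.prod_pow, ← Finset.prod_mul_distrib]
          refine Finset.prod_congr rfl fun x _ => ?_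
          rw [hu', ZMod.val_natCast, ← pow_mul, ← pow_add, Nat.mod_add_div']
        have h2 : (p : ℤ) * (n + ((∑ x, u x / p : ℕ) : ℤ)) = l - wt X p u' := by
          have h3 : wt X p u' = ((∑ x, u x : ℕ) : ℤ) - p * ((∑ x, u x / p : ℕ) : ℤ) := by
            unfold wt
            push_cast
            rw [Finset.mul_sum, ← Finset.sum_sub_distrib]
            refine Finset.sum_congr rfl fun x _ => ?_
            rw [hu', ZMod.val_natCast]
            have h4 := Nat.mod_add_div (u x) p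
            have h5 : ((u x % p : ℕ) : ℤ) + p * ((u x / p : ℕ) : ℤ) = (u x : ℤ) := by
              exact_mod_cast h4
            push_cast at h5 ⊢
            linarith only [h4]
          rw [h3, hu, mul_add]
          ring
        rw [h1]
        refine ⟨P6b_sing p u' (P6b_sig p u' • frV p ((∏ x, X.σ x ^ (u x / p)) • v)),
          P6b_sing_mem p (Or.inr ⟨_, h2, _, hs.prod_smul (fun x => u x / p) Finset.univ hv, rfl⟩),
          P6b_ev_sing p _ _⟩
      | zero => rw [zero_smul]; exact zero_mem _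
      | add f g _ _ hf hg => rw [add_smul]; exact add_mem hf hg
      | smul c f _ hf => rw [smul_assoc]; exact Submodule.smul_mem _ _ hf
    exact hle hw
  · rintro ⟨φ, hφ, rfl⟩
    rw [P6b_ev_eq]
    refine sum_mem fun u _ => ?_
    rcases (P6b_mem p).1 hφ u with h1 | ⟨m, hm, e, he, h1⟩
    · rw [h1]
      exact zero_mem _
    · rw [h1]
      refine mem_PE p ?_ he
      refine Submodule.subset_span ⟨fun a => (u a).val, ?_, rfl⟩
      rw [hm]
      unfold wt
      push_cast
      ring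

end Vale.Agent.P190.D
end
end
namespace AFast4a92dfx3723a
@[reducible] noncomputable def a0 {x1 : Type} [x2 : Field x1] {x3 : Vale.Agent.P190.D.Arr x1} {x4 : ℕ} {x5 : ℕ} : DistribSMul (Vale.Agent.P190.D.SS x3 x4) (Vale.Agent.P190.D.Amb x3 x4 x5) := inferInstance
@[reducible] noncomputable def a1 {x1 : Type} [x2 : Field x1] {x3 : Vale.Agent.P190.D.Arr x1} {x4 : ℕ} {x5 : ℕ} {x6 : Fin x5} [x7 : Fact (Nat.Prime x4)] : DistribMulAction (Vale.Agent.P190.D.SS x3 x4) ((fun a => Vale.Agent.P190.D.SS x3 x4) x6) := inferInstance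
@[reducible] noncomputable def a2 {x1 : Type} [x2 : Field x1] {x3 : Vale.Agent.P190.D.Arr x1} {x4 : ℕ} {x5 : ℕ} [x6 : Fact (Nat.Prime x4)] : DistribMulAction (Vale.Agent.P190.D.SS x3 x4) (Vale.Agent.P190.D.Amb x3 x4 x5) := inferInstance
theorem a3 {x1 : Type} [x2 : Field x1] {x3 : Vale.Agent.P190.D.Arr x1} {x4 : ℕ} {x5 : ℕ} [x6 : Fact (Nat.Prime x4)] : LinearMap.CompatibleSMul (Vale.Agent.P190.D.Amb x3 x4 x5) (Fin x5 → Vale.Agent.P190.D.SS x3 x4) x1 (Vale.Agent.P190.D.SS x3 x4) := inferInstance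
@[reducible] noncomputable def a4 {x1 : Type} [x2 : Field x1] {x3 : Vale.Agent.P190.D.Arr x1} {x4 : ℕ} {x5 : ℕ} : DistribSMul (Vale.Agent.P190.D.SS x3 x4) (Fin x5 → Vale.Agent.P190.D.SS x3 x4) := inferInstance
@[reducible] noncomputable def a5 {x1 : Type} [x2 : Field x1] {x3 : Vale.Agent.P190.D.Arr x1} {x4 : ℕ} {x5 : ℕ} : SMul (Vale.Agent.P190.D.SS x3 x4) (Vale.Agent.P190.D.Amb x3 x4 x5) := inferInstance
@[reducible] noncomputable def a6 {x1 : Type} [x2 : Field x1] {x3 : Vale.Agent.P190.D.Arr x1} {x4 : ℕ} [x5 : Fact (Nat.Prime x4)] : DistribMulAction (Vale.Agent.P190.D.SS x3 x4) (Vale.Agent.P190.D.SS x3 x4) := inferInstance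
@[reducible] noncomputable def a7 {x1 : Type} [x2 : Field x1] {x3 : Vale.Agent.P190.D.Arr x1} {x4 : ℕ} [x5 : Fact (Nat.Prime x4)] {x6 : ℕ} : Module (Vale.Agent.P190.D.SS x3 x4) (Vale.Agent.P190.D.Amb x3 x4 x6 →ₗ[Vale.Agent.P190.D.SS x3 x4] Vale.Agent.P190.D.Amb x3 x4 x6) := inferInstance
end AFast4a92dfx3723a
attribute [local instance] AFast4a92dfx3723a.a0 AFast4a92dfx3723a.a1 AFast4a92dfx3723a.a2
  AFast4a92dfx3723a.a3 AFast4a92dfx3723a.a4 AFast4a92dfx3723a.a5 AFast4a92dfx3723a.a6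
  AFast4a92dfx3723a.a7
namespace AFast4a92dfx3723b
@[reducible] noncomputable def a0 {x1 : Type} [x2 : Field x1] {x3 : Vale.Agent.P190.D.Arr x1} {x4 : ℕ} {x5 : ℕ} : SMulZeroClass (Vale.Agent.P190.D.SS x3 x4) (Vale.Agent.P190.D.Amb x3 x4 x5) := inferInstance
@[reducible] noncomputable def a1 {x1 : Type} [x2 : Field x1] {x3 : Vale.Agent.P190.D.Arr x1} {x4 : ℕ} [x5 : Fact (Nat.Prime x4)] {x6 : ℕ} : SMul (Vale.Agent.P190.D.SS x3 x4) (Vale.Agent.P190.D.Amb x3 x4 x6 →ₗ[Vale.Agent.P190.D.SS x3 x4] Vale.Agent.P190.D.Amb x3 x4 x6) := inferInstance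
end AFast4a92dfx3723b
attribute [local instance] AFast4a92dfx3723b.a0 AFast4a92dfx3723b.a1

section

section

/-! Section 4, file P5: the Hilbert function of the free T-lattices `W`. -/

set_option autoImplicit false
set_option linter.unusedSectionVars false

open MvPolynomial Filter

namespace Vale.Agent.P190.D

section sup

variable {k : Type} [Field k] {V : Type} [AddCommGroup V] [Module k V] [Module (A k) V]

/-- sums of two lattices -/
theorem P5_isBLat_sup [IsScalarTower k (A k) V] {E F : ℤ → Submodule k V} (hE : IsBLat E)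
    (hF : IsBLat F) : IsBLat (fun n => E n ⊔ F n) := by
  obtain ⟨a₀, ha₀⟩ := hE.bdd
  obtain ⟨b₀, hb₀⟩ := hF.bdd
  obtain ⟨a₁, ha₁⟩ := hE.fg
  obtain ⟨b₁, hb₁⟩ := hF.fg
  refine ⟨?_, fun n => ?_, ⟨min a₀ b₀, fun n hn => ?_⟩, ⟨max a₁ b₁, fun n hn => ?_⟩⟩
  · intro i n a v ha hv
    obtain ⟨x, hx, y, hy, rfl⟩ := Submodule.mem_sup.1 hv
    rw [smul_add]
    exact Submodule.add_mem_sup (hE.smul_mem ha hx) (hF.smul_mem ha hy)
  · have := hE.fin n
    have := hF.fin n
    infer_instance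
  · change E n ⊔ F n = ⊥
    rw [ha₀ n (lt_of_lt_of_le hn (min_le_left _ _)), hb₀ n (lt_of_lt_of_le hn (min_le_right _ _)),
      sup_bot_eq]
  · refine sup_le ?_ ?_
    · refine (ha₁ n ((le_max_left _ _).trans hn)).trans (Submodule.span_mono ?_)
      rintro _ ⟨a, ha, v, hv, rfl⟩
      exact ⟨a, ha, v, Submodule.mem_sup_left hv, rfl⟩
    · refine (hb₁ n ((le_max_right _ _).trans hn)).trans (Submodule.span_mono ?_)
      rintro _ ⟨a, ha, v, hv, rfl⟩
      exact ⟨a, ha, v, Submodule.mem_sup_right hv, rfl⟩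

/-- finite sums of lattices -/
theorem P5_isBLat_iSup {r₁ : ℕ} {E : Fin r₁ → ℤ → Submodule k V} (hE : ∀ i, IsBLat (E i)) :
    IsBLat (fun n => ⨆ i, E i n) := by
  choose a₀ ha₀ using fun i => (hE i).bdd
  choose a₁ ha₁ using fun i => (hE i).fg
  refine ⟨?_, fun n => ?_, ?_, ?_⟩
  · intro i n a v ha hv
    refine Submodule.iSup_induction (fun i => E i n) (motive := fun v => a • v ∈ ⨆ j, E j (n + i))
      hv (fun j x hx => ?_) ?_ (fun x y hx hy => ?_)
    · exact Submodule.mem_iSup_of_mem j ((hE j).smul_mem ha hx)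
    · rw [smul_zero]; exact zero_mem _
    · rw [smul_add]; exact add_mem hx hy
  · have := fun i => (hE i).fin n
    infer_instance
  · obtain ⟨m, hm⟩ := (Set.finite_range a₀).bddBelow
    refine ⟨m, fun n hn => ?_⟩
    change ⨆ i, E i n = ⊥
    refine iSup_eq_bot.2 fun i => ha₀ i n (lt_of_lt_of_le hn (hm ⟨i, rfl⟩))
  · obtain ⟨m, hm⟩ := (Set.finite_range a₁).bddAbove
    refine ⟨m, fun n hn => ?_⟩
    refine iSup_le fun i => ?_
    refine (ha₁ i n ((hm ⟨i, rfl⟩).trans hn)).trans (Submodule.span_mono ?_)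
    rintro _ ⟨a, ha, v, hv, rfl⟩
    exact ⟨a, ha, v, Submodule.mem_iSup_of_mem i hv, rfl⟩

end sup

section gen

variable {k : Type} [Field k] {X : Arr k} {V : Type} [AddCommGroup V] [Module k V]
  [Module (A k) V] [Module (KK k) V] [Module X.L V] [IsScalarTower k (A k) V]
  [IsScalarTower k (KK k) V] [IsScalarTower k X.L V] [IsScalarTower (A k) (KK k) V]
  [IsScalarTower (A k) X.L V] [IsScalarTower (KK k) X.L V]

/-- `f ↦ f • e` -/
noncomputable def P5_m1 (e : V) : X.L →ₗ[A k] V where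
  toFun f := f • e
  map_add' f g := add_smul f g e
  map_smul' a f := smul_assoc a f e

/-- `g ↦ g Π⁻¹ • Γ e` -/
noncomputable def P5_m2 (Γ : V →ₗ[X.L] V) (e : V) : X.L →ₗ[A k] V where
  toFun g := (g * X.PI⁻¹) • Γ e
  map_add' f g := by rw [add_mul, add_smul]
  map_smul' a f := by rw [smul_mul_assoc, smul_assoc, RingHom.id_apply]

theorem P5_m1_apply (e : V) (f : X.L) : P5_m1 (X := X) e f = f • e := rfl

theorem P5_m2_apply (Γ : V →ₗ[X.L] V) (e : V) (g : X.L) :
    P5_m2 Γ e g = (g * X.PI⁻¹) • Γ e := rfl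

/-- the constant `∏ ν_t` over the `t` with `ε t = false` -/
noncomputable def P5_c (X : Arr k) (ε : X.S → Bool) : k := ∏ t, if ε t then 1 else X.ν t

theorem P5_c_ne (ε : X.S → Bool) : P5_c X ε ≠ 0 := by
  refine Finset.prod_ne_zero_iff.2 fun t _ => ?_
  split_ifs
  · exact one_ne_zero
  · exact X.ν_ne t

theorem P5_pie (ε : X.S → Bool) : X.pie ε =
    P5_c X ε • ∏ t, if ε t then X.a t true else X.σ (X.v t) := by
  unfold P5_c Arr.pie
  rw [← Finset.prod_smul]
  refine Finset.prod_congr rfl fun t _ => ?_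
  split_ifs
  · rw [one_smul]
  · rfl

theorem P5_mem_JJ {ε : X.S → Bool} {n : ℤ} {f : X.L} (hf : f ∈ X.T0 (n - X.w)) :
    f * X.pie ε ∈ X.JJ Finset.univ (n + X.w) := by
  rw [P5_pie, mul_smul_comm]
  refine Submodule.smul_mem _ _ (Submodule.subset_span ⟨ε, f, ?_, rfl⟩)
  have h : ((Finset.univ : Finset X.S).card : ℤ) = 2 * X.w := by
    rw [Finset.card_univ]
    exact_mod_cast X.two_w.symm
  rw [h, show n + (X.w : ℤ) - 2 * X.w = n - X.w by ring]
  exact hf

theorem P5_Tspan_eq (Γ : V →ₗ[X.L] V) (d : ℤ) (e : V) (n : ℤ) :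
    Tspan Γ d e n = mapLat (P5_m1 (X := X) e) (shiftLat X.T0 (-d)) n ⊔
      mapLat (P5_m2 Γ e) (shiftLat (X.JJ Finset.univ) (-d + X.w)) n := by
  refine le_antisymm ?_ (sup_le ?_ ?_)
  · refine Submodule.span_le.2 ?_
    rintro w (⟨f, hf, rfl⟩ | ⟨ε, f, hf, rfl⟩)
    · refine Submodule.mem_sup_left ⟨f, ?_, rfl⟩
      change f ∈ X.T0 (n + -d)
      rwa [← sub_eq_add_neg]
    · refine Submodule.mem_sup_right ⟨f * X.pie ε, ?_, ?_⟩
      · change f * X.pie ε ∈ X.JJ Finset.univ (n + (-d + X.w))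
        have := P5_mem_JJ (ε := ε) hf
        rwa [show n + (-d + (X.w : ℤ)) = n - d + X.w by ring]
      · change P5_m2 Γ e (f * X.pie ε) = f • gam Γ ε e
        rw [P5_m2_apply, gam, smul_smul, div_eq_mul_inv, mul_assoc]
  · rintro _ ⟨f, hf, rfl⟩
    refine Submodule.subset_span (Or.inl ⟨f, ?_, rfl⟩)
    change f ∈ X.T0 (n + -d) at hf
    rwa [← sub_eq_add_neg] at hf
  · change (X.JJ Finset.univ (n + (-d + X.w))).map _ ≤ _
    unfold Arr.JJ
    refine (Submodule.map_span_le _ _ _).2 ?_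
    rintro _ ⟨ε, g, hg, rfl⟩
    have h : ((Finset.univ : Finset X.S).card : ℤ) = 2 * X.w := by
      rw [Finset.card_univ]
      exact_mod_cast X.two_w.symm
    rw [h, show n + (-d + (X.w : ℤ)) - 2 * X.w = n - d - X.w by ring] at hg
    have h2 : g • gam Γ ε e ∈ Tspan Γ d e n :=
      Submodule.subset_span (Or.inr ⟨ε, g, hg, rfl⟩)
    have h3 := Submodule.smul_mem _ (P5_c X ε)⁻¹ h2
    convert h3 using 1
    change P5_m2 Γ e _ = _
    rw [P5_m2_apply, gam, P5_pie, smul_smul, ← smul_assoc]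
    congr 1
    rw [div_eq_mul_inv, smul_mul_assoc, mul_smul_comm, smul_smul, inv_mul_cancel₀ (P5_c_ne ε),
      one_smul, mul_assoc]

theorem P5_isBLat_Tspan (Γ : V →ₗ[X.L] V) (d : ℤ) (e : V) : IsBLat (Tspan Γ d e) := by
  rw [show Tspan Γ d e = fun n => mapLat (P5_m1 (X := X) e) (shiftLat X.T0 (-d)) n ⊔
      mapLat (P5_m2 Γ e) (shiftLat (X.JJ Finset.univ) (-d + X.w)) n from
    funext fun n => P5_Tspan_eq Γ d e n]
  exact P5_isBLat_sup ((X.isBLat_T0.shift _).map _) (((X.isBLat_JJ _).shift _).map _)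

end gen

variable {k : Type} [Field k] [IsAlgClosed k] {X : Arr k}

/-- a T-submodule generated by `e ∈ E_d` is contained in `E` -/
theorem Tspan_le {V : Type} [AddCommGroup V] [Module k V]
    [Module (A k) V] [Module (KK k) V] [Module X.L V] [IsScalarTower k (A k) V]
    [IsScalarTower k (KK k) V] [IsScalarTower k X.L V] [IsScalarTower (A k) (KK k) V]
    [IsScalarTower (A k) X.L V] [IsScalarTower (KK k) X.L V] {Γ : V →ₗ[X.L] V}
    {E : ℤ → Submodule k V} (hE : IsTLat Γ E) {d : ℤ} {e : V} (he : e ∈ E d) (n : ℤ) :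
    Tspan Γ d e n ≤ E n := by
  refine Submodule.span_le.2 ?_
  rintro w (⟨f, hf, rfl⟩ | ⟨ε, f, hf, rfl⟩)
  · have := SigStable.T0_smul hE.toIsBLat hE.sigStable hf he
    rwa [show d + (n - d) = n by ring] at this
  · have := SigStable.T0_smul hE.toIsBLat hE.sigStable hf (hE.gam_mem ε he)
    rwa [show d + (X.w : ℤ) + (n - d - X.w) = n by ring] at this

variable {r : ℕ} {Γ : (Fin r → X.L) →ₗ[X.L] (Fin r → X.L)}

theorem P5_Tspan_sig (d : ℤ) (e : Fin r → X.L) (x : X.I) {n : ℤ} {v : Fin r → X.L}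
    (hv : v ∈ Tspan Γ d e n) : X.σ x • v ∈ Tspan Γ d e (n + 1) := by
  unfold Tspan at hv
  induction hv using Submodule.span_induction with
  | mem w hw =>
    rcases hw with ⟨f, hf, rfl⟩ | ⟨ε, f, hf, rfl⟩
    · refine Submodule.subset_span (Or.inl ⟨f * X.σ x, ?_, by rw [smul_smul, mul_comm]⟩)
      have := X.T0_mul hf (X.σ_mem x)
      rwa [show n - d + 1 = n + 1 - d by ring] at this
    · refine Submodule.subset_span (Or.inr ⟨ε, f * X.σ x, ?_, by rw [smul_smul, mul_comm]⟩)
      have := X.T0_mul hf (X.σ_mem x)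
      rwa [show n - d - (X.w : ℤ) + 1 = n + 1 - d - X.w by ring] at this
  | zero => rw [smul_zero]; exact zero_mem _
  | add x y _ _ hx hy => rw [smul_add]; exact add_mem hx hy
  | smul c y _ hy => rw [smul_comm]; exact Submodule.smul_mem _ _ hy

theorem P5_gam_smul (ε : X.S → Bool) (f : X.L) (v : Fin r → X.L) :
    gam Γ ε (f • v) = f • gam Γ ε v := by
  unfold gam
  rw [map_smul, smul_comm]

theorem P5_gam_add (ε : X.S → Bool) (v w : Fin r → X.L) :
    gam Γ ε (v + w) = gam Γ ε v + gam Γ ε w := by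
  unfold gam
  rw [map_add, smul_add]

theorem P5_gam_smul_k (ε : X.S → Bool) (c : k) (v : Fin r → X.L) :
    gam Γ ε (c • v) = c • gam Γ ε v := by
  rw [← algebraMap_smul X.L c v, P5_gam_smul, algebraMap_smul]

theorem P5_Tspan_gam (hΓ : IsTSp Γ) (d : ℤ) (e : Fin r → X.L) (ε' : X.S → Bool) {n : ℤ}
    {v : Fin r → X.L} (hv : v ∈ Tspan Γ d e n) : gam Γ ε' v ∈ Tspan Γ d e (n + X.w) := by
  unfold Tspan at hv
  induction hv using Submodule.span_induction with
  | mem w hw =>
    rcases hw with ⟨f, hf, rfl⟩ | ⟨ε, f, hf, rfl⟩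
    · refine Submodule.subset_span (Or.inr ⟨ε', f, ?_, P5_gam_smul _ _ _⟩)
      rwa [show n + (X.w : ℤ) - d - X.w = n - d by ring]
    · refine Submodule.subset_span (Or.inl ⟨f * X.mm ε' ε, ?_, ?_⟩)
      · have := X.T0_mul hf (X.mm_mem ε' ε)
        rwa [show n - d - (X.w : ℤ) + 2 * X.w = n + X.w - d by ring] at this
      · rw [P5_gam_smul, gam_gam hΓ, smul_smul]
  | zero =>
    have : gam Γ ε' (0 : Fin r → X.L) = 0 := by
      unfold gam
      rw [map_zero, smul_zero]
    rw [this]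
    exact zero_mem _
  | add x y _ _ hx hy => rw [P5_gam_add]; exact add_mem hx hy
  | smul c y _ hy => rw [P5_gam_smul_k]; exact Submodule.smul_mem _ _ hy

theorem isTLat_TspanF (hΓ : IsTSp Γ) (d : ℤ) {r₁ : ℕ} (e : Fin r₁ → (Fin r → X.L)) :
    IsTLat Γ (TspanF Γ d e) := by
  refine ⟨P5_isBLat_iSup fun i => P5_isBLat_Tspan Γ d (e i), ?_, ?_⟩
  · intro x n v hv
    refine Submodule.iSup_induction (fun i => Tspan Γ d (e i) n)
      (motive := fun v => X.σ x • v ∈ TspanF Γ d e (n + 1))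
      hv (fun j y hy => ?_) ?_ (fun y z hy hz => ?_)
    · exact Submodule.mem_iSup_of_mem j (P5_Tspan_sig d (e j) x hy)
    · rw [smul_zero]; exact zero_mem _
    · rw [smul_add]; exact add_mem hy hz
  · intro ε n v hv
    refine Submodule.iSup_induction (fun i => Tspan Γ d (e i) n)
      (motive := fun v => gam Γ ε v ∈ TspanF Γ d e (n + X.w))
      hv (fun j y hy => ?_) ?_ (fun y z hy hz => ?_)
    · exact Submodule.mem_iSup_of_mem j (P5_Tspan_gam hΓ d (e j) ε hy)
    · have : gam Γ ε (0 : Fin r → X.L) = 0 := by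
        unfold gam
        rw [map_zero, smul_zero]
      rw [this]
      exact zero_mem _
    · rw [P5_gam_add]; exact add_mem hy hz

/-- the sum map -/
noncomputable def P5_psi (Γ : (Fin r → X.L) →ₗ[X.L] (Fin r → X.L)) {r₁ : ℕ}
    (e : Fin r₁ → (Fin r → X.L)) (P Q : Submodule k X.L) :
    (Fin r₁ → (P × Q)) →ₗ[k] (Fin r → X.L) :=
  LinearMap.lsum k (fun _ => P × Q) k (fun i =>
    LinearMap.coprod (((P5_m1 (X := X) (e i)).restrictScalars k).domRestrict P)
      (((P5_m2 Γ (e i)).restrictScalars k).domRestrict Q))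

theorem P5_psi_apply {r₁ : ℕ} (e : Fin r₁ → (Fin r → X.L)) (P Q : Submodule k X.L)
    (u : Fin r₁ → (P × Q)) : P5_psi Γ e P Q u =
      ∑ i, (((u i).1 : X.L) • e i + (((u i).2 : X.L) * X.PI⁻¹) • Γ (e i)) := by
  unfold P5_psi
  rw [LinearMap.lsum_apply, LinearMap.sum_apply]
  rfl

/-- `W_n = ⊕_i (T₀_{n-d} e_i ⊕ 𝔍_{n-d+w} Π⁻¹ Γ e_i)` -/
theorem finrank_TspanF (hΓ : IsTSp Γ) (d : ℤ) {r₁ : ℕ} (e : Fin r₁ → (Fin r → X.L))
    (he : LinearIndependent X.L (Sum.elim e fun i => Γ (e i))) (n : ℤ) :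
    Module.finrank k (TspanF Γ d e n) = r₁ * (Module.finrank k (X.T0 (n - d)) +
      Module.finrank k (X.JJ Finset.univ (n - d + X.w))) := by
  have hP := X.isBLat_T0.fin (n - d)
  have hQ := (X.isBLat_JJ Finset.univ).fin (n - d + X.w)
  set P := X.T0 (n - d) with hPdef
  set Q := X.JJ Finset.univ (n - d + X.w) with hQdef
  have hinj : Function.Injective (P5_psi Γ e P Q) := by
    rw [injective_iff_map_eq_zero]
    intro u hu
    rw [P5_psi_apply, Finset.sum_add_distrib] at hu
    have h1 := Fintype.linearIndependent_iff.1 he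
      (Sum.elim (fun i => ((u i).1 : X.L)) (fun i => ((u i).2 : X.L) * X.PI⁻¹)) (by
        rw [Fintype.sum_sum_type]
        simpa only [Sum.elim_inl, Sum.elim_inr] using hu)
    funext i
    have h2 := h1 (Sum.inl i)
    have h3 := h1 (Sum.inr i)
    simp only [Sum.elim_inl, Sum.elim_inr] at h2 h3
    have h4 : ((u i).2 : X.L) = 0 := by
      rcases mul_eq_zero.1 h3 with h | h
      · exact h
      · exact absurd h (inv_ne_zero X.PI_ne_zero)
    exact Prod.ext (Subtype.ext h2) (Subtype.ext h4)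
  have hrange : LinearMap.range (P5_psi Γ e P Q) = TspanF Γ d e n := by
    refine le_antisymm ?_ (iSup_le fun i => ?_)
    · rintro _ ⟨u, rfl⟩
      rw [P5_psi_apply]
      refine Submodule.sum_mem _ fun i _ => Submodule.mem_iSup_of_mem i ?_
      rw [P5_Tspan_eq]
      refine Submodule.add_mem_sup ⟨(u i).1, ?_, rfl⟩ ⟨(u i).2, ?_, rfl⟩
      · change ((u i).1 : X.L) ∈ X.T0 (n + -d)
        rw [← sub_eq_add_neg]
        exact (u i).1.2
      · change ((u i).2 : X.L) ∈ X.JJ Finset.univ (n + (-d + X.w))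
        rw [show n + (-d + (X.w : ℤ)) = n - d + X.w by ring]
        exact (u i).2.2
    · intro v hv
      rw [P5_Tspan_eq] at hv
      obtain ⟨_, ⟨f, hf, rfl⟩, _, ⟨g, hg, rfl⟩, rfl⟩ := Submodule.mem_sup.1 hv
      change f ∈ X.T0 (n + -d) at hf
      change g ∈ X.JJ Finset.univ (n + (-d + X.w)) at hg
      rw [← sub_eq_add_neg] at hf
      rw [show n + (-d + (X.w : ℤ)) = n - d + X.w by ring] at hg
      refine ⟨Pi.single i ((⟨f, hf⟩ : P), (⟨g, hg⟩ : Q)), ?_⟩
      rw [P5_psi_apply, Finset.sum_eq_single i]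
      · rw [Pi.single_eq_same]
        rfl
      · intro j _ hj
        rw [Pi.single_eq_of_ne hj]
        simp
      · intro h
        exact absurd (Finset.mem_univ i) h
  rw [← hrange, LinearMap.finrank_range_of_inj hinj, Module.finrank_pi_fintype]
  rw [Finset.sum_const, Finset.card_univ, Fintype.card_fin, smul_eq_mul, Module.finrank_prod]

/-- `ρ` -/
def Arr.rhoQ (X : Arr k) : ℚ := ((Fintype.card X.S : ℚ) + 8 - 2 * X.m) / 2

/-- `c₀ = (m-6)/2` -/
def Arr.c0 (X : Arr k) : ℚ := ((X.m : ℚ) - 6) / 2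

/-- 2.2 for `T = T₀ ⊕ 𝔍 Γ/Π`: `P_T(n) = N₀ (n - c₀)² - κ` with `κ ≥ 2 N₀ ρ / 8`. The constant `κ`
depends only on the arrangement. -/
theorem hilb_TspanF (X : Arr k) : ∃ κ : ℚ, 2 * (2 ^ (X.m - 3) : ℚ) * X.rhoQ / 8 ≤ κ ∧
    ∀ (r r₁ : ℕ) (Γ : (Fin r → X.L) →ₗ[X.L] (Fin r → X.L)) (d : ℤ)
      (e : Fin r₁ → (Fin r → X.L)), IsTSp Γ → LinearIndependent X.L (Sum.elim e fun i => Γ (e i)) →
      ∃ e₁ g₁ : ℤ, HasHilb (TspanF Γ d e) (2 * r₁ * 2 ^ (X.m - 3)) e₁ g₁ ∧ ∀ n : ℚ,
        hp (2 * r₁ * 2 ^ (X.m - 3)) e₁ g₁ n =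
          r₁ * ((2 ^ (X.m - 3) : ℚ) * (n - d - X.c0) ^ 2 - κ) := by
  have : Infinite k := inferInstance
  obtain ⟨eT, gT, hT, hPT⟩ := X.hilb_T0
  obtain ⟨eJ, gJ, κJ, hJ, hκJ, hPJ⟩ := X.hilb_JJ Finset.univ
  have hcard : ((Finset.univ : Finset X.S).card : ℚ) = 2 * X.w := by
    rw [Finset.card_univ]
    exact_mod_cast X.two_w.symm
  have hcard' : (Fintype.card X.S : ℚ) = 2 * X.w := by
    exact_mod_cast X.two_w.symm
  refine ⟨κJ - (2 ^ (X.m - 3) : ℚ) * ((X.m : ℚ) - 4) / 8, ?_, ?_⟩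
  · rw [hcard] at hκJ
    unfold Arr.rhoQ
    rw [hcard']
    linarith only [hκJ]
  · intro r r₁ Γ d e hΓ he
    obtain ⟨gT', hT', hgT'⟩ := hT.shift (-d)
    obtain ⟨gJ', hJ', hgJ'⟩ := hJ.shift (-d + X.w)
    refine ⟨r₁ * ((eT + -d * 2 ^ (X.m - 3)) + (eJ + (-d + X.w) * 2 ^ (X.m - 3))),
      r₁ * (gT' + gJ'), ?_, ?_⟩
    · filter_upwards [hT', hJ'] with n h1 h2
      rw [finrank_TspanF hΓ d e he n]
      change (Module.finrank k (X.T0 (n + -d)) : ℚ) = _ at h1
      change (Module.finrank k (X.JJ Finset.univ (n + (-d + X.w))) : ℚ) = _ at h2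
      rw [← sub_eq_add_neg] at h1
      rw [show n + (-d + (X.w : ℤ)) = n - d + X.w by ring] at h2
      push_cast
      rw [h1, h2]
      unfold hp
      push_cast
      ring
    · intro n
      have a1 := hPT (n - d)
      have a2 := hPJ (n - d + X.w)
      rw [hcard] at a2
      unfold Arr.c0
      unfold hp at *
      push_cast at *
      rw [hgT', hgJ']
      linear_combination (r₁ : ℚ) * a1 + (r₁ : ℚ) * a2

end Vale.Agent.P190.D
end
end

section

section

/-! Section 4, file P6a: the sublattice `W`, the curve module `C = E/W` and upper bounds. -/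

set_option autoImplicit false
set_option linter.unusedSectionVars false

open MvPolynomial Filter

namespace Vale.Agent.P190.D

variable {k : Type} [Field k] [IsAlgClosed k] {X : Arr k} {r : ℕ}

/-- vectors `e_i` of degree `d` as in `node_theorem` -/
structure Good (Γ : (Fin r → X.L) →ₗ[X.L] (Fin r → X.L)) (E : ℤ → Submodule k (Fin r → X.L))
    (d : ℤ) {r₁ : ℕ} (e : Fin r₁ → (Fin r → X.L)) : Prop where
  two : r = 2 * r₁
  mem : ∀ i, e i ∈ E d
  li : LinearIndependent X.L (Sum.elim e fun i => Γ (e i))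
  star : ∀ t : X.S, ∃ n₀ : ℤ, ∀ n ≥ n₀, ∀ v ∈ E n, ∃ a ∈ TspanF Γ d e n, ∃ b ∈ E (n - 1),
        ∃ c ∈ E (n - 1), v = a + X.σ (X.h t) • b + X.σ (X.d t) • c

variable {Γ : (Fin r → X.L) →ₗ[X.L] (Fin r → X.L)} {E : ℤ → Submodule k (Fin r → X.L)}
  {d : ℤ} {r₁ : ℕ} {e : Fin r₁ → (Fin r → X.L)}

theorem TspanF_le (hE : IsTLat Γ E) (hg : Good Γ E d e) (n : ℤ) : TspanF Γ d e n ≤ E n := by
  unfold TspanF
  exact iSup_le fun i => Tspan_le hE (hg.mem i) n

/-! ### boundedness of `C / σ_a C` -/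

theorem P6a_finrank_map {K V V₂ : Type} [Field K] [AddCommGroup V] [Module K V]
    [AddCommGroup V₂] [Module K V₂] (S : Submodule K V) [Module.Finite K S] (φ : V →ₗ[K] V₂) :
    Module.finrank K (S.map φ) + Module.finrank K (S ⊓ LinearMap.ker φ : Submodule K V) =
      Module.finrank K S := by
  have h1 := LinearMap.finrank_range_add_finrank_ker (φ.domRestrict S)
  have h2 : LinearMap.range (φ.domRestrict S) = S.map φ := LinearMap.range_domRestrict _ _
  have h3 : Module.finrank K (LinearMap.ker (φ.domRestrict S)) =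
      Module.finrank K (S ⊓ LinearMap.ker φ : Submodule K V) := by
    rw [LinearMap.ker_domRestrict, ← Submodule.map_comap_subtype]
    exact (LinearEquiv.finrank_eq
      (Submodule.equivMapOfInjective _ (Submodule.subtype_injective _) _))
  rw [h2, h3] at h1
  omega

/-- if `E n = W n + σ_a E (n-1) + σ_x E (n-1)` for large `n` then `C / σ_a C` is bounded -/
theorem P6a_bound (hΓ : IsTSp Γ) (hE : IsTLat Γ E) (hg : Good Γ E d e) (a x : X.I)
    (h : ∃ n₀ : ℤ, ∀ n ≥ n₀, ∀ v ∈ E n, ∃ w ∈ TspanF Γ d e n, ∃ b ∈ E (n - 1),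
      ∃ c ∈ E (n - 1), v = w + X.σ a • b + X.σ x • c) :
    ∃ c : ℕ, ∀ n : ℤ, Module.finrank k (E n) ≤
      Module.finrank k ((TspanF Γ d e n ⊔ (E (n - 1)).map (mulLL (X.σ a)) :
        Submodule k (Fin r → X.L))) + c := by
  obtain ⟨n₀, h⟩ := h
  have hW := isTLat_TspanF hΓ d e
  obtain ⟨B, hB⟩ : ∃ B : ℤ → Submodule k (Fin r → X.L),
      ∀ n, B n = TspanF Γ d e n ⊔ (E (n - 1)).map (mulLL (X.σ a)) := ⟨_, fun _ => rfl⟩
  have hmem : ∀ (n : ℤ) (v : Fin r → X.L), v ∈ B n ↔
      ∃ w ∈ TspanF Γ d e n, ∃ u ∈ E (n - 1), w + X.σ a • u = v := by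
    intro n v
    rw [hB, Submodule.mem_sup]
    constructor
    · rintro ⟨w, hw, _, ⟨u, hu, rfl⟩, rfl⟩
      exact ⟨w, hw, u, hu, by rw [mulLL_apply]⟩
    · rintro ⟨w, hw, u, hu, rfl⟩
      exact ⟨w, hw, X.σ a • u, ⟨u, hu, by rw [mulLL_apply]⟩, rfl⟩
  have hBE : ∀ n, B n ≤ E n := by
    intro n v hv
    obtain ⟨w, hw, u, hu, rfl⟩ := (hmem n v).1 hv
    refine add_mem (TspanF_le hE hg n hw) ?_
    have := hE.sig_mem a hu
    rwa [sub_add_cancel] at this
  have hσB : ∀ (n : ℤ) (v : Fin r → X.L), v ∈ B n → X.σ x • v ∈ B (n + 1) := by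
    intro n v hv
    obtain ⟨w, hw, u, hu, rfl⟩ := (hmem n v).1 hv
    refine (hmem _ _).2 ⟨X.σ x • w, hW.sig_mem x hw, X.σ x • u, ?_, ?_⟩
    · have := hE.sig_mem x hu
      rwa [sub_add_eq_add_sub] at this
    · rw [smul_add, smul_comm (X.σ a)]
  have step : ∀ n ≥ n₀, Module.finrank k (E n) + Module.finrank k (B (n - 1)) ≤
      Module.finrank k (B n) + Module.finrank k (E (n - 1)) := by
    intro n hn
    have hf := hE.fin n
    have hf' := hE.fin (n - 1)
    have h1 := P6a_finrank_map (E n) (B n).mkQ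
    rw [Submodule.ker_mkQ, inf_eq_right.2 (hBE n)] at h1
    have h2 := P6a_finrank_map (E (n - 1)) ((B n).mkQ ∘ₗ mulLL (X.σ x))
    have h3 : Module.finrank k (B (n - 1)) ≤
        Module.finrank k (E (n - 1) ⊓ LinearMap.ker ((B n).mkQ ∘ₗ mulLL (X.σ x)) :
          Submodule k (Fin r → X.L)) := by
      refine Submodule.finrank_mono (le_inf (hBE _) fun v hv => ?_)
      rw [LinearMap.mem_ker, LinearMap.comp_apply, mulLL_apply, Submodule.mkQ_apply,
        Submodule.Quotient.mk_eq_zero]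
      have := hσB _ v hv
      rwa [sub_add_cancel] at this
    have h4 : (E n).map (B n).mkQ ≤ (E (n - 1)).map ((B n).mkQ ∘ₗ mulLL (X.σ x)) := by
      rintro _ ⟨v, hv, rfl⟩
      obtain ⟨w, hw, b, hb, c, hc, rfl⟩ := h n hn v hv
      refine ⟨c, hc, ?_⟩
      rw [LinearMap.comp_apply, mulLL_apply, Submodule.mkQ_apply, Submodule.mkQ_apply,
        Submodule.Quotient.eq]
      have : X.σ x • c - (w + X.σ a • b + X.σ x • c) = -(w + X.σ a • b) := by abel
      rw [this]
      exact neg_mem ((hmem _ _).2 ⟨w, hw, b, hb, rfl⟩)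
    have h5 := Submodule.finrank_mono h4
    omega
  have hfin0 := hE.fin n₀
  refine ⟨Module.finrank k (E n₀), fun n => ?_⟩
  rw [← hB]
  rcases le_total n n₀ with hn | hn
  · have := Submodule.finrank_mono (hE.toIsBLat.mono' hn)
    omega
  · induction n, hn using Int.leInduction with
    | base => omega
    | succ n hn ih =>
      have := step (n + 1) (by omega)
      rw [add_sub_cancel_right] at this
      (clear * - ih this; omega)

/-- the linear relation at a triple point, squared -/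
theorem P6a_rel (t : X.S) : X.δ t ^ 2 • X.σ (X.d t) ^ 2 =
    X.η t ^ 2 • X.σ (X.h t) ^ 2 + X.ν t ^ 2 • X.σ (X.v t) ^ 2 := by
  have h := X.rel t
  have h1 : ∀ i, X.δ t ^ 2 * X.l (X.d t) i =
      X.η t ^ 2 * X.l (X.h t) i + X.ν t ^ 2 * X.l (X.v t) i := by
    intro i
    have := congrFun h i
    simp only [Pi.sub_apply, Pi.smul_apply, smul_eq_mul] at this
    linear_combination this
  have h2 : (X.δ t ^ 2) • X.q (X.d t) = (X.η t ^ 2) • X.q (X.h t) + (X.ν t ^ 2) • X.q (X.v t) := by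
    simp only [Arr.q, smul_eq_C_mul]
    have e := fun i => congrArg (C : k → A k) (h1 i)
    simp only [map_mul, map_add] at e
    linear_combination e 0 + e 1 * MvPolynomial.X 0 ^ 2 + e 2 * MvPolynomial.X 1 ^ 2
  rw [Arr.σ_sq, Arr.σ_sq, Arr.σ_sq]
  have h3 : ∀ (c : k) (f : A k), c • algebraMap (A k) X.L f = algebraMap (A k) X.L (c • f) := by
    intro c f
    rw [Algebra.algebraMap_eq_smul_one, Algebra.algebraMap_eq_smul_one, smul_assoc]
  rw [h3, h3, h3, ← map_add, h2]

/-- 4.5c: `C / σ_a C` is bounded, for every line `a` -/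
theorem curve_bounded (hΓ : IsTSp Γ) (hE : IsTLat Γ E) (hg : Good Γ E d e) (a : X.I) :
    ∃ c : ℕ, ∀ n : ℤ, Module.finrank k (E n) ≤
      Module.finrank k ((TspanF Γ d e n ⊔ (E (n - 1)).map (mulLL (X.σ a)) :
        Submodule k (Fin r → X.L))) + c := by
  have hW := isTLat_TspanF hΓ d e
  obtain ⟨t, ht⟩ := X.cover a
  obtain ⟨n₀, h⟩ := hg.star t
  simp only [Set.mem_insert_iff, Set.mem_singleton_iff] at ht
  rcases ht with rfl | rfl | rfl
  · refine P6a_bound hΓ hE hg _ (X.h t) ⟨n₀ + 1, fun n hn v hv => ?_⟩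
    obtain ⟨w, hw, b, hb, c, hc, rfl⟩ := h n (by omega) v hv
    obtain ⟨w', hw', b', hb', c', hc', rfl⟩ := h (n - 1) (by omega) c hc
    have hσ : ∀ (x : X.I) (u : Fin r → X.L), u ∈ E (n - 1 - 1) → X.σ x • u ∈ E (n - 1) := by
      intro x u hu
      have := hE.sig_mem x hu
      rwa [sub_add_cancel] at this
    have hσW : X.σ (X.d t) • w' ∈ TspanF Γ d e n := by
      have := hW.sig_mem (X.d t) hw'
      rwa [sub_add_cancel] at this
    have hrel : X.σ (X.d t) ^ 2 = (X.δ t ^ 2)⁻¹ • (X.η t ^ 2 • X.σ (X.h t) ^ 2 +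
        X.ν t ^ 2 • X.σ (X.v t) ^ 2) := by
      rw [← P6a_rel, smul_smul, inv_mul_cancel₀ (pow_ne_zero 2 (X.δ_ne t)), one_smul]
    refine ⟨w + X.σ (X.d t) • w', add_mem hw hσW,
      ((X.δ t ^ 2)⁻¹ * X.ν t ^ 2) • (X.σ (X.v t) • c'),
      Submodule.smul_mem _ _ (hσ _ _ hc'),
      b + X.σ (X.d t) • b' + ((X.δ t ^ 2)⁻¹ * X.η t ^ 2) • (X.σ (X.h t) • c'),
      add_mem (add_mem hb (hσ _ _ hb')) (Submodule.smul_mem _ _ (hσ _ _ hc')), ?_⟩
    have e1 : X.σ (X.d t) • (X.σ (X.d t) • c') =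
        X.σ (X.v t) • (((X.δ t ^ 2)⁻¹ * X.ν t ^ 2) • (X.σ (X.v t) • c')) +
        X.σ (X.h t) • (((X.δ t ^ 2)⁻¹ * X.η t ^ 2) • (X.σ (X.h t) • c')) := by
      rw [smul_smul, ← sq, hrel, smul_add, add_smul, smul_smul, smul_smul, smul_assoc,
        smul_assoc, ← smul_comm_kL, ← smul_comm_kL, smul_smul (X.σ (X.v t)), smul_smul (X.σ (X.h t)),
        ← sq, ← sq]
      abel
    rw [smul_add, smul_add, e1, smul_add, smul_add, smul_comm (X.σ (X.d t)) (X.σ (X.h t))]
    abel
  · exact P6a_bound hΓ hE hg _ (X.d t) ⟨n₀, h⟩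
  · refine P6a_bound hΓ hE hg _ (X.h t) ⟨n₀, fun n hn v hv => ?_⟩
    obtain ⟨w, hw, b, hb, c, hc, rfl⟩ := h n hn v hv
    exact ⟨w, hw, c, hc, b, hb, by abel⟩

/-! ### Cayley-Hamilton -/

theorem P6a_det_mem {q : ℕ} (M : Matrix (Fin q) (Fin q) X.L) (dg : Fin q → ℤ)
    (h : ∀ i j, M i j ∈ X.T0 (dg i)) : M.det ∈ X.T0 (∑ i, dg i) := by
  rw [Matrix.det_apply]
  refine Submodule.sum_mem _ fun s _ => ?_
  have h1 : ∏ i, M (s i) i ∈ X.T0 (∑ i, dg i) := by
    have := X.T0_prod Finset.univ (fun i => M (s i) i) (fun i => dg (s i))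
      (fun i _ => h (s i) i)
    rwa [Equiv.sum_comp s dg] at this
  rcases Int.units_eq_one_or (Equiv.Perm.sign s) with hs | hs
  · rw [hs, one_smul]; exact h1
  · rw [hs, Units.neg_smul, one_smul]; exact neg_mem h1

theorem P6a_adj_mem {q : ℕ} (M : Matrix (Fin q) (Fin q) X.L) (h : ∀ i j, M i j ∈ X.T0 1)
    (i j : Fin q) : M.adjugate i j ∈ X.T0 (q - 1) := by
  rw [Matrix.adjugate_apply]
  have h1 := P6a_det_mem (M.updateRow j (Pi.single i 1)) (fun l => if l = j then 0 else 1) ?_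
  · have h2 : (∑ l : Fin q, if l = j then (0 : ℤ) else 1) = q - 1 := by
      have : ∀ l : Fin q, (if l = j then (0 : ℤ) else 1) = 1 - if l = j then 1 else 0 := by
        intro l; split_ifs <;> simp
      rw [Finset.sum_congr rfl fun l _ => this l, Finset.sum_sub_distrib]
      simp only [Finset.sum_const, Finset.card_univ, Fintype.card_fin, Int.nsmul_eq_mul, mul_one, Finset.sum_ite_eq', Finset.mem_univ, ↓reduceIte]
    rwa [h2] at h1
  · intro l l'
    by_cases hl : l = j
    · subst hl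
      rw [Matrix.updateRow_self, if_pos rfl]
      by_cases hi : l' = i
      · subst hi
        rw [Pi.single_eq_same]
        exact X.one_mem_T0
      · rw [Pi.single_eq_of_ne hi]
        exact zero_mem _
    · rw [Matrix.updateRow_ne hl, if_neg hl]
      exact h l l'

/-- `E` is generated by the `σ_a` in large degrees -/
theorem P6a_gen (hE : IsTLat Γ E) : ∃ n₁ : ℤ, ∀ n ≥ n₁, E (n + 1) ≤
    Submodule.span k {w | ∃ a : X.I, ∃ u ∈ E n, w = X.σ a • u} := by
  obtain ⟨n₁, h⟩ := hE.fg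
  refine ⟨n₁, fun n hn => (h n hn).trans (Submodule.span_le.2 ?_)⟩
  rintro _ ⟨a, ha, u, hu, rfl⟩
  have h1 : Submodule.span k (Set.range (gen3 k)) ≤
      (Submodule.span k {w | ∃ a : X.I, ∃ u ∈ E n, w = X.σ a • u}).comap
        ((LinearMap.toSpanSingleton (A k) (Fin r → X.L) u).restrictScalars k) := by
    rw [Submodule.span_le]
    rintro _ ⟨i, rfl⟩
    have e : (gen3 k i) • u = X.σ (X.b i) • u := by
      fin_cases i
      · simp [gen3, Arr.σ_base0]
      · simp only [gen3, Fin.isValue, Fin.mk_one, Matrix.cons_val_one, Matrix.cons_val_zero, Arr.σ_base1, algebraMap_smul]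
      · simp only [gen3, Fin.isValue, Fin.reduceFinMk, Matrix.cons_val, Arr.σ_base2, algebraMap_smul]
    have h2 : (gen3 k i) • u ∈ Submodule.span k {w | ∃ a : X.I, ∃ u ∈ E n, w = X.σ a • u} := by
      rw [e]
      exact Submodule.subset_span ⟨X.b i, u, hu, rfl⟩
    exact h2
  exact h1 (Ad_one_le ha)

theorem P6a_sum_repr {K V : Type} [Field K] [AddCommGroup V] [Module K V] {S : Submodule K V}
    {q : ℕ} (c : Module.Basis (Fin q) K S) (z : S) : (∑ j, c.repr z j • (c j : V)) = z := by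
  conv_rhs => rw [← c.sum_repr z]
  rw [Submodule.coe_sum]
  rfl

/-- Cayley-Hamilton: for `t` and a line `b` not through `t` there is a form
`h = s_b^q + (terms in (s_h, s_d))` killing `C` in large degrees -/
theorem curve_CH (hΓ : IsTSp Γ) (hE : IsTLat Γ E) (hg : Good Γ E d e) (t : X.S) (b : X.I) :
    ∃ (q : ℕ) (h : MvPolynomial X.I k) (n₁ : ℤ), h.IsHomogeneous q ∧
      h - MvPolynomial.X b ^ q ∈ Ideal.span {MvPolynomial.X (X.h t), MvPolynomial.X (X.d t)} ∧
      ∀ n ≥ n₁, ∀ v ∈ E n, aeval X.σ h • v ∈ TspanF Γ d e (n + q) := by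
  have hW := isTLat_TspanF hΓ d e
  obtain ⟨n₀, hstar⟩ := hg.star t
  obtain ⟨n₂, hgen⟩ := P6a_gen hE
  set n₁ := max n₀ n₂ with hn₁
  have hfin := hE.fin n₁
  set q := Module.finrank k (E n₁) with hq
  let c := Module.finBasis k (E n₁)
  have hdec : ∀ i : Fin q, ∃ w ∈ TspanF Γ d e (n₁ + 1), ∃ lam mu : Fin q → k,
      X.σ b • (c i : Fin r → X.L) = w + X.σ (X.h t) • (∑ j, lam j • (c j : Fin r → X.L)) +
        X.σ (X.d t) • (∑ j, mu j • (c j : Fin r → X.L)) := by
    intro i
    obtain ⟨w, hw, u, hu, u', hu', he⟩ := hstar (n₁ + 1)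
      (by have := le_max_left n₀ n₂; omega) _ (hE.sig_mem b (c i).2)
    rw [add_sub_cancel_right] at hu hu'
    refine ⟨w, hw, fun j => c.repr ⟨u, hu⟩ j, fun j => c.repr ⟨u', hu'⟩ j, ?_⟩
    rw [P6a_sum_repr, P6a_sum_repr]
    exact he
  choose w hw lam mu he using hdec
  obtain ⟨P, hP⟩ : ∃ P : Matrix (Fin q) (Fin q) (MvPolynomial X.I k), ∀ i j, P i j =
      (if i = j then MvPolynomial.X b else 0) - C (lam i j) * MvPolynomial.X (X.h t) -
        C (mu i j) * MvPolynomial.X (X.d t) := ⟨Matrix.of fun i j => _, fun i j => rfl⟩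
  let φ : MvPolynomial X.I k →ₐ[k] X.L := aeval X.σ
  have hdet : φ P.det = (φ.mapMatrix P).det := by
    rw [AlgHom.map_det]
  have hPφ : ∀ i j, (φ.mapMatrix P) i j = (if i = j then X.σ b else 0) -
      lam i j • X.σ (X.h t) - mu i j • X.σ (X.d t) := by
    intro i j
    rw [AlgHom.mapMatrix_apply, Matrix.map_apply, hP]
    simp only [φ]
    rw [map_sub, map_sub, map_mul, map_mul, aeval_C, aeval_C, aeval_X, aeval_X,
      Algebra.smul_def, Algebra.smul_def]
    split_ifs
    · rw [aeval_X]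
    · rw [map_zero]
  have hPmem : ∀ i j, (φ.mapMatrix P) i j ∈ X.T0 1 := by
    intro i j
    rw [hPφ]
    refine sub_mem (sub_mem ?_ (Submodule.smul_mem _ _ (X.σ_mem _)))
      (Submodule.smul_mem _ _ (X.σ_mem _))
    split_ifs
    · exact X.σ_mem _
    · exact zero_mem _
  have hsum : ∀ i, ∑ j, (φ.mapMatrix P) i j • (c j : Fin r → X.L) = w i := by
    intro i
    have e1 : ∀ j, (φ.mapMatrix P) i j • (c j : Fin r → X.L) =
        (if i = j then X.σ b • (c j : Fin r → X.L) else 0) -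
        X.σ (X.h t) • (lam i j • (c j : Fin r → X.L)) -
        X.σ (X.d t) • (mu i j • (c j : Fin r → X.L)) := by
      intro j
      rw [hPφ, sub_smul, sub_smul, smul_assoc, smul_assoc, smul_comm_kL, smul_comm_kL]
      congr 2
      split_ifs
      · rfl
      · rw [zero_smul]
    rw [Finset.sum_congr rfl fun j _ => e1 j, Finset.sum_sub_distrib, Finset.sum_sub_distrib,
      ← Finset.smul_sum, ← Finset.smul_sum, Finset.sum_ite_eq, if_pos (Finset.mem_univ _), he i]
    abel
  have hci : ∀ i, φ P.det • (c i : Fin r → X.L) ∈ TspanF Γ d e (n₁ + q) := by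
    intro i
    have e1 : φ P.det • (c i : Fin r → X.L) = ∑ j, (φ.mapMatrix P).adjugate i j • w j := by
      simp_rw [← hsum, Finset.smul_sum]
      rw [Finset.sum_comm]
      simp_rw [smul_smul, ← Finset.sum_smul]
      have e2 : ∀ l, ∑ j, (φ.mapMatrix P).adjugate i j * (φ.mapMatrix P) j l =
          if i = l then φ P.det else 0 := by
        intro l
        rw [← Matrix.mul_apply, Matrix.adjugate_mul, Matrix.smul_apply, Matrix.one_apply, hdet]
        split_ifs <;> simp
      simp_rw [e2, ite_smul, zero_smul]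
      rw [Finset.sum_ite_eq, if_pos (Finset.mem_univ _)]
    rw [e1]
    refine Submodule.sum_mem _ fun j _ => ?_
    have := SigStable.T0_smul hW.toIsBLat hW.sigStable (P6a_adj_mem _ hPmem i j) (hw j)
    rwa [show n₁ + 1 + ((q : ℤ) - 1) = n₁ + q by ring] at this
  refine ⟨q, P.det, n₁, ?_, ?_, ?_⟩
  · rw [Matrix.det_apply]
    refine MvPolynomial.IsHomogeneous.sum _ _ _ fun s _ => ?_
    have h1 : (∏ i, P (s i) i).IsHomogeneous q := by
      have := MvPolynomial.IsHomogeneous.prod Finset.univ (fun i => P (s i) i) (fun _ => 1)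
        (fun i _ => ?_)
      · simpa only [Finset.sum_const, Finset.card_univ, Fintype.card_fin, smul_eq_mul, mul_one] using this
      · simp only [hP]
        refine ((?_ : MvPolynomial.IsHomogeneous _ 1).sub ?_).sub ?_
        · split_ifs
          · exact isHomogeneous_X _ _
          · exact isHomogeneous_zero _ _ _
        · simpa only [zero_add] using (isHomogeneous_C _ (lam (s i) i)).mul (isHomogeneous_X k (X.h t))
        · simpa using (isHomogeneous_C _ (mu (s i) i)).mul (isHomogeneous_X k (X.d t))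
    rcases Int.units_eq_one_or (Equiv.Perm.sign s) with hs | hs
    · rw [hs, one_smul]; exact h1
    · rw [hs, Units.neg_smul, one_smul]; exact h1.neg
  · rw [← Ideal.Quotient.eq]
    set I : Ideal (MvPolynomial X.I k) :=
      Ideal.span {MvPolynomial.X (X.h t), MvPolynomial.X (X.d t)} with hI
    rw [RingHom.map_det, map_pow]
    have e1 : (Ideal.Quotient.mk I).mapMatrix P =
        Matrix.scalar (Fin q) (Ideal.Quotient.mk I (MvPolynomial.X b)) := by
      ext i j
      have hh : Ideal.Quotient.mk I (MvPolynomial.X (X.h t)) = 0 :=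
        Ideal.Quotient.eq_zero_iff_mem.2 (Ideal.subset_span (by simp only [Set.mem_insert_iff, Set.mem_singleton_iff, X_inj, true_or]))
      have hd : Ideal.Quotient.mk I (MvPolynomial.X (X.d t)) = 0 :=
        Ideal.Quotient.eq_zero_iff_mem.2 (Ideal.subset_span (by simp))
      simp only [RingHom.mapMatrix_apply, Matrix.map_apply, hP, map_sub, map_mul, hh, hd, mul_zero,
        sub_zero, Matrix.scalar_apply, Matrix.diagonal_apply]
      split_ifs <;> simp only [map_zero]
    rw [e1, Matrix.scalar_apply, Matrix.det_diagonal]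
    simp only [Finset.prod_const, Finset.card_univ, Fintype.card_fin]
  · intro n hn
    induction n, hn using Int.leInduction with
    | base =>
      intro v hv
      have e1 : v = ∑ j, c.repr ⟨v, hv⟩ j • (c j : Fin r → X.L) :=
        (P6a_sum_repr c ⟨v, hv⟩).symm
      rw [e1, Finset.smul_sum]
      refine Submodule.sum_mem _ fun j _ => ?_
      rw [← smul_comm_kL]
      exact Submodule.smul_mem _ _ (hci j)
    | succ n hn ih =>
      intro v hv
      have h1 := hgen n (by have := le_max_right n₀ n₂; omega) hv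
      have h2 : Submodule.span k {w | ∃ a : X.I, ∃ u ∈ E n, w = X.σ a • u} ≤
          (TspanF Γ d e (n + 1 + q)).comap (mulLL (φ P.det)) := by
        rw [Submodule.span_le]
        rintro _ ⟨a, u, hu, rfl⟩
        rw [SetLike.mem_coe, Submodule.mem_comap, mulLL_apply, smul_comm, add_right_comm]
        exact hW.sig_mem a (ih u hu)
      have h3 := h2 h1
      rw [Submodule.mem_comap, mulLL_apply] at h3
      exact h3

end Vale.Agent.P190.D
end
end

section

section

/-! Section 4, file P6w: the sublattice `W''` of the Frobenius pullback. -/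

set_option autoImplicit false
set_option linter.unusedSectionVars false

open MvPolynomial Filter

namespace Vale.Agent.P190.D

section sup

variable {k : Type} [Field k] {V : Type} [AddCommGroup V] [Module k V] [Module (A k) V]

theorem P6w_isBLat_sup {E F : ℤ → Submodule k V} (hE : IsBLat E) (hF : IsBLat F) :
    IsBLat (fun n => E n ⊔ F n) where
  smul_mem := by
    intro i n a v ha hv
    obtain ⟨x, hx, y, hy, rfl⟩ := Submodule.mem_sup.1 hv
    rw [smul_add]
    exact add_mem (Submodule.mem_sup_left (hE.smul_mem ha hx))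
      (Submodule.mem_sup_right (hF.smul_mem ha hy))
  fin := by
    intro n
    have := hE.fin n
    have := hF.fin n
    exact Submodule.finite_sup _ _
  bdd := by
    obtain ⟨n₀, h0⟩ := hE.bdd
    obtain ⟨n₁, h1⟩ := hF.bdd
    refine ⟨min n₀ n₁, fun n hn => ?_⟩
    rw [h0 n (lt_of_lt_of_le hn (min_le_left _ _)), h1 n (lt_of_lt_of_le hn (min_le_right _ _)),
      bot_sup_eq]
  fg := by
    obtain ⟨n₀, h0⟩ := hE.fg
    obtain ⟨n₁, h1⟩ := hF.fg
    refine ⟨max n₀ n₁, fun n hn => sup_le ?_ ?_⟩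
    · refine (h0 n (le_trans (le_max_left _ _) hn)).trans (Submodule.span_mono ?_)
      rintro w ⟨a, ha, v, hv, rfl⟩
      exact ⟨a, ha, v, Submodule.mem_sup_left hv, rfl⟩
    · refine (h1 n (le_trans (le_max_right _ _) hn)).trans (Submodule.span_mono ?_)
      rintro w ⟨a, ha, v, hv, rfl⟩
      exact ⟨a, ha, v, Submodule.mem_sup_right hv, rfl⟩

end sup

variable {k : Type} [Field k] [IsAlgClosed k] {X : Arr k} {r : ℕ}
  {Γ : (Fin r → X.L) →ₗ[X.L] (Fin r → X.L)} {E : ℤ → Submodule k (Fin r → X.L)}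
  {d : ℤ} {r₁ : ℕ} {e : Fin r₁ → (Fin r → X.L)}

variable (p : ℕ) [Fact p.Prime] [CharP k p]

/-- `W''` -/
noncomputable def Wpp (Γ : (Fin r → X.L) →ₗ[X.L] (Fin r → X.L)) (d : ℤ)
    (e : Fin r₁ → (Fin r → X.L)) : ℤ → Submodule k (Fin r → X.L) :=
  TspanF (frG p Γ) (p * d) fun i => frV p (e i)

theorem P6w_le {i : Fin r₁} {n : ℤ} :
    Tspan (frG p Γ) (p * d) (frV p (e i)) n ≤ Wpp p Γ d e n :=
  le_iSup (fun i => Tspan (frG p Γ) (p * d) (frV p (e i)) n) i

/-- the preimage of a subspace under `Fr` -/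
theorem P6w_frV_mem_of_span {S : Set (Fin r → X.L)} {W : Submodule k (Fin r → X.L)}
    (h : ∀ w ∈ S, frV p w ∈ W) {w : Fin r → X.L} (hw : w ∈ Submodule.span k S) :
    frV p w ∈ W := by
  induction hw using Submodule.span_induction with
  | mem w hw => exact h w hw
  | zero =>
    have h0 : frV p (0 : Fin r → X.L) = 0 := by
      funext i
      simp [frV, (Fact.out : p.Prime).ne_zero]
    rw [h0]
    exact zero_mem _
  | add v w _ _ hv hw => rw [frV_add]; exact add_mem hv hw
  | smul c w _ hw =>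
    rw [← algebraMap_smul X.L c w, frV_smul, ← map_pow, algebraMap_smul]
    exact Submodule.smul_mem _ _ hw

theorem Fr_mem_Wpp (hΓ : IsTSp Γ) {n : ℤ} {w : Fin r → X.L} (hw : w ∈ TspanF Γ d e n) :
    frV p w ∈ Wpp p Γ d e (p * n) := by
  have hodd : p % 2 = 1 := p_odd p X
  have hp1 : 1 ≤ p := (Fact.out : p.Prime).one_lt.le
  have key : ∀ i, ∀ w ∈ Tspan Γ d (e i) n, frV p w ∈ Wpp p Γ d e (p * n) := by
    intro i w hw
    unfold Tspan at hw
    refine P6w_frV_mem_of_span p ?_ hw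
    rintro w (⟨f, hf, rfl⟩ | ⟨ε, f, hf, rfl⟩)
    · refine P6w_le p (i := i) (Submodule.subset_span (Or.inl ⟨f ^ p, ?_, frV_smul p f (e i)⟩))
      have := X.T0_pow hf p
      rwa [mul_sub] at this
    · refine P6w_le p (i := i) (Submodule.subset_span (Or.inr ⟨ε, f ^ p * X.AA ε ^ ((p - 1) / 2),
        ?_, ?_⟩))
      · have h1 := X.T0_mul (X.T0_pow hf p) (X.T0_pow (X.AA_mem ε) ((p - 1) / 2))
        have h2 : ((p : ℤ) * (n - d - X.w) + ((p - 1) / 2 : ℕ) * (2 * X.w)) =
            p * n - p * d - X.w := by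
          have h3 : (((p - 1) / 2 : ℕ) : ℤ) * 2 = p - 1 := by omega
          linear_combination (X.w : ℤ) * h3
        rwa [h2] at h1
      · rw [frV_smul, AA_gam_frV p hΓ, mul_smul]
  unfold TspanF at hw
  induction hw using Submodule.iSup_induction' with
  | mem i w hw => exact key i w hw
  | zero =>
    have h0 : frV p (0 : Fin r → X.L) = 0 := by
      funext i
      simp [frV, (Fact.out : p.Prime).ne_zero]
    rw [h0]
    exact zero_mem _
  | add v w _ _ hv hw => rw [frV_add]; exact add_mem hv hw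

/-- Frobenius preserves linear independence over `L` -/
theorem P6w_li_frV {s : ℕ} {g : Fin s → (Fin r → X.L)} (hg : LinearIndependent X.L g) :
    LinearIndependent X.L fun i => frV p (g i) := by
  have h1 : Function.Injective (Fintype.linearCombination X.L g) :=
    linearIndependent_iff_injective_fintypeLinearCombination.1 hg
  have h2 := tw_injective p (Fintype.linearCombination X.L g) h1
  have h3 : (fun i => frV p (g i)) =
      tw p (Fintype.linearCombination X.L g) ∘ (fun i => (Pi.single i 1 : Fin s → X.L)) := by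
    funext i
    have h4 : (Pi.single i 1 : Fin s → X.L) = frV p (Pi.single i 1) := by
      funext j
      by_cases hj : j = i
      · subst hj; simp [frV]
      · simp [frV, Pi.single_eq_of_ne hj, (Fact.out : p.Prime).ne_zero]
    rw [Function.comp_apply, h4, tw_frV]
    congr 1
    simp [Fintype.linearCombination_apply_single]
  rw [h3]
  refine LinearIndependent.map' ?_ _ (LinearMap.ker_eq_bot.2 h2)
  exact Pi.linearIndependent_single_one (Fin s) X.L

theorem li_Wpp (hΓ : IsTSp Γ) (hg : Good Γ E d e) : LinearIndependent X.L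
    (Sum.elim (fun i => frV p (e i)) fun i => frG p Γ (frV p (e i))) := by
  have h1 : LinearIndependent X.L
      ((Sum.elim e fun i => Γ (e i)) ∘ (finSumFinEquiv (m := r₁) (n := r₁)).symm) :=
    hg.li.comp _ (Equiv.injective _)
  have h2 := P6w_li_frV p h1
  have h3 : LinearIndependent X.L
      (fun i : Fin r₁ ⊕ Fin r₁ => frV p ((Sum.elim e fun i => Γ (e i)) i)) := by
    have := h2.comp (finSumFinEquiv (m := r₁) (n := r₁)) (Equiv.injective _)
    simpa only [Function.comp_apply, Function.comp_def, Equiv.symm_apply_apply] using this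
  have hPI : (X.PI ^ ((p - 1) / 2))⁻¹ ≠ 0 := inv_ne_zero (pow_ne_zero _ X.PI_ne_zero)
  let u : Fin r₁ ⊕ Fin r₁ → X.Lˣ :=
    Sum.elim (fun _ => 1) fun _ => Units.mk0 _ hPI
  have h4 := h3.units_smul u
  convert h4 using 1
  funext i
  rcases i with i | i
  · simp only [Sum.elim_inl, Pi.smul_apply', one_smul, u]
  · simp only [Sum.elim_inr, Pi.smul_apply', u, frG_frV]
    rfl

theorem Wpp_le_GG (hΓ : IsTSp Γ) (hE : IsTLat Γ E) (hg : Good Γ E d e) (n : ℤ) :
    Wpp p Γ d e n ≤ GG p hE.toIsBLat hE.sig_mem n :=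
  iSup_le fun i => Tspan_le (isTLat_GG p hΓ hE)
    (PE_le_GG p hE.toIsBLat hE.sig_mem _ (frV_mem_PE p (hg.mem i))) n

/-- the lattice `P(E) + W''` -/
noncomputable def PW (Γ : (Fin r → X.L) →ₗ[X.L] (Fin r → X.L))
    (E : ℤ → Submodule k (Fin r → X.L)) (d : ℤ) (e : Fin r₁ → (Fin r → X.L)) :
    ℤ → Submodule k (Fin r → X.L) := fun l => PE p E l ⊔ Wpp p Γ d e l

theorem isBLat_PW (hΓ : IsTSp Γ) (hE : IsTLat Γ E) : IsBLat (PW p Γ E d e) :=
  P6w_isBLat_sup (isBLat_PE p hE.toIsBLat hE.sig_mem)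
    (isTLat_TspanF (isTSp_frG p hΓ) (p * d) fun i => frV p (e i)).toIsBLat

end Vale.Agent.P190.D
end
end

section

section

/-! Section 4, file P6u: upper bound for the degree of `X`. -/

set_option autoImplicit false
set_option linter.unusedSectionVars false

open MvPolynomial Filter

namespace Vale.Agent.P190.D

variable {k : Type} [Field k] [IsAlgClosed k] {X : Arr k} {r : ℕ}
  {Γ : (Fin r → X.L) →ₗ[X.L] (Fin r → X.L)} {E : ℤ → Submodule k (Fin r → X.L)}
  {d : ℤ} {r₁ : ℕ} {e : Fin r₁ → (Fin r → X.L)}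

/-- a complement, given by finitely many vectors -/
theorem P6u_compl {V : Type} [AddCommGroup V] [Module k V] {A B : Submodule k V}
    (hB : Module.Finite k B) (hAB : A ≤ B) {c : ℕ}
    (h : Module.finrank k B ≤ Module.finrank k A + c) :
    ∃ s : Finset V, s.card ≤ c ∧ B ≤ A ⊔ Submodule.span k (s : Set V) := by
  classical
  obtain ⟨C', hC'⟩ := Submodule.exists_isCompl (A.comap B.subtype)
  have hf : Module.Finite k C' := inferInstance
  have h1 := Submodule.finrank_add_eq_of_isCompl hC'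
  have h2 : Module.finrank k (A.comap B.subtype) = Module.finrank k A :=
    (Submodule.comapSubtypeEquivOfLe hAB).finrank_eq
  have h3 : Module.finrank k C' ≤ c := by omega
  let b := Module.finBasis k C'
  refine ⟨Finset.univ.image fun i => ((b i : B) : V), ?_, ?_⟩
  · refine Finset.card_image_le.trans ?_
    simpa only [Finset.card_univ, Fintype.card_fin] using h3
  · intro v hv
    have h4 : (⟨v, hv⟩ : B) ∈ (A.comap B.subtype) ⊔ C' := by
      rw [hC'.sup_eq_top]
      exact Submodule.mem_top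
    obtain ⟨a, ha, x, hx, hax⟩ := Submodule.mem_sup.1 h4
    have h5 : v = (a : V) + (x : V) := by
      have := congrArg (fun z : B => (z : V)) hax
      exact this.symm
    rw [h5]
    refine Submodule.add_mem_sup ha ?_
    have h6 := b.sum_repr ⟨x, hx⟩
    have h7 : (x : V) = ∑ i, (b.repr ⟨x, hx⟩ i) • ((b i : B) : V) := by
      have h8 := congrArg (fun z : C' => ((z : B) : V)) h6
      simp only [Submodule.coe_sum, Submodule.coe_smul] at h8
      exact h8.symm
    rw [h7]
    refine sum_mem fun i _ => Submodule.smul_mem _ _ (Submodule.subset_span ?_)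
    simp only [Finset.coe_image, Finset.coe_univ, Set.image_univ]
    exact ⟨i, rfl⟩

variable (p : ℕ) [Fact p.Prime] [CharP k p]

theorem P6u_smul_pow (c : k) (v : Fin r → X.L) : frV p (c • v) = c ^ p • frV p v := by
  funext i
  simp only [frV, Pi.smul_apply]
  rw [smul_pow]

theorem P6u_frV_span {s : Finset (Fin r → X.L)} {v : Fin r → X.L}
    (hv : v ∈ Submodule.span k (s : Set (Fin r → X.L))) :
    frV p v ∈ Submodule.span k (frV p '' (s : Set (Fin r → X.L))) := by
  induction hv using Submodule.span_induction with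
  | mem v hv => exact Submodule.subset_span ⟨v, hv, rfl⟩
  | zero =>
    have : frV p (0 : Fin r → X.L) = 0 := by
      have h := P6u_smul_pow (X := X) (r := r) p 0 0
      rw [zero_smul, zero_pow (Fact.out : p.Prime).ne_zero, zero_smul] at h
      exact h
    rw [this]
    exact zero_mem _
  | add v w _ _ hv hw => rw [frV_add]; exact add_mem hv hw
  | smul c v _ hv => rw [P6u_smul_pow]; exact Submodule.smul_mem _ _ hv

/-- the monomials -/
noncomputable def P6u_mn (X : Arr k) (u : X.I → ℕ) : X.L := ∏ x, X.σ x ^ u x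

theorem P6u_mn_mem (u : X.I → ℕ) : P6u_mn X u ∈ X.T0 ((∑ x, u x : ℕ) : ℤ) :=
  Submodule.subset_span ⟨u, rfl, rfl⟩

theorem P6u_mn_add (u u' : X.I → ℕ) : P6u_mn X (u + u') = P6u_mn X u * P6u_mn X u' := by
  simp only [P6u_mn, Pi.add_apply, pow_add, Finset.prod_mul_distrib]

theorem P6u_mn_mul (u : X.I → ℕ) : P6u_mn X (fun x => p * u x) = P6u_mn X u ^ p := by
  simp only [P6u_mn, pow_mul', Finset.prod_pow]

theorem P6u_mn_smul {F : ℤ → Submodule k (Fin r → X.L)} (hs : SigStable X F) (u : X.I → ℕ)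
    {n : ℤ} {v : Fin r → X.L} (hv : v ∈ F n) : P6u_mn X u • v ∈ F (n + (∑ x, u x : ℕ)) :=
  hs.prod_smul u Finset.univ hv

/-- generators of `P(E)` with exponents `< p` -/
theorem P6u_gen (hs : SigStable X E) (l : ℤ) : PE p E l ≤ Submodule.span k
    {x | ∃ (u : X.I → Fin p) (n : ℤ), p * n + (∑ x, (u x : ℕ) : ℕ) = l ∧ ∃ v ∈ E n,
      x = P6u_mn X (fun x => (u x : ℕ)) • frV p v} := by
  have hp : 0 < p := (Fact.out : p.Prime).pos
  refine Submodule.span_le.2 ?_
  rintro _ ⟨n, f, v, hf, hv, rfl⟩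
  show _ ∈ Submodule.span k _
  unfold Arr.T0 at hf
  induction hf using Submodule.span_induction with
  | mem f hf =>
    obtain ⟨u, hu, rfl⟩ := hf
    refine Submodule.subset_span ⟨fun x => ⟨u x % p, Nat.mod_lt _ hp⟩,
      n + (∑ x, u x / p : ℕ), ?_, P6u_mn X (fun x => u x / p) • v, P6u_mn_smul hs _ hv, ?_⟩
    · have h1 : (∑ x, u x : ℕ) = p * (∑ x, u x / p : ℕ) + (∑ x, u x % p : ℕ) := by
        rw [Finset.mul_sum, ← Finset.sum_add_distrib]
        exact Finset.sum_congr rfl fun x _ => (Nat.div_add_mod _ _).symm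
      have h2 : ((∑ x, u x : ℕ) : ℤ) = p * ((∑ x, u x / p : ℕ) : ℤ) + ((∑ x, u x % p : ℕ) : ℤ) := by
        exact_mod_cast h1
      have h3 : ((∑ x, ((⟨u x % p, Nat.mod_lt _ hp⟩ : Fin p) : ℕ) : ℕ) : ℤ)
        = ((∑ x, u x % p : ℕ) : ℤ) := rfl
      rw [h3]
      linarith only [hu, h2]
    · rw [frV_smul, ← P6u_mn_mul, smul_smul, ← P6u_mn_add]
      congr 1
      show P6u_mn X u = _
      congr 1
      funext x
      exact (Nat.mod_add_div _ _).symm
  | zero => rw [zero_smul]; exact zero_mem _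
  | add f g _ _ hf hg => rw [add_smul]; exact add_mem hf hg
  | smul c f _ hf => rw [smul_assoc]; exact Submodule.smul_mem _ _ hf

theorem P6u_tlat_Wpp (hΓ : IsTSp Γ) : IsTLat (frG p Γ) (Wpp p Γ d e) :=
  isTLat_TspanF (isTSp_frG p hΓ) _ _

theorem P6u_step (hΓ : IsTSp Γ) (hE : IsTLat Γ E) (hg : Good Γ E d e) (a : X.I) :
    ∃ c : ℕ, ∀ l : ℤ, ∃ s : Finset (Fin r → X.L), s.card ≤ c ∧
      PE p E l ≤ Wpp p Γ d e l ⊔ ((PE p E (l - p)).map (mulLL (X.σ a ^ p)) ⊔
        Submodule.span k (s : Set (Fin r → X.L))) := by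
  classical
  have hp : 0 < p := (Fact.out : p.Prime).pos
  obtain ⟨c, hc⟩ := curve_bounded hΓ hE hg a
  have h1 : ∀ n : ℤ, ∃ t : Finset (Fin r → X.L), t.card ≤ c ∧ E n ≤
      (TspanF Γ d e n ⊔ (E (n - 1)).map (mulLL (X.σ a))) ⊔
        Submodule.span k (t : Set (Fin r → X.L)) := by
    intro n
    refine P6u_compl (hE.fin n) (sup_le (TspanF_le hE hg n) ?_) (hc n)
    rintro _ ⟨v, hv, rfl⟩
    rw [mulLL_apply]
    have := hE.sig_mem a hv
    rwa [sub_add_cancel] at this
  choose t ht1 ht2 using h1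
  refine ⟨Fintype.card (X.I → Fin p) * c, fun l => ⟨Finset.univ.biUnion fun u : X.I → Fin p =>
    (t ((l - (∑ x, (u x : ℕ) : ℕ)) / p)).image fun v => P6u_mn X (fun x => (u x : ℕ)) • frV p v,
    ?_, ?_⟩⟩
  · refine (Finset.card_biUnion_le_card_mul _ _ c fun u _ => ?_).trans ?_
    · exact Finset.card_image_le.trans (ht1 _)
    · rw [Finset.card_univ]
  · refine (P6u_gen p hE.sigStable l).trans (Submodule.span_le.2 ?_)
    rintro _ ⟨u, n, hn, v, hv, rfl⟩
    obtain ⟨y, hy, z, hz, rfl⟩ := Submodule.mem_sup.1 (ht2 n hv)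
    obtain ⟨w, hw, y', hy', rfl⟩ := Submodule.mem_sup.1 hy
    obtain ⟨x, hx, rfl⟩ := hy'
    rw [mulLL_apply, frV_add, frV_add, frV_smul, smul_add, smul_add, add_assoc]
    refine Submodule.add_mem_sup ?_ (Submodule.add_mem_sup ?_ ?_)
    · have := P6u_mn_smul (P6u_tlat_Wpp (d := d) (e := e) p hΓ).sigStable (fun x => (u x : ℕ))
        (Fr_mem_Wpp p hΓ hw)
      rwa [hn] at this
    · refine ⟨P6u_mn X (fun x => (u x : ℕ)) • frV p x, ?_, ?_⟩
      · refine mem_PE p ?_ hx
        have := P6u_mn_mem (X := X) (fun x => (u x : ℕ))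
        convert this using 2
        rw [← hn]
        ring
      · rw [mulLL_apply, smul_comm]
    · have h3 : (l - (∑ x, (u x : ℕ) : ℕ)) / p = n := by
        rw [← hn, add_sub_cancel_right, Int.mul_ediv_cancel_left _ (by exact_mod_cast hp.ne')]
      have h4 := P6u_frV_span p hz
      have h5 := Submodule.mem_map_of_mem (f := mulLL (k := k) (P6u_mn X (fun x => (u x : ℕ)))) h4
      rw [mulLL_apply, Submodule.map_span] at h5
      refine Submodule.span_mono ?_ h5
      rintro _ ⟨_, ⟨z, hz, rfl⟩, rfl⟩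
      rw [mulLL_apply]
      refine Finset.mem_coe.2 (Finset.mem_biUnion.2 ⟨u, Finset.mem_univ _, ?_⟩)
      rw [h3]
      exact Finset.mem_image.2 ⟨z, hz, rfl⟩

/-- (2): product over a set of lines -/
theorem P6u_prod (hΓ : IsTSp Γ) (hE : IsTLat Γ E) (hg : Good Γ E d e) (F : Finset X.I) :
    ∃ c : ℕ, ∀ l : ℤ, ∃ s : Finset (Fin r → X.L), s.card ≤ c ∧
      PE p E l ≤ Wpp p Γ d e l ⊔ ((PE p E (l - F.card * (p - 1 : ℕ))).map
        (mulLL (∏ a ∈ F, X.σ a ^ (p - 1))) ⊔
        Submodule.span k (s : Set (Fin r → X.L))) := by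
  classical
  have hp : 0 < p := (Fact.out : p.Prime).pos
  induction F using Finset.induction_on with
  | empty =>
    refine ⟨0, fun l => ⟨∅, le_rfl, fun x hx => ?_⟩⟩
    refine Submodule.mem_sup_right (Submodule.mem_sup_left ⟨x, ?_, ?_⟩)
    · simpa only [Finset.card_empty, CharP.cast_eq_zero, zero_mul, sub_zero, SetLike.mem_coe] using hx
    · rw [mulLL_apply, Finset.prod_empty, one_smul]
  | insert a F ha ih =>
    obtain ⟨c, hc⟩ := ih
    obtain ⟨c', hc'⟩ := P6u_step p hΓ hE hg a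
    refine ⟨c + c', fun l => ?_⟩
    obtain ⟨s, hs1, hs2⟩ := hc l
    obtain ⟨t, ht1, ht2⟩ := hc' (l - F.card * (p - 1 : ℕ))
    set Q : X.L := ∏ a ∈ F, X.σ a ^ (p - 1) with hQ
    have hQm : Q ∈ X.T0 (F.card * (p - 1 : ℕ)) := by
      have := X.T0_prod F (fun a => X.σ a ^ (p - 1)) (fun _ => ((p - 1 : ℕ) : ℤ)) (fun i _ => by
        have := X.T0_pow (X.σ_mem i) (p - 1)
        simpa only [mul_one] using this)
      rw [Finset.sum_const, nsmul_eq_mul] at this
      exact this
    refine ⟨s ∪ t.image fun v => Q • v, ?_, ?_⟩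
    · exact (Finset.card_union_le _ _).trans (add_le_add hs1 (Finset.card_image_le.trans ht1))
    · intro x hx
      obtain ⟨w, hw, y, hy, rfl⟩ := Submodule.mem_sup.1 (hs2 hx)
      obtain ⟨y', hy', z, hz, rfl⟩ := Submodule.mem_sup.1 hy
      obtain ⟨x', hx', rfl⟩ := hy'
      obtain ⟨w₂, hw₂, y₂, hy₂, rfl⟩ := Submodule.mem_sup.1 (ht2 hx')
      obtain ⟨y₃, hy₃, z₂, hz₂, rfl⟩ := Submodule.mem_sup.1 hy₂
      obtain ⟨x₄, hx₄, rfl⟩ := hy₃
      have e1 : w + (mulLL Q (w₂ + (mulLL (X.σ a ^ p) x₄ + z₂)) + z) =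
          (w + Q • w₂) + ((Q * X.σ a ^ p) • x₄ + (z + Q • z₂)) := by
        rw [mulLL_apply, mulLL_apply, smul_add, smul_add, smul_smul]
        abel
      rw [e1]
      refine Submodule.add_mem_sup (add_mem hw ?_) (Submodule.add_mem_sup ?_ (add_mem ?_ ?_))
      · have := SigStable.T0_smul (P6u_tlat_Wpp (d := d) (e := e) p hΓ).toIsBLat
          (P6u_tlat_Wpp (d := d) (e := e) p hΓ).sigStable hQm hw₂
        rwa [sub_add_cancel] at this
      · refine ⟨X.σ a • x₄, ?_, ?_⟩
        · have h6 := sigStable_PE p hE.toIsBLat hE.sigStable a hx₄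
          have h7 : l - (insert a F).card * (p - 1 : ℕ) =
              l - F.card * (p - 1 : ℕ) - p + 1 := by
            rw [Finset.card_insert_of_notMem ha]
            push_cast [Nat.cast_sub (Nat.one_le_iff_ne_zero.2 hp.ne')]
            ring
          rw [h7]
          exact h6
        · rw [mulLL_apply, Finset.prod_insert ha, ← hQ, smul_smul]
          congr 1
          obtain ⟨p', rfl⟩ : ∃ p', p = p' + 1 := ⟨p - 1, by omega⟩
          rw [Nat.add_sub_cancel]
          ring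
      · refine Submodule.span_mono ?_ hz
        simp only [Finset.coe_union, Finset.coe_image, Set.subset_union_left]
      · have h5 := Submodule.mem_map_of_mem (f := mulLL (k := k) Q) hz₂
        rw [mulLL_apply, Submodule.map_span] at h5
        refine Submodule.span_mono ?_ h5
        rintro _ ⟨v, hv, rfl⟩
        rw [mulLL_apply]
        simp only [Finset.coe_union, Finset.coe_image]
        exact Or.inr ⟨v, hv, rfl⟩

theorem P6u_Ad_pow {i : ℤ} {a : A k} (ha : a ∈ Ad k i) (n : ℕ) : a ^ n ∈ Ad k (n * i) := by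
  induction n with
  | zero => simpa only [CharP.cast_eq_zero, zero_mul, pow_zero] using     mem_Ad.2 (Or.inr (by simp : ((1 : A k).totalDegree : ℤ) ≤ 0))
  | succ n ih =>
    rw [pow_succ]
    have := Ad_mul ih ha
    convert this using 2
    push_cast
    ring

theorem P6u_Ad_prod {ι : Type} (s : Finset ι) (a : ι → A k) (c : ι → ℤ)
    (h : ∀ i ∈ s, a i ∈ Ad k (c i)) : ∏ i ∈ s, a i ∈ Ad k (∑ i ∈ s, c i) := by
  classical
  induction s using Finset.induction_on with
  | empty => simpa only [Finset.sum_empty, Finset.prod_empty] using     mem_Ad.2 (Or.inr (by simp : ((1 : A k).totalDegree : ℤ) ≤ 0))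
  | insert i s hi ih =>
    rw [Finset.prod_insert hi, Finset.sum_insert hi]
    exact Ad_mul (h i (Finset.mem_insert_self _ _))
      (ih fun j hj => h j (Finset.mem_insert_of_mem hj))

theorem P6u_fac (x : X.I) (u : ℕ) : ∃ s : ℕ, ∃ a ∈ Ad k (((p - 1 + u : ℕ) : ℤ) - p * s),
    X.σ x ^ (p - 1 + u) = (X.σ x ^ s) ^ p * algebraMap (A k) X.L a := by
  have hp := p_odd p X
  rcases Nat.even_or_odd' (p - 1 + u) with ⟨t, ht | ht⟩
  · refine ⟨0, X.q x ^ t, ?_, ?_⟩
    · have := P6u_Ad_pow (X.q_mem x) t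
      convert this using 2
      rw [ht]
      push_cast
      ring
    · rw [ht, pow_mul, X.σ_sq, map_pow]
      simp only [pow_zero, one_pow, one_mul]
  · obtain ⟨j, hj⟩ : ∃ j, p - 1 + u = p + 2 * j := ⟨t - (p - 1) / 2, by omega⟩
    refine ⟨1, X.q x ^ j, ?_, ?_⟩
    · have := P6u_Ad_pow (X.q_mem x) j
      convert this using 2
      rw [hj]
      push_cast
      ring
    · rw [hj, pow_add, pow_mul _ 2, X.σ_sq, map_pow, pow_one]

/-- the target of step (3) -/
noncomputable def P6u_T (E : ℤ → Submodule k (Fin r → X.L)) (l : ℤ) : Submodule k (Fin r → X.L) :=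
  Submodule.span k {x | ∃ (b : Fin p × Fin p), ∃ v ∈ E ((l - (b.1 : ℕ) - (b.2 : ℕ)) / p),
    x = algebraMap (A k) X.L (MvPolynomial.X 0 ^ (b.1 : ℕ) * MvPolynomial.X 1 ^ (b.2 : ℕ)) •
      frV p v}

theorem P6u_bc (hE : IsBLat E) {l n : ℤ} {a : A k} (ha : a ∈ Ad k (l - p * n))
    {v : Fin r → X.L} (hv : v ∈ E n) :
    algebraMap (A k) X.L a • frV p v ∈ P6u_T p E l := by
  classical
  have hp : 0 < p := (Fact.out : p.Prime).pos
  rcases mem_Ad.1 ha with rfl | ha
  · rw [map_zero, zero_smul]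
    exact zero_mem _
  rw [a.as_sum, map_sum, Finset.sum_smul]
  refine sum_mem fun m hm => ?_
  have hdeg : (m 0 + m 1 : ℕ) ≤ a.totalDegree := by
    have := le_totalDegree hm
    rwa [Finsupp.sum_fintype _ _ (fun _ => rfl), Fin.sum_univ_two] at this
  have h1 : algebraMap (A k) X.L (monomial m (coeff m a)) = coeff m a •
      (algebraMap (A k) X.L (MvPolynomial.X 0 ^ (m 0 % p) * MvPolynomial.X 1 ^ (m 1 % p)) *
        algebraMap (A k) X.L (MvPolynomial.X 0 ^ (m 0 / p) * MvPolynomial.X 1 ^ (m 1 / p)) ^ p) := by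
    rw [← map_pow, ← map_mul, Algebra.smul_def, IsScalarTower.algebraMap_apply k (A k) X.L,
      ← map_mul]
    congr 1
    rw [monomial_eq, Finsupp.prod_fintype _ _ (fun _ => pow_zero _), Fin.prod_univ_two,
      mul_pow, ← pow_mul, ← pow_mul]
    show _ = C _ * _
    congr 1
    conv_lhs => rw [← Nat.mod_add_div (m 0) p, ← Nat.mod_add_div (m 1) p]
    rw [pow_add, pow_add, mul_comm p (m 0 / p), mul_comm p (m 1 / p)]
    ring
  rw [h1, smul_assoc, mul_smul, ← frV_smul]
  refine Submodule.smul_mem _ _ (Submodule.subset_span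
    ⟨(⟨m 0 % p, Nat.mod_lt _ hp⟩, ⟨m 1 % p, Nat.mod_lt _ hp⟩), _, ?_, rfl⟩)
  have h2 : (MvPolynomial.X 0 ^ (m 0 / p) * MvPolynomial.X 1 ^ (m 1 / p) : A k) ∈
      Ad k ((m 0 / p : ℕ) + (m 1 / p : ℕ)) := by
    have e0 := P6u_Ad_pow (X_mem_Ad1 (k := k) 0) (m 0 / p)
    have e1 := P6u_Ad_pow (X_mem_Ad1 (k := k) 1) (m 1 / p)
    have := Ad_mul e0 e1
    simpa only [Fin.isValue, Int.natCast_ediv, mul_one] using this
  have h3 := hE.smul_mem h2 hv
  rw [algebraMap_smul]
  refine hE.mono' ?_ h3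
  rw [Int.le_ediv_iff_mul_le (by exact_mod_cast hp)]
  have e0 : ((m 0 : ℕ) : ℤ) = (m 0 % p : ℕ) + p * (m 0 / p : ℕ) := by
    exact_mod_cast (Nat.mod_add_div (m 0) p).symm
  have e1 : ((m 1 : ℕ) : ℤ) = (m 1 % p : ℕ) + p * (m 1 / p : ℕ) := by
    exact_mod_cast (Nat.mod_add_div (m 1) p).symm
  have e2 : ((m 0 + m 1 : ℕ) : ℤ) ≤ l - p * n := le_trans (by exact_mod_cast hdeg) ha
  push_cast at e2
  show _ ≤ l - ((m 0 % p : ℕ) : ℤ) - ((m 1 % p : ℕ) : ℤ)
  linarith only [e2, e1, e0]

/-- (3) -/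
theorem P6u_Q (hE : IsTLat Γ E) (l : ℤ) :
    (PE p E (l - (Finset.univ : Finset X.I).card * (p - 1 : ℕ))).map
      (mulLL (∏ a : X.I, X.σ a ^ (p - 1))) ≤ P6u_T p E l := by
  classical
  refine (Submodule.map_mono (P6u_gen p hE.sigStable _)).trans ?_
  rw [Submodule.map_span]
  refine Submodule.span_le.2 ?_
  rintro _ ⟨_, ⟨u, n, hn, v, hv, rfl⟩, rfl⟩
  rw [mulLL_apply, smul_smul]
  choose s a ha hsa using fun x : X.I => P6u_fac (k := k) p x (u x : ℕ)
  have h1 : (∏ a : X.I, X.σ a ^ (p - 1)) * P6u_mn X (fun x => (u x : ℕ)) =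
      algebraMap (A k) X.L (∏ x, a x) * P6u_mn X s ^ p := by
    rw [P6u_mn, P6u_mn, ← Finset.prod_mul_distrib, map_prod, ← Finset.prod_pow,
      ← Finset.prod_mul_distrib]
    refine Finset.prod_congr rfl fun x _ => ?_
    rw [← pow_add, hsa, mul_comm]
  rw [h1, mul_smul, ← frV_smul]
  refine P6u_bc p hE.toIsBLat (n := n + (∑ x, s x : ℕ)) ?_ (P6u_mn_smul hE.sigStable s hv)
  have h2 := P6u_Ad_prod Finset.univ a _ (fun x _ => ha x)
  convert h2 using 2
  push_cast at hn ⊢
  rw [Finset.sum_sub_distrib, Finset.sum_add_distrib, ← Finset.mul_sum, Finset.sum_const,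
    nsmul_eq_mul]
  linarith only [hn]

/-- (4) -/
theorem P6u_count (hΓ : IsTSp Γ) (hE : IsTLat Γ E) (hg : Good Γ E d e) :
    ∃ c : ℕ, ∀ l : ℤ, Module.finrank k (PW p Γ E d e l) ≤ Module.finrank k (Wpp p Γ d e l) +
      (c + ∑ b : Fin p × Fin p,
        (Module.finrank k (E ((l - (b.1 : ℕ) - (b.2 : ℕ)) / p)) -
          Module.finrank k (TspanF Γ d e ((l - (b.1 : ℕ) - (b.2 : ℕ)) / p)))) := by
  classical
  have hp : 0 < p := (Fact.out : p.Prime).pos
  obtain ⟨c, hc⟩ := P6u_prod p hΓ hE hg (Finset.univ : Finset X.I)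
  have hW := P6u_tlat_Wpp (d := d) (e := e) p hΓ
  have h1 : ∀ n : ℤ, ∃ t : Finset (Fin r → X.L), t.card ≤ Module.finrank k (E n) -
      Module.finrank k (TspanF Γ d e n) ∧ E n ≤ TspanF Γ d e n ⊔
        Submodule.span k (t : Set (Fin r → X.L)) := fun n =>
    P6u_compl (hE.fin n) (TspanF_le hE hg n) (by omega)
  choose t ht1 ht2 using h1
  refine ⟨c, fun l => ?_⟩
  obtain ⟨s, hs1, hs2⟩ := hc l
  set s' : Finset (Fin r → X.L) := Finset.univ.biUnion fun b : Fin p × Fin p =>
    (t ((l - (b.1 : ℕ) - (b.2 : ℕ)) / p)).image fun v =>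
      algebraMap (A k) X.L (MvPolynomial.X 0 ^ (b.1 : ℕ) * MvPolynomial.X 1 ^ (b.2 : ℕ)) •
        frV p v with hs'
  have h2 : P6u_T p E l ≤ Wpp p Γ d e l ⊔ Submodule.span k (s' : Set (Fin r → X.L)) := by
    refine Submodule.span_le.2 ?_
    rintro _ ⟨b, v, hv, rfl⟩
    obtain ⟨w, hw, z, hz, rfl⟩ := Submodule.mem_sup.1 (ht2 _ hv)
    rw [frV_add, smul_add]
    refine Submodule.add_mem_sup ?_ ?_
    · have h3 := Fr_mem_Wpp p hΓ hw
      have h4 : (MvPolynomial.X 0 ^ (b.1 : ℕ) * MvPolynomial.X 1 ^ (b.2 : ℕ) : A k) ∈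
          Ad k ((b.1 : ℕ) + (b.2 : ℕ)) := by
        have e0 := P6u_Ad_pow (X_mem_Ad1 (k := k) 0) (b.1 : ℕ)
        have e1 := P6u_Ad_pow (X_mem_Ad1 (k := k) 1) (b.2 : ℕ)
        have := Ad_mul e0 e1
        simpa only [Fin.isValue, mul_one] using this
      have h5 := hW.smul_mem h4 h3
      rw [algebraMap_smul]
      refine hW.toIsBLat.mono' ?_ h5
      have h6 := Int.mul_ediv_self_le (x := l - (b.1 : ℕ) - (b.2 : ℕ)) (k := (p : ℤ))
        (by exact_mod_cast hp.ne')
      linarith only [h6]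
    · have h4 := P6u_frV_span p hz
      have h5 := Submodule.mem_map_of_mem (f := mulLL (k := k) (algebraMap (A k) X.L
        (MvPolynomial.X 0 ^ (b.1 : ℕ) * MvPolynomial.X 1 ^ (b.2 : ℕ)))) h4
      rw [mulLL_apply, Submodule.map_span] at h5
      refine Submodule.span_mono ?_ h5
      rintro _ ⟨_, ⟨z, hz, rfl⟩, rfl⟩
      rw [mulLL_apply]
      exact Finset.mem_coe.2 (Finset.mem_biUnion.2 ⟨b, Finset.mem_univ _,
        Finset.mem_image.2 ⟨z, hz, rfl⟩⟩)
  have h3 : PW p Γ E d e l ≤ Wpp p Γ d e l ⊔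
      Submodule.span k ((s ∪ s' : Finset (Fin r → X.L)) : Set (Fin r → X.L)) := by
    have e1 : Submodule.span k (s : Set (Fin r → X.L)) ≤
        Submodule.span k ((s ∪ s' : Finset (Fin r → X.L)) : Set (Fin r → X.L)) :=
      Submodule.span_mono (by simp only [Finset.coe_union, Set.subset_union_left])
    have e2 : Submodule.span k (s' : Set (Fin r → X.L)) ≤
        Submodule.span k ((s ∪ s' : Finset (Fin r → X.L)) : Set (Fin r → X.L)) :=
      Submodule.span_mono (by simp only [Finset.coe_union, Set.subset_union_right])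
    refine sup_le (hs2.trans (sup_le le_sup_left (sup_le ?_ (e1.trans le_sup_right)))) le_sup_left
    exact (P6u_Q p hE l).trans (h2.trans (sup_le le_sup_left (e2.trans le_sup_right)))
  have hf1 : Module.Finite k (Wpp p Γ d e l) := hW.fin l
  have hf2 : Module.Finite k (Submodule.span k
      ((s ∪ s' : Finset (Fin r → X.L)) : Set (Fin r → X.L))) :=
    FiniteDimensional.span_finset k _
  have h4 : (s ∪ s').card ≤ c + ∑ b : Fin p × Fin p,
        (Module.finrank k (E ((l - (b.1 : ℕ) - (b.2 : ℕ)) / p)) -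
          Module.finrank k (TspanF Γ d e ((l - (b.1 : ℕ) - (b.2 : ℕ)) / p))) := by
    refine (Finset.card_union_le _ _).trans (add_le_add hs1 ?_)
    refine Finset.card_biUnion_le.trans (Finset.sum_le_sum fun b _ => ?_)
    exact Finset.card_image_le.trans (ht1 _)
  calc Module.finrank k (PW p Γ E d e l)
      ≤ Module.finrank k (Wpp p Γ d e l ⊔ Submodule.span k
        ((s ∪ s' : Finset (Fin r → X.L)) : Set (Fin r → X.L)) :
          Submodule k (Fin r → X.L)) := Submodule.finrank_mono h3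
    _ ≤ Module.finrank k (Wpp p Γ d e l) + Module.finrank k (Submodule.span k
        ((s ∪ s' : Finset (Fin r → X.L)) : Set (Fin r → X.L))) :=
        Submodule.finrank_add_le_finrank_add_finrank _ _
    _ ≤ _ := add_le_add le_rfl ((finrank_span_finset_le_card _).trans h4)

theorem P6u_lin {α β γ δ M₀ : ℤ} (h : ∀ M ≥ M₀, α * M + β ≤ γ * M + δ) : α ≤ γ := by
  by_contra hlt
  have h1 := h (max M₀ 0 + |β| + |δ| + 1) (by
    have := abs_nonneg β
    have := abs_nonneg δ
    have := le_max_left M₀ 0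
    omega)
  have h2 := neg_abs_le β
  have h3 := le_abs_self δ
  have h4 : (0 : ℤ) ≤ max M₀ 0 := le_max_right _ _
  have h5 := abs_nonneg β
  have h6 := abs_nonneg δ
  have h7 : (γ + 1) * (max M₀ 0 + |β| + |δ| + 1) ≤ α * (max M₀ 0 + |β| + |δ| + 1) :=
    mul_le_mul_of_nonneg_right (by omega) (by omega)
  linarith only [h1, h2, h3, h4, h5, h6, h7]
/-- 4.5c, upper bound for the linear coefficient of `X = (P(E) + W'')/W''` -/
theorem curve_upper (hΓ : IsTSp Γ) (hE : IsTLat Γ E) (hg : Good Γ E d e)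
    {N e₀ g₀ e₁ g₁ e₂ g₂ e₃ g₃ : ℤ} (h₀ : HasHilb E N e₀ g₀) (h₁ : HasHilb (TspanF Γ d e) N e₁ g₁)
    (h₂ : HasHilb (PW p Γ E d e) N e₂ g₂) (h₃ : HasHilb (Wpp p Γ d e) N e₃ g₃) :
    e₂ - e₃ ≤ p * (e₀ - e₁) := by
  have hp0 : 0 < p := (Fact.out : p.Prime).pos
  have hp' : (0 : ℤ) < p := by exact_mod_cast hp0
  have he : e₁ ≤ e₀ := (HasHilb.mono hE.toIsBLat (TspanF_le hE hg) h₁ h₀).1
  obtain ⟨c, hc⟩ := P6u_count p hΓ hE hg
  obtain ⟨n₀, hn₀⟩ := eventually_atTop.1 (h₀.and h₁)
  obtain ⟨n₁, hn₁⟩ := eventually_atTop.1 (h₂.and h₃)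
  have hD : ∀ n ≥ n₀, ((Module.finrank k (E n) - Module.finrank k (TspanF Γ d e n) : ℕ) : ℤ) =
      (e₀ - e₁) * (n + 1) + (g₀ - g₁) := by
    intro n hn
    obtain ⟨e0, e1⟩ := hn₀ n hn
    have := hE.fin n
    rw [Nat.cast_sub (Submodule.finrank_mono (TspanF_le hE hg n))]
    have h4 : (((Module.finrank k (E n) : ℤ) - (Module.finrank k (TspanF Γ d e n) : ℤ) : ℤ) : ℚ) =
        (((e₀ - e₁) * (n + 1) + (g₀ - g₁) : ℤ) : ℚ) := by
      push_cast
      rw [e0, e1]
      simp only [hp]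
      ring
    exact_mod_cast h4
  have key : ∀ M ≥ max (n₀ + 2) (max n₁ 0), ((e₂ - e₃) * p) * M + ((e₂ - e₃) + (g₂ - g₃)) ≤
      (p * p * (e₀ - e₁)) * M + (c + p * p * ((e₀ - e₁) + (g₀ - g₁))) := by
    intro M hM
    have hM0 : n₀ + 2 ≤ M := (le_max_left _ _).trans hM
    have hM1 : n₁ ≤ M := (le_max_left _ _).trans ((le_max_right _ _).trans hM)
    have hM2 : 0 ≤ M := (le_max_right _ _).trans ((le_max_right _ _).trans hM)
    obtain ⟨e0, e1⟩ := hn₁ (p * M) (by nlinarith only [hM1, hp0, hM2])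
    have h5 := hc (p * M)
    have h6 : ((∑ b : Fin p × Fin p,
        (Module.finrank k (E ((p * M - (b.1 : ℕ) - (b.2 : ℕ)) / p)) -
          Module.finrank k (TspanF Γ d e ((p * M - (b.1 : ℕ) - (b.2 : ℕ)) / p))) : ℕ) : ℤ) ≤
        p * p * ((e₀ - e₁) * (M + 1) + (g₀ - g₁)) := by
      rw [Nat.cast_sum]
      refine (Finset.sum_le_card_nsmul _ _ ((e₀ - e₁) * (M + 1) + (g₀ - g₁)) fun b _ => ?_).trans ?_
      · have hb1 : ((b.1 : ℕ) : ℤ) < p := by exact_mod_cast b.1.2
        have hb2 : ((b.2 : ℕ) : ℤ) < p := by exact_mod_cast b.2.2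
        have hb3 : (0 : ℤ) ≤ ((b.1 : ℕ) : ℤ) := by positivity
        have hb4 : (0 : ℤ) ≤ ((b.2 : ℕ) : ℤ) := by (clear * -; positivity)
        have hlow : M - 2 ≤ (p * M - (b.1 : ℕ) - (b.2 : ℕ)) / p := by
          rw [Int.le_ediv_iff_mul_le hp']
          linarith only [hb2, hb1]
        have hup : (p * M - (b.1 : ℕ) - (b.2 : ℕ)) / p ≤ M := by
          have h8 := Int.ediv_mul_le (p * M - (b.1 : ℕ) - (b.2 : ℕ)) hp'.ne'
          by_contra hcon
          push Not at hcon
          nlinarith only [hp0, h8, hcon]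
        rw [hD _ (by linarith only [hlow, hM0])]
        linarith only [mul_nonneg (sub_nonneg.2 he) (sub_nonneg.2 hup)]
      · rw [Finset.card_univ, Fintype.card_prod, Fintype.card_fin, nsmul_eq_mul]
        push_cast
        exact le_rfl
    have h7 : ((Module.finrank k (PW p Γ E d e (p * M)) : ℤ) : ℚ) -
        ((Module.finrank k (Wpp p Γ d e (p * M)) : ℤ) : ℚ) =
        (((e₂ - e₃) * (p * M + 1) + (g₂ - g₃) : ℤ) : ℚ) := by
      push_cast
      rw [e0, e1]
      simp only [hp]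
      push_cast
      ring
    have h8 : (Module.finrank k (PW p Γ E d e (p * M)) : ℤ) -
        (Module.finrank k (Wpp p Γ d e (p * M)) : ℤ) = (e₂ - e₃) * (p * M + 1) + (g₂ - g₃) := by
      exact_mod_cast h7
    have h9 : (Module.finrank k (PW p Γ E d e (p * M)) : ℤ) ≤
        (Module.finrank k (Wpp p Γ d e (p * M)) : ℤ) + (c + p * p * ((e₀ - e₁) * (M + 1) +
          (g₀ - g₁))) := by
      have h10 := (Nat.cast_le (α := ℤ)).2 h5
      push_cast at h6 h10 ⊢
      linarith only [h6, h5]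
    linarith only [h9, h8]
  have h10 := P6u_lin key
  have h11 : p * (e₂ - e₃) ≤ p * (p * (e₀ - e₁)) := by linarith
  exact le_of_mul_le_mul_left h11 hp'

end Vale.Agent.P190.D
end
end

section

section

/-! Section 4, file P6d, part A: powers of the product of the other lines. -/

set_option autoImplicit false
set_option linter.unusedSectionVars false

open MvPolynomial Filter

namespace Vale.Agent.P190.D

variable {k : Type} [Field k] [IsAlgClosed k] {X : Arr k} {r : ℕ}
  {Γ : (Fin r → X.L) →ₗ[X.L] (Fin r → X.L)} {E : ℤ → Submodule k (Fin r → X.L)}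
  {d : ℤ} {r₁ : ℕ} {e : Fin r₁ → (Fin r → X.L)} (p : ℕ) [Fact p.Prime] [CharP k p]

/-- `(a⁺ ∓ a⁻)^(p+1)` is in the ideal of the `(p+1)/2`-th powers. -/
theorem P6d_pow_add (t : X.S) (s : k) : ∃ x ∈ X.T0 ((p + 1) / 2 : ℕ), ∃ y ∈ X.T0 ((p + 1) / 2 : ℕ),
    (X.a t true + s • X.a t false) ^ (p + 1) =
      X.a t true ^ ((p + 1) / 2) * x + X.a t false ^ ((p + 1) / 2) * y := by
  have := charP_L p X
  have hp := p_odd (p := p) X
  obtain ⟨q, hq⟩ : ∃ q, p = 2 * q + 1 := ⟨p / 2, by (clear * - hp; omega)⟩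
  have h2 : (p + 1) / 2 = q + 1 := by omega
  rw [h2]
  have hT : X.a t true + s • X.a t false ∈ X.T0 1 :=
    add_mem (X.a_mem _ _) (Submodule.smul_mem _ _ (X.a_mem _ _))
  refine ⟨X.a t true ^ q * (X.a t true + s • X.a t false), ?_,
    (s ^ p) • (X.a t false ^ q * (X.a t true + s • X.a t false)), ?_, ?_⟩
  · have := X.T0_mul (X.T0_pow (X.a_mem t true) q) hT
    simpa only [Nat.cast_add, Nat.cast_one, mul_one] using this
  · have := X.T0_mul (X.T0_pow (X.a_mem t false) q) hT
    exact Submodule.smul_mem _ _ (by simpa only [Nat.cast_add, Nat.cast_one, mul_one] using this)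
  · have h1 : (X.a t true + s • X.a t false) ^ p = X.a t true ^ p + s ^ p • X.a t false ^ p := by
      rw [add_pow_char, smul_pow]
    rw [pow_succ, h1]
    have e1 : X.a t true ^ p = X.a t true ^ (q + 1) * X.a t true ^ q := by
      rw [← pow_add]; congr 1; omega
    have e2 : X.a t false ^ p = X.a t false ^ (q + 1) * X.a t false ^ q := by
      rw [← pow_add]; congr 1; omega
    rw [e1, e2]
    simp only [Algebra.smul_def]
    ring

/-- for every multiple point there is a line different from `i` and `j` whose `(p+1)`-th power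
is in the ideal of the `(p+1)/2`-th powers. -/
theorem P6d_line (t : X.S) (i j : X.I) : ∃ b : X.I, b ≠ i ∧ b ≠ j ∧
    ∃ x ∈ X.T0 ((p + 1) / 2 : ℕ), ∃ y ∈ X.T0 ((p + 1) / 2 : ℕ),
    X.σ b ^ (p + 1) = X.a t true ^ ((p + 1) / 2) * x + X.a t false ^ ((p + 1) / 2) * y := by
  have key : ∀ (b : X.I) (c : k), c ≠ 0 → ∀ s : k, c • X.σ b = X.a t true + s • X.a t false →
      ∃ x ∈ X.T0 ((p + 1) / 2 : ℕ), ∃ y ∈ X.T0 ((p + 1) / 2 : ℕ),
      X.σ b ^ (p + 1) = X.a t true ^ ((p + 1) / 2) * x + X.a t false ^ ((p + 1) / 2) * y := by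
    intro b c hc s h
    obtain ⟨x, hx, y, hy, hxy⟩ := P6d_pow_add p t s
    refine ⟨(c ^ (p + 1))⁻¹ • x, Submodule.smul_mem _ _ hx, (c ^ (p + 1))⁻¹ • y,
      Submodule.smul_mem _ _ hy, ?_⟩
    rw [← h, smul_pow] at hxy
    rw [mul_smul_comm, mul_smul_comm, ← smul_add, ← hxy, smul_smul,
      inv_mul_cancel₀ (pow_ne_zero _ hc), one_smul]
  have h2 : (2 : k) ≠ 0 := X.two_ne
  by_cases hh : X.h t ≠ i ∧ X.h t ≠ j
  · refine ⟨X.h t, hh.1, hh.2, key _ (2 * X.η t) (mul_ne_zero h2 (X.η_ne t)) (-1) ?_⟩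
    simp only [Algebra.smul_def, map_mul, map_ofNat, Arr.a, if_true, Bool.false_eq_true, if_false, map_neg, map_one]
    ring
  by_cases hd : X.d t ≠ i ∧ X.d t ≠ j
  · refine ⟨X.d t, hd.1, hd.2, key _ (2 * X.δ t) (mul_ne_zero h2 (X.δ_ne t)) 1 ?_⟩
    simp only [Algebra.smul_def, map_mul, map_ofNat, Arr.a, if_true, Bool.false_eq_true, if_false, map_one]
    ring
  have hv : X.v t ≠ i ∧ X.v t ≠ j := by
    have h1 := X.vh t
    have h3 := X.vd t
    have h4 := X.hd t
    by_cases hi : X.h t = i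
    · have hj : X.d t = j := by
        by_contra hne
        exact hd ⟨fun h => h4 (hi.trans h.symm), hne⟩
      exact ⟨fun h => h1 (h.trans hi.symm), fun h => h3 (h.trans hj.symm)⟩
    · have hj : X.h t = j := by
        by_contra hne
        exact hh ⟨hi, hne⟩
      have hi' : X.d t = i := by
        by_contra hne
        exact hd ⟨hne, fun h => h4 (hj.trans h.symm)⟩
      exact ⟨fun h => h3 (h.trans hi'.symm), fun h => h1 (h.trans hj.symm)⟩
  refine ⟨X.v t, hv.1, hv.2, (X.ν t ^ (p + 1))⁻¹ • X.a t false ^ ((p + 1) / 2),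
    Submodule.smul_mem _ _ (by simpa using X.T0_pow (X.a_mem t false) ((p + 1) / 2)), 0,
    zero_mem _, ?_⟩
  have hp := p_odd (p := p) X
  obtain ⟨q, hq⟩ : ∃ q, p = 2 * q + 1 := ⟨p / 2, by (clear * - hp; omega)⟩
  have h2' : (p + 1) / 2 = q + 1 := by omega
  have h1 : (X.a t true * X.a t false) ^ (q + 1) = (X.ν t ^ (p + 1)) • X.σ (X.v t) ^ (p + 1) := by
    rw [X.a_mul_a, ← pow_mul, smul_pow]
    have : 2 * (q + 1) = p + 1 := by omega
    rw [this]
  rw [h2', mul_zero, add_zero, mul_smul_comm, ← mul_pow, h1, smul_smul,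
    inv_mul_cancel₀ (pow_ne_zero _ (X.ν_ne t)), one_smul]

/-- the number of the other lines -/
theorem P6d_card {i j : X.I} (hij : i ≠ j) :
    ((((Finset.univ : Finset X.I).erase i).erase j).card : ℤ) = (X.m : ℤ) - 2 := by
  have h1 : j ∈ (Finset.univ : Finset X.I).erase i := by simp only [Finset.mem_erase, ne_eq, hij.symm, not_false_eq_true, Finset.mem_univ, and_self]
  have h2 := Finset.card_erase_add_one h1
  have h3 := Finset.card_erase_add_one (Finset.mem_univ i)
  rw [Finset.card_univ] at h3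
  have h4 : X.m = Fintype.card X.I := rfl
  omega

theorem P6d_prod_mem (T : Finset X.I) : ∏ b ∈ T, X.σ b ∈ X.T0 T.card := by
  have := X.T0_prod T (fun b => X.σ b) (fun _ => 1) (fun b _ => X.σ_mem b)
  simpa using this

/-- one multiple point -/
theorem P6d_point (t : X.S) {i j : X.I} (hij : i ≠ j) :
    ∃ z : Bool → X.L,
      (∀ s, z s ∈ X.T0 (((p + 1) / 2 : ℕ) + (p + 1 : ℕ) * ((X.m : ℤ) - 3))) ∧
      (∏ b ∈ (Finset.univ.erase i).erase j, X.σ b) ^ (p + 1) =
        ∑ s : Bool, X.a t s ^ ((p + 1) / 2) * z s := by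
  obtain ⟨b, hbi, hbj, x, hx, y, hy, hxy⟩ := P6d_line p t i j
  have hb : b ∈ ((Finset.univ : Finset X.I).erase i).erase j := by simp only [Finset.mem_erase, ne_eq, hbj, not_false_eq_true, hbi, Finset.mem_univ, and_self]
  set T := ((Finset.univ : Finset X.I).erase i).erase j with hT
  have hcard : ((T.erase b).card : ℤ) = (X.m : ℤ) - 3 := by
    have h1 := P6d_card (X := X) hij
    have h2 := Finset.card_erase_add_one hb
    rw [← hT] at h1
    omega
  have hP : (∏ c ∈ T.erase b, X.σ c) ^ (p + 1) ∈ X.T0 ((p + 1 : ℕ) * ((X.m : ℤ) - 3)) := by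
    have := X.T0_pow (P6d_prod_mem (X := X) (T.erase b)) (p + 1)
    rwa [hcard] at this
  refine ⟨fun s => (if s then x else y) * (∏ c ∈ T.erase b, X.σ c) ^ (p + 1), ?_, ?_⟩
  · intro s
    cases s
    · simpa only [Int.natCast_ediv, Nat.cast_add, Nat.cast_one, Nat.cast_ofNat, Bool.false_eq_true,     ↓reduceIte] using X.T0_mul hy hP
    · simpa only [Int.natCast_ediv, Nat.cast_add, Nat.cast_one, Nat.cast_ofNat, ↓reduceIte] using X.T0_mul hx hP
  · rw [← Finset.mul_prod_erase T _ hb, mul_pow, hxy, Fintype.sum_bool]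
    simp only [if_true, Bool.false_eq_true, if_false]
    ring

/-- all multiple points -/
theorem P6d_points {i j : X.I} (hij : i ≠ j) :
    ∃ Z : (X.S → Bool) → X.L,
      (∀ ε, Z ε ∈ X.T0 ((Fintype.card X.S : ℤ) *
        (((p + 1) / 2 : ℕ) + (p + 1 : ℕ) * ((X.m : ℤ) - 3)))) ∧
      (∏ b ∈ (Finset.univ.erase i).erase j, X.σ b) ^ ((p + 1) * Fintype.card X.S) =
        ∑ ε : X.S → Bool, X.AA ε ^ ((p + 1) / 2) * Z ε := by
  choose z hz hz' using fun t => P6d_point p t hij
  refine ⟨fun ε => ∏ t, z t (ε t), ?_, ?_⟩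
  · intro ε
    have := X.T0_prod Finset.univ (fun t => z t (ε t))
      (fun _ => (((p + 1) / 2 : ℕ) + (p + 1 : ℕ) * ((X.m : ℤ) - 3) : ℤ)) (fun t _ => hz t (ε t))
    simpa only [Int.natCast_ediv, Nat.cast_add, Nat.cast_one, Nat.cast_ofNat, Finset.sum_const, Finset.card_univ,     Int.nsmul_eq_mul] using this
  · rw [pow_mul, ← Finset.card_univ, ← Finset.prod_const]
    rw [Finset.prod_congr rfl fun t _ => hz' t]
    rw [Finset.prod_univ_sum, Fintype.piFinset_univ]
    refine Finset.sum_congr rfl fun ε _ => ?_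
    rw [Finset.prod_mul_distrib, Finset.prod_pow]
    rfl

theorem P6d_mem_TspanF (i : Fin r₁) : e i ∈ TspanF Γ d e d := by
  refine Submodule.mem_iSup_of_mem i (Submodule.subset_span (Or.inl ⟨1, ?_, (one_smul _ _).symm⟩))
  rw [sub_self]
  exact X.one_mem_T0

theorem P6d_gam_mem_TspanF (ε : X.S → Bool) (i : Fin r₁) :
    gam Γ ε (e i) ∈ TspanF Γ d e (d + X.w) := by
  refine Submodule.mem_iSup_of_mem i
    (Submodule.subset_span (Or.inr ⟨ε, 1, ?_, (one_smul _ _).symm⟩))
  rw [add_sub_cancel_left, sub_self]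
  exact X.one_mem_T0

/-- a power of the product of the other lines maps `W''` into `P(W)` -/
theorem P6d_Wpp (hΓ : IsTSp Γ) {i j : X.I} (hij : i ≠ j) {l : ℤ} {w : Fin r → X.L}
    (hw : w ∈ Wpp p Γ d e l) :
    (∏ b ∈ (Finset.univ.erase i).erase j, X.σ b) ^ ((p + 1) * Fintype.card X.S) • w ∈
      PE p (TspanF Γ d e) (l + ((p + 1) * Fintype.card X.S : ℕ) * ((X.m : ℤ) - 2)) := by
  set D : X.L := ∏ b ∈ (Finset.univ.erase i).erase j, X.σ b with hD
  set N : ℕ := (p + 1) * Fintype.card X.S with hN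
  have hDN : D ^ N ∈ X.T0 (N * ((X.m : ℤ) - 2)) := by
    have := X.T0_pow (P6d_prod_mem (X := X) ((Finset.univ.erase i).erase j)) N
    rwa [P6d_card hij] at this
  obtain ⟨Z, hZ, hDZ⟩ := P6d_points p hij
  rw [← hD, ← hN] at hDZ
  have hS : (Fintype.card X.S : ℤ) = 2 * X.w := by
    have := X.two_w
    exact_mod_cast this.symm
  have hp := p_odd (p := p) X
  obtain ⟨q, hq⟩ : ∃ q, p + 1 = 2 * q := ⟨(p + 1) / 2, by omega⟩
  have hq2 : (p + 1) / 2 = q := by omega
  unfold Wpp TspanF at hw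
  induction hw using Submodule.iSup_induction' with
  | mem a w hw =>
    unfold Tspan at hw
    induction hw using Submodule.span_induction with
    | mem w hw =>
      rcases hw with ⟨f, hf, rfl⟩ | ⟨ε, f, hf, rfl⟩
      · rw [smul_smul]
        refine mem_PE p (n := d) ?_ (P6d_mem_TspanF a)
        have := X.T0_mul hDN hf
        convert this using 2
        ring
      · rw [hDZ, Finset.sum_smul]
        refine Submodule.sum_mem _ fun ε' _ => ?_
        have e1 : (X.AA ε' ^ ((p + 1) / 2) * Z ε') • f • gam (frG p Γ) ε (frV p (e a)) =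
            (Z ε' * f * X.mm ε ε') • frV p (gam Γ ε' (e a)) := by
          have := AA_gam_frV' p hΓ ε ε' (e a)
          calc (X.AA ε' ^ ((p + 1) / 2) * Z ε') • f • gam (frG p Γ) ε (frV p (e a))
              = (Z ε' * f) • (X.AA ε' ^ ((p + 1) / 2) • gam (frG p Γ) ε (frV p (e a))) := by
                rw [smul_smul, smul_smul]; congr 1; ring
            _ = _ := by rw [this, smul_smul]
        rw [e1]
        refine mem_PE p (n := d + X.w) ?_ (P6d_gam_mem_TspanF ε' a)
        have := X.T0_mul (X.T0_mul (hZ ε') hf) (X.mm_mem ε ε')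
        convert this using 2
        rw [hq2, hN, hq, hS]
        have hpq : (p : ℤ) = 2 * q - 1 := by omega
        push_cast
        rw [hS, hpq]
        ring
    | zero => rw [smul_zero]; exact zero_mem _
    | add v w _ _ hv hw => rw [smul_add]; exact add_mem hv hw
    | smul c v _ hv =>
      rw [smul_comm]
      exact Submodule.smul_mem _ _ hv
  | zero => rw [smul_zero]; exact zero_mem _
  | add v w _ _ hv hw => rw [smul_add]; exact add_mem hv hw

end Vale.Agent.P190.D
end
end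

section

section

/-! Section 4, file P6d, part B: reduction to exponents supported on three lines. -/

set_option autoImplicit false
set_option linter.unusedSectionVars false

open MvPolynomial Filter

namespace Vale.Agent.P190.D

variable {k : Type} [Field k] [IsAlgClosed k] {X : Arr k} {r : ℕ}
  (p : ℕ) [Fact p.Prime] [CharP k p]

theorem P6d_coef_add (u : X.I → ZMod p) (φ ψ : Amb X p r) :
    coef p u (φ + ψ) = coef p u φ + coef p u ψ := rfl

theorem P6d_coef_zero (u : X.I → ZMod p) : coef p u (0 : Amb X p r) = 0 := rfl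

theorem P6d_coef_smul (u : X.I → ZMod p) (c : k) (φ : Amb X p r) :
    coef p u (c • φ) = c • coef p u φ := rfl

theorem P6d_coef_smulL (u : X.I → ZMod p) (c : X.L) (φ : Amb X p r) :
    coef p u (c • φ) = c • coef p u φ := rfl

theorem P6d_coef_single (g u : X.I → ZMod p) (c : X.L) (φ : Amb X p r) :
    coef p u ((AddMonoidAlgebra.single g c : SS X p) • φ) = c • coef p (u - g) φ := by
  funext i
  show ((AddMonoidAlgebra.single g c : SS X p) * φ i).coeff u = c * (φ i).coeff (u - g)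
  rw [AddMonoidAlgebra.coeff_single_mul_apply, neg_add_eq_sub]

theorem P6d_coef_ext {φ ψ : Amb X p r} (h : ∀ u, coef p u φ = coef p u ψ) : φ = ψ := by
  funext i
  refine AddMonoidAlgebra.coeff_injective (Finsupp.ext fun u => ?_)
  exact congrFun (h u) i

/-- the constant embedding -/
noncomputable def P6d_io (w : Fin r → X.L) : Amb X p r := fun i => AddMonoidAlgebra.single 0 (w i)

theorem P6d_coef_io (u : X.I → ZMod p) (w : Fin r → X.L) :
    coef p u (P6d_io p w) = if u = 0 then w else 0 := by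
  classical
  funext i
  show (AddMonoidAlgebra.single 0 (w i) : SS X p).coeff u = _
  rw [AddMonoidAlgebra.coeff_single, Finsupp.single_apply]
  by_cases h : u = 0
  · simp [h]
  · rw [if_neg h, if_neg fun h' => h h'.symm]; rfl

theorem P6d_monomial (v : X.I → ℕ) : ∏ a, sS X p a ^ v a =
    AddMonoidAlgebra.single (fun a => (v a : ZMod p)) (∏ a, X.σ a ^ v a) := by
  have h1 : ∀ a, sS X p a ^ v a =
      AddMonoidAlgebra.single (Pi.single a (v a : ZMod p)) (X.σ a ^ v a) := by
    intro a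
    unfold sS
    rw [AddMonoidAlgebra.single_pow]
    congr 1
    rw [← Pi.single_smul, nsmul_eq_mul, mul_one]
  rw [Finset.prod_congr rfl fun a _ => h1 a, AddMonoidAlgebra.prod_single]
  congr 1
  exact Finset.univ_sum_single _

theorem P6d_decomp {φ : Amb X p r} {w : (X.I → ZMod p) → (Fin r → X.L)}
    (h : ∀ u, coef p u φ = (∏ a, X.σ a ^ (u a).val) • w u) :
    φ = ∑ u : X.I → ZMod p, (∏ a, sS X p a ^ (u a).val) • P6d_io p (w u) := by
  classical
  refine P6d_coef_ext p fun v => ?_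
  have h2 : coef p v (∑ u : X.I → ZMod p, (∏ a, sS X p a ^ (u a).val) • P6d_io p (w u)) =
      ∑ u : X.I → ZMod p, coef p v ((∏ a, sS X p a ^ (u a).val) • P6d_io p (w u)) := by
    funext i
    unfold coef
    rw [Finset.sum_apply, AddMonoidAlgebra.coeff_sum, Finsupp.finsetSum_apply, Finset.sum_apply]
  rw [h2, Finset.sum_eq_single v]
  · rw [P6d_monomial, P6d_coef_single, P6d_coef_io, h v, if_pos]
    funext a
    simp only [ZMod.natCast_val, ZMod.cast_id', id_eq, Pi.sub_apply, sub_self, Pi.zero_apply]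
  · intro u _ huv
    rw [P6d_monomial, P6d_coef_single, P6d_coef_io, if_neg, smul_zero]
    intro h0
    apply huv
    rw [sub_eq_zero] at h0
    rw [h0]
    funext a
    simp only [ZMod.natCast_val, ZMod.cast_id', id_eq]
  · intro h0
    exact absurd (Finset.mem_univ v) h0

/-- exponents supported on three lines -/
def P6d_Supp (r : ℕ) (x : Fin 3 → X.I) : Submodule k (Amb X p r) where
  carrier := {φ | ∀ u : X.I → ZMod p, ∀ b, (∀ i, b ≠ x i) → u b ≠ 0 → coef p u φ = 0}
  add_mem' := by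
    intro φ ψ h1 h2 u b hb hu
    rw [P6d_coef_add, h1 u b hb hu, h2 u b hb hu, add_zero]
  zero_mem' := fun u b _ _ => rfl
  smul_mem' := by
    intro c φ h u b hb hu
    rw [P6d_coef_smul, h u b hb hu, smul_zero]

variable {F : ℤ → Submodule k (Fin r → X.L)}

/-- the part generated by the relations -/
noncomputable def P6d_fp (F : ℤ → Submodule k (Fin r → X.L)) (l : ℤ) :
    Submodule k (Amb X p r) :=
  ⨆ j : X.J, (Etil p F (l - 2)).map
    ((fS X p j • (LinearMap.id : Amb X p r →ₗ[SS X p] Amb X p r)).restrictScalars k)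

theorem P6d_mem_fp (j : X.J) {l : ℤ} {φ : Amb X p r} (h : φ ∈ Etil p F (l - 2)) :
    fS X p j • φ ∈ P6d_fp p F l :=
  Submodule.mem_iSup_of_mem j ⟨φ, h, rfl⟩

theorem P6d_fp_induction {l : ℤ} {M : Submodule k (Amb X p r)}
    (h : ∀ (j : X.J) (φ : Amb X p r), φ ∈ Etil p F (l - 2) → fS X p j • φ ∈ M) :
    P6d_fp p F l ≤ M := by
  refine iSup_le fun j => ?_
  rintro _ ⟨φ, hφ, rfl⟩
  exact h j φ hφ

/-- the reduced part -/
noncomputable def P6d_Q (x : Fin 3 → X.I) (F : ℤ → Submodule k (Fin r → X.L)) (l : ℤ) :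
    Submodule k (Amb X p r) := (Etil p F l ⊓ P6d_Supp p r x) ⊔ P6d_fp p F l

theorem P6d_fp_le (hF : IsBLat F) (hs : SigStable X F) (l : ℤ) :
    P6d_fp p F l ≤ Etil p F l := by
  refine P6d_fp_induction p fun j φ hφ => ?_
  have := fS_Etil p hF hs j hφ
  rwa [sub_add_cancel] at this

theorem P6d_Q_le (hF : IsBLat F) (hs : SigStable X F) (x : Fin 3 → X.I) (l : ℤ) :
    P6d_Q p x F l ≤ Etil p F l :=
  sup_le inf_le_left (P6d_fp_le p hF hs l)

/-- `s` raises the degree of `Etil` by `n` -/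
def P6d_StE (F : ℤ → Submodule k (Fin r → X.L)) (n : ℤ) (s : SS X p) : Prop :=
  ∀ (l : ℤ) (φ : Amb X p r), φ ∈ Etil p F l → s • φ ∈ Etil p F (l + n)

/-- `s` raises the degree of the reduced part by `n` -/
def P6d_StQ (x : Fin 3 → X.I) (F : ℤ → Submodule k (Fin r → X.L)) (n : ℤ) (s : SS X p) : Prop :=
  ∀ (l : ℤ) (φ : Amb X p r), φ ∈ P6d_Q p x F l → s • φ ∈ P6d_Q p x F (l + n)

theorem P6d_StE_one : P6d_StE p F 0 (1 : SS X p) := by
  intro l φ h
  rwa [one_smul, add_zero]

theorem P6d_StE_mul {n n' : ℤ} {s s' : SS X p} (h : P6d_StE p F n s) (h' : P6d_StE p F n' s') :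
    P6d_StE p F (n + n') (s * s') := by
  intro l φ hφ
  rw [mul_smul]
  have := h _ _ (h' _ _ hφ)
  rwa [add_assoc, add_comm n' n] at this

theorem P6d_StE_pow {n : ℤ} {s : SS X p} (h : P6d_StE p F n s) (j : ℕ) :
    P6d_StE p F (j * n) (s ^ j) := by
  induction j with
  | zero => simpa using P6d_StE_one p (F := F)
  | succ j ih =>
    rw [pow_succ]
    have := P6d_StE_mul p ih h
    rwa [show ((j + 1 : ℕ) : ℤ) * n = j * n + n by push_cast; ring]

theorem P6d_StE_prod (T : Finset X.I) (n : X.I → ℤ) (s : X.I → SS X p)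
    (h : ∀ a ∈ T, P6d_StE p F (n a) (s a)) : P6d_StE p F (∑ a ∈ T, n a) (∏ a ∈ T, s a) := by
  classical
  induction T using Finset.induction_on with
  | empty => simpa using P6d_StE_one p (F := F)
  | insert a T ha ih =>
    rw [Finset.prod_insert ha, Finset.sum_insert ha]
    exact P6d_StE_mul p (h a (Finset.mem_insert_self _ _))
      (ih fun b hb => h b (Finset.mem_insert_of_mem hb))

theorem P6d_StQ_one (x : Fin 3 → X.I) : P6d_StQ p x F 0 (1 : SS X p) := by
  intro l φ h
  rwa [one_smul, add_zero]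

theorem P6d_StQ_mul {x : Fin 3 → X.I} {n n' : ℤ} {s s' : SS X p} (h : P6d_StQ p x F n s)
    (h' : P6d_StQ p x F n' s') : P6d_StQ p x F (n + n') (s * s') := by
  intro l φ hφ
  rw [mul_smul]
  have := h _ _ (h' _ _ hφ)
  rwa [add_assoc, add_comm n' n] at this

theorem P6d_StQ_pow {x : Fin 3 → X.I} {n : ℤ} {s : SS X p} (h : P6d_StQ p x F n s) (j : ℕ) :
    P6d_StQ p x F (j * n) (s ^ j) := by
  induction j with
  | zero => simpa only [CharP.cast_eq_zero, zero_mul, pow_zero] using P6d_StQ_one p (F := F) x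
  | succ j ih =>
    rw [pow_succ]
    have := P6d_StQ_mul p ih h
    rwa [show ((j + 1 : ℕ) : ℤ) * n = j * n + n by push_cast; ring]

theorem P6d_StQ_prod {x : Fin 3 → X.I} (T : Finset X.I) (n : X.I → ℤ) (s : X.I → SS X p)
    (h : ∀ a ∈ T, P6d_StQ p x F (n a) (s a)) :
    P6d_StQ p x F (∑ a ∈ T, n a) (∏ a ∈ T, s a) := by
  classical
  induction T using Finset.induction_on with
  | empty => simpa using P6d_StQ_one p (F := F) x
  | insert a T ha ih =>
    rw [Finset.prod_insert ha, Finset.sum_insert ha]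
    exact P6d_StQ_mul p (h a (Finset.mem_insert_self _ _))
      (ih fun b hb => h b (Finset.mem_insert_of_mem hb))

theorem P6d_StE_sS (hF : IsBLat F) (hs : SigStable X F) (a : X.I) :
    P6d_StE p F 1 (sS X p a) := fun _ _ hφ => sS_Etil p hF hs a hφ

/-- stable elements preserve the part generated by the relations -/
theorem P6d_fp_smul {n : ℤ} {s : SS X p} (h : P6d_StE p F n s) {l : ℤ} {φ : Amb X p r}
    (hφ : φ ∈ P6d_fp p F l) : s • φ ∈ P6d_fp p F (l + n) := by
  have key : P6d_fp p F l ≤ (P6d_fp p F (l + n)).comap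
      ((s • (LinearMap.id : Amb X p r →ₗ[SS X p] Amb X p r)).restrictScalars k) := by
    refine P6d_fp_induction p fun j φ hφ => ?_
    show s • (fS X p j • φ) ∈ P6d_fp p F (l + n)
    rw [smul_comm]
    refine P6d_mem_fp p j ?_
    have := h _ _ hφ
    rwa [show l - 2 + n = l + n - 2 by ring] at this
  exact key hφ

theorem P6d_StQ_of {x : Fin 3 → X.I} {n : ℤ} {s : SS X p} (h : P6d_StE p F n s)
    (h' : ∀ (l : ℤ) (φ : Amb X p r), φ ∈ Etil p F l → φ ∈ P6d_Supp p r x →
      s • φ ∈ P6d_Q p x F (l + n)) : P6d_StQ p x F n s := by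
  intro l φ hφ
  obtain ⟨a, ha, b, hb, rfl⟩ := Submodule.mem_sup.mp hφ
  rw [smul_add]
  exact add_mem (h' l a ha.1 ha.2) (Submodule.mem_sup_right (P6d_fp_smul p h hb))

theorem P6d_StQ_sS (hF : IsBLat F) (hs : SigStable X F) (x : Fin 3 → X.I) (i : Fin 3) :
    P6d_StQ p x F 1 (sS X p (x i)) := by
  refine P6d_StQ_of p (P6d_StE_sS p hF hs _) fun l φ hφ hφ' => ?_
  refine Submodule.mem_sup_left ⟨P6d_StE_sS p hF hs _ _ _ hφ, fun u b hb hu => ?_⟩
  unfold sS
  rw [P6d_coef_single, hφ' _ b hb, smul_zero]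
  rw [Pi.sub_apply, Pi.single_eq_of_ne (hb i), sub_zero]
  exact hu

theorem P6d_StQ_pow_p (hF : IsBLat F) (hs : SigStable X F) (x : Fin 3 → X.I) (b : X.I) :
    P6d_StQ p x F p (sS X p b ^ p) := by
  have hE : P6d_StE p F p (sS X p b ^ p) := by
    have := P6d_StE_pow p (P6d_StE_sS p hF hs b) p
    rwa [mul_one] at this
  refine P6d_StQ_of p hE fun l φ hφ hφ' => ?_
  refine Submodule.mem_sup_left ⟨hE _ _ hφ, fun u c hc hu => ?_⟩
  rw [sS_pow_p, algebraMap_smul, P6d_coef_smulL, hφ' u c hc hu, smul_zero]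

/-- three independent lines span -/
theorem P6d_span {x : Fin 3 → X.I}
    (hx : LinearIndependent k ![X.l (x 0), X.l (x 1), X.l (x 2)]) (b : X.I) :
    ∃ c : Fin 3 → k, ∑ i, c i • X.l (x i) = X.l b := by
  have h1 : LinearIndependent k (fun i => X.l (x i)) := by
    convert hx using 1
    funext i
    fin_cases i <;> rfl
  have h2 := h1.span_eq_top_of_card_eq_finrank (by simp)
  have h3 : X.l b ∈ Submodule.span k (Set.range fun i => X.l (x i)) := by
    rw [h2]; exact Submodule.mem_top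
  rw [Submodule.mem_span_range_iff_exists_fun] at h3
  exact h3

/-- the deviation of `s_a²` from the quadratic form -/
noncomputable def P6d_g (X : Arr k) (p : ℕ) [Fact p.Prime] [CharP k p] (a : X.I) : SS X p :=
  sS X p a ^ 2 - ∑ i, algebraMap k (SS X p) (X.l a i) * sS X p (X.b i) ^ 2

theorem P6d_g_smul (a : X.I) {l : ℤ} {φ : Amb X p r} (hφ : φ ∈ Etil p F l) :
    P6d_g X p a • φ ∈ P6d_fp p F (l + 2) := by
  by_cases ha : a ∈ Set.range X.b
  · obtain ⟨i, rfl⟩ := ha
    have : P6d_g X p (X.b i) = 0 := by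
      unfold P6d_g
      rw [X.l_b, Finset.sum_eq_single i]
      · rw [Pi.single_eq_same, map_one, one_mul, sub_self]
      · intro j _ hj
        rw [Pi.single_eq_of_ne hj, map_zero, zero_mul]
      · intro h
        exact absurd (Finset.mem_univ i) h
    rw [this, zero_smul]
    exact zero_mem _
  · have : P6d_g X p a = fS X p ⟨a, ha⟩ := rfl
    rw [this]
    refine P6d_mem_fp p _ ?_
    rwa [add_sub_cancel_right]

theorem P6d_sq_abs {R : Type} [CommRing R] [Algebra k R] (s : X.I → R) (t : Fin 3 → R)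
    (x : Fin 3 → X.I) (b : X.I) (c : Fin 3 → k) (hc : ∑ i, c i • X.l (x i) = X.l b) (g : X.I → R)
    (hg : ∀ a, g a = s a ^ 2 - ∑ i, algebraMap k R (X.l a i) * t i) :
    s b ^ 2 = ∑ i, algebraMap k R (c i) * s (x i) ^ 2 +
      (g b - ∑ i, algebraMap k R (c i) * g (x i)) := by
  have h1 : ∀ j : Fin 3, X.l b j = ∑ i, c i * X.l (x i) j := by
    intro j
    rw [← hc, Finset.sum_apply]
    rfl
  have h3 : ∑ i, algebraMap k R (c i) * ∑ j, algebraMap k R (X.l (x i) j) * t j =
      ∑ j, algebraMap k R (X.l b j) * t j := by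
    simp only [Finset.mul_sum]
    rw [Finset.sum_comm]
    refine Finset.sum_congr rfl fun j _ => ?_
    rw [h1, map_sum, Finset.sum_mul]
    refine Finset.sum_congr rfl fun i _ => ?_
    rw [map_mul, mul_assoc]
  have h2 : ∑ i, algebraMap k R (c i) * g (x i) =
      ∑ i, algebraMap k R (c i) * s (x i) ^ 2 -
        ∑ j, algebraMap k R (X.l b j) * t j := by
    rw [← h3, ← Finset.sum_sub_distrib]
    refine Finset.sum_congr rfl fun i _ => ?_
    rw [hg, mul_sub]
  rw [h2, hg]
  ring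

theorem P6d_sq (x : Fin 3 → X.I) (b : X.I) (c : Fin 3 → k)
    (hc : ∑ i, c i • X.l (x i) = X.l b) : sS X p b ^ 2 =
      ∑ i, algebraMap k (SS X p) (c i) * sS X p (x i) ^ 2 +
        (P6d_g X p b - ∑ i, algebraMap k (SS X p) (c i) * P6d_g X p (x i)) :=
  P6d_sq_abs (sS X p) (fun i => sS X p (X.b i) ^ 2) x b c hc (P6d_g X p) fun _ => rfl

theorem P6d_StQ_sq (hF : IsBLat F) (hs : SigStable X F) {x : Fin 3 → X.I}
    (hx : LinearIndependent k ![X.l (x 0), X.l (x 1), X.l (x 2)]) (b : X.I) :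
    P6d_StQ p x F 2 (sS X p b ^ 2) := by
  obtain ⟨c, hc⟩ := P6d_span hx b
  intro l φ hφ
  have hE := P6d_Q_le p hF hs x l hφ
  rw [P6d_sq p x b c hc, add_smul, sub_smul, Finset.sum_smul, Finset.sum_smul]
  refine add_mem (Submodule.sum_mem _ fun i _ => ?_) (Submodule.mem_sup_right (sub_mem
    (P6d_g_smul p b hE) (Submodule.sum_mem _ fun i _ => ?_)))
  · rw [mul_smul, algebraMap_smul]
    refine Submodule.smul_mem _ _ ?_
    have := P6d_StQ_pow p (P6d_StQ_sS p hF hs x i) 2 l φ hφ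
    simpa only [Nat.cast_ofNat, mul_one] using this
  · rw [mul_smul, algebraMap_smul]
    exact Submodule.smul_mem _ _ (P6d_g_smul p (x i) hE)

/-- large exponents of all lines are harmless -/
theorem P6d_StQ_big (hF : IsBLat F) (hs : SigStable X F) {x : Fin 3 → X.I}
    (hx : LinearIndependent k ![X.l (x 0), X.l (x 1), X.l (x 2)]) (b : X.I) (v : ℕ) :
    P6d_StQ p x F ((p + v : ℕ) : ℤ) (sS X p b ^ (p + v)) := by
  have hp := p_odd (p := p) X
  rcases Nat.even_or_odd' v with ⟨m, hm | hm⟩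
  · have := P6d_StQ_mul p (P6d_StQ_pow_p p hF hs x b)
      (P6d_StQ_pow p (P6d_StQ_sq p hF hs hx b) m)
    rw [← pow_mul, ← pow_add] at this
    rw [hm]
    convert this using 1
    push_cast
    ring
  · obtain ⟨q, hq⟩ : ∃ q, p + v = 2 * q := ⟨(p + v) / 2, by omega⟩
    have := P6d_StQ_pow p (P6d_StQ_sq p hF hs hx b) q
    rw [← pow_mul, ← hq] at this
    convert this using 1
    rw [hq]
    push_cast
    ring

/-- constants lie in the reduced part -/
theorem P6d_io_mem (hF : IsBLat F) (x : Fin 3 → X.I) {n : ℤ} {w : Fin r → X.L}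
    (hw : w ∈ FrL p F n) : P6d_io p w ∈ P6d_Q p x F (p * n) := by
  classical
  have hp0 : (p : ℤ) ≠ 0 := by
    have := (Fact.out : p.Prime).pos
    omega
  refine Submodule.mem_sup_left ⟨?_, ?_⟩
  · refine (mem_Etil p hF).mpr fun u => ?_
    rw [P6d_coef_io]
    by_cases hu : u = 0
    · refine ⟨w, ?_, Or.inl ?_⟩
      · subst hu
        simp only [↓reduceIte, Pi.zero_apply, ZMod.val_zero, pow_zero, Finset.prod_const_one, one_smul]
      · have h0 : wt X p u = 0 := by
          subst hu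
          simp only [wt, Pi.zero_apply, ZMod.val_zero, CharP.cast_eq_zero, Finset.sum_const_zero]
        rw [h0, sub_zero]
        refine ⟨Dvd.intro _ rfl, ?_⟩
        rwa [Int.mul_ediv_cancel_left _ hp0]
    · exact ⟨0, by rw [if_neg hu, smul_zero], Or.inr rfl⟩
  · intro u b _ hu
    rw [P6d_coef_io, if_neg]
    intro h0
    exact hu (by rw [h0]; rfl)

/-- Step 1: the `p`-th power of the product of the other lines maps into the reduced part -/
theorem P6d_step1 (hF : IsBLat F) (hs : SigStable X F) {x : Fin 3 → X.I}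
    (hx : LinearIndependent k ![X.l (x 0), X.l (x 1), X.l (x 2)]) (h01 : x 0 ≠ x 1) {l : ℤ}
    {φ : Amb X p r} (hφ : φ ∈ Etil p F l) :
    (∏ b ∈ (Finset.univ.erase (x 0)).erase (x 1), sS X p b) ^ p • φ ∈
      P6d_Q p x F (l + p * ((X.m : ℤ) - 2)) := by
  classical
  have h1 := (mem_Etil p hF).mp hφ
  choose w hw hw' using h1
  rw [P6d_decomp p hw, Finset.smul_sum]
  refine Submodule.sum_mem _ fun u _ => ?_
  rcases hw' u with ⟨⟨n, hn⟩, h2⟩ | h0
  · have hp0 : (p : ℤ) ≠ 0 := by
      have := (Fact.out : p.Prime).pos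
      (clear * - this; omega)
    rw [hn, Int.mul_ediv_cancel_left _ hp0] at h2
    have h3 := P6d_io_mem p hF x h2
    -- the monomial as a product
    have h4 : (∏ b ∈ (Finset.univ.erase (x 0)).erase (x 1), sS X p b) ^ p *
        ∏ a, sS X p a ^ (u a).val =
        ∏ a, sS X p a ^ (if a = x 0 ∨ a = x 1 then (u a).val else p + (u a).val) := by
      have h5 : (∏ b ∈ (Finset.univ.erase (x 0)).erase (x 1), sS X p b) ^ p =
          ∏ a, sS X p a ^ (if a = x 0 ∨ a = x 1 then 0 else p) := by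
        rw [← Finset.prod_pow]
        refine Finset.prod_subset_one_on_sdiff (Finset.subset_univ _) ?_ ?_
        · intro a ha
          simp only [Finset.mem_sdiff, Finset.mem_univ, Finset.mem_erase, true_and,
            not_and_or, not_not] at ha
          rw [if_pos (by (clear * - ha; tauto)), pow_zero]
        · intro a ha
          simp only [Finset.mem_erase, Finset.mem_univ, and_true] at ha
          rw [if_neg (by (clear * - ha; tauto))]
      rw [h5, ← Finset.prod_mul_distrib]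
      refine Finset.prod_congr rfl fun a _ => ?_
      rw [← pow_add]
      congr 1
      split_ifs <;> simp
    have h6 : P6d_StQ p x F
        (∑ a, ((if a = x 0 ∨ a = x 1 then (u a).val else p + (u a).val : ℕ) : ℤ))
        (∏ a, sS X p a ^ (if a = x 0 ∨ a = x 1 then (u a).val else p + (u a).val)) := by
      refine P6d_StQ_prod p _ _ _ fun a _ => ?_
      split_ifs with h
      · rcases h with rfl | rfl
        · have := P6d_StQ_pow p (P6d_StQ_sS p hF hs x 0) (u (x 0)).val
          rwa [mul_one] at this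
        · have := P6d_StQ_pow p (P6d_StQ_sS p hF hs x 1) (u (x 1)).val
          rwa [mul_one] at this
      · exact P6d_StQ_big p hF hs hx a _
    rw [smul_smul, h4]
    have h7 := h6 _ _ h3
    have h8 : ∑ a, ((if a = x 0 ∨ a = x 1 then (u a).val else p + (u a).val : ℕ) : ℤ) =
        wt X p u + p * ((X.m : ℤ) - 2) := by
      have h9 : ∀ a, ((if a = x 0 ∨ a = x 1 then (u a).val else p + (u a).val : ℕ) : ℤ) =
          ((u a).val : ℤ) + if a = x 0 ∨ a = x 1 then (0 : ℤ) else p := by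
        intro a
        split_ifs
        · simp
        · push_cast; ring
      rw [Finset.sum_congr rfl fun a _ => h9 a, Finset.sum_add_distrib]
      congr 1
      rw [← P6d_card (X := X) h01, mul_comm, ← nsmul_eq_mul, ← Finset.sum_const]
      refine (Finset.sum_subset_zero_on_sdiff (Finset.subset_univ _) ?_ ?_).symm
      · intro a ha
        simp only [Finset.mem_sdiff, Finset.mem_univ, Finset.mem_erase, true_and,
          not_and_or, not_not] at ha
        rw [if_pos (by (clear * - ha; tauto))]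
      · intro a ha
        simp only [Finset.mem_erase, Finset.mem_univ, and_true] at ha
        rw [if_neg (by (clear * - ha; tauto))]
    rw [h8] at h7
    convert h7 using 1
    have : p * n = l - wt X p u := hn.symm
    rw [this]
    congr 1
    ring
  · rw [h0]
    have : P6d_io p (0 : Fin r → X.L) = 0 := by
      funext i
      exact AddMonoidAlgebra.single_zero _
    rw [this, smul_zero, smul_zero]
    exact zero_mem _

end Vale.Agent.P190.D
end
end

section

section

/-! Section 4, file P6d: flatness of Frobenius away from three of the lines. -/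

set_option autoImplicit false
set_option linter.unusedSectionVars false

open MvPolynomial Filter

namespace Vale.Agent.P190.D

variable {k : Type} [Field k] [IsAlgClosed k] {X : Arr k} {r : ℕ}
  {Γ : (Fin r → X.L) →ₗ[X.L] (Fin r → X.L)} {E : ℤ → Submodule k (Fin r → X.L)}
  {d : ℤ} {r₁ : ℕ} {e : Fin r₁ → (Fin r → X.L)} (p : ℕ) [Fact p.Prime] [CharP k p]

theorem P6d_ev_eq (φ : Amb X p r) : ev p φ = ∑ u, coef p u φ := by
  funext i
  rw [Finset.sum_apply]
  show aug X p (φ i) = ∑ u, (φ i).coeff u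
  unfold aug
  rw [AddMonoidAlgebra.lift_apply]
  refine (Finsupp.sum_fintype _ _ fun u => ?_).trans ?_
  · rw [zero_smul]
  refine Finset.sum_congr rfl fun u _ => ?_
  rw [MonoidHom.one_apply, smul_eq_mul, mul_one]

theorem P6d_ev_add (φ ψ : Amb X p r) : ev p (φ + ψ) = ev p φ + ev p ψ := by
  funext i
  exact map_add (aug X p) (φ i) (ψ i)

theorem P6d_ev_fp {F : ℤ → Submodule k (Fin r → X.L)} {l : ℤ} {φ : Amb X p r}
    (h : φ ∈ P6d_fp p F l) : ev p φ = 0 := by
  have key : P6d_fp p F l ≤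
      ({ carrier := {φ | ev p φ = 0}
         add_mem' := fun {a b} ha hb => by
           show ev p (a + b) = 0
           rw [P6d_ev_add, ha, hb, add_zero]
         zero_mem' := by
           funext i
           exact map_zero (aug X p)
         smul_mem' := fun c φ hφ => by
           show ev p (c • φ) = 0
           rw [← algebraMap_smul (SS X p) c φ, ev_smul, hφ, smul_zero] } :
        Submodule k (Amb X p r)) := by
    refine P6d_fp_induction p fun j φ _ => ?_
    show ev p (fS X p j • φ) = 0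
    rw [ev_smul, aug_fS, zero_smul]
  exact key h

/-- the exponent vector supported on three lines -/
def P6d_U (x : Fin 3 → X.I) (v : Fin 3 → Fin p) : X.I → ZMod p :=
  ∑ i, Pi.single (x i) ((v i : ℕ) : ZMod p)

theorem P6d_U_apply {x : Fin 3 → X.I} (hx : Function.Injective x) (v : Fin 3 → Fin p)
    (i : Fin 3) : P6d_U p x v (x i) = ((v i : ℕ) : ZMod p) := by
  unfold P6d_U
  rw [Finset.sum_apply, Finset.sum_eq_single i, Pi.single_eq_same]
  · intro j _ hj
    rw [Pi.single_eq_of_ne]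
    exact fun h => hj (hx h).symm
  · intro h
    exact absurd (Finset.mem_univ i) h

theorem P6d_U_val {x : Fin 3 → X.I} (hx : Function.Injective x) (v : Fin 3 → Fin p)
    (i : Fin 3) : (P6d_U p x v (x i)).val = v i := by
  rw [P6d_U_apply p hx, ZMod.val_natCast, Nat.mod_eq_of_lt (v i).2]

theorem P6d_U_of_ne {x : Fin 3 → X.I} (v : Fin 3 → Fin p) {b : X.I} (hb : ∀ i, b ≠ x i) :
    P6d_U p x v b = 0 := by
  unfold P6d_U
  rw [Finset.sum_apply]
  exact Finset.sum_eq_zero fun i _ => Pi.single_eq_of_ne (hb i) _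

theorem P6d_U_injective {x : Fin 3 → X.I} (hx : Function.Injective x) :
    Function.Injective (P6d_U (X := X) p x) := by
  intro v v' h
  funext i
  apply Fin.ext
  rw [← P6d_U_val p hx v i, ← P6d_U_val p hx v' i, h]

theorem P6d_U_surj {x : Fin 3 → X.I} (hx : Function.Injective x) {u : X.I → ZMod p}
    (hu : ∀ b, (∀ i, b ≠ x i) → u b = 0) : ∃ v, u = P6d_U p x v := by
  refine ⟨fun i => ⟨(u (x i)).val, ZMod.val_lt _⟩, ?_⟩
  funext b
  by_cases hb : ∃ i, b = x i
  · obtain ⟨i, rfl⟩ := hb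
    rw [P6d_U_apply p hx]
    simp
  · push Not at hb
    rw [hu b hb, P6d_U_of_ne p _ hb]

/-- exponents supported on three independent lines: the evaluation is injective -/
theorem P6d_inj {F : ℤ → Submodule k (Fin r → X.L)} (hF : IsBLat F) {x : Fin 3 → X.I}
    (hx : LinearIndependent k ![X.l (x 0), X.l (x 1), X.l (x 2)]) {l : ℤ} {χ : Amb X p r}
    (hχ : χ ∈ Etil p F l) (hχ' : χ ∈ P6d_Supp p r x) (hev : ev p χ = 0) : χ = 0 := by
  classical
  have hxi : Function.Injective x := by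
    have h1 : LinearIndependent k (fun i => X.l (x i)) := by
      convert hx using 1
      funext i
      fin_cases i <;> rfl
    intro i j hij
    exact h1.injective (by show X.l (x i) = X.l (x j); rw [hij])
  have hp0 : p ≠ 0 := (Fact.out : p.Prime).ne_zero
  have h1 := (mem_Etil p hF).mp hχ
  choose w hw hw' using h1
  have h2 : ∀ v : Fin 3 → Fin p, ∃ c : Fin r → X.L, w (P6d_U p x v) = frV p c ∧
      (¬ (p : ℤ) ∣ l - wt X p (P6d_U p x v) → c = 0) := by
    intro v
    rcases hw' (P6d_U p x v) with ⟨h3, h4⟩ | h0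
    · obtain ⟨c, _, hc⟩ := (mem_FrL p).mp h4
      exact ⟨c, hc, fun h => absurd h3 h⟩
    · refine ⟨0, ?_, fun _ => rfl⟩
      rw [h0]
      funext i
      exact (zero_pow hp0).symm
  choose c hc hc' using h2
  have hcoef : ∀ v, coef p (P6d_U p x v) χ = (∏ i, X.σ (x i) ^ (v i : ℕ)) • frV p (c v) := by
    intro v
    rw [hw, hc]
    congr 1
    symm
    refine Fintype.prod_of_injective x hxi _ _ ?_ ?_
    · intro b hb
      rw [P6d_U_of_ne p v fun i h => hb ⟨i, h.symm⟩]
      simp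
    · intro i
      rw [P6d_U_val p hxi]
  have hwt : ∀ v, wt X p (P6d_U p x v) = ∑ i, ((v i : ℕ) : ℤ) := by
    intro v
    symm
    refine Fintype.sum_of_injective x hxi _ _ ?_ ?_
    · intro b hb
      rw [P6d_U_of_ne p v fun i h => hb ⟨i, h.symm⟩]
      simp
    · intro i
      rw [P6d_U_val p hxi]
  have hsum : ∑ v, coef p (P6d_U p x v) χ = 0 := by
    rw [← hev, P6d_ev_eq]
    refine Fintype.sum_of_injective (P6d_U p x) (P6d_U_injective p hxi) _ _ ?_ fun _ => rfl
    intro u hu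
    by_contra hne
    apply hu
    obtain ⟨v, hv⟩ := P6d_U_surj p hxi (u := u) fun b hb => by
      by_contra hub
      exact hne (hχ' u b hb hub)
    exact ⟨v, hv.symm⟩
  have hc0 : ∀ v, c v = 0 := by
    intro v
    funext i
    refine pbasis_sigma X p x hx l (fun v => c v i) ?_ ?_ v
    · intro v hv
      rw [← hwt] at hv
      rw [hc' v hv]
      rfl
    · have := congrFun hsum i
      rw [Finset.sum_apply] at this
      refine Eq.trans ?_ this
      refine Finset.sum_congr rfl fun v _ => ?_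
      rw [hcoef]
      show _ = (∏ i, X.σ (x i) ^ (v i : ℕ)) * (c v i) ^ p
      ring
  refine P6d_coef_ext p fun u => ?_
  rw [P6d_coef_zero]
  by_contra hne
  obtain ⟨v, hv⟩ := P6d_U_surj p hxi (u := u) fun b hb => by
    by_contra hub
    exact hne (hχ' u b hb hub)
  apply hne
  rw [hv, hcoef, hc0]
  have : frV p (0 : Fin r → X.L) = 0 := by
    funext i
    exact zero_pow hp0
  rw [this, smul_zero]

/-- flatness of Frobenius away from three of the lines: `Δ_{ij}^M` kills the kernel of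
`F_P^* E / (F_P^* W + (f)) → (P(E) + W'') / W''` -/
theorem kill_Delta (hΓ : IsTSp Γ) (hE : IsTLat Γ E) (hg : Good Γ E d e) (i j : X.I)
    (hij : i ≠ j) : ∃ M : ℕ, ∀ l, ∀ φ ∈ Etil p E l, ev p φ ∈ Wpp p Γ d e l →
      (∏ b ∈ (Finset.univ.erase i).erase j, sS X p b) ^ M • φ ∈
        Dtil p E (TspanF Γ d e) (l + M * ((X.m : ℤ) - 2)) := by
  obtain ⟨l₀, -, -, hind⟩ := X.exists_third hij
  set x : Fin 3 → X.I := ![i, j, l₀] with hxdef
  have hx : LinearIndependent k ![X.l (x 0), X.l (x 1), X.l (x 2)] := hind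
  have hW : IsTLat Γ (TspanF Γ d e) := isTLat_TspanF hΓ d e
  have hWE := TspanF_le hE hg
  set W := TspanF Γ d e with hWdef
  set N : ℕ := (p + 1) * Fintype.card X.S with hN
  set D : SS X p := ∏ b ∈ (Finset.univ.erase i).erase j, sS X p b with hD
  have hDE : ∀ n : ℕ, P6d_StE p E (n * ((X.m : ℤ) - 2)) (D ^ n) := by
    intro n
    refine P6d_StE_pow p ?_ n
    have := P6d_StE_prod p (F := E) ((Finset.univ.erase i).erase j) (fun _ => 1)
      (fun a => sS X p a) (fun a _ => P6d_StE_sS p hE.toIsBLat hE.sigStable a)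
    rw [Finset.sum_const, nsmul_eq_mul, mul_one, P6d_card hij] at this
    exact this
  refine ⟨p + N, fun l φ hφ hev => ?_⟩
  have h1 := hDE N l φ hφ
  have haug : aug X p (D ^ N) = (∏ b ∈ (Finset.univ.erase i).erase j, X.σ b) ^ N := by
    rw [map_pow, hD, map_prod]
    congr 1
    exact Finset.prod_congr rfl fun b _ => aug_sS p b
  have h2 : ev p (D ^ N • φ) ∈ PE p W (l + N * ((X.m : ℤ) - 2)) := by
    rw [ev_smul, haug]
    exact P6d_Wpp p hΓ hij hev
  obtain ⟨ω, hω, hωev⟩ := (ev_Etil p hW.toIsBLat hW.sigStable _).mp h2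
  have h3 := P6d_step1 p hE.toIsBLat hE.sigStable hx hij h1
  have h4 := P6d_step1 p hW.toIsBLat hW.sigStable hx hij hω
  obtain ⟨ψ, hψ, η₁, hη₁, e1⟩ := Submodule.mem_sup.mp h3
  obtain ⟨ω', hω', η₂, hη₂, e2⟩ := Submodule.mem_sup.mp h4
  have hmono : ∀ n, Etil p W n ≤ Etil p E n := fun n => Etil_mono p hE.toIsBLat hWE n
  have hDD : (∏ b ∈ (Finset.univ.erase (x 0)).erase (x 1), sS X p b) = D := rfl
  rw [hDD] at e1 e2
  have hev0 : ev p (ψ - ω') = 0 := by
    have a1 : ev p ψ = ev p (D ^ p • D ^ N • φ) := by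
      rw [← e1, P6d_ev_add, P6d_ev_fp p hη₁, add_zero]
    have a2 : ev p ω' = ev p (D ^ p • ω) := by
      rw [← e2, P6d_ev_add, P6d_ev_fp p hη₂, add_zero]
    have a3 : ev p (D ^ p • D ^ N • φ) = ev p (D ^ p • ω) := by
      rw [ev_smul, ev_smul p (D ^ p) ω, hωev]
    have a4 : ev p ψ = ev p ω' + ev p (ψ - ω') := by
      rw [← P6d_ev_add, add_sub_cancel]
    rw [a1, a2, a3] at a4
    exact left_eq_add.mp a4
  have h5 : ψ - ω' = 0 := by
    refine P6d_inj p hE.toIsBLat hx (l := l + N * ((X.m : ℤ) - 2) + p * ((X.m : ℤ) - 2)) ?_ ?_ hev0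
    · exact sub_mem hψ.1 (hmono _ hω'.1)
    · exact sub_mem hψ.2 hω'.2
  have h6 : D ^ (p + N) • φ = ω' + η₁ := by
    rw [pow_add, mul_smul, ← e1, sub_eq_zero.mp h5]
  rw [h6]
  have hl : l + ((p + N : ℕ) : ℤ) * ((X.m : ℤ) - 2) =
      l + N * ((X.m : ℤ) - 2) + p * ((X.m : ℤ) - 2) := by
    push_cast
    ring
  rw [hl]
  exact Submodule.add_mem_sup hω'.1 hη₁

end Vale.Agent.P190.D
end
end

section

section

/-! Section 4, file P6e: Cayley-Hamilton forms kill `F_P^* C`. -/

set_option autoImplicit false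
set_option linter.unusedSectionVars false

open MvPolynomial Filter

namespace Vale.Agent.P190.D

variable {k : Type} [Field k] [IsAlgClosed k] {X : Arr k} {r : ℕ}
  {Γ : (Fin r → X.L) →ₗ[X.L] (Fin r → X.L)} {E : ℤ → Submodule k (Fin r → X.L)}
  {d : ℤ} {r₁ : ℕ} {e : Fin r₁ → (Fin r → X.L)} (p : ℕ) [Fact p.Prime] [CharP k p]

theorem P6e_charP_SS : CharP (SS X p) p :=
  charP_of_injective_algebraMap (algebraMap k (SS X p)).injective p

theorem P6e_aeval_pow (h : MvPolynomial X.I k) :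
    aeval (sS X p) (h ^ p) = algebraMap X.L (SS X p) (aeval X.σ h ^ p) := by
  have := charP_L p X
  have := P6e_charP_SS (X := X) p
  have : ExpChar (SS X p) p := ExpChar.prime Fact.out
  have : ExpChar X.L p := ExpChar.prime Fact.out
  rw [map_pow]
  have key : (frobenius (SS X p) p).comp (aeval (sS X p) : MvPolynomial X.I k →ₐ[k] SS X p).toRingHom
      = ((algebraMap X.L (SS X p)).comp (frobenius X.L p)).comp
        (aeval X.σ : MvPolynomial X.I k →ₐ[k] X.L).toRingHom := by
    apply MvPolynomial.ringHom_ext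
    · intro c
      simp only [AlgHom.toRingHom_eq_coe, RingHom.comp_apply, RingHom.coe_coe, aeval_C, frobenius_def, map_pow]
      rw [← IsScalarTower.algebraMap_apply]
    · intro a
      simp only [AlgHom.toRingHom_eq_coe, RingHom.comp_apply, RingHom.coe_coe, aeval_X, frobenius_def]
      exact sS_pow_p p a
  exact RingHom.congr_fun key h

theorem P6e_coef_smul (c : X.L) (u : X.I → ZMod p) (φ : Amb X p r) :
    coef p u (algebraMap X.L (SS X p) c • φ) = c • coef p u φ := by
  funext i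
  simp only [coef, Pi.smul_apply, smul_eq_mul]
  rw [← Algebra.smul_def]
  rfl

/-- the Cayley-Hamilton forms kill `F_P^* C` in large degrees -/
theorem kill_CH (hΓ : IsTSp Γ) (hE : IsTLat Γ E) (hg : Good Γ E d e) (t : X.S) (b : X.I) :
    ∃ (q : ℕ) (h : MvPolynomial X.I k) (n₁ : ℤ), h.IsHomogeneous q ∧
      h - MvPolynomial.X b ^ q ∈ Ideal.span {MvPolynomial.X (X.h t), MvPolynomial.X (X.d t)} ∧
      ∀ l ≥ n₁, ∀ φ ∈ Etil p E l, aeval (sS X p) (h ^ p) • φ ∈
        Etil p (TspanF Γ d e) (l + p * q) := by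
  obtain ⟨q, h, n₁, hh, hid, hkill⟩ := curve_CH hΓ hE hg t b
  have hp0 : (0 : ℤ) < p := by exact_mod_cast (Fact.out : p.Prime).pos
  refine ⟨q, h, p * n₁ + (Fintype.card X.I) * p, hh, hid, ?_⟩
  intro l hl φ hφ
  rw [P6e_aeval_pow]
  rw [mem_Etil p hE.toIsBLat] at hφ
  apply Submodule.subset_span
  intro u
  obtain ⟨w, hw, hw'⟩ := hφ u
  refine ⟨(aeval X.σ h) ^ p • w, ?_, ?_⟩
  · rw [P6e_coef_smul, hw, smul_comm]
  · rcases hw' with ⟨hdvd, hw'⟩ | rfl
    · left
      have hdiv : (l + p * q - wt X p u) / p = (l - wt X p u) / p + q := by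
        rw [show l + (p : ℤ) * q - wt X p u = (l - wt X p u) + q * p by ring,
          Int.add_mul_ediv_right _ _ hp0.ne']
      have hwt : wt X p u ≤ (Fintype.card X.I) * p := by
        unfold wt
        calc ∑ a, ((u a).val : ℤ) ≤ ∑ _a : X.I, (p : ℤ) := by
              apply Finset.sum_le_sum
              intro a _
              exact_mod_cast (ZMod.val_lt (u a)).le
          _ = _ := by simp only [Finset.sum_const, Finset.card_univ, Int.nsmul_eq_mul]
      have hn : n₁ ≤ (l - wt X p u) / p := by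
        rw [Int.le_ediv_iff_mul_le hp0]
        linarith only [hwt, hl]
      refine ⟨?_, ?_⟩
      · rw [show l + (p : ℤ) * q - wt X p u = (l - wt X p u) + p * q by ring]
        exact dvd_add hdvd (dvd_mul_right _ _)
      · rw [hdiv]
        obtain ⟨e', he', rfl⟩ := (mem_FrL p).1 hw'
        exact (mem_FrL p).2 ⟨aeval X.σ h • e', hkill _ hn _ he', (frV_smul p _ _).symm⟩
    · right
      rw [smul_zero]

end Vale.Agent.P190.D
end
end
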