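import Vale.Agent.P190.MathlibUsed
import Vale.Agent.P190.Bdl.B1
attribute [-instance] IdemCommSemiring.toIdemSemiring KleeneAlgebra.toIdemSemiring DenselyNormedField.toNontriviallyNormedField RCLike.toDenselyNormedField DenselyNormedField.toNormedField NontriviallyNormedField.toNormedField NormedField.toField NormedField.toNormedDivisionRing NormedDivisionRing.toDivisionRing LinearOrderedAddCommGroupWithTop.instLinearOrderedAddCommMonoidWithTop LinearOrderedAddCommGroupWithTop.toAddCommMonoid LinearOrderedAddCommMonoidWithTop.toAddCommMonoid NormedField.toNormedCommRing NormedCommRing.toNormedRing NormedDivisionRing.toNormedRing NormedCommRing.toSeminormedCommRing NormedRing.toSeminormedRing SeminormedCommRing.toSeminormedRing EuclideanDomain.toCommRing NormedCommRing.toCommRing SeminormedCommRing.toCommRing NormedRing.toRing SeminormedRing.toRing NonUnitalNormedCommRing.toNonUnitalNormedRing NormedCommRing.toNonUnitalNormedCommRing NormedRing.toNonUnitalNormedRing NonAssocCommRing.toNonAssocCommSemiring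 CommSemiring.toNonAssocCommSemiring NonAssocCommSemiring.toNonAssocSemiring NonUnitalNormedCommRing.toNonUnitalSeminormedCommRing NonUnitalNormedRing.toNonUnitalSeminormedRing NonUnitalSeminormedCommRing.toNonUnitalSeminormedRing SeminormedCommRing.toNonUnitalSeminormedCommRing SeminormedRing.toNonUnitalSeminormedRing CommRing.toAddCommGroupWithOne NonUnitalCommRing.toNonUnitalRing NonUnitalNormedCommRing.toNonUnitalCommRing NonUnitalNormedRing.toNonUnitalRing NonUnitalSeminormedCommRing.toNonUnitalCommRing NonUnitalSeminormedRing.toNonUnitalRing Ring.toNonUnitalRing NonAssocCommRing.toNonUnitalNonAssocCommRing NonUnitalRing.toNonUnitalNonAssocRing CommSemiring.toNonUnitalCommSemiring NonUnitalRing.toNonUnitalSemiring NonAssocCommSemiring.toNonUnitalNonAssocCommSemiring NonUnitalCommSemiring.toNonUnitalNonAssocCommSemiring NonUnitalNonAssocCommSemiring.toNonUnitalNonAssocSemiring NonUnitalSemiring.toNonUnitalNonAssocSemiring instCoeTOfCoeDep AbsoluteValue.funLike Pi.nonUnitalNonAssocSemiring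 SemiRingCat.instSemiringObjForgetRingHomCarrier Pi.nonAssocSemiring Pi.seminormedAddCommGroup BoxIntegral.Box.instMembershipForallReal instCoeTC instCoeHTC instCoeHTCT instCoeTCOfCoe Pi.addGroupWithOne OrderDual.instPow_1 Vector.instHMul CompleteAtomicBooleanAlgebra.toCompletelyDistribLattice CompleteBooleanAlgebra.toCompleteDistribLattice CompleteLinearOrder.toCompletelyDistribLattice CompletelyDistribLattice.toCompleteDistribLattice ContinuousAddMonoidHom.instCoeOutOfAddMonoidHomClassOfContinuousMapClass ContinuousMonoidHom.instCoeOutOfMonoidHomClassOfContinuousMapClass HomeomorphClass.instCoeOutHomeomorph IsometryClass.instCoeOutIsometryEquiv TopologicalSpace.Compacts.instSetLike CompleteDistribLattice.toCoframe CompleteDistribLattice.toFrame LinearOrderedCommGroupWithZero.toLinearOrderedCommMonoidWithZero CompleteLinearOrder.toCompleteLattice CompletelyDistribLattice.toCompleteLattice Order.Coframe.toCompleteLattice Order.Frame.toCompleteLattice ChainCompletePartialOrder.instOfCompleteLattice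 ChainCompletePartialOrder.instOmegaCompletePartialOrder ChainCompletePartialOrder.toPartialOrder CompletePartialOrder.toOmegaCompletePartialOrder OmegaCompletePartialOrder.toPartialOrder NormedAlgebra.toAlgebra RingCat.instRingObjForgetRingHomCarrier Invertible.toNeZero NeZero.of_gt' Nat.AtLeastTwo.toNeZero LieRing.toAddCommGroup AddMonCat.addMonoidObj NonUnitalNormedRing.toNormedAddCommGroup LinearOrderedAddCommGroupWithTop.toSubNegMonoid Pi.nonUnitalSemiring Algebra.Generators.instIsScalarTowerRing CompleteLinearOrder.toConditionallyCompleteLinearOrderBot AddGrpCat.str ConditionallyCompleteLinearOrderBot.toConditionallyCompleteLinearOrder LinearOrderedCommGroupWithZero.toCommGroupWithZero CompleteBooleanAlgebra.toBooleanAlgebra MulSemiringAction.toDistribMulAction NormedCommGroup.toNormedGroup MonCat.monoidObj SemimoduleCat.isAddCommMonoid Std.Time.WallTime.instHAddOffset_1 NormedCommGroup.toSeminormedCommGroup NormedGroup.toSeminormedGroup SeminormedCommGroup.toSeminormedGroup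 CommSemiRingCat.instCommSemiringObjForgetRingHomCarrier CommGroupWithZero.toCommMonoidWithZero LinearOrderedCommMonoidWithZero.toCommMonoidWithZero CategoryTheory.Limits.Concrete.instUniqueToTypeTerminal CompleteLinearOrder.toLinearOrder ConditionallyCompleteLinearOrder.toLinearOrder LinearOrderedAddCommGroupWithTop.toLinearOrder LinearOrderedAddCommMonoidWithTop.toLinearOrder LinearOrderedCommMonoidWithZero.toLinearOrder BooleanAlgebra.toBiheytingAlgebra CompleteDistribLattice.toBiheytingAlgebra CompleteLinearOrder.toBiheytingAlgebra CompletelyDistribLattice.toBiheytingAlgebra Nat.Prime.one_lt' instRingHomSurjectiveForallEvalRingHom LieAlgebra.toModule NormedSpace.toModule Pi.instTopForall NonUnitalSeminormedRing.toSeminormedAddCommGroup NormedAddCommGroup.toSeminormedAddCommGroup BiheytingAlgebra.toCoheytingAlgebra BiheytingAlgebra.toHeytingAlgebra BooleanAlgebra.toGeneralizedBooleanAlgebra Order.Coframe.toCoheytingAlgebra Order.Frame.toHeytingAlgebra Pi.mulZeroOneClass Pi.preorder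 CoheytingAlgebra.toGeneralizedCoheytingAlgebra GeneralizedBooleanAlgebra.toGeneralizedCoheytingAlgebra HeytingAlgebra.toGeneralizedHeytingAlgebra instNonUnitalAlgHomClassOfNonUnitalAlgEquivClass AlgHom.instNonUnitalAlgHomClassOfAlgHomClass OrderDual.instDivisionRing CommGroup.toGroup NormedCommGroup.toCommGroup NormedGroup.toGroup SeminormedCommGroup.toCommGroup SeminormedGroup.toGroup MonoidWithZero.toSemigroupWithZero SemigroupWithZero.toMulZeroClass instConditionallyCompletePartialOrderSup CompleteLattice.toCompleteSemilatticeSup ConditionallyCompletePartialOrder.toConditionallyCompletePartialOrderInf IdemSemiring.toSemilatticeSup NormedAddCommGroup.toNormedAddGroup instSubsingleton IsEmpty.instSubsingleton Unique.instSubsingleton OrderDual.instDivisionSemiring Pi.mulZeroClass Fin.completeLinearOrder BooleanAlgebra.toDistribLattice CompleteLattice.toLattice CompleteLattice.toPartialOrder' CompleteSemilatticeSup.toPartialOrder ConditionallyCompletePartialOrderInf.toPartialOrder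 GeneralizedBooleanAlgebra.toDistribLattice GeneralizedCoheytingAlgebra.toDistribLattice GeneralizedCoheytingAlgebra.toLattice GeneralizedHeytingAlgebra.toDistribLattice GeneralizedHeytingAlgebra.toLattice LinearOrder.toLattice Order.Coframe.toDistribLattice Order.Frame.toDistribLattice ValuationClass.toMonoidWithZeroHomClass AbsoluteValue.mulHomClass Algebra.Generators.instRing OrderAddMonoidHom.instAddMonoidHomClass MvPolynomial.instIsScalarTower Pi.subtractionMonoid AbsoluteValue.zeroHomClass MulOpposite.instMulOne instFiniteProp Pi.distribSMul' NormedAddGroup.toSeminormedAddGroup SeminormedAddCommGroup.toSeminormedAddGroup NumberField.instFiniteDimensional ENormedAddCommMonoid.toESeminormedAddCommMonoid NormedAddCommGroup.toENormedAddCommMonoid AlgEquivClass.toAlgHomClass Torsor.toMulAction GradedMonoid.GradeZero.mulAction instIsNoetherianRingOfIsArtinianRing IsDedekindDomainDvr.toIsNoetherian IsDedekindRing.toIsNoetherian IsRegularLocalRing.toIsNoetherian IsSimpleModule.instIsNoetherian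 Pi.mulOneClass MonoidWithZero.toMulActionWithZero NonUnitalNormedRing.toMetricSpace NormedAddCommGroup.toMetricSpace NormedAddGroup.toMetricSpace NormedCommGroup.toMetricSpace NormedDivisionRing.toMetricSpace NormedField.toMetricSpace NormedGroup.toMetricSpace NormedRing.toMetricSpace TopologicalSpace.UpgradedIsCompletelyMetrizableSpace.toMetricSpace isNoetherian_of_finite isNoetherian_of_subsingleton IsSemisimpleModule.instIsNoetherianOfFinite PrincipalIdealRing.isNoetherianRing Fin.instBiheytingAlgebra instFiniteOfFinitePresentation instFinitePresentation Algebra.instFiniteOfIsQuadraticExtension FiniteDimensional.finiteDimensional_self Module.instFiniteDimensionalOfIsReflexive Algebra.IsFiniteSplit.instFinitePresentation Module.Finite.of_finite Module.Finite.self Module.FinitePresentation.of_subsingleton RingHom.Finite.instFinite MulSemiringAction.toMulDistribMulAction MulSemiringActionSemiHomClass.toDistribMulActionSemiHomClass NonUnitalAlgSemiHomClass.toDistribMulActionSemiHomClass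 Std.Time.WallTime.instHSubDuration_1 FloorSemiring.instCharZero IsStrictOrderedRing.toCharZero NumberField.to_charZero RCLike.charZero_rclike LocalizedModule.instIsScalarTower AddCommGroupWithOne.toAddCommGroup NormedAddCommGroup.toAddCommGroup SeminormedAddCommGroup.toAddCommGroup NormedAddGroup.toAddGroup SeminormedAddGroup.toAddGroup forall_prop_decidable Array.instDecidableForallForallMemOfDecidablePred Finset.decidableDforallFinset Fintype.decidableForallFintype Multiset.decidableDforallMultiset Option.decidableForallMem Vector.instDecidableForallForallMemOfDecidablePred Pi.partialOrder Pi.instOne AddCancelCommMonoid.toAddCancelMonoid AddCancelCommMonoid.toAddCommMonoid AddCancelCommMonoid.toAddLeftCancelMonoid AddCancelMonoid.toAddLeftCancelMonoid AddCommGroup.toAddCancelCommMonoid AddLeftCancelMonoid.toAddMonoid AddRightCancelMonoid.toAddMonoid ENormedAddCommMonoid.toENormedAddMonoid ENormedAddMonoid.toESeminormedAddMonoid ESeminormedAddCommMonoid.toAddCommMonoid ESeminormedAddCommMonoid.toESeminormedAddMonoid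 ESeminormedAddMonoid.toAddMonoid LinearOrderedAddCommGroupWithTop.toSubtractionMonoid NormedAddGroup.toENormedAddMonoid LinearOrder.toDecidableEq RCLike.toDecidableEq MulEquivClass.toMonoidWithZeroHomClass MulRingSeminormClass.toMonoidWithZeroHomClass EMetricSpace.toPseudoEMetricSpace MetricSpace.toEMetricSpace MetricSpace.toPseudoMetricSpace NonUnitalSeminormedRing.toPseudoMetricSpace PseudoEMetricSpace.toUniformSpace PseudoMetricSpace.toPseudoEMetricSpace PseudoMetricSpace.toUniformSpace SeminormedAddCommGroup.toPseudoMetricSpace SeminormedAddGroup.toPseudoMetricSpace SeminormedCommGroup.toPseudoMetricSpace SeminormedGroup.toPseudoMetricSpace SeminormedRing.toPseudoMetricSpace UniformSpace.toTopologicalSpace UpgradedStandardBorel.toTopologicalSpace Valued.toUniformSpace WithIdeal.instTopologicalSpace WithIdeal.instUniformSpace TopologicalSpace.UpgradedIsCompletelyPseudoMetrizableSpace.toPseudoMetricSpace instIsDedekindDomainOfIsDomainOfIsDedekindRing IsDedekindDomainDvr.isDedekindDomain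 instMulActionSemiHomClassMulActionHom CategoryTheory.instFinCategoryOfFintypeOfIsThin SetLike.instFintype Unique.fintype CategoryTheory.FinCategory.fintypeObj CommGroup.toDivisionCommMonoid Group.toDivisionMonoid AlgHomClass.linearMapClass ContinuousSemilinearEquivClass.continuousSemilinearMapClass ContinuousSemilinearMapClass.toSemilinearMapClass NonUnitalAlgHomClass.instLinearMapClass NonUnitalAlgHomClass.instSemilinearMapClassOfNonUnitalAlgSemiHomClassToMonoidHomRingHom RingHomClass.toLinearMapClassNNRat RingHomClass.toLinearMapClassRat SemilinearIsometryClass.toContinuousSemilinearMapClass SemilinearIsometryClass.toSemilinearMapClass ConvexCone.instAddMemClass ClosedSubmodule.instAddSubmonoidClass ModuleCat.isModule decidableEq_of_subsingleton ComplexShape.instDecidableRelRelUp instDistribSMul instSMulZeroClass CommMonCat.str SubfieldClass.toSubringClass Pi.instInv Fin.instCoheytingAlgebra Fin.instHeytingAlgebra IsDedekindDomain.isDedekindDomainDvr IsDedekindDomain.toIsDedekindRing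 SubfieldClass.toNormedField instIsSimpleModule SubfieldClass.toField MulCharClass.toMonoidHomClass MulDistribMulActionSemiHomClass.toMonoidHomClass Pi.instOrderTop Pi.normedAddCommGroup LieAlgebra.ofAssociativeAlgebra MulActionWithZero.toMulAction MulDistribMulAction.toMulAction SubringClass.toNormedCommRing SubringClass.toSeminormedCommRing SubringClass.toCommRing SetLike.GradeZero.instCommRing Pi.instBotForall MonomialOrder.orderBot ENormedCommMonoid.toESeminormedCommMonoid NormedCommGroup.toENormedCommMonoid Int.decidableLELE Int.decidableLELT Int.decidableLTLE Int.decidableLTLT List.instDecidableMemOfLawfulBEq Pi.semigroup IsSemisimpleRing.isSemisimpleModule Field.instIsLocalRing IsDiscreteValuationRing.toIsLocalRing ValuationRing.isLocalRing SemilinearIsometryEquivClass.toSemilinearIsometryClass instNonemptyOfMonad System.FilePath.instHDivString Pi.commMagma AlgHom.instRingHomCompTripleComp OneHom.oneHomClass Monoid.End.instMonoidHomClass NonUnitalAlgHomClass.toNonUnitalRingHomClass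 RingEquivClass.toNonUnitalRingHomClass IsOrderedCancelAddMonoid.toIsCancelAdd FractionRing.instIsScalarTower FractionRing.isScalarTower_liftAlgebra LinOrd.str of_isDiscreteValuationRing ValuationRing.of_field SubringClass.toSubsemiringClass AlgHomClass.toRingHomClass MulSemiringActionSemiHomClass.toRingHomClass RingEquivClass.toRingHomClass AddCommGroup.toGrindIntModule AddCommMonoid.toGrindNatModule CommRing.toGrindCommRing CommSemiring.toGrindCommSemiring Field.toGrindField MulZeroClass.negZeroClass Ring.toGrindRing Semiring.toGrindSemiring Algebra.IsFiniteSplit.instFree CommRing.Pic.instFreeOfSubsingleton Algebra.IsFiniteSplit.instOfIsSepClosedOfEssFiniteTypeOfFormallyEtale Pi.smulZeroClass' Pi.instLattice GrpCat.str NonUnitalAlgSemiHomClass.toMulHomClass Finite.of_subsingleton SetLike.instFinite MvPolynomial.instCharZero instNontrivialCarrierObjModuleCatOfFullOfFaithful Fin.addCommGroup Fin.addCommMonoid LocalizedModule.instSMulCommClass OreLocalization.instSMulCommClass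 Module.IsReflexive.of_finite_of_free OpenNormalAddSubgroup.instAddSubgroupClass instIsFractionRing Pi.distribMulAction instIsSemisimpleModuleOfIsSimpleModule ValuationRing.instOfIsLocalRingOfIsBezout SubfieldClass.toDivisionRing Pi.instMinForall_mathlib instInfiniteOfUncountable instIsDomain instNontrivialOfCharZero CharZero.infinite Denumerable.instInfinite DivisionRing.isDomain DivisionRing.toNontrivial EuclideanDomain.instIsDomain EuclideanDomain.toNontrivial Field.isDomain Infinite.instNontrivial IsAlgClosed.instInfinite IsDedekindDomain.toIsDomain IsDomain.toNontrivial IsOrderedRing.toIsStrictOrderedRing IsSimpleAddGroup.toNontrivial IsSimpleGroup.toNontrivial IsSimpleOrder.toNontrivial IsSimpleRing.instNontrivial IsStrictOrderedRing.isDomain IsStrictOrderedRing.toNontrivial LinearOrderedAddCommGroupWithTop.toNontrivial NoMaxOrder.infinite NoMinOrder.infinite NontriviallyNormedField.infinite AddMonoidAlgebra.faithfulSMul MvPolynomial.instFaithfulSMul Rat.instPowNat SubalgebraClass.normedRing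 SubalgebraClass.seminormedRing SubringClass.toNormedRing SubringClass.toSeminormedRing Pi.addSemigroup Pi.addCommMagma instTopologicalSpaceFin CancelCommMonoid.toCancelMonoid CancelCommMonoid.toCommMonoid CancelCommMonoid.toLeftCancelMonoid CancelMonoid.toLeftCancelMonoid CancelMonoid.toRightCancelMonoid CommGroup.toCancelCommMonoid CommGroup.toCommMonoid CommMonoidWithZero.toCommMonoid DivisionCommMonoid.toCommMonoid ENormedCommMonoid.toENormedMonoid ENormedMonoid.toESeminormedMonoid ESeminormedCommMonoid.toCommMonoid ESeminormedCommMonoid.toESeminormedMonoid ESeminormedMonoid.toMonoid Group.toCancelMonoid LeftCancelMonoid.toMonoid NormedGroup.toENormedMonoid RightCancelMonoid.toMonoid GradedMonoid.GradeZero.commMonoid GradedMonoid.GradeZero.monoid instBEqOfDecidableEq Int.instLawfulBEq Std.LinearOrderPackage.toLinearPreorderPackage Std.LinearOrderPackage.toPartialOrderPackage Std.LinearPreorderPackage.toPreorderPackage Std.PartialOrderPackage.toPreorderPackage Std.PreorderPackage.toBEq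 SubringClass.toRing SubsemiringClass.toCommSemiring SubsemiringClass.toSemiring SetLike.GradeZero.instCommSemiring SetLike.GradeZero.instRing SetLike.GradeZero.instSemiring Algebra.Extension.commRing Std.DTreeMap.Raw.instInsertSigma instFreeSubtypeMemIdealOfFiniteOfIsTorsionFree SubringClass.toNegMemClass instIsDomainCyclotomicRing bot_nonempty infSet_to_nonempty instInhabitedOfMonad supSet_to_nonempty top_nonempty AddGroup.instAddTorsor AddTorsor.nonempty BooleanAlgebra.toBot BooleanAlgebra.toBoundedOrder BooleanAlgebra.toTop BoundedOrder.toOrderBot CategoryTheory.isConnected_of_nonempty_and_subsingleton CoheytingAlgebra.toBoundedOrder CoheytingAlgebra.toOrderTop CompletePartialOrder.toOrderBot CompleteSemilatticeInf.toInfSet CompleteSemilatticeSup.toSupSet ConditionallyCompleteLattice.toInfSet ConditionallyCompleteLattice.toSupSet ConditionallyCompleteLinearOrderBot.toOrderBot ConditionallyCompletePartialOrderInf.toInfSet ConditionallyCompletePartialOrderSup.toSupSet ConnectedSpace.toNonempty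 Convex.instPathConnectedSpace Fin.instBoundedOrder Fin.instNontrivial Fin.instPartialOrder GeneralizedBooleanAlgebra.toBot GeneralizedBooleanAlgebra.toOrderBot GeneralizedCoheytingAlgebra.toOrderBot GeneralizedHeytingAlgebra.toOrderTop Group.instTorsor HeytingAlgebra.toBoundedOrder HeytingAlgebra.toOrderBot IdemSemiring.toOrderBot IrreducibleSpace.connectedSpace IrreducibleSpace.toNonempty LinearOrderedAddCommGroupWithTop.toOrderTop LinearOrderedAddCommMonoidWithTop.toOrderTop LinearOrderedCommMonoidWithZero.toOrderBot Nontrivial.to_nonempty NormedAddTorsor.toAddTorsor NormedAddTorsor.toAddTorsor' NormedSpace.instPathConnectedSpace One.instNonempty One.ofOfNat1 PathConnectedSpace.connectedSpace Preorder.smallCategory SeminormedAddCommGroup.toNormedAddTorsor Torsor.nonempty Zero.instNonempty CategoryTheory.Groupoid.toCategory CategoryTheory.IsConnected.is_nonempty CategoryTheory.StrictBicategory.category IsSepClosed.isAlgClosed_of_perfectField IsSepClosed.of_isAlgClosed Pi.normedCommutativeRing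 Pi.seminormedCommRing ValuationRing.instIsBezout ValuationRing.toPreValuationRing WithTop.instLocallyFiniteOrder Pi.instSemilatticeInf Pi.subNegZeroMonoid IdemSemiring.toCanonicallyOrderedAdd Set.instAddLeftMono isNoetherian_pi FiniteDimensional.finiteDimensional_pi Pi.divInvMonoid AddMonoidAlgebra.instUnique Submodule.instIdemCommSemiring isNoetherian_submodule' ContinuousLinearEquiv.instCoeLinearEquiv Derivation.hasCoeToLinearMap LieEquiv.hasCoeToLinearEquiv LieHom.instCoeLinearMapId ContinuousLinearMap.LinearMap.coe exists_prop_decidable Array.instDecidableExistsAndMemOfDecidablePred Finset.decidableDExistsFinset Finset.decidableExistsAndFinset Finset.decidableExistsAndFinsetCoe Fintype.decidableExistsFintype List.decidableBEx Multiset.decidableDexistsMultiset Option.decidableExistsMem Vector.instDecidableExistsAndMemOfDecidablePred instFinitePresentationForall Module.FinitePresentation.pi Pi.normedRing Pi.seminormedRing IsStrictOrderedRing.noZeroDivisors NormMulClass.toNoZeroDivisors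 MvPolynomial.isNoetherianRing Subsingleton.to_isCancelMulZero Pi.commMonoidWithZero Set.instNoZeroDivisors OrderDual.isDirected_le ShareCommon.instNonemptyStateFactory Finsupp.fintype Finsupp.uniqueOfLeft Finsupp.uniqueOfRight Module.instFiniteSubtypeMemIdealOfIsNoetherian Algebra.IsQuadraticExtension.toFree Module.Free.self SubringClass.toNonAssocCommRing SubringClass.toNonAssocRing SubsemiringClass.toNonAssocCommSemiring SubsemiringClass.toNonAssocSemiring AlgebraicClosure.instGroupWithZero Pi.instCanonicallyOrderedAddForall Std.DTreeMap.Raw.instSingletonSigma ValuationSubring.instSubringClass EquivLike.toEmbeddingLike IsFractionRing.charZero Set.instAddRightMono coePNatNat instCoeHTCTOfCoeTailOfCoeHTC instCoeTailIntOfIntCast instCoeTailNatOfNatCast instCoeTailRatOfRatCast DivisionRing.toNNRatCast DivisionRing.toRatCast DivisionSemiring.toNNRatCast LinearMapClass.instCoeToLinearMap NNRatCast.toCoeTail NonUnitalStarRingHomClass.instCoeHeadNonUnitalStarRingHom SemilinearMapClass.instCoeToSemilinearMap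 StarAlgEquivClass.instCoeHead StarRingEquivClass.instCoeHead Nat.Primes.coeNat Nat.Primes.coePNat MulEquivClass.instMonoidHomClass MulRingNormClass.toMulRingSeminormClass MulRingSeminormClass.toMonoidHomClass Std.Time.Duration.instHMulInt_1 Pi.instDiv Ideal.Quotient.isScalarTower Function.infinite_of_right Pi.nonUnitalNormedCommRing Pi.nonUnitalNormedRing Pi.nonUnitalSeminormedCommRing Pi.nonUnitalSeminormedRing -- iprune

set_option linter.all false

namespace AFast7f54d5x5a
@[reducible] noncomputable def a0 {x1 : Type} [x2 : Field x1] {x3 : Type} [x4 : AddCommGroup x3] [x5 : Module (Vale.Agent.P190.D.A x1) x3] : SMul (Vale.Agent.P190.D.A x1) x3 := inferInstance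
@[reducible] noncomputable def a1 {x1 : Type} [x2 : Field x1] : AddCommMonoid (Vale.Agent.P190.D.KK x1) := inferInstance
@[reducible] noncomputable def a2 {x1 : Type} [x2 : Field x1] : Algebra (Vale.Agent.P190.D.A x1) (Vale.Agent.P190.D.KK x1) := inferInstance
@[reducible] noncomputable def a3 {x1 : Type} [x2 : Field x1] : AddMonoid (Vale.Agent.P190.D.KK x1) := inferInstance
@[reducible] noncomputable def a4 {x1 : ℕ} {x2 : Type} [x3 : Field x2] : AddCommMonoid (Fin x1 → Vale.Agent.P190.D.KK x2) := inferInstance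
@[reducible] noncomputable def a5 {x1 : Type} [x2 : Field x1] : AddZeroClass (Vale.Agent.P190.D.KK x1) := inferInstance
@[reducible] noncomputable def a6 {x1 : Type} [x2 : Field x1] : AddCommGroup (Vale.Agent.P190.D.KK x1) := inferInstance
@[reducible] noncomputable def a7 {x1 : Type} [x2 : Field x1] : DistribMulAction (Vale.Agent.P190.D.A x1) (Vale.Agent.P190.D.A x1) := inferInstance
@[reducible] noncomputable def a8 {x1 : Type} [x2 : Field x1] : AddZero (Vale.Agent.P190.D.KK x1) := inferInstance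
@[reducible] noncomputable def a9 {x1 : Type} [x2 : Field x1] {x3 : ℕ} {x4 : Vale.Agent.P190.D.Arr x1} : Module (Vale.Agent.P190.D.A x1) (Fin x3 → x4.L) := inferInstance
@[reducible] noncomputable def a10 {x1 : Type} [x2 : Field x1] : Module (Vale.Agent.P190.D.A x1) (Vale.Agent.P190.D.KK x1) := inferInstance
@[reducible] noncomputable def a11 {x1 : Type} [x2 : Field x1] {x3 : Vale.Agent.P190.D.Arr x1} : Module (Vale.Agent.P190.D.A x1) x3.L := inferInstance
@[reducible] noncomputable def a12 {x1 : Type} [x2 : Field x1] : DistribMulAction (Vale.Agent.P190.D.KK x1) (Vale.Agent.P190.D.KK x1) := inferInstance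
@[reducible] noncomputable def a13 {x1 : Type} [x2 : Field x1] {x3 : Type} [x4 : AddCommGroup x3] [x5 : Module (Vale.Agent.P190.D.A x1) x3] : SMulZeroClass (Vale.Agent.P190.D.A x1) x3 := inferInstance
@[reducible] noncomputable def a14 {x1 : Type} [x2 : Field x1] : SMul (Vale.Agent.P190.D.A x1) (Vale.Agent.P190.D.KK x1) := inferInstance
@[reducible] noncomputable def a15 {x1 : Type} [x2 : Field x1] : Semiring (Vale.Agent.P190.D.KK x1) := inferInstance
theorem a16 {x1 : Type} [x2 : Field x1] : IsScalarTower (Vale.Agent.P190.D.A x1) (Vale.Agent.P190.D.KK x1) (Vale.Agent.P190.D.KK x1) := inferInstance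
@[reducible] noncomputable def a17 {x1 : Type} [x2 : Field x1] {x3 : Vale.Agent.P190.D.Arr x1} {x4 : Type} [x5 : AddCommGroup x4] [x6 : Module x3.L x4] : SMul x3.L x4 := inferInstance
theorem a18 {x1 : Type} [x2 : Field x1] : MulHomClass (Vale.Agent.P190.D.A x1 →+* Vale.Agent.P190.D.KK x1) (Vale.Agent.P190.D.A x1) (Vale.Agent.P190.D.KK x1) := inferInstance
@[reducible] noncomputable def a19 {x1 : Type} [x2 : Field x1] {x3 : Type} [x4 : AddCommGroup x3] [x5 : Module (Vale.Agent.P190.D.A x1) x3] : DistribSMul (Vale.Agent.P190.D.A x1) x3 := inferInstance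
@[reducible] noncomputable def a20 {x1 : Type} [x2 : Field x1] {x3 : ℕ} {x4 : Vale.Agent.P190.D.Arr x1} : SMul (Vale.Agent.P190.D.A x1) (Fin x3 → x4.L) := inferInstance
@[reducible] noncomputable def a21 {x1 : Type} [x2 : Field x1] : NonAssocSemiring (Vale.Agent.P190.D.KK x1) := inferInstance
@[reducible] noncomputable def a22 {x1 : Type} [x2 : Field x1] {x3 : ℕ} {x4 : Fin x3} : DistribMulAction (Vale.Agent.P190.D.KK x1) ((fun a => Vale.Agent.P190.D.KK x1) x4) := inferInstance
@[reducible] noncomputable def a23 {x1 : Type} [x2 : Field x1] {x3 : Type} [x4 : AddCommGroup x3] [x5 : Module (Vale.Agent.P190.D.A x1) x3] : SMul (MvPolynomial (Fin 2) x1) x3 := inferInstance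
@[reducible] noncomputable def a24 {x1 : Type} [x2 : Field x1] {x3 : ℕ} {x4 : Vale.Agent.P190.D.Arr x1} {x5 : Fin x3} : SemigroupAction (Vale.Agent.P190.D.A x1) ((fun a => x4.L) x5) := inferInstance
@[reducible] noncomputable def a25 {x1 : Type} [x2 : Field x1] {x3 : ℕ} {x4 : Vale.Agent.P190.D.Arr x1} {x5 : Fin x3} : MulAction (Vale.Agent.P190.D.A x1) ((fun a => x4.L) x5) := inferInstance
@[reducible] noncomputable def a26 {x1 : Type} [x2 : Field x1] {x3 : Type} [x4 : CommRing x3] [x5 : Algebra (Vale.Agent.P190.D.Bh x1) x3] : Module (Vale.Agent.P190.D.Bh x1) x3 := inferInstance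
@[reducible] noncomputable def a27 {x1 : Type} [x2 : Field x1] {x3 : Type} [x4 : AddCommGroup x3] [x5 : Module (Vale.Agent.P190.D.KK x1) x3] : AddCommGroup (x3 →ₗ[Vale.Agent.P190.D.KK x1] Vale.Agent.P190.D.KK x1) := inferInstance
theorem a28 {x1 : Type} [x2 : Field x1] : NonUnitalRingHomClass (Vale.Agent.P190.D.A x1 →+* Vale.Agent.P190.D.KK x1) (Vale.Agent.P190.D.A x1) (Vale.Agent.P190.D.KK x1) := inferInstance
@[reducible] noncomputable def a29 {x1 : Type} [x2 : Field x1] {x3 : Type} [x4 : AddCommGroup x3] [x5 : Module (Vale.Agent.P190.D.KK x1) x3] : SMulZeroClass (Vale.Agent.P190.D.KK x1) x3 := inferInstance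
@[reducible] noncomputable def a30 {x1 : Type} [x2 : Field x1] : Semiring (OreLocalization (nonZeroDivisors (Vale.Agent.P190.D.A x1)) (Vale.Agent.P190.D.A x1)) := inferInstance
@[reducible] noncomputable def a31 {x1 : Type} [x2 : Field x1] {x3 : ℕ} {x4 : Fin x3} : DistribMulAction (Vale.Agent.P190.D.A x1) ((fun a => Vale.Agent.P190.D.A x1) x4) := inferInstance
@[reducible] def a32 {x1 : Type} [x2 : Field x1] {x3 : Type} [x4 : AddCommGroup x3] [x5 : Module (Vale.Agent.P190.D.A x1) x3] : DistribMulAction (Vale.Agent.P190.D.A x1) x3 := inferInstance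
@[reducible] def a33 {x1 : Type} [x2 : Field x1] {x3 : Type} [x4 : AddCommGroup x3] [x5 : Module (Vale.Agent.P190.D.A x1) x3] : MulAction (Vale.Agent.P190.D.A x1) x3 := inferInstance
@[reducible] noncomputable def a34 {x1 : ℕ} {x2 : Type} [x3 : Field x2] : AddGroup (Fin x1 → Vale.Agent.P190.D.KK x2) := inferInstance
@[reducible] noncomputable def a35 {x1 : ℕ} {x2 : Type} [x3 : Field x2] : SubNegMonoid (Fin x1 → Vale.Agent.P190.D.KK x2) := inferInstance
@[reducible] def a36 {x1 : Type} [x2 : Field x1] {x3 : Type} [x4 : AddCommGroup x3] [x5 : Module (Vale.Agent.P190.D.A x1) x3] : SemigroupAction (Vale.Agent.P190.D.A x1) x3 := inferInstance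
@[reducible] noncomputable def a37 {x1 : Type} [x2 : Field x1] : Add (Vale.Agent.P190.D.KK x1) := inferInstance
@[reducible] noncomputable def a38 {x1 : Type} [x2 : Field x1] {x3 : Type} [x4 : AddCommGroup x3] [x5 : Module (Vale.Agent.P190.D.KK x1) x3] : DistribSMul (Vale.Agent.P190.D.KK x1) x3 := inferInstance
@[reducible] noncomputable def a39 {x1 : Type} [x2 : Field x1] : DivisionRing (OreLocalization (nonZeroDivisors (Vale.Agent.P190.D.A x1)) (Vale.Agent.P190.D.A x1)) := inferInstance
@[reducible] noncomputable def a40 {x1 : ℕ} {x2 : Type} [x3 : Field x2] : HasQuotient (Fin x1 → Vale.Agent.P190.D.KK x2) (Submodule (Vale.Agent.P190.D.KK x2) (Fin x1 → Vale.Agent.P190.D.KK x2)) := inferInstance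
@[reducible] noncomputable def a41 {x1 : Type} [x2 : Field x1] {x3 : Type} [x4 : AddCommGroup x3] [x5 : Module (Vale.Agent.P190.D.KK x1) x3] : Module (Vale.Agent.P190.D.KK x1) (x3 →ₗ[Vale.Agent.P190.D.KK x1] Vale.Agent.P190.D.KK x1) := inferInstance
@[reducible] noncomputable def a42 {x1 : Type} [x2 : Field x1] : Ring (OreLocalization (nonZeroDivisors (Vale.Agent.P190.D.A x1)) (Vale.Agent.P190.D.A x1)) := inferInstance
@[reducible] noncomputable def a43 {x1 : ℕ} {x2 : Type} [x3 : Field x2] : AddMonoid (Fin x1 → Vale.Agent.P190.D.KK x2) := inferInstance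
@[reducible] noncomputable def a44 {x1 : ℕ} {x2 : Type} [x3 : Field x2] : AddZero (Fin x1 → Vale.Agent.P190.D.KK x2) := inferInstance
@[reducible] noncomputable def a45 {x1 : ℕ} {x2 : Type} [x3 : Field x2] : AddZeroClass (Fin x1 → Vale.Agent.P190.D.KK x2) := inferInstance
@[reducible] noncomputable def a46 {x1 : Type} [x2 : Field x1] : DistribSMul (Vale.Agent.P190.D.KK x1) (Vale.Agent.P190.D.KK x1) := inferInstance
@[reducible] noncomputable def a47 {x1 : Type} [x2 : Field x1] {x3 : ℕ} : Module (Vale.Agent.P190.D.A x1) (Fin x3 → Vale.Agent.P190.D.KK x1) := inferInstance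
@[reducible] noncomputable def a48 {x1 : Type} [x2 : Field x1] {x3 : ℕ} : Module (Vale.Agent.P190.D.KK x1) (Fin x3 → Vale.Agent.P190.D.KK x1) := inferInstance
@[reducible] noncomputable def a49 {x1 : Type} [x2 : Field x1] {x3 : ℕ} {x4 : Vale.Agent.P190.D.Arr x1} {x5 : Fin x3} : DistribMulAction (Vale.Agent.P190.D.A x1) ((fun a => x4.L) x5) := inferInstance
@[reducible] noncomputable def a50 {x1 : Type} [x2 : Field x1] : OreLocalization.OreSet (nonZeroDivisors (Vale.Agent.P190.D.A x1)) := inferInstance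
@[reducible] noncomputable def a51 {x1 : Type} [x2 : Field x1] : CommSemiring (Vale.Agent.P190.D.KK x1) := inferInstance
theorem a52 {x1 : Type} [x2 : Field x1] : NoZeroDivisors (MvPolynomial (Fin 2) x1) := inferInstance
@[reducible] def a53 {x1 : Type} [x2 : Field x1] {x3 : Type} [x4 : AddCommGroup x3] [x5 : Module (Vale.Agent.P190.D.KK x1) x3] : DistribMulAction (Vale.Agent.P190.D.KK x1) x3 := inferInstance
end AFast7f54d5x5a
attribute [local instance] AFast7f54d5x5a.a0 AFast7f54d5x5a.a1 AFast7f54d5x5a.a2 AFast7f54d5x5a.a3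
  AFast7f54d5x5a.a4 AFast7f54d5x5a.a5 AFast7f54d5x5a.a6 AFast7f54d5x5a.a7 AFast7f54d5x5a.a8
  AFast7f54d5x5a.a9 AFast7f54d5x5a.a10 AFast7f54d5x5a.a11 AFast7f54d5x5a.a12 AFast7f54d5x5a.a13
  AFast7f54d5x5a.a14 AFast7f54d5x5a.a15 AFast7f54d5x5a.a16 AFast7f54d5x5a.a17 AFast7f54d5x5a.a18
  AFast7f54d5x5a.a19 AFast7f54d5x5a.a20 AFast7f54d5x5a.a21 AFast7f54d5x5a.a22 AFast7f54d5x5a.a23
  AFast7f54d5x5a.a24 AFast7f54d5x5a.a25 AFast7f54d5x5a.a26 AFast7f54d5x5a.a27 AFast7f54d5x5a.a28
  AFast7f54d5x5a.a29 AFast7f54d5x5a.a30 AFast7f54d5x5a.a31 AFast7f54d5x5a.a32 AFast7f54d5x5a.a33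
  AFast7f54d5x5a.a34 AFast7f54d5x5a.a35 AFast7f54d5x5a.a36 AFast7f54d5x5a.a37 AFast7f54d5x5a.a38
  AFast7f54d5x5a.a39 AFast7f54d5x5a.a40 AFast7f54d5x5a.a41 AFast7f54d5x5a.a42 AFast7f54d5x5a.a43
  AFast7f54d5x5a.a44 AFast7f54d5x5a.a45 AFast7f54d5x5a.a46 AFast7f54d5x5a.a47 AFast7f54d5x5a.a48
  AFast7f54d5x5a.a49 AFast7f54d5x5a.a50 AFast7f54d5x5a.a51 AFast7f54d5x5a.a52 AFast7f54d5x5a.a53
namespace AFast7f54d5x5b
theorem a0 {x1 : Type} [x2 : Field x1] : SMulCommClass (Vale.Agent.P190.D.KK x1) (Vale.Agent.P190.D.A x1) (Vale.Agent.P190.D.KK x1) := inferInstance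
theorem a1 {x1 : Type} [x2 : Field x1] : SMulCommClass (Vale.Agent.P190.D.KK x1) x1 (Vale.Agent.P190.D.KK x1) := inferInstance
@[reducible] noncomputable def a2 {x1 : Type} [x2 : Field x1] {x3 : Type} [x4 : AddCommGroup x3] [x5 : Module (Vale.Agent.P190.D.KK x1) x3] : SMul (Vale.Agent.P190.D.KK x1) x3 := inferInstance
@[reducible] noncomputable def a3 {x1 : Type} [x2 : Field x1] {x3 : Type} [x4 : AddCommGroup x3] [x5 : Module (Vale.Agent.P190.D.KK x1) x3] : Module (Vale.Agent.P190.D.A x1) (x3 →ₗ[Vale.Agent.P190.D.KK x1] Vale.Agent.P190.D.KK x1) := inferInstance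
@[reducible] noncomputable def a4 {x1 : Type} [x2 : Field x1] {x3 : Type} [x4 : AddCommGroup x3] [x5 : Module (Vale.Agent.P190.D.KK x1) x3] : Module (Vale.Agent.P190.D.A x1) ((x3 →ₗ[Vale.Agent.P190.D.KK x1] Vale.Agent.P190.D.KK x1) →ₗ[Vale.Agent.P190.D.KK x1] Vale.Agent.P190.D.KK x1) := inferInstance
theorem a5 {x1 : Type} [x2 : Field x1] : AddMonoidHomClass (Vale.Agent.P190.D.A x1 →+* Vale.Agent.P190.D.KK x1) (Vale.Agent.P190.D.A x1) (Vale.Agent.P190.D.KK x1) := inferInstance
@[reducible] noncomputable def a6 {x1 : Type} [x2 : Field x1] {x3 : Type} [x4 : AddCommGroup x3] [x5 : Module (Vale.Agent.P190.D.KK x1) x3] : SMul (Vale.Agent.P190.D.A x1) (x3 →ₗ[Vale.Agent.P190.D.KK x1] Vale.Agent.P190.D.KK x1) := inferInstance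
theorem a7 {x1 : Type} [x2 : Field x1] {x3 : Type} [x4 : AddCommGroup x3] [x5 : Module (Vale.Agent.P190.D.KK x1) x3] : Module.Free (Vale.Agent.P190.D.KK x1) x3 := inferInstance
@[reducible] noncomputable def a8 {x1 : Type} [x2 : Field x1] : SMulZeroClass (Vale.Agent.P190.D.A x1) (Vale.Agent.P190.D.KK x1) := inferInstance
@[reducible] noncomputable def a9 {x1 : Type} [x2 : Field x1] : DistribSMul (Vale.Agent.P190.D.A x1) (Vale.Agent.P190.D.KK x1) := inferInstance
theorem a10 {x1 : Type} [x2 : Field x1] {x3 : Type} [x4 : AddCommGroup x3] [x5 : Module (Vale.Agent.P190.D.KK x1) x3] : Module.Projective (Vale.Agent.P190.D.KK x1) x3 := inferInstance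
theorem a11 {x1 : Type} [x2 : Field x1] {x3 : Type} [x4 : AddCommGroup x3] [x5 : Module (Vale.Agent.P190.D.KK x1) x3] : Module.IsStablyFree (Vale.Agent.P190.D.KK x1) x3 := inferInstance
theorem a12 {x1 : Type} [x2 : Field x1] {x3 : ℕ} : IsScalarTower (Vale.Agent.P190.D.A x1) (Vale.Agent.P190.D.KK x1) (Fin x3 → Vale.Agent.P190.D.KK x1) := inferInstance
theorem a13 {x1 : Type} [x2 : Field x1] : Module.IsTorsionFree (Vale.Agent.P190.D.A x1) (Vale.Agent.P190.D.KK x1) := inferInstance
@[reducible] noncomputable def a14 {x1 : Type} [x2 : Field x1] {x3 : Type} [x4 : AddCommGroup x3] [x5 : Module (Vale.Agent.P190.D.KK x1) x3] : SMul (Vale.Agent.P190.D.A x1) (Module.Dual (Vale.Agent.P190.D.KK x1) (Module.Dual (Vale.Agent.P190.D.KK x1) x3)) := inferInstance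
@[reducible] noncomputable def a15 {x1 : Type} [x2 : Field x1] : DistribMulAction (Vale.Agent.P190.D.A x1) (Vale.Agent.P190.D.KK x1) := inferInstance
@[reducible] noncomputable def a16 {x1 : Type} [x2 : Field x1] {x3 : Type} [x4 : AddCommGroup x3] [x5 : Module (Vale.Agent.P190.D.KK x1) x3] : SMulZeroClass (Vale.Agent.P190.D.A x1) (Module.Dual (Vale.Agent.P190.D.KK x1) (Module.Dual (Vale.Agent.P190.D.KK x1) x3)) := inferInstance
@[reducible] noncomputable def a17 {x1 : Type} [x2 : Field x1] {x3 : Type} [x4 : AddCommGroup x3] [x5 : Module (Vale.Agent.P190.D.KK x1) x3] : DistribSMul (Vale.Agent.P190.D.A x1) (Module.Dual (Vale.Agent.P190.D.KK x1) (Module.Dual (Vale.Agent.P190.D.KK x1) x3)) := inferInstance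
theorem a18 {x1 : Type} [x2 : Field x1] : Module.Flat (Vale.Agent.P190.D.A x1) (Localization (nonZeroDivisors (Vale.Agent.P190.D.A x1))) := inferInstance
@[reducible] noncomputable def a19 {x1 : Type} [x2 : Field x1] {x3 : Type} [x4 : AddCommGroup x3] [x5 : Module (Vale.Agent.P190.D.KK x1) x3] : DistribMulAction (Vale.Agent.P190.D.A x1) (Module.Dual (Vale.Agent.P190.D.KK x1) (Module.Dual (Vale.Agent.P190.D.KK x1) x3)) := inferInstance
theorem a20 {x1 : Type} [x2 : Field x1] : Module.Flat (Vale.Agent.P190.D.A x1) (Vale.Agent.P190.D.A x1) := inferInstance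
@[reducible] noncomputable def a21 {x1 : Type} [x2 : Field x1] {x3 : Type} [x4 : AddCommGroup x3] [x5 : Module (Vale.Agent.P190.D.KK x1) x3] : Module (Vale.Agent.P190.D.A x1) (Module.Dual (Vale.Agent.P190.D.KK x1) x3 →ₗ[Vale.Agent.P190.D.KK x1] Vale.Agent.P190.D.KK x1) := inferInstance
@[reducible] noncomputable def a22 {x1 : Type} [x2 : Field x1] : SMulZeroClass (Vale.Agent.P190.D.KK x1) (Vale.Agent.P190.D.KK x1) := inferInstance
@[reducible] noncomputable def a23 {x1 : ℕ} {x2 : Type} [x3 : Field x2] : AddCommGroup (Fin x1 → Vale.Agent.P190.D.KK x2) := inferInstance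
theorem a24 {x1 : Type} [x2 : Field x1] : AddHomClass (Vale.Agent.P190.D.A x1 →+* Vale.Agent.P190.D.KK x1) (Vale.Agent.P190.D.A x1) (Vale.Agent.P190.D.KK x1) := inferInstance
@[reducible] noncomputable def a25 {x1 : Type} [x2 : Field x1] {x3 : ℕ} {x4 : Fin x3} : DistribMulAction (Vale.Agent.P190.D.A x1) ((fun a => Vale.Agent.P190.D.KK x1) x4) := inferInstance
theorem a26 {x1 : Type} [x2 : Field x1] {x3 : Type} [x4 : AddCommGroup x3] [x5 : Module (Vale.Agent.P190.D.KK x1) x3] : AddMonoidHomClass (x3 →ₗ[Vale.Agent.P190.D.KK x1] Vale.Agent.P190.D.KK x1) x3 (Vale.Agent.P190.D.KK x1) := inferInstance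
theorem a27 {x1 : Type} [x2 : Field x1] {x3 : Type} [x4 : AddCommGroup x3] [x5 : Module (Vale.Agent.P190.D.KK x1) x3] : DistribMulActionSemiHomClass (x3 →ₗ[Vale.Agent.P190.D.KK x1] Vale.Agent.P190.D.KK x1) (⇑(RingHom.id (Vale.Agent.P190.D.KK x1))) x3 (Vale.Agent.P190.D.KK x1) := inferInstance
@[reducible] noncomputable def a28 {x1 : Type} [x2 : Field x1] : NegZeroClass (Vale.Agent.P190.D.KK x1) := inferInstance
@[reducible] noncomputable def a29 {x1 : Type} [x2 : Field x1] : SubNegZeroMonoid (Vale.Agent.P190.D.KK x1) := inferInstance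
@[reducible] noncomputable def a30 {x1 : Type} [x2 : Field x1] : SubtractionMonoid (Vale.Agent.P190.D.KK x1) := inferInstance
@[reducible] noncomputable def a31 {x1 : Type} [x2 : Field x1] : SubtractionCommMonoid (Vale.Agent.P190.D.KK x1) := inferInstance
theorem a32 {x1 : Type} [x2 : Field x1] {x3 : Type} [x4 : AddCommGroup x3] [x5 : Module (Vale.Agent.P190.D.KK x1) x3] : IsScalarTower (Vale.Agent.P190.D.A x1) (Vale.Agent.P190.D.KK x1) (x3 →ₗ[Vale.Agent.P190.D.KK x1] Vale.Agent.P190.D.KK x1) := inferInstance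
@[reducible] noncomputable def a33 {x1 : ℕ} {x2 : Type} [x3 : Field x2] {x4 : ℤ} {x5 : Fin x1 → ℤ} : AddZero ((j : Fin x1) → ↥(Vale.Agent.P190.D.Ad x2 (x4 - x5 j))) := inferInstance
@[reducible] noncomputable def a34 {x1 : ℕ} {x2 : Type} [x3 : Field x2] {x4 : ℤ} {x5 : Fin x1 → ℤ} : AddZeroClass ((j : Fin x1) → ↥(Vale.Agent.P190.D.Ad x2 (x4 - x5 j))) := inferInstance
@[reducible] noncomputable def a35 {x1 : ℕ} {x2 : Type} [x3 : Field x2] {x4 : ℤ} {x5 : Fin x1 → ℤ} : AddMonoid ((j : Fin x1) → ↥(Vale.Agent.P190.D.Ad x2 (x4 - x5 j))) := inferInstance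
@[reducible] noncomputable def a36 {x1 : Type} [x2 : Field x1] : SMulZeroClass (Vale.Agent.P190.D.A x1) (Vale.Agent.P190.D.A x1) := inferInstance
end AFast7f54d5x5b
attribute [local instance] AFast7f54d5x5b.a0 AFast7f54d5x5b.a1 AFast7f54d5x5b.a2 AFast7f54d5x5b.a3
  AFast7f54d5x5b.a4 AFast7f54d5x5b.a5 AFast7f54d5x5b.a6 AFast7f54d5x5b.a7 AFast7f54d5x5b.a8
  AFast7f54d5x5b.a9 AFast7f54d5x5b.a10 AFast7f54d5x5b.a11 AFast7f54d5x5b.a12 AFast7f54d5x5b.a13
  AFast7f54d5x5b.a14 AFast7f54d5x5b.a15 AFast7f54d5x5b.a16 AFast7f54d5x5b.a17 AFast7f54d5x5b.a18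
  AFast7f54d5x5b.a19 AFast7f54d5x5b.a20 AFast7f54d5x5b.a21 AFast7f54d5x5b.a22 AFast7f54d5x5b.a23
  AFast7f54d5x5b.a24 AFast7f54d5x5b.a25 AFast7f54d5x5b.a26 AFast7f54d5x5b.a27 AFast7f54d5x5b.a28
  AFast7f54d5x5b.a29 AFast7f54d5x5b.a30 AFast7f54d5x5b.a31 AFast7f54d5x5b.a32 AFast7f54d5x5b.a33
  AFast7f54d5x5b.a34 AFast7f54d5x5b.a35 AFast7f54d5x5b.a36
section

section

namespace Vale.Agent.P190

open MvPowerSeries IsLocalRing RingTheory.Sequence

section

variable {σ k : Type*} [Field k] [Fintype σ]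

omit [Fintype σ] in
theorem mem_maximalIdeal_iff_constantCoeff (f : MvPowerSeries σ k) :
    f ∈ maximalIdeal (MvPowerSeries σ k) ↔ constantCoeff f = 0 := by
  rw [IsLocalRing.mem_maximalIdeal, mem_nonunits_iff, MvPowerSeries.isUnit_iff_constantCoeff,
    isUnit_iff_ne_zero, not_not]

theorem maximalIdeal_eq_cIdeal :
    maximalIdeal (MvPowerSeries σ k) = cIdeal k (Finset.univ : Finset σ) (fun _ => 1) := by
  ext f
  rw [mem_maximalIdeal_iff_constantCoeff, mem_cIdeal]
  constructor
  · intro h m hm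
    have : m = 0 := by
      ext j
      have := hm j (Finset.mem_univ j)
      simpa only [Finsupp.coe_zero, Pi.zero_apply, Order.lt_one_iff] using this
    rw [this]
    exact h
  · intro h
    exact h 0 (by simp only [Finset.mem_univ, Finsupp.coe_zero, Pi.zero_apply, Order.lt_one_iff, imp_self, implies_true])

theorem maximalIdeal_eq_span_X :
    maximalIdeal (MvPowerSeries σ k) =
      Ideal.span (Set.range (fun j : σ => (X j : MvPowerSeries σ k))) := by
  rw [maximalIdeal_eq_cIdeal, cIdeal_eq_span, Finset.coe_univ, Set.image_univ]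
  simp only [pow_one]

omit [Fintype σ] in
/-- Powers of distinct variables form a weakly regular sequence. -/
theorem isWeaklyRegular_X_pow (N : ℕ) (l : List σ) (hl : l.Nodup) :
    IsWeaklyRegular (MvPowerSeries σ k)
      (l.map (fun j => (X j : MvPowerSeries σ k) ^ N)) := by
  classical
  refine ⟨?_⟩
  intro i hi
  rw [List.length_map] at hi
  rw [List.getElem_map, ← List.map_take]
  have e : Ideal.ofList ((l.take i).map (fun j => (X j : MvPowerSeries σ k) ^ N)) =
      cIdeal k (l.take i).toFinset (fun _ => N) := by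
    rw [cIdeal_eq_span]
    unfold Ideal.ofList
    congr 1
    ext y
    simp only [List.mem_map, Set.mem_ofPred_eq, List.coe_toFinset, Set.mem_image]
  rw [isSMulRegular_quotient_iff_mem_of_smul_mem]
  intro f hf
  rw [e] at hf ⊢
  rw [smul_eq_mul, Ideal.mul_top] at hf ⊢
  rw [smul_eq_mul] at hf
  apply cIdeal_regular (i := l[i]) _ N hf
  rw [List.mem_toFinset]
  intro hmem
  rw [List.mem_take_iff_getElem] at hmem
  obtain ⟨j, hj, hji⟩ := hmem
  have := (List.Nodup.getElem_inj_iff hl).mp hji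
  omega

/-- power series of order at least `n`. -/
def totIdeal (σ k : Type*) [Field k] (n : ℕ) : Ideal (MvPowerSeries σ k) where
  carrier := {f | ∀ m : σ →₀ ℕ, m.degree < n → coeff m f = 0}
  zero_mem' := fun m _ => map_zero _
  add_mem' := fun {a b} ha hb m hm => by
    rw [map_add, ha m hm, hb m hm, add_zero]
  smul_mem' := fun c f hf m hm => by
    classical
    rw [smul_eq_mul, coeff_mul, Finset.sum_eq_zero]
    rintro ⟨a, b⟩ hab
    rw [Finset.HasAntidiagonal.mem_antidiagonal] at hab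
    have hb : b.degree ≤ m.degree := by
      rw [← hab, map_add]
      exact Nat.le_add_left _ _
    rw [hf b (lt_of_le_of_lt hb hm), mul_zero]

omit [Fintype σ] in
theorem mem_totIdeal {n : ℕ} {f : MvPowerSeries σ k} :
    f ∈ totIdeal σ k n ↔ ∀ m : σ →₀ ℕ, m.degree < n → coeff m f = 0 := Iff.rfl

omit [Fintype σ] in
theorem totIdeal_mul (a b : ℕ) : totIdeal σ k a * totIdeal σ k b ≤ totIdeal σ k (a + b) := by
  classical
  rw [Ideal.mul_le]
  intro f hf g hg m hm
  rw [coeff_mul, Finset.sum_eq_zero]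
  rintro ⟨u, v⟩ huv
  rw [Finset.HasAntidiagonal.mem_antidiagonal] at huv
  have hd : u.degree + v.degree < a + b := by
    rw [← map_add]
    have : u + v = m := huv
    rw [this]; exact hm
  dsimp only
  by_cases h : u.degree < a
  · rw [hf u h, zero_mul]
  · rw [hg v (by omega), mul_zero]

omit [Fintype σ] in
theorem maximalIdeal_le_totIdeal : maximalIdeal (MvPowerSeries σ k) ≤ totIdeal σ k 1 := by
  intro f hf m hm
  rw [mem_maximalIdeal_iff_constantCoeff] at hf
  have : m = 0 := by
    rw [← Finsupp.degree_eq_zero_iff]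
    omega
  rw [this]
  exact hf

theorem pow_le_totIdeal (n : ℕ) : maximalIdeal (MvPowerSeries σ k) ^ n ≤ totIdeal σ k n := by
  induction n with
  | zero =>
    intro f _ m hm
    omega
  | succ n ih =>
    rw [pow_succ]
    exact (Ideal.mul_mono ih maximalIdeal_le_totIdeal).trans (totIdeal_mul n 1)

theorem exists_decomp (f : MvPowerSeries σ k) (hf : constantCoeff f = 0) :
    ∃ g : σ → MvPowerSeries σ k, f = ∑ s, X s * g s ∧
      ∀ n, f ∈ totIdeal σ k (n + 1) → ∀ s, g s ∈ totIdeal σ k n := by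
  classical
  have hc : ∀ m : σ →₀ ℕ, ∃ s : Option σ, (m ≠ 0 → ∃ t, s = some t ∧ m t ≠ 0) := by
    intro m
    by_cases h : m = 0
    · exact ⟨none, fun h' => absurd h h'⟩
    · obtain ⟨t, ht⟩ := Finsupp.ne_iff.mp h
      exact ⟨some t, fun _ => ⟨t, rfl, by simpa only [ne_eq, Finsupp.coe_zero, Pi.zero_apply] using ht⟩⟩
  choose c hc using hc
  let g : σ → MvPowerSeries σ k := fun s m =>
    if c (m + Finsupp.single s 1) = some s then coeff (m + Finsupp.single s 1) f else 0
  have hg : ∀ s m, coeff m (g s) =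
      if c (m + Finsupp.single s 1) = some s then coeff (m + Finsupp.single s 1) f else 0 :=
    fun s m => rfl
  refine ⟨g, ?_, ?_⟩
  · ext m
    rw [map_sum]
    have h1 : ∀ s, coeff m (X s * g s) = if c m = some s ∧ m s ≠ 0 then coeff m f else 0 := by
      intro s
      rw [show (X s : MvPowerSeries σ k) = monomial (Finsupp.single s 1) 1 from rfl,
        coeff_monomial_mul]
      by_cases h : m s = 0
      · have h2 : ¬ Finsupp.single s 1 ≤ m := by
          intro h3
          have := h3 s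
          rw [Finsupp.single_eq_same, h] at this
          omega
        rw [if_neg h2, if_neg (fun h3 => h3.2 h)]
      · have h2 : Finsupp.single s 1 ≤ m := by
          rw [Finsupp.single_le_iff]
          omega
        rw [if_pos h2, one_mul, hg, tsub_add_cancel_of_le h2]
        simp only [ne_eq, h, not_false_eq_true, and_true]
    simp only [h1]
    by_cases hm : m = 0
    · subst hm
      have : coeff 0 f = 0 := hf
      simp only [this, Finsupp.coe_zero, Pi.zero_apply, ne_eq, not_true_eq_false, and_false, ↓reduceIte, Finset.sum_const_zero]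
    · obtain ⟨t, ht1, ht2⟩ := hc m hm
      rw [Finset.sum_eq_single t]
      · rw [if_pos ⟨ht1, ht2⟩]
      · intro s _ hs
        rw [if_neg]
        rintro ⟨h3, -⟩
        rw [ht1] at h3
        exact hs (Option.some.inj h3).symm
      · intro h; exact absurd (Finset.mem_univ t) h
  · intro n hn s m hm
    rw [hg]
    split_ifs
    · apply hn
      rw [map_add, Finsupp.degree_single]
      (clear * - hm; omega)
    · rfl

theorem totIdeal_le_pow (n : ℕ) : totIdeal σ k n ≤ maximalIdeal (MvPowerSeries σ k) ^ n := by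
  induction n with
  | zero => rw [pow_zero, Ideal.one_eq_top]; exact le_top
  | succ n ih =>
    intro f hf
    have h0 : constantCoeff f = 0 := hf 0 (by simp only [map_zero, Order.lt_add_one_iff, zero_le])
    obtain ⟨g, hg1, hg2⟩ := exists_decomp f h0
    rw [hg1]
    apply Ideal.sum_mem
    intro s _
    rw [pow_succ']
    apply Ideal.mul_mem_mul
    · rw [mem_maximalIdeal_iff_constantCoeff]
      exact constantCoeff_X s
    · exact ih (hg2 n hf s)

theorem isAdicComplete_mvPowerSeries :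
    IsAdicComplete (maximalIdeal (MvPowerSeries σ k)) (MvPowerSeries σ k) := by
  refine { prec' := ?_ }
  intro f hf
  have h1 : ∀ {m n : ℕ}, m ≤ n → f m - f n ∈ totIdeal σ k m := by
    intro m n hmn
    have := SModEq.sub_mem.mp (hf hmn)
    rw [smul_eq_mul, Ideal.mul_top] at this
    exact pow_le_totIdeal m this
  let L : MvPowerSeries σ k := fun m => coeff m (f (m.degree + 1))
  have hL : ∀ m, coeff m L = coeff m (f (m.degree + 1)) := fun m => rfl
  refine ⟨L, fun n => ?_⟩
  rw [SModEq.sub_mem, smul_eq_mul, Ideal.mul_top]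
  apply totIdeal_le_pow
  intro m hm
  rw [map_sub, hL]
  have h2 := h1 (m := m.degree + 1) (n := n) (by omega) m (by omega)
  rw [map_sub] at h2
  rw [← neg_eq_zero, neg_sub]
  exact h2

end

end Vale.Agent.P190
end
end

section

section

/-! Section 4, file P6n4: primary ideals. -/

set_option autoImplicit false
set_option linter.unusedSectionVars false

open MvPolynomial Filter

namespace Vale.Agent.P190.D

/-- an ideal of `k[s_a]` containing the equations of a cone over an arrangement cover, all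
`Δ_{ij}^M`, and elements `(s_b^q + n_t)^p'` is primary to the irrelevant ideal -/
theorem ideal_primary {k I S : Type} [Field k] [Fintype I] [DecidableEq I] (hI : 2 ≤ Fintype.card I)
    (l : I → Fin 3 → k)
    (h d : S → I) (tri : S → Set I) (htri : ∀ t, h t ∈ tri t ∧ d t ∈ tri t)
    (hindep : ∀ x y z : I, x ≠ y → x ≠ z → y ≠ z →
      LinearIndependent k ![l x, l y, l z] ∨ ∃ t, ({x, y, z} : Set I) = tri t)
    (𝔞 : Ideal (MvPolynomial I k))
    (hf : ∀ c : I → k, (∑ a, c a • l a = 0) → ∑ a, C (c a) * X a ^ 2 ∈ 𝔞)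
    (hΔ : ∀ i j, i ≠ j → ∃ M : ℕ, (∏ b ∈ (Finset.univ.erase i).erase j, X b) ^ M ∈ 𝔞)
    (ht : ∀ t b, ∃ (q p' : ℕ) (g : MvPolynomial I k),
      g - X b ^ q ∈ Ideal.span {(X (h t) : MvPolynomial I k), X (d t)} ∧ g ^ p' ∈ 𝔞) (a : I) :
    ∃ M : ℕ, (X a : MvPolynomial I k) ^ M ∈ 𝔞 := by
  classical
  change (X a : MvPolynomial I k) ∈ 𝔞.radical
  rw [Ideal.radical_eq_sInf, Ideal.mem_sInf]
  rintro P ⟨hP𝔞, hP⟩
  -- a member of the prime ideal outside of two given indices
  have step : ∀ i j, i ≠ j → ∃ b, b ≠ i ∧ b ≠ j ∧ (X b : MvPolynomial I k) ∈ P := by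
    intro i j hij
    obtain ⟨M, hM⟩ := hΔ i j hij
    have h1 : (∏ b ∈ (Finset.univ.erase i).erase j, (X b : MvPolynomial I k)) ∈ P :=
      hP.mem_of_pow_mem M (hP𝔞 hM)
    obtain ⟨b, hb, hbP⟩ := (hP.prod_mem_iff).1 h1
    simp only [Finset.mem_erase, Finset.mem_univ, and_true] at hb
    exact ⟨b, hb.2, hb.1, hbP⟩
  obtain ⟨i, j, hij⟩ := Fintype.one_lt_card_iff.1 (by omega : 1 < Fintype.card I)
  obtain ⟨x, hxi, hxj, hx⟩ := step i j hij
  obtain ⟨y, hyx, -, hy⟩ := step x i hxi
  obtain ⟨z, hzx, hzy, hz⟩ := step x y hyx.symm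
  rcases hindep x y z hyx.symm hzx.symm hzy.symm with hli | ⟨t, htt⟩
  · -- the three vectors form a basis
    have hspan : Submodule.span k (Set.range ![l x, l y, l z]) = ⊤ :=
      hli.span_eq_top_of_card_eq_finrank (by simp only [Nat.succ_eq_add_one, zero_add, Nat.reduceAdd, Fintype.card_fin, Module.finrank_fintype_fun_eq_card])
    have hmem : l a ∈ Submodule.span k (Set.range ![l x, l y, l z]) := by
      rw [hspan]; trivial
    rw [Submodule.mem_span_range_iff_exists_fun] at hmem
    obtain ⟨c, hc⟩ := hmem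
    rw [Fin.sum_univ_three] at hc
    simp only [Matrix.cons_val_zero, Matrix.cons_val_one, Matrix.cons_val] at hc
    let c' : I → k := fun b => (if b = a then 1 else 0) - ((if b = x then c 0 else 0) +
      (if b = y then c 1 else 0) + (if b = z then c 2 else 0))
    have h1 : ∑ b, c' b • l b = 0 := by
      simp only [c', sub_smul, add_smul, ite_smul, zero_smul, one_smul, Finset.sum_sub_distrib,
        Finset.sum_add_distrib, Finset.sum_ite_eq', Finset.mem_univ, if_true]
      rw [← hc, sub_self]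
    have h2 := hP𝔞 (hf c' h1)
    have h3 : ∑ b, C (c' b) * (X b : MvPolynomial I k) ^ 2 = X a ^ 2 -
        (C (c 0) * X x ^ 2 + C (c 1) * X y ^ 2 + C (c 2) * X z ^ 2) := by
      have e : ∀ b, C (c' b) * (X b : MvPolynomial I k) ^ 2 =
          (if b = a then X b ^ 2 else 0) - ((if b = x then C (c 0) * X b ^ 2 else 0) +
          (if b = y then C (c 1) * X b ^ 2 else 0) + (if b = z then C (c 2) * X b ^ 2 else 0)) := by
        intro b
        simp only [c', map_sub, map_add]
        split_ifs <;> simp <;> ring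
      simp only [e, Finset.sum_sub_distrib, Finset.sum_add_distrib, Finset.sum_ite_eq',
        Finset.mem_univ, if_true]
    rw [h3] at h2
    have hsq : ∀ b, (X b : MvPolynomial I k) ∈ P → ∀ e : k, C e * (X b : MvPolynomial I k) ^ 2 ∈ P :=
      fun b hb e => P.mul_mem_left _ (P.pow_mem_of_mem hb 2 (by norm_num))
    have h4 : (X a : MvPolynomial I k) ^ 2 ∈ P := by
      have h5 := P.add_mem h2 (P.add_mem (P.add_mem (hsq x hx (c 0)) (hsq y hy (c 1)))
        (hsq z hz (c 2)))
      rw [sub_add_cancel] at h5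
      exact h5
    exact hP.mem_of_pow_mem 2 h4
  · have hmem : ∀ b, b ∈ tri t → (X b : MvPolynomial I k) ∈ P := by
      intro b hb
      rw [← htt] at hb
      rcases hb with rfl | rfl | rfl
      · exact hx
      · exact hy
      · exact hz
    obtain ⟨q, p', g, hg, hg'⟩ := ht t a
    have h1 : g ∈ P := hP.mem_of_pow_mem p' (hP𝔞 hg')
    have h2 : Ideal.span {(X (h t) : MvPolynomial I k), X (d t)} ≤ P := by
      rw [Ideal.span_le]
      rintro w (rfl | rfl)
      · exact hmem _ (htri t).1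
      · exact hmem _ (htri t).2
    have h3 : (X a : MvPolynomial I k) ^ q ∈ P := by
      have h4 := P.sub_mem h1 (h2 hg)
      rw [sub_sub_cancel] at h4
      exact h4
    exact hP.mem_of_pow_mem q h3

end Vale.Agent.P190.D
end
end

section

section

/-! Section 1, file B8: free resolutions of length one. -/

set_option autoImplicit false
set_option linter.unusedSectionVars false

open MvPolynomial Filter

namespace Vale.Agent.P190.D

variable {k : Type} [Field k] {V : Type} [AddCommGroup V] [Module k V] [Module (A k) V]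
  [Module (KK k) V] [IsScalarTower k (A k) V] [IsScalarTower (A k) (KK k) V]
  {V' : Type} [AddCommGroup V'] [Module k V'] [Module (A k) V'] [Module (KK k) V']
  [IsScalarTower k (A k) V'] [IsScalarTower (A k) (KK k) V']

/-! ### The lattice of relations -/

/-- The lattice of relations between the vectors `v i`. -/
noncomputable def relLat {l : ℕ} (v : Fin l → V) (c : Fin l → ℤ) :
    ℤ → Submodule k (Fin l → A k) :=
  interLat (genLat (fun i : Fin l => (Pi.single i 1 : Fin l → A k)) c)
    (LinearMap.ker (Fintype.linearCombination (A k) v))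

omit [Module (KK k) V] [IsScalarTower (A k) (KK k) V] [IsScalarTower k (A k) V] [Module k V] in
theorem mem_relLat {l : ℕ} {v : Fin l → V} {c : Fin l → ℤ} {n : ℤ} {a : Fin l → A k} :
    a ∈ relLat v c n ↔ (∀ i, a i ∈ Ad k (n - c i)) ∧ ∑ i, a i • v i = 0 := by
  have h1 : a ∈ genLat (k := k) (fun i : Fin l => (Pi.single i 1 : Fin l → A k)) c n ↔
      ∀ i, a i ∈ Ad k (n - c i) := by
    rw [mem_genLat]
    have key : ∀ b : Fin l → A k, ∑ i, b i • (Pi.single i 1 : Fin l → A k) = b := by
      intro b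
      funext j
      rw [Finset.sum_apply]
      simp only [Pi.smul_apply, Pi.single_apply, smul_eq_mul, mul_ite, mul_one, mul_zero, Finset.sum_ite_eq, Finset.mem_univ, ↓reduceIte]
    constructor
    · rintro ⟨b, hb, rfl⟩
      rw [key]; exact hb
    · intro h
      exact ⟨a, h, (key a).symm⟩
  rw [relLat, interLat, Submodule.mem_inf, h1]
  simp only [Submodule.restrictScalars_mem, LinearMap.mem_ker, Fintype.linearCombination_apply]

omit [Module (KK k) V] [IsScalarTower (A k) (KK k) V] [IsScalarTower k (A k) V] [Module k V] in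
theorem isBLat_relLat {l : ℕ} (v : Fin l → V) (c : Fin l → ℤ) : IsBLat (relLat (k := k) v c) :=
  (isBLat_genLat _ _).inter _

/-- `K (n-1) + y K (n-1) + z K (n-1)` -/
def decLat {W : Type} [AddCommGroup W] [Module k W] [Module (A k) W] [IsScalarTower k (A k) W]
    (K : ℤ → Submodule k W) (n : ℤ) : Submodule k W where
  carrier := {a | ∃ a₁ ∈ K (n - 1), ∃ a₂ ∈ K (n - 1), ∃ a₃ ∈ K (n - 1),
    a = a₁ + (X 0 : A k) • a₂ + (X 1 : A k) • a₃}
  add_mem' := by
    rintro _ _ ⟨a₁, h₁, a₂, h₂, a₃, h₃, rfl⟩ ⟨b₁, g₁, b₂, g₂, b₃, g₃, rfl⟩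
    refine ⟨a₁ + b₁, add_mem h₁ g₁, a₂ + b₂, add_mem h₂ g₂, a₃ + b₃, add_mem h₃ g₃, ?_⟩
    rw [smul_add, smul_add]; abel
  zero_mem' := ⟨0, zero_mem _, 0, zero_mem _, 0, zero_mem _, by simp⟩
  smul_mem' := by
    rintro r _ ⟨a₁, h₁, a₂, h₂, a₃, h₃, rfl⟩
    refine ⟨r • a₁, Submodule.smul_mem _ _ h₁, r • a₂, Submodule.smul_mem _ _ h₂, r • a₃,
      Submodule.smul_mem _ _ h₃, ?_⟩
    have hc : ∀ (p : A k) (x : W), r • p • x = p • r • x := fun p x => by
      rw [← algebraMap_smul (A k) r x, ← algebraMap_smul (A k) r (p • x), smul_smul, smul_smul,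
        mul_comm]
    rw [smul_add, smul_add, hc, hc]

section Gen

variable {W : Type} [AddCommGroup W] [Module k W] [Module (A k) W] [IsScalarTower k (A k) W]

theorem decLat_le {K : ℤ → Submodule k W} (hK : IsBLat K) (n : ℤ) : decLat K n ≤ K n := by
  rintro _ ⟨a₁, h₁, a₂, h₂, a₃, h₃, rfl⟩
  have h4 := hK.smul_mem (C_mem_Ad (k := k) (n := 1) (by norm_num) 1) h₁
  have h5 := hK.smul_mem (X_mem_Ad (k := k) 0) h₂
  have h6 := hK.smul_mem (X_mem_Ad (k := k) 1) h₃
  rw [sub_add_cancel] at h4 h5 h6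
  rw [C_1, one_smul] at h4
  exact add_mem (add_mem h4 h5) h6

theorem span_le_decLat {K : ℤ → Submodule k W} (n : ℤ) :
    Submodule.span k {w | ∃ a ∈ Ad k 1, ∃ v ∈ K n, w = a • v} ≤ decLat K (n + 1) := by
  rw [Submodule.span_le]
  rintro _ ⟨a, ha, v, hv, rfl⟩
  obtain ⟨r₀, r₁, r₂, rfl⟩ := exists_of_mem_Ad_one ha
  have hC : ∀ r : k, (C r : A k) • v = r • v := fun r => algebraMap_smul (A k) r v
  refine ⟨r₀ • v, ?_, r₁ • v, ?_, r₂ • v, ?_, ?_⟩
  · rw [add_sub_cancel_right]; exact Submodule.smul_mem _ _ hv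
  · rw [add_sub_cancel_right]; exact Submodule.smul_mem _ _ hv
  · rw [add_sub_cancel_right]; exact Submodule.smul_mem _ _ hv
  · rw [add_smul, add_smul, mul_smul, mul_smul, hC, hC, hC]

/-- A minimal system of generators of a lattice, with the independence modulo
`K (n-1) + y K (n-1) + z K (n-1)`. -/
theorem exists_min_gen {K : ℤ → Submodule k W} (hK : IsBLat K) :
    ∃ (J : Type) (_ : Fintype J) (p : J → W) (d : J → ℤ), (∀ j, p j ∈ K (d j)) ∧
      (∃ n₀ : ℤ, (∀ n < n₀, K n = ⊥) ∧ ∀ j, n₀ ≤ d j) ∧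
      (∀ n, ∀ a ∈ K n, ∃ t : J → k, (∀ j, d j ≠ n → t j = 0) ∧
        a - ∑ j, t j • p j ∈ decLat K n) ∧
      (∀ (n : ℤ) (t : J → k), (∀ j, d j ≠ n → t j = 0) → ∑ j, t j • p j ∈ decLat K n →
        t = 0) := by
  classical
  obtain ⟨n₀, hn₀⟩ := hK.bdd
  obtain ⟨n₁, hn₁⟩ := hK.fg
  have hfin : ∀ n, Module.Finite k (K n) := hK.fin
  -- complements
  have hC : ∀ n, ∃ C : Submodule k W, C ≤ K n ∧ Disjoint (decLat K n) C ∧
      K n ≤ decLat K n ⊔ C := by
    intro n
    obtain ⟨C, hC⟩ := (decLat K n).exists_isCompl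
    refine ⟨C ⊓ K n, inf_le_right, hC.disjoint.mono_right inf_le_left, ?_⟩
    have h1 : decLat K n ⊔ (C ⊓ K n) = (decLat K n ⊔ C) ⊓ K n :=
      (sup_inf_assoc_of_le C (decLat_le hK n)).symm
    rw [h1, hC.codisjoint.eq_top, top_inf_eq]
  choose C hCK hCd hCs using hC
  have hCf : ∀ n, Module.Finite k (C n) := fun n => by
    have := hfin n
    exact Module.Finite.of_injective (Submodule.inclusion (hCK n))
      (Submodule.inclusion_injective (hCK n))
  let B := fun n => Module.finBasis k (C n)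
  let J := Σ n : Finset.Icc n₀ (n₁ + 1), Fin (Module.finrank k (C n))
  let p : J → W := fun j => (B j.1 j.2 : C j.1)
  let d : J → ℤ := fun j => j.1
  have hsum : ∀ (t : J → k) (n : ℤ) (hn : n ∈ Finset.Icc n₀ (n₁ + 1)),
      (∀ j, d j ≠ n → t j = 0) →
      ∑ j, t j • p j = ((∑ r, t ⟨⟨n, hn⟩, r⟩ • B n r : C n) : W) := by
    intro t n hn ht
    rw [Fintype.sum_sigma, Finset.sum_eq_single ⟨n, hn⟩]
    · simp only [Submodule.coe_sum, Submodule.coe_smul, p]
    · intro b _ hb
      refine Finset.sum_eq_zero fun r _ => ?_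
      rw [ht ⟨b, r⟩ (fun h => hb (Subtype.ext h)), zero_smul]
    · intro h; exact absurd (Finset.mem_univ _) h
  have hout : ∀ n, n ∉ Finset.Icc n₀ (n₁ + 1) → K n ≤ decLat K n := by
    intro n hn
    rw [Finset.mem_Icc, not_and_or, not_le, not_le] at hn
    rcases hn with hn | hn
    · rw [hn₀ n hn]; exact bot_le
    · have := (hn₁ (n - 1) (by omega)).trans (span_le_decLat (n - 1))
      rwa [sub_add_cancel] at this
  refine ⟨J, inferInstance, p, d, fun j => hCK _ (B j.1 j.2).2, ⟨n₀, hn₀, fun j =>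
    (Finset.mem_Icc.1 j.1.2).1⟩, ?_, ?_⟩
  · intro n a ha
    by_cases hn : n ∈ Finset.Icc n₀ (n₁ + 1)
    · obtain ⟨m, hm, c, hc, rfl⟩ := Submodule.mem_sup.1 (hCs n ha)
      let t : J → k := fun j => if h : (j.1 : ℤ) = n then
        (B j.1).repr ⟨c, by rw [h]; exact hc⟩ j.2 else 0
      have ht : ∀ j, d j ≠ n → t j = 0 := fun j hj => dif_neg hj
      refine ⟨t, ht, ?_⟩
      rw [hsum t n hn ht]
      have : (∑ r, t ⟨⟨n, hn⟩, r⟩ • B n r : C n) = ⟨c, hc⟩ := by
        conv_rhs => rw [← (B n).sum_repr ⟨c, hc⟩]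
        refine Finset.sum_congr rfl fun r _ => ?_
        simp only [↓reduceDIte, t]
      rw [this]
      simpa only [add_sub_cancel_right] using hm
    · refine ⟨0, fun _ _ => rfl, ?_⟩
      simpa only [Pi.zero_apply, zero_smul, Finset.sum_const_zero, sub_zero] using hout n hn ha
  · intro n t ht hmem
    by_cases hn : n ∈ Finset.Icc n₀ (n₁ + 1)
    · rw [hsum t n hn ht] at hmem
      have h0 : (∑ r, t ⟨⟨n, hn⟩, r⟩ • B n r : C n) = 0 := by
        have := (Submodule.disjoint_def.1 (hCd n)) _ hmem (Submodule.coe_mem _)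
        exact Subtype.ext this
      have hli := Fintype.linearIndependent_iff.1 (B n).linearIndependent _ h0
      funext j
      by_cases hj : d j = n
      · obtain ⟨⟨m, hm⟩, r⟩ := j
        obtain rfl : m = n := hj
        exact hli r
      · exact ht j hj
    · funext j
      refine ht j fun h => hn ?_
      rw [← h]; exact j.1.2

/-- generation by the minimal generators -/
theorem gen_of_min {K : ℤ → Submodule k W} {J : Type} [Fintype J] {p : J → W}
    {d : J → ℤ} {n₀ : ℤ} (hn₀ : ∀ n < n₀, K n = ⊥)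
    (hg : ∀ n, ∀ a ∈ K n, ∃ t : J → k, (∀ j, d j ≠ n → t j = 0) ∧
        a - ∑ j, t j • p j ∈ decLat K n) (n : ℤ) (a : W) (ha : a ∈ K n) :
    ∃ b : J → A k, (∀ j, b j ∈ Ad k (n - d j)) ∧ a = ∑ j, b j • p j := by
  have key : ∀ m : ℕ, ∀ n : ℤ, n < n₀ + m → ∀ a ∈ K n,
      ∃ b : J → A k, (∀ j, b j ∈ Ad k (n - d j)) ∧ a = ∑ j, b j • p j := by
    intro m
    induction m with
    | zero =>
      intro n hn a ha
      rw [hn₀ n (by simpa only [CharP.cast_eq_zero, add_zero] using hn), Submodule.mem_bot] at ha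
      exact ⟨0, fun j => zero_mem _, by simp only [ha, Pi.zero_apply, zero_smul, Finset.sum_const_zero]⟩
    | succ m ih =>
      intro n hn a ha
      obtain ⟨t, ht, a₁, h₁, a₂, h₂, a₃, h₃, h⟩ := hg n a ha
      push_cast at hn
      obtain ⟨b₁, hb₁, rfl⟩ := ih (n - 1) (by omega) a₁ h₁
      obtain ⟨b₂, hb₂, rfl⟩ := ih (n - 1) (by omega) a₂ h₂
      obtain ⟨b₃, hb₃, rfl⟩ := ih (n - 1) (by omega) a₃ h₃
      refine ⟨fun j => b₁ j + X 0 * b₂ j + X 1 * b₃ j + C (t j), fun j => ?_, ?_⟩
      · refine add_mem (add_mem (add_mem ?_ ?_) ?_) ?_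
        · exact Ad_mono (by omega) (hb₁ j)
        · have := X_mul_mem_Ad 0 (hb₂ j)
          rwa [show n - 1 - d j + 1 = n - d j by ring] at this
        · have := X_mul_mem_Ad 1 (hb₃ j)
          rwa [show n - 1 - d j + 1 = n - d j by ring] at this
        · by_cases hj : d j = n
          · exact C_mem_Ad (by omega) _
          · rw [ht j hj, C_0]; exact zero_mem _
      · have hC : ∀ j, (C (t j) : A k) • p j = t j • p j := fun j => algebraMap_smul (A k) _ _
        rw [sub_eq_iff_eq_add] at h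
        rw [h]
        simp only [add_smul, mul_smul, Finset.sum_add_distrib, Finset.smul_sum, hC]
  obtain ⟨m, hm⟩ : ∃ m : ℕ, n < n₀ + m := ⟨(n - n₀ + 1).toNat, by omega⟩
  exact key m n hm a ha

/-- uniqueness, from the Koszul property (R3) and (R2) -/
theorem unique_of_koszul {K : ℤ → Submodule k W} (hK : IsBLat K) {J : Type} [Fintype J] {p : J → W}
    {d : J → ℤ} (hp : ∀ j, p j ∈ K (d j)) {n₀ : ℤ} (hd : ∀ j, n₀ ≤ d j)
    (hG : ∀ (n : ℤ) (a : W), a ∈ K n →
      ∃ b : J → A k, (∀ j, b j ∈ Ad k (n - d j)) ∧ a = ∑ j, b j • p j)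
    (hu : ∀ (n : ℤ) (t : J → k), (∀ j, d j ≠ n → t j = 0) → ∑ j, t j • p j ∈ decLat K n →
        t = 0)
    (hR2 : ∀ (n : ℤ) (a : W), a ∈ K n → (X 0 : A k) • a ∈ K n → a ∈ K (n - 1))
    (hR3 : ∀ (n : ℤ) (a k₀ k₁ : W), a ∈ K n → k₀ ∈ K n → k₁ ∈ K n →
      (X 1 : A k) • a = k₀ + (X 0 : A k) • k₁ →
      ∃ α ∈ K (n - 1), ∃ β ∈ K (n - 1), a = α + (X 0 : A k) • β)
    (n : ℤ) (b : J → A k) (hb : ∀ j, b j ∈ Ad k (n - d j)) (h0 : ∑ j, b j • p j = 0) : b = 0 := by
  have hmem : ∀ (n : ℤ) (b : J → A k), (∀ j, b j ∈ Ad k (n - d j)) → ∑ j, b j • p j ∈ K n := by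
    intro n b hb
    refine Submodule.sum_mem _ fun j _ => ?_
    have := hK.smul_mem (hb j) (hp j)
    rwa [add_sub_cancel] at this
  have key : ∀ m : ℕ, ∀ n : ℤ, n < n₀ + m → ∀ b : J → A k, (∀ j, b j ∈ Ad k (n - d j)) →
      ∑ j, b j • p j = 0 → b = 0 := by
    intro m
    induction m with
    | zero =>
      intro n hn b hb _
      funext j
      have := hb j
      rw [Ad_neg (by have := hd j; simp at hn; omega), Submodule.mem_bot] at this
      exact this
    | succ m ih =>
      intro n hn b hb h0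
      push_cast at hn
      -- decompose the coefficients
      have hdec : ∀ j, ∃ (r : k) (b₁ b₂ b₃ : A k), (d j ≠ n → r = 0) ∧ b₁ ∈ Ad k (n - 1 - d j) ∧
          b₂ ∈ Ad k (n - 1 - d j) ∧ b₃ ∈ Ad k (n - 1 - d j) ∧
          b j = C r + (b₁ + X 0 * b₂ + X 1 * b₃) := by
        intro j
        by_cases hj : d j = n
        · have h1 := hb j
          rw [hj, sub_self] at h1
          obtain ⟨r, hr⟩ := B8a_mem_Ad_zero h1
          exact ⟨r, 0, 0, 0, fun h => absurd hj h, zero_mem _, zero_mem _, zero_mem _, by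
            rw [hr]; simp⟩
        · by_cases hj2 : n < d j
          · have h1 := hb j
            rw [Ad_neg (by omega), Submodule.mem_bot] at h1
            exact ⟨0, 0, 0, 0, fun _ => rfl, zero_mem _, zero_mem _, zero_mem _, by
              rw [h1]; simp⟩
          · obtain ⟨b₁, h₁, b₂, h₂, b₃, h₃, h⟩ := exists_decomp (n := n - 1 - d j) (by omega)
              (a := b j) (by rw [show n - 1 - d j + 1 = n - d j by ring]; exact hb j)
            exact ⟨0, b₁, b₂, b₃, fun _ => rfl, h₁, h₂, h₃, by rw [h]; simp⟩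
      choose r b₁ b₂ b₃ hr h₁ h₂ h₃ hbj using hdec
      have hC : ∀ j, (C (r j) : A k) • p j = r j • p j := fun j => algebraMap_smul (A k) _ _
      have hs : ∑ j, b j • p j = ∑ j, r j • p j + (∑ j, b₁ j • p j +
          (X 0 : A k) • ∑ j, b₂ j • p j + (X 1 : A k) • ∑ j, b₃ j • p j) := by
        simp only [hbj, add_smul, mul_smul, Finset.sum_add_distrib, Finset.smul_sum, hC]
      have hr0 : r = 0 := by
        refine hu n r hr ?_
        have : ∑ j, r j • p j = -(∑ j, b₁ j • p j +
          (X 0 : A k) • ∑ j, b₂ j • p j + (X 1 : A k) • ∑ j, b₃ j • p j) :=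
          eq_neg_of_add_eq_zero_left (hs.symm.trans h0)
        rw [this]
        exact neg_mem ⟨_, hmem _ _ h₁, _, hmem _ _ h₂, _, hmem _ _ h₃, rfl⟩
      rw [hs, hr0] at h0
      simp only [Pi.zero_apply, zero_smul, Finset.sum_const_zero, zero_add] at h0
      set κ₁ := ∑ j, b₁ j • p j with hκ₁
      set κ₂ := ∑ j, b₂ j • p j with hκ₂
      set κ₃ := ∑ j, b₃ j • p j with hκ₃
      have m₁ : κ₁ ∈ K (n - 1) := hmem _ _ h₁
      have m₂ : κ₂ ∈ K (n - 1) := hmem _ _ h₂
      have m₃ : κ₃ ∈ K (n - 1) := hmem _ _ h₃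
      obtain ⟨α, hα, β, hβ, hκ⟩ := hR3 (n - 1) κ₃ (-κ₁) (-κ₂) m₃ (neg_mem m₁) (neg_mem m₂) (by
        rw [smul_neg]
        have := h0
        rw [add_assoc] at this
        have h5 : (X 1 : A k) • κ₃ = -(κ₁ + (X 0 : A k) • κ₂) :=
          eq_neg_of_add_eq_zero_right h0
        rw [h5, neg_add])
      have hzβ : (X 1 : A k) • β ∈ K (n - 1) := by
        have := hK.smul_mem (X_mem_Ad (k := k) 1) hβ
        rwa [sub_add_cancel] at this
      have hzα : (X 1 : A k) • α ∈ K (n - 1) := by
        have := hK.smul_mem (X_mem_Ad (k := k) 1) hα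
        rwa [sub_add_cancel] at this
      set u := κ₂ + (X 1 : A k) • β with hu_def
      have hyu : (X 0 : A k) • u = -κ₁ - (X 1 : A k) • α := by
        have h5 : κ₁ + (X 0 : A k) • κ₂ + (X 1 : A k) • (α + (X 0 : A k) • β) = 0 := by
          rw [← hκ]; exact h0
        rw [hu_def, smul_add, smul_smul, mul_comm (X 0 : A k) (X 1), ← smul_smul]
        rw [smul_add] at h5
        rw [eq_sub_iff_add_eq, eq_neg_iff_add_eq_zero]
        rw [← h5]; abel
      have hu2 : u ∈ K (n - 1 - 1) := by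
        refine hR2 (n - 1) u (add_mem m₂ hzβ) ?_
        rw [hyu]
        exact sub_mem (neg_mem m₁) hzα
      obtain ⟨α', hα', rfl⟩ := hG _ α hα
      obtain ⟨β', hβ', rfl⟩ := hG _ β hβ
      obtain ⟨u', hu', hu''⟩ := hG _ u hu2
      have up : ∀ {f : J → A k}, (∀ j, f j ∈ Ad k (n - 1 - 1 - d j)) → ∀ j,
          f j ∈ Ad k (n - 1 - d j) := fun hf j => Ad_mono (by omega) (hf j)
      have upX : ∀ {f : J → A k} (i : Fin 2), (∀ j, f j ∈ Ad k (n - 1 - 1 - d j)) → ∀ j,
          X i * f j ∈ Ad k (n - 1 - d j) := fun i hf j => by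
        have := X_mul_mem_Ad i (hf j)
        rwa [show n - 1 - 1 - d j + 1 = n - 1 - d j by ring] at this
      have e3 : (fun j => b₃ j - α' j - X 0 * β' j) = 0 := by
        refine ih (n - 1) (by omega) _ (fun j => ?_) ?_
        · exact sub_mem (sub_mem (h₃ j) (up hα' j)) (upX 0 hβ' j)
        · simp only [sub_smul, mul_smul, Finset.sum_sub_distrib, ← Finset.smul_sum]
          rw [← hκ₃, hκ]; abel
      have e2 : (fun j => b₂ j + X 1 * β' j - u' j) = 0 := by
        refine ih (n - 1) (by omega) _ (fun j => ?_) ?_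
        · exact sub_mem (add_mem (h₂ j) (upX 1 hβ' j)) (up hu' j)
        · simp only [sub_smul, add_smul, mul_smul, Finset.sum_sub_distrib, Finset.sum_add_distrib, ← Finset.smul_sum]
          rw [← hκ₂, ← hu'', hu_def]; abel
      have e1 : (fun j => b₁ j + X 1 * α' j + X 0 * u' j) = 0 := by
        refine ih (n - 1) (by omega) _ (fun j => ?_) ?_
        · exact add_mem (add_mem (h₁ j) (upX 1 hα' j)) (upX 0 hu' j)
        · simp only [add_smul, mul_smul, Finset.sum_add_distrib, ← Finset.smul_sum]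
          rw [← hκ₁, ← hu'', hyu]; abel
      funext j
      have f1 := congrFun e1 j
      have f2 := congrFun e2 j
      have f3 := congrFun e3 j
      simp only [Pi.zero_apply] at f1 f2 f3
      rw [hbj j, hr0]
      simp only [Pi.zero_apply, C_0, zero_add]
      linear_combination f1 + X 0 * f2 + X 1 * f3
  obtain ⟨m, hm⟩ : ∃ m : ℕ, n < n₀ + m := ⟨(n - n₀ + 1).toNat, by omega⟩
  exact key m n hm b hb h0

end Gen

/-! ### The relations of an S2 lattice -/

theorem relLat_R2 {l : ℕ} {v : Fin l → V} {c : Fin l → ℤ} (n : ℤ) (a : Fin l → A k)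
    (ha : a ∈ relLat v c n) (hb : (X 0 : A k) • a ∈ relLat v c n) : a ∈ relLat v c (n - 1) := by
  rw [mem_relLat] at ha hb ⊢
  refine ⟨fun i => ?_, ha.2⟩
  have := hb.1 i
  rw [Pi.smul_apply, smul_eq_mul] at this
  refine mem_Ad_of_X_mul 0 ?_
  rwa [show n - 1 - c i + 1 = n - c i by ring]

theorem copForm_X : CopForm 1 1 (X 0 : A k) (X 1) := by
  refine ⟨X_mem_Ad 0, X_mem_Ad 1, X_ne_zero _, X_ne_zero _, ?_, Or.inl (totalDegree_X _)⟩
  rintro π hπ ⟨h0, h1⟩
  have h2 : (X 0 : A k) ∣ π := by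
    obtain ⟨c, hc⟩ := h0
    rcases (X_prime (R := k) (i := (0 : Fin 2))).irreducible.isUnit_or_isUnit hc with h | h
    · exact absurd h hπ.not_isUnit
    · rw [hc]; exact (IsUnit.mul_right_dvd h).2 dvd_rfl
  have h3 := h2.trans h1
  rw [X_dvd_X] at h3
  exact absurd h3 (by decide)

theorem relLat_R3 {E : ℤ → Submodule k V} (h2 : IsS2 E) {l : ℕ}
    (v : Fin l → V) (c : Fin l → ℤ) (hv : ∀ n, E n = genLat v c n)
    (n : ℤ) (a k₀ k₁ : Fin l → A k) (ha : a ∈ relLat v c n) (h₀ : k₀ ∈ relLat v c n)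
    (h₁ : k₁ ∈ relLat v c n) (h : (X 1 : A k) • a = k₀ + (X 0 : A k) • k₁) :
    ∃ α ∈ relLat (k := k) v c (n - 1), ∃ β ∈ relLat (k := k) v c (n - 1),
      a = α + (X 0 : A k) • β := by
  rw [mem_relLat] at ha h₀ h₁
  have hk : ∀ i, ∃ v₀ ∈ Ad k (n - c i - 1), ∃ v₁ ∈ Ad k (n - c i - 1), ∃ q ∈ Ad k (n - c i - 1),
      a i = v₀ + X 0 * v₁ ∧ k₁ i = X 1 * v₁ - q ∧ k₀ i = X 1 * v₀ + X 0 * q := fun i =>
    koszul_coord (ha.1 i) (h₀.1 i) (h₁.1 i) (congrFun h i)
  choose v₀ hv₀ v₁ hv₁ q hq e1 e2 e3 using hk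
  have hE : ∀ {m : ℤ} {f : Fin l → A k}, (∀ i, f i ∈ Ad k (m - c i)) → ∑ i, f i • v i ∈ E m := by
    intro m f hf
    rw [hv m, mem_genLat]
    exact ⟨f, hf, rfl⟩
  have hv₀' : ∀ i, v₀ i ∈ Ad k (n - 1 - c i) := fun i => by
    rw [show n - 1 - c i = n - c i - 1 by ring]; exact hv₀ i
  have hv₁' : ∀ i, v₁ i ∈ Ad k (n - 1 - c i) := fun i => by
    rw [show n - 1 - c i = n - c i - 1 by ring]; exact hv₁ i
  have hq' : ∀ i, q i ∈ Ad k (n - 1 - c i) := fun i => by
    rw [show n - 1 - c i = n - c i - 1 by ring]; exact hq i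
  have s1 : (X 0 : A k) • ∑ i, v₁ i • v i = -∑ i, v₀ i • v i := by
    rw [eq_neg_iff_add_eq_zero, ← ha.2, Finset.smul_sum, ← Finset.sum_add_distrib]
    refine Finset.sum_congr rfl fun i _ => ?_
    rw [e1 i, add_smul, mul_smul, add_comm]
  have s2 : (X 1 : A k) • ∑ i, v₁ i • v i = ∑ i, q i • v i := by
    rw [← sub_eq_zero, ← h₁.2, Finset.smul_sum, ← Finset.sum_sub_distrib]
    refine Finset.sum_congr rfl fun i _ => ?_
    rw [e2 i, sub_smul, mul_smul]
  have hw : ∑ i, v₁ i • v i ∈ E (n - 2) := by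
    refine h2.of_cop copForm_X ?_ ?_
    · rw [s1]
      have := hE hv₀'
      push_cast
      rw [show n - 2 + 1 = n - 1 by ring]
      exact neg_mem this
    · rw [s2]
      have := hE hq'
      push_cast
      rw [show n - 2 + 1 = n - 1 by ring]
      exact this
  rw [hv, mem_genLat] at hw
  obtain ⟨w, hw, hw2⟩ := hw
  have hw1 : ∀ i, w i ∈ Ad k (n - 1 - c i) := fun i => Ad_mono (by omega) (hw i)
  refine ⟨fun i => v₀ i + X 0 * w i, ?_, fun i => v₁ i - w i, ?_, ?_⟩
  · rw [mem_relLat]
    refine ⟨fun i => add_mem (hv₀' i) ?_, ?_⟩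
    · have := X_mul_mem_Ad 0 (hw i)
      rwa [show n - 2 - c i + 1 = n - 1 - c i by ring] at this
    · simp only [add_smul, mul_smul, Finset.sum_add_distrib, ← Finset.smul_sum]
      rw [← hw2, s1]; abel
  · rw [mem_relLat]
    refine ⟨fun i => sub_mem (hv₁' i) (hw1 i), ?_⟩
    simp only [sub_smul, Finset.sum_sub_distrib]
    rw [← hw2, sub_self]
  · funext i
    simp only [Pi.add_apply, Pi.smul_apply, smul_eq_mul]
    rw [e1 i]; ring

variable [Infinite k]

/-- 1.8 resolution: generators `v` in degrees `c`, relations `φ` (a matrix) in degrees `c'`. -/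
theorem IsS2.exists_resolution {E : ℤ → Submodule k V} (hE : IsBLat E) (h2 : IsS2 E) {l : ℕ}
    (v : Fin l → V) (c : Fin l → ℤ) (hv : ∀ n, E n = genLat v c n) :
    ∃ (l' : ℕ) (c' : Fin l' → ℤ) (φ : Fin l → Fin l' → A k),
      (∀ i j, φ i j ∈ Ad k (c' j - c i)) ∧ (∀ j, ∑ i, φ i j • v i = 0) ∧
      (∀ (n : ℤ) (a : Fin l → A k), (∀ i, a i ∈ Ad k (n - c i)) → ∑ i, a i • v i = 0 →
        ∃! b : Fin l' → A k, (∀ j, b j ∈ Ad k (n - c' j)) ∧ ∀ i, a i = ∑ j, φ i j * b j) := by
  have hK : IsBLat (relLat (k := k) v c) := isBLat_relLat v c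
  obtain ⟨J, hJ, p, d, hp, ⟨n₀, hn₀, hd⟩, hg, hu⟩ := exists_min_gen hK
  have hG := gen_of_min hn₀ hg
  have hU := unique_of_koszul hK hp hd hG hu (fun n a => relLat_R2 n a)
    (fun n a k₀ k₁ => relLat_R3 h2 v c hv n a k₀ k₁)
  let e := Fintype.equivFin J
  have hsum : ∀ (b : Fin (Fintype.card J) → A k) (i : Fin l),
      ∑ j, p (e.symm j) i * b j = (∑ j, b (e j) • p j) i := by
    intro b i
    rw [Finset.sum_apply, ← e.symm.sum_comp]
    refine Finset.sum_congr rfl fun j _ => ?_
    rw [Equiv.apply_symm_apply, Pi.smul_apply, smul_eq_mul, mul_comm]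
  refine ⟨Fintype.card J, fun j => d (e.symm j), fun i j => p (e.symm j) i, ?_, ?_, ?_⟩
  · intro i j
    exact (mem_relLat.1 (hp (e.symm j))).1 i
  · intro j
    exact (mem_relLat.1 (hp (e.symm j))).2
  · intro n a ha h0
    obtain ⟨b, hb, hab⟩ := hG n a (mem_relLat.2 ⟨ha, h0⟩)
    refine ⟨fun j => b (e.symm j), ⟨fun j => hb _, fun i => ?_⟩, ?_⟩
    · rw [hsum]
      simp only [Equiv.symm_apply_apply]
      rw [← hab]
    · rintro b' ⟨hb', hab'⟩
      have h3 : (fun j => b' (e j) - b j) = 0 := by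
        refine hU n _ (fun j => ?_) ?_
        · have := hb' (e j)
          simp only [Equiv.symm_apply_apply] at this
          exact sub_mem this (hb j)
        · simp only [sub_smul, Finset.sum_sub_distrib]
          rw [← hab, sub_eq_zero]
          funext i
          rw [← hsum, hab' i]
      funext j
      have := congrFun h3 (e.symm j)
      simp only [Equiv.apply_symm_apply, Pi.zero_apply, sub_eq_zero] at this
      exact this

end Vale.Agent.P190.D
end
end

section

section

/-! Section 1, file B9: the dual lattice. -/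

set_option autoImplicit false
set_option linter.unusedSectionVars false
set_option linter.unusedVariables false

open MvPolynomial Filter

namespace Vale.Agent.P190.D

variable {k : Type} [Field k] {V : Type} [AddCommGroup V] [Module k V] [Module (A k) V]
  [Module (KK k) V] [IsScalarTower k (A k) V] [IsScalarTower (A k) (KK k) V]
  {V' : Type} [AddCommGroup V'] [Module k V'] [Module (A k) V'] [Module (KK k) V']
  [IsScalarTower k (A k) V'] [IsScalarTower (A k) (KK k) V']

variable [Infinite k]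

/-- 1.9 the dual lattice in `Hom_KK(V, KK)` (meaningful when `E` spans `V`) -/
def dualLat (E : ℤ → Submodule k V) (m : ℤ) : Submodule k (V →ₗ[KK k] KK k) where
  carrier := {f | ∀ n, ∀ v ∈ E n, ∃ a ∈ Ad k (n + m), f v = algebraMap (A k) (KK k) a}
  add_mem' := fun {f g} hf hg n v hv => by
    obtain ⟨a, ha, h1⟩ := hf n v hv
    obtain ⟨b, hb, h2⟩ := hg n v hv
    exact ⟨a + b, add_mem ha hb, by rw [LinearMap.add_apply, h1, h2, map_add]⟩
  zero_mem' := fun n v hv => ⟨0, zero_mem _, by simp⟩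
  smul_mem' := fun c f hf n v hv => by
    obtain ⟨a, ha, h1⟩ := hf n v hv
    exact ⟨c • a, Submodule.smul_mem _ _ ha, by
      rw [LinearMap.smul_apply, h1, ← algebraMap_smul (KK k) c (algebraMap (A k) (KK k) a),
        smul_eq_mul, ← algebraMap_smul (A k) c a, smul_eq_mul, map_mul,
        ← IsScalarTower.algebraMap_apply k (A k) (KK k)]⟩

theorem mem_dualLat {E : ℤ → Submodule k V} {m : ℤ} {f : V →ₗ[KK k] KK k} :
    f ∈ dualLat E m ↔ ∀ n, ∀ v ∈ E n, ∃ a ∈ Ad k (n + m), f v = algebraMap (A k) (KK k) a :=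
  Iff.rfl

theorem b9_towerKK : IsScalarTower k (KK k) V := by
  refine ⟨fun a b v => ?_⟩
  rw [← algebraMap_smul (A k) a b, smul_assoc, algebraMap_smul]

theorem exists_basis_of_spanK {E : ℤ → Submodule k V} (hE : IsBLat E) (hs : spanK E = ⊤) :
    ∃ (r : ℕ) (b : Module.Basis (Fin r) (KK k) V) (c : Fin r → ℤ), ∀ i, b i ∈ E (c i) := by
  have : Module.Finite (KK k) (spanK E) := hE.finite_spanK
  rw [hs] at this
  have hfin : Module.Finite (KK k) V := Module.Finite.equiv Submodule.topEquiv
  have hsp : (⊤ : Submodule (KK k) V) ≤ Submodule.span (KK k) (⋃ n, (E n : Set V)) := hs.ge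
  have hsub := Module.Basis.ofSpan_subset hsp
  have b := Module.Basis.ofSpan hsp
  let e := Module.Basis.ofSpan hsp
  have hft : Finite ((linearIndepOn_empty (KK k) (id : V → V)).extend
    (Set.empty_subset (⋃ n, (E n : Set V)))) := Module.Finite.finite_basis e
  have := Fintype.ofFinite ((linearIndepOn_empty (KK k) (id : V → V)).extend
    (Set.empty_subset (⋃ n, (E n : Set V))))
  let b := e.reindex (Fintype.equivFin _)
  have hb : ∀ i, ∃ c, b i ∈ E c := by
    intro i
    have : b i ∈ ⋃ n, (E n : Set V) := by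
      apply hsub
      simp only [b, Module.Basis.reindex_apply]
      exact Set.mem_range_self _
    simpa only [Set.mem_iUnion, SetLike.mem_coe] using this
  choose c hc using hb
  exact ⟨_, b, c, hc⟩

theorem isBLat_dualLat {E : ℤ → Submodule k V} (hE : IsBLat E) (hs : spanK E = ⊤) :
    IsBLat (dualLat E) := by
  obtain ⟨r, b, c, hb⟩ := exists_basis_of_spanK hE hs
  refine (isBLat_genLat (k := k) (V := V →ₗ[KK k] KK k) (fun i => b.coord i)
    (fun i => - c i)).of_le (fun m f hf => ?_) ?_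
  · have : ∀ i, ∃ a ∈ Ad k (c i + m), f (b i) = algebraMap (A k) (KK k) a :=
      fun i => hf _ _ (hb i)
    choose a ha hfa using this
    refine mem_genLat.2 ⟨a, fun i => ?_, ?_⟩
    · have := ha i
      rwa [show m - - c i = c i + m by ring]
    · refine b.ext fun j => ?_
      rw [hfa j, LinearMap.sum_apply, Finset.sum_eq_single j]
      · simp [Algebra.smul_def]
      · intro i _ hij
        simp only [LinearMap.smul_apply, Module.Basis.coord_apply, Module.Basis.repr_self, Finsupp.single_eq_of_ne hij, smul_zero]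
      · simp only [Finset.mem_univ, not_true_eq_false, LinearMap.smul_apply, Module.Basis.coord_apply, Module.Basis.repr_self, Finsupp.single_eq_same, smul_eq_zero, one_ne_zero, or_false, IsEmpty.forall_iff]
  · intro i n a f ha hf m v hv
    obtain ⟨a', ha', h⟩ := hf m v hv
    refine ⟨a * a', ?_, ?_⟩
    · have := Ad_mul ha ha'
      rwa [show m + (n + i) = i + (m + n) by ring]
    · rw [LinearMap.smul_apply, h, map_mul, Algebra.smul_def]

theorem isS2_dualLat {E : ℤ → Submodule k V} (hE : IsBLat E) (hs : spanK E = ⊤) :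
    IsS2 (dualLat E) := by
  intro m f hf n v hv
  have hli : LinearIndependent (A k) (fun _ : Fin 1 => (1 : KK k)) := by
    rw [linearIndependent_unique_iff]
    exact one_ne_zero
  have key := isS2_genLat (k := k) hli (fun _ => (0 : ℤ)) (n + m) (f v) ?_
  · obtain ⟨a, ha, h⟩ := mem_genLat.1 key
    refine ⟨a 0, by simpa using ha 0, ?_⟩
    rw [h]
    simp only [Finset.univ_unique, Fin.default_eq_zero, Fin.isValue, Algebra.smul_def, mul_one, Finset.sum_singleton]
  · obtain ⟨h1, d, hd, h2⟩ := hf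
    have aux : ∀ (j : ℤ) (d : A k), d • f ∈ dualLat E (m + j) →
        d • f v ∈ genLat (k := k) (fun _ : Fin 1 => (1 : KK k)) (fun _ => (0 : ℤ)) (n + m + j) := by
      intro j d h
      obtain ⟨a, ha, h'⟩ := h n v hv
      refine mem_genLat.2 ⟨fun _ => a, fun _ => ?_, ?_⟩
      · rwa [sub_zero, add_assoc]
      · simp only [Finset.univ_unique, Finset.sum_singleton]
        rw [← LinearMap.smul_apply, h', Algebra.smul_def, mul_one]
    refine ⟨fun π hπ => ?_, d, hd, aux _ _ h2⟩
    obtain ⟨i, c, hc, hπc, h3⟩ := h1 π hπ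
    exact ⟨i, c, hc, hπc, aux _ _ h3⟩



/-- common gcd extraction -/
theorem b9_exists_gcd {l : ℕ} (a : Fin l → A k) (ha : ∃ i, a i ≠ 0) :
    ∃ (g : A k) (b : Fin l → A k), g ≠ 0 ∧ (∀ i, a i = g * b i) ∧
      ∀ π : A k, Irreducible π → ∃ i, ¬ π ∣ b i := by
  classical
  let _ : StrongNormalizationMonoid (A k) :=
    UniqueFactorizationMonoid.strongNormalizationMonoid
  let _ : NormalizedGCDMonoid (A k) := UniqueFactorizationMonoid.toNormalizedGCDMonoid (A k)
  obtain ⟨i₀, hi₀⟩ := ha
  obtain ⟨b, hb, hg⟩ := Finset.extract_gcd (s := Finset.univ) a ⟨i₀, Finset.mem_univ _⟩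
  refine ⟨Finset.univ.gcd a, b, ?_, fun i => hb i (Finset.mem_univ _), fun π hπ => ?_⟩
  · intro h0
    rw [Finset.gcd_eq_zero_iff] at h0
    exact hi₀ (h0 _ (Finset.mem_univ _))
  · by_contra hcon
    push Not at hcon
    have : π ∣ Finset.univ.gcd b := Finset.dvd_gcd fun i _ => hcon i
    rw [hg] at this
    exact hπ.not_dvd_one this

theorem b9_locIn_one {n : ℤ} {x : KK k}
    (h1 : ∀ π : A k, Irreducible π → ∃ i : ℤ, ∃ c ∈ Ad k i, ¬ π ∣ c ∧
      ∃ a ∈ Ad k (n + i), c • x = algebraMap (A k) (KK k) a)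
    (h2 : ∃ c : A k, c ≠ 0 ∧ ∃ a ∈ Ad k (n + c.totalDegree),
      c • x = algebraMap (A k) (KK k) a) :
    ∃ a ∈ Ad k n, x = algebraMap (A k) (KK k) a := by
  have hli : LinearIndependent (A k) (fun _ : Fin 1 => (1 : KK k)) := by
    rw [linearIndependent_unique_iff]
    exact one_ne_zero
  have aux : ∀ (m : ℤ) (y : KK k), (∃ a ∈ Ad k m, y = algebraMap (A k) (KK k) a) ↔
      y ∈ genLat (k := k) (fun _ : Fin 1 => (1 : KK k)) (fun _ => (0 : ℤ)) m := by
    intro m y
    rw [mem_genLat]
    constructor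
    · rintro ⟨a, ha, rfl⟩
      exact ⟨fun _ => a, fun _ => by rwa [sub_zero], by simp only [Finset.univ_unique, Fin.default_eq_zero, Fin.isValue, Algebra.smul_def, mul_one, Finset.sum_const, Finset.card_singleton, one_smul]⟩
    · rintro ⟨a, ha, rfl⟩
      exact ⟨a 0, by simpa using ha 0, by simp only [Finset.univ_unique, Fin.default_eq_zero, Fin.isValue, Algebra.smul_def, mul_one, Finset.sum_singleton]⟩
  rw [aux]
  refine isS2_genLat (k := k) hli (fun _ => (0 : ℤ)) n x ⟨fun π hπ => ?_, ?_⟩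
  · obtain ⟨i, c, hc, hπc, h⟩ := h1 π hπ
    exact ⟨i, c, hc, hπc, (aux _ _).1 h⟩
  · obtain ⟨c, hc, h⟩ := h2
    exact ⟨c, hc, (aux _ _).1 h⟩

/-- a rank one lattice contained in `x • A` shifted by `a` has `e ≤ a` -/
theorem b9_e_le_of_scaled {E : ℤ → Submodule k (KK k)} (hE : IsBLat E) {e g : ℤ}
    (h : HasHilb E 1 e g) (x : KK k) (hx : x ≠ 0) (a : ℤ)
    (hle : ∀ n, ∀ v ∈ E n, ∃ b ∈ Ad k (n + a), x * v = algebraMap (A k) (KK k) b) : e ≤ a := by
  let f : KK k →ₗ[A k] (Unit → KK k) :=
    LinearMap.pi fun _ => LinearMap.mulLeft (A k) x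
  have hf : Function.Injective f := by
    intro u v huv
    have := congrFun huv ()
    simp only [f, LinearMap.pi_apply, LinearMap.mulLeft_apply] at this
    exact mul_left_cancel₀ hx this
  have hm := h.map_injective f hf
  have := hm.e_nonpos (hE.map f) a (fun n v hv i => ?_)
  · simpa only [ge_iff_le, mul_one] using this
  · obtain ⟨w, hw, rfl⟩ := hv
    obtain ⟨b, hb, h⟩ := hle n w hw
    exact ⟨b, hb, h⟩

/-- rank one duality inequality -/
theorem b9_pair_le_one {E G : ℤ → Submodule k (KK k)} (hE : IsBLat E) (hG : IsBLat G)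
    (hp : ∀ n m, ∀ v ∈ E n, ∀ w ∈ G m, ∃ a ∈ Ad k (n + m), v * w = algebraMap (A k) (KK k) a)
    {e g e' g' : ℤ} (h : HasHilb E 1 e g) (h' : HasHilb G 1 e' g') : e + e' ≤ 0 := by
  classical
  obtain ⟨l, v, c, hvc, hgen⟩ := hE.exists_gen
  obtain ⟨D, hD⟩ := IsLocalization.exist_integer_multiples_of_finite
    (nonZeroDivisors (A k)) v
  choose a ha using hD
  have hD0 : (D : A k) ≠ 0 := nonZeroDivisors.coe_ne_zero D
  have hD0' : algebraMap (A k) (KK k) D ≠ 0 := by
    rwa [Ne, FaithfulSMul.algebraMap_eq_zero_iff]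
  have hav : ∀ i, algebraMap (A k) (KK k) (a i) = algebraMap (A k) (KK k) D * v i := by
    intro i
    rw [ha i, Algebra.smul_def]
  have hne : ∃ i, a i ≠ 0 := by
    by_contra hcon
    push Not at hcon
    have hv0 : ∀ i, v i = 0 := by
      intro i
      have := hav i
      rw [hcon i, map_zero] at this
      exact (mul_eq_zero.1 this.symm).resolve_left hD0'
    have hbot : ∀ n, E n = ⊥ := by
      intro n
      rw [eq_bot_iff, hgen n]
      intro x hx
      obtain ⟨b, hb, rfl⟩ := mem_genLat.1 hx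
      simp [hv0]
    have h0 : HasHilb E 0 0 0 := by
      refine Filter.Eventually.of_forall fun n => ?_
      rw [hbot n]
      simp only [finrank_bot, CharP.cast_eq_zero, P190.D.hp, Int.cast_zero, zero_mul, add_zero]
    have := h.unique h0
    omega
  obtain ⟨γ, b, hγ, hab, hb⟩ := b9_exists_gcd a hne
  have hγ' : algebraMap (A k) (KK k) γ ≠ 0 := by
    rwa [Ne, FaithfulSMul.algebraMap_eq_zero_iff]
  -- `v i = x₀ * b i`
  set x₀ : KK k := algebraMap (A k) (KK k) γ / algebraMap (A k) (KK k) D with hx₀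
  have hx₀ne : x₀ ≠ 0 := div_ne_zero hγ' hD0'
  have hvb : ∀ i, v i = x₀ * algebraMap (A k) (KK k) (b i) := by
    intro i
    have := hav i
    rw [hab i, map_mul] at this
    rw [hx₀, div_mul_eq_mul_div, this, mul_div_cancel_left₀ _ hD0']
  -- the maximal degree
  have hbne : ∃ i, b i ≠ 0 := by
    obtain ⟨i, hi⟩ := hne
    exact ⟨i, fun h0 => hi (by rw [hab i, h0, mul_zero])⟩
  obtain ⟨i₁, hi₁, hmax⟩ := Finset.exists_max_image
    (Finset.univ.filter fun i => b i ≠ 0) (fun i => ((b i).totalDegree : ℤ) - c i)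
    (by
      obtain ⟨i, hi⟩ := hbne
      exact ⟨i, by simp only [ne_eq, Finset.mem_filter, Finset.mem_univ, hi, not_false_eq_true, and_self]⟩)
  have hi₁' : b i₁ ≠ 0 := by simpa only [ne_eq, Finset.mem_filter, Finset.mem_univ, true_and] using hi₁
  set α : ℤ := ((b i₁).totalDegree : ℤ) - c i₁ with hα
  have hbdeg : ∀ i, b i ∈ Ad k (c i + α) := by
    intro i
    rw [mem_Ad]
    by_cases h0 : b i = 0
    · exact Or.inl h0
    · right
      have := hmax i (by simp only [ne_eq, Finset.mem_filter, Finset.mem_univ, h0, not_false_eq_true, and_self])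
      omega
  have h1 : e ≤ α := by
    refine b9_e_le_of_scaled hE h x₀⁻¹ (inv_ne_zero hx₀ne) α fun n w hw => ?_
    rw [hgen n] at hw
    obtain ⟨r, hr, rfl⟩ := mem_genLat.1 hw
    refine ⟨∑ i, r i * b i, ?_, ?_⟩
    · refine Submodule.sum_mem _ fun i _ => ?_
      have := Ad_mul (hr i) (hbdeg i)
      rwa [show n - c i + (c i + α) = n + α by ring] at this
    · rw [Finset.mul_sum, map_sum]
      refine Finset.sum_congr rfl fun i _ => ?_
      rw [Algebra.smul_def, hvb i, map_mul]
      (clear * - hx₀ne; field_simp)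
  have h2 : e' ≤ -α := by
    refine b9_e_le_of_scaled hG h' x₀ hx₀ne (-α) fun n w hw => ?_
    refine b9_locIn_one (fun π hπ => ?_) ?_
    · obtain ⟨i, hi⟩ := hb π hπ
      obtain ⟨s, hs, hs'⟩ := hp _ _ _ (hvc i) w hw
      refine ⟨c i + α, b i, hbdeg i, hi, s, ?_, ?_⟩
      · rwa [show n + -α + (c i + α) = c i + n by ring]
      · rw [← hs', hvb i, Algebra.smul_def]
        ring
    · obtain ⟨s, hs, hs'⟩ := hp _ _ _ (hvc i₁) w hw
      refine ⟨b i₁, hi₁', s, ?_, ?_⟩
      · rwa [show n + -α + ((b i₁).totalDegree : ℤ) = c i₁ + n by omega]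
      · rw [← hs', hvb i₁, Algebra.smul_def]
        ring
  omega


/-- restriction of a lattice along a map that is injective on it preserves Hilbert polynomials -/
theorem HasHilb.b9_map_of_inj {V₁ V₂ : Type} [AddCommGroup V₁] [Module k V₁] [Module (A k) V₁]
    [IsScalarTower k (A k) V₁] [AddCommGroup V₂] [Module k V₂] [Module (A k) V₂]
    [IsScalarTower k (A k) V₂] {E : ℤ → Submodule k V₁} (hE : IsBLat E) {N e g : ℤ}
    (h : HasHilb E N e g) (f : V₁ →ₗ[A k] V₂) (hf : ∀ n, ∀ v ∈ E n, f v = 0 → v = 0) :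
    HasHilb (mapLat f E) N e g := by
  refine Filter.Eventually.mono h fun n hn => ?_
  rw [← hn, ← finrank_inter_add_map hE f n]
  have : interLat E (LinearMap.ker f) n = ⊥ := by
    rw [eq_bot_iff]
    rintro v ⟨hv, hv'⟩
    exact hf n v hv hv'
  rw [this]
  simp

theorem b9_pair_le : ∀ (r : ℕ) {E G : ℤ → Submodule k (Fin r → KK k)} (_ : IsBLat E)
    (_ : IsBLat G)
    (_ : ∀ n m, ∀ v ∈ E n, ∀ w ∈ G m, ∃ a ∈ Ad k (n + m),
      ∑ i, v i * w i = algebraMap (A k) (KK k) a)
    {e g e' g' : ℤ} (_ : HasHilb E r e g) (_ : HasHilb G r e' g'), e + e' ≤ 0 := by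
  intro r
  induction r with
  | zero =>
    intro E G hE hG hp e g e' g' h h'
    have h1 := HasHilb.eq_bot hE (by simpa using h)
    have h2 := HasHilb.eq_bot hG (by simpa using h')
    omega
  | succ r ih =>
    intro E G hE hG hp e g e' g' h h'
    let p0 : (Fin (r + 1) → KK k) →ₗ[A k] KK k := LinearMap.proj 0
    let tl : (Fin (r + 1) → KK k) →ₗ[A k] (Fin r → KK k) :=
      LinearMap.funLeft (A k) (KK k) Fin.succ
    have htl0 : ∀ v : Fin (r + 1) → KK k, p0 v = 0 → tl v = 0 → v = 0 := by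
      intro v h1 h2
      funext i
      refine Fin.cases h1 (fun j => ?_) i
      exact congrFun h2 j
    have hE0 : IsBLat (interLat E (LinearMap.ker p0)) := hE.inter _
    have hG0 : IsBLat (interLat G (LinearMap.ker tl)) := hG.inter _
    obtain ⟨N1, e1, g1, h1⟩ := (hE.map p0).exists_hilb
    obtain ⟨N2, e2, g2, h2⟩ := hE0.exists_hilb
    obtain ⟨M1, f1, k1, m1⟩ := hG0.exists_hilb
    obtain ⟨M2, f2, k2, m2⟩ := (hG.map tl).exists_hilb
    obtain ⟨hN, he, -⟩ := HasHilb.add hE p0 h h2 h1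
    obtain ⟨hM, he', -⟩ := HasHilb.add hG tl h' m1 m2
    have h2' : HasHilb (mapLat tl (interLat E (LinearMap.ker p0))) N2 e2 g2 :=
      h2.b9_map_of_inj hE0 tl fun n v hv hv0 => htl0 v hv.2 hv0
    have m1' : HasHilb (mapLat p0 (interLat G (LinearMap.ker tl))) M1 f1 k1 :=
      m1.b9_map_of_inj hG0 p0 fun n v hv hv0 => htl0 v hv0 hv.2
    have r1 : N1 ≤ 1 := by
      rw [h1.N_eq (hE.map p0)]
      have := Submodule.finrank_le (spanK (mapLat p0 E))
      rw [Module.finrank_self] at this
      exact_mod_cast this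
    have r2 : N2 ≤ r := by
      rw [h2'.N_eq (hE0.map tl)]
      have := Submodule.finrank_le (spanK (mapLat tl (interLat E (LinearMap.ker p0))))
      rw [Module.finrank_fin_fun] at this
      exact_mod_cast this
    have s1 : M1 ≤ 1 := by
      rw [m1'.N_eq (hG0.map p0)]
      have := Submodule.finrank_le (spanK (mapLat p0 (interLat G (LinearMap.ker tl))))
      rw [Module.finrank_self] at this
      exact_mod_cast this
    have s2 : M2 ≤ r := by
      rw [m2.N_eq (hG.map tl)]
      have := Submodule.finrank_le (spanK (mapLat tl G))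
      rw [Module.finrank_fin_fun] at this
      exact_mod_cast this
    push_cast at hN hM
    have e1' : N1 = 1 := by omega
    have e2' : N2 = r := by omega
    have e3' : M1 = 1 := by omega
    have e4' : M2 = r := by omega
    rw [e1'] at h1
    rw [e2'] at h2'
    rw [e3'] at m1'
    rw [e4'] at m2
    have a1 : e1 + f1 ≤ 0 := by
      refine b9_pair_le_one (hE.map p0) (hG0.map p0) ?_ h1 m1'
      rintro n m _ ⟨v, hv, rfl⟩ _ ⟨w, ⟨hw, hw'⟩, rfl⟩
      obtain ⟨a, ha, hs⟩ := hp n m v hv w hw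
      refine ⟨a, ha, ?_⟩
      rw [← hs, Fin.sum_univ_succ]
      have : ∀ i : Fin r, w i.succ = 0 := fun i => congrFun hw' i
      simp [this, p0]
    have a2 : e2 + f2 ≤ 0 := by
      refine ih (hE0.map tl) (hG.map tl) ?_ h2' m2
      rintro n m _ ⟨v, ⟨hv, hv'⟩, rfl⟩ _ ⟨w, hw, rfl⟩
      obtain ⟨a, ha, hs⟩ := hp n m v hv w hw
      refine ⟨a, ha, ?_⟩
      rw [← hs, Fin.sum_univ_succ]
      have : v 0 = 0 := hv'
      simp only [LinearMap.coe_restrictScalars, LinearMap.funLeft_apply, this, zero_mul, zero_add, tl]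
    omega

/-- homogeneous vectors as a map -/
noncomputable def b9Gen {l : ℕ} (v : Fin l → V) (c : Fin l → ℤ) (n : ℤ) :
    ((i : Fin l) → Ad k (n - c i)) →ₗ[k] V where
  toFun a := ∑ i, (a i : A k) • v i
  map_add' a b := by
    simp [add_smul, Finset.sum_add_distrib]
  map_smul' r a := by
    simp [Finset.smul_sum]

theorem range_b9Gen {l : ℕ} (v : Fin l → V) (c : Fin l → ℤ) (n : ℤ) :
    LinearMap.range (b9Gen v c n) = genLat (k := k) v c n := by
  ext x
  rw [mem_genLat]
  constructor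
  · rintro ⟨a, rfl⟩
    exact ⟨fun i => a i, fun i => (a i).2, rfl⟩
  · rintro ⟨a, ha, rfl⟩
    exact ⟨fun i => ⟨a i, ha i⟩, rfl⟩

/-- the relation matrix as a map -/
noncomputable def b9Rel {l l' : ℕ} (c : Fin l → ℤ) (c' : Fin l' → ℤ)
    (φ : Fin l → Fin l' → A k) (hφ : ∀ i j, φ i j ∈ Ad k (c' j - c i)) (n : ℤ) :
    ((j : Fin l') → Ad k (n - c' j)) →ₗ[k] ((i : Fin l) → Ad k (n - c i)) where
  toFun b i := ⟨∑ j, φ i j * (b j : A k), Submodule.sum_mem _ fun j _ => by
    have := Ad_mul (hφ i j) (b j).2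
    rwa [show c' j - c i + (n - c' j) = n - c i by ring] at this⟩
  map_add' a b := by
    funext i
    ext1
    simp [mul_add, Finset.sum_add_distrib]
  map_smul' r a := by
    funext i
    ext1
    simp [Finset.smul_sum]

theorem b9_finrank_of_resolution {l l' : ℕ} (v : Fin l → V) (c : Fin l → ℤ)
    (c' : Fin l' → ℤ) (φ : Fin l → Fin l' → A k) (hφ : ∀ i j, φ i j ∈ Ad k (c' j - c i))
    (hφv : ∀ j, ∑ i, φ i j • v i = 0)
    (hex : ∀ (n : ℤ) (a : Fin l → A k), (∀ i, a i ∈ Ad k (n - c i)) → ∑ i, a i • v i = 0 →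
        ∃! b : Fin l' → A k, (∀ j, b j ∈ Ad k (n - c' j)) ∧ ∀ i, a i = ∑ j, φ i j * b j)
    (n : ℤ) :
    Module.finrank k (genLat (k := k) v c n) + ∑ j, Module.finrank k (Ad k (n - c' j)) =
      ∑ i, Module.finrank k (Ad k (n - c i)) := by
  have hinj : Function.Injective (b9Rel c c' φ hφ n) := by
    intro b b' hbb
    have h0 : ∀ i, ∑ j, φ i j * (b j : A k) ∈ Ad k (n - c i) :=
      fun i => (b9Rel c c' φ hφ n b i).2
    have hb0 : ∑ i, (∑ j, φ i j * (b j : A k)) • v i = 0 := by
      simp only [Finset.sum_smul]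
      rw [Finset.sum_comm]
      refine Finset.sum_eq_zero fun j _ => ?_
      rw [← smul_zero (b j : A k), ← hφv j, Finset.smul_sum]
      refine Finset.sum_congr rfl fun i _ => ?_
      rw [mul_comm, mul_smul]
    obtain ⟨β, -, hβ⟩ := hex n (fun i => ∑ j, φ i j * (b j : A k)) h0 hb0
    have e1 := hβ (fun j => b j) ⟨fun j => (b j).2, fun i => rfl⟩
    have e2 := hβ (fun j => b' j) ⟨fun j => (b' j).2, fun i => ?_⟩
    · funext j
      ext1
      exact congrFun (e1.trans e2.symm) j
    · have := congrArg (fun x => (x i : A k)) hbb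
      exact this
  have hker : LinearMap.ker (b9Gen v c n) = LinearMap.range (b9Rel c c' φ hφ n) := by
    ext a
    constructor
    · intro ha
      obtain ⟨b, ⟨hb, hb'⟩, -⟩ := hex n (fun i => a i) (fun i => (a i).2) ha
      refine ⟨fun j => ⟨b j, hb j⟩, ?_⟩
      funext i
      ext1
      exact (hb' i).symm
    · rintro ⟨b, rfl⟩
      change ∑ i, (∑ j, φ i j * (b j : A k)) • v i = 0
      simp only [Finset.sum_smul]
      rw [Finset.sum_comm]
      refine Finset.sum_eq_zero fun j _ => ?_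
      rw [← smul_zero (b j : A k), ← hφv j, Finset.smul_sum]
      refine Finset.sum_congr rfl fun i _ => ?_
      rw [mul_comm, mul_smul]
  have h1 := LinearMap.finrank_range_add_finrank_ker (b9Gen (k := k) v c n)
  rw [range_b9Gen, hker, LinearMap.finrank_range_of_inj hinj, Module.finrank_pi_fintype,
    Module.finrank_pi_fintype] at h1
  exact h1

/-- functionals from solutions of the dual equations -/
theorem b9_exists_functional {l l' : ℕ} (v : Fin l → V) (c : Fin l → ℤ)
    (hspan : Submodule.span (KK k) (Set.range v) = ⊤)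
    (c' : Fin l' → ℤ) (φ : Fin l → Fin l' → A k)
    (hex : ∀ (n : ℤ) (a : Fin l → A k), (∀ i, a i ∈ Ad k (n - c i)) → ∑ i, a i • v i = 0 →
        ∃! b : Fin l' → A k, (∀ j, b j ∈ Ad k (n - c' j)) ∧ ∀ i, a i = ∑ j, φ i j * b j)
    (a : Fin l → A k) (ha : ∀ j, ∑ i, φ i j * a i = 0) :
    ∃ f : V →ₗ[KK k] KK k, ∀ i, f (v i) = algebraMap (A k) (KK k) (a i) := by
  classical
  let T : (Fin l → KK k) →ₗ[KK k] V := Fintype.linearCombination (KK k) v
  let T2 : (Fin l → KK k) →ₗ[KK k] KK k :=
    Fintype.linearCombination (KK k) fun i => algebraMap (A k) (KK k) (a i)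
  have hT : Function.Surjective T := by
    rw [← LinearMap.range_eq_top, ← hspan]
    exact Fintype.range_linearCombination (KK k) v
  have hker : ∀ x, T x = 0 → T2 x = 0 := by
    intro x hx
    obtain ⟨D, hD⟩ := IsLocalization.exist_integer_multiples_of_finite
      (nonZeroDivisors (A k)) x
    choose d hd using hD
    have hD0 : (D : A k) ≠ 0 := nonZeroDivisors.coe_ne_zero D
    have hD0' : algebraMap (A k) (KK k) D ≠ 0 := by
      rwa [Ne, FaithfulSMul.algebraMap_eq_zero_iff]
    have hdx : ∀ i, algebraMap (A k) (KK k) (d i) = algebraMap (A k) (KK k) D * x i := by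
      intro i
      rw [hd i, Algebra.smul_def]
    have hdv : ∑ i, d i • v i = 0 := by
      have : ∑ i, d i • v i = algebraMap (A k) (KK k) D • T x := by
        rw [Fintype.linearCombination_apply, Finset.smul_sum]
        refine Finset.sum_congr rfl fun i _ => ?_
        rw [smul_smul, ← hdx i, algebraMap_smul]
      rw [this, hx, smul_zero]
    let n : ℤ := ∑ i, (((d i).totalDegree : ℤ) + |c i|)
    have hn : ∀ i, d i ∈ Ad k (n - c i) := by
      intro i
      rw [mem_Ad]
      right
      have : ((d i).totalDegree : ℤ) + |c i| ≤ n :=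
        Finset.single_le_sum (f := fun i => ((d i).totalDegree : ℤ) + |c i|)
          (fun j _ => by (clear * -; positivity)) (Finset.mem_univ i)
      have := le_abs_self (c i)
      omega
    obtain ⟨b, ⟨-, hb⟩, -⟩ := hex n d hn hdv
    have : algebraMap (A k) (KK k) D * T2 x = 0 := by
      rw [Fintype.linearCombination_apply, Finset.mul_sum]
      have : ∀ i, algebraMap (A k) (KK k) D * (x i • algebraMap (A k) (KK k) (a i)) =
          algebraMap (A k) (KK k) (d i * a i) := by
        intro i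
        rw [map_mul, hdx i, smul_eq_mul]
        ring
      rw [Finset.sum_congr rfl fun i _ => this i, ← map_sum]
      have : ∑ i, d i * a i = 0 := by
        have : ∀ i, d i * a i = ∑ j, b j * (φ i j * a i) := by
          intro i
          rw [hb i, Finset.sum_mul]
          refine Finset.sum_congr rfl fun j _ => ?_
          ring
        rw [Finset.sum_congr rfl fun i _ => this i, Finset.sum_comm]
        refine Finset.sum_eq_zero fun j _ => ?_
        rw [← Finset.mul_sum, ha j, mul_zero]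
      rw [this, map_zero]
    exact (mul_eq_zero.1 this).resolve_left hD0'
  obtain ⟨s, hs⟩ := T.exists_rightInverse_of_surjective (LinearMap.range_eq_top.2 hT)
  refine ⟨T2.comp s, fun i => ?_⟩
  have h1 : T (s (v i) - Pi.single i 1) = 0 := by
    rw [map_sub]
    have : T (s (v i)) = v i := LinearMap.congr_fun hs (v i)
    rw [this]
    simp only [Fintype.linearCombination_apply, Pi.single_apply, ite_smul, one_smul, zero_smul, Finset.sum_ite_eq', Finset.mem_univ, ↓reduceIte, sub_self, T]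
  have h2 := hker _ h1
  rw [map_sub, sub_eq_zero] at h2
  rw [LinearMap.comp_apply, h2]
  simp only [Fintype.linearCombination_apply, Pi.single_apply, smul_eq_mul, ite_mul, one_mul, zero_mul, Finset.sum_ite_eq', Finset.mem_univ, ↓reduceIte, T2]

theorem b9_span_range {E : ℤ → Submodule k V} (hs : spanK E = ⊤) {l : ℕ}
    (v : Fin l → V) (c : Fin l → ℤ) (hv : ∀ n, E n = genLat v c n) :
    Submodule.span (KK k) (Set.range v) = ⊤ := by
  rw [eq_top_iff, ← hs]
  refine Submodule.span_le.2 ?_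
  intro x hx
  obtain ⟨n, hn⟩ := Set.mem_iUnion.1 hx
  rw [hv n] at hn
  obtain ⟨a, -, rfl⟩ := mem_genLat.1 hn
  refine Submodule.sum_mem _ fun i _ => ?_
  rw [← algebraMap_smul (KK k) (a i) (v i)]
  exact Submodule.smul_mem _ _ (Submodule.subset_span ⟨i, rfl⟩)

/-- the dual relation matrix as a map -/
noncomputable def b9Drel {l l' : ℕ} (c : Fin l → ℤ) (c' : Fin l' → ℤ)
    (φ : Fin l → Fin l' → A k) (hφ : ∀ i j, φ i j ∈ Ad k (c' j - c i)) (m : ℤ) :
    ((i : Fin l) → Ad k (m + c i)) →ₗ[k] ((j : Fin l') → Ad k (m + c' j)) where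
  toFun a j := ⟨∑ i, φ i j * (a i : A k), Submodule.sum_mem _ fun i _ => by
    have := Ad_mul (hφ i j) (a i).2
    rwa [show c' j - c i + (m + c i) = m + c' j by ring] at this⟩
  map_add' a b := by
    funext i
    ext1
    simp [mul_add, Finset.sum_add_distrib]
  map_smul' r a := by
    funext i
    ext1
    simp [Finset.smul_sum]

theorem b9_le_finrank_dual {E : ℤ → Submodule k V} (hE : IsBLat E) (hs : spanK E = ⊤) {l l' : ℕ}
    (v : Fin l → V) (c : Fin l → ℤ) (hv : ∀ n, E n = genLat v c n)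
    (c' : Fin l' → ℤ) (φ : Fin l → Fin l' → A k) (hφ : ∀ i j, φ i j ∈ Ad k (c' j - c i))
    (hex : ∀ (n : ℤ) (a : Fin l → A k), (∀ i, a i ∈ Ad k (n - c i)) → ∑ i, a i • v i = 0 →
        ∃! b : Fin l' → A k, (∀ j, b j ∈ Ad k (n - c' j)) ∧ ∀ i, a i = ∑ j, φ i j * b j)
    (m : ℤ) :
    ∑ i, Module.finrank k (Ad k (m + c i)) ≤
      Module.finrank k (dualLat E m) + ∑ j, Module.finrank k (Ad k (m + c' j)) := by
  have hspan := b9_span_range hs v c hv
  have h1 := LinearMap.finrank_range_add_finrank_ker (b9Drel c c' φ hφ m)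
  have h2 : Module.finrank k (LinearMap.range (b9Drel c c' φ hφ m)) ≤
      ∑ j, Module.finrank k (Ad k (m + c' j)) := by
    rw [← Module.finrank_pi_fintype]
    exact Submodule.finrank_le _
  have h3 : Module.finrank k (LinearMap.ker (b9Drel c c' φ hφ m)) ≤
      Module.finrank k (dualLat E m) := by
    have hfin : Module.Finite k (dualLat E m) := (isBLat_dualLat hE hs).fin m
    have key : ∀ a : LinearMap.ker (b9Drel c c' φ hφ m), ∃ f : dualLat E m,
        ∀ i, (f : V →ₗ[KK k] KK k) (v i) = algebraMap (A k) (KK k) (a.1 i) := by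
      rintro ⟨a, ha⟩
      obtain ⟨f, hf⟩ := b9_exists_functional v c hspan c' φ hex (fun i => a i) (fun j => by
        have := congrFun (LinearMap.mem_ker.1 ha) j
        exact congrArg Subtype.val this)
      refine ⟨⟨f, ?_⟩, hf⟩
      intro n x hx
      rw [hv n] at hx
      obtain ⟨b, hb, rfl⟩ := mem_genLat.1 hx
      refine ⟨∑ i, b i * a i, Submodule.sum_mem _ fun i _ => ?_, ?_⟩
      · have := Ad_mul (hb i) (a i).2
        rwa [show n - c i + (m + c i) = n + m by ring] at this
      · rw [map_sum, map_sum]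
        refine Finset.sum_congr rfl fun i _ => ?_
        rw [← algebraMap_smul (KK k) (b i) (v i), map_smul, hf i, map_mul, smul_eq_mul]
    choose F hF using key
    have hext : ∀ f f' : dualLat E m, (∀ i, (f : V →ₗ[KK k] KK k) (v i) =
        (f' : V →ₗ[KK k] KK k) (v i)) → f = f' := by
      intro f f' h
      ext1
      exact LinearMap.ext_on_range hspan h
    let Fl : LinearMap.ker (b9Drel c c' φ hφ m) →ₗ[k] dualLat E m :=
      { toFun := F
        map_add' := fun a b => hext _ _ fun i => by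
          rw [hF]
          simp only [Submodule.coe_add, Pi.add_apply, map_add, LinearMap.add_apply, hF]
        map_smul' := fun r a => hext _ _ fun i => by
          rw [hF]
          simp only [RingHom.id_apply, Submodule.coe_smul, Pi.smul_apply, LinearMap.smul_apply]
          rw [hF, ← algebraMap_smul (KK k) r (algebraMap (A k) (KK k) _), smul_eq_mul,
            ← algebraMap_smul (A k) r (a.1 i : A k), smul_eq_mul, map_mul,
            ← IsScalarTower.algebraMap_apply k (A k) (KK k)] }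
    refine LinearMap.finrank_le_finrank_of_injective (f := Fl) ?_
    intro a b hab
    ext1
    funext i
    ext1
    have h4 : (Fl a : V →ₗ[KK k] KK k) (v i) = (Fl b : V →ₗ[KK k] KK k) (v i) := by rw [hab]
    change (F a : V →ₗ[KK k] KK k) (v i) = (F b : V →ₗ[KK k] KK k) (v i) at h4
    rw [hF, hF] at h4
    exact (FaithfulSMul.algebraMap_injective (A k) (KK k)) h4
  rw [Module.finrank_pi_fintype] at h1
  (clear * - hφ h1 h2 h3; omega)

/-- the sum of shifted Hilbert polynomials -/
theorem b9_sum_hp_shift {l : ℕ} (c : Fin l → ℤ) (n : ℚ) :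
    ∑ i, hp 1 0 0 (n - c i) =
      hp l (-∑ i, c i) (∑ i, c i * (c i - 1) / 2) n := by
  have h2 : ∀ i, ((c i * (c i - 1) / 2 : ℤ) : ℚ) = (c i : ℚ) * (c i - 1) / 2 := by
    intro i
    have hdvd : (2 : ℤ) ∣ c i * (c i - 1) := by
      rcases Int.even_or_odd (c i) with h | h
      · exact (even_iff_two_dvd.1 h).mul_right _
      · exact (even_iff_two_dvd.1 (h.sub_odd odd_one)).mul_left _
    rw [Int.cast_div hdvd (by norm_num)]
    push_cast
    ring
  unfold hp
  push_cast [h2]
  have : ∀ i, ((1 : ℚ) * ((n - c i + 1) * (n - c i + 2) / 2) + 0 * (n - c i + 1) + 0) =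
      (n + 1) * (n + 2) / 2 + (-(n + 1)) * c i + (c i : ℚ) * (c i - 1) / 2 := by
    intro i; ring
  rw [Finset.sum_congr rfl fun i _ => this i, Finset.sum_add_distrib, Finset.sum_add_distrib,
    ← Finset.mul_sum]
  simp only [Finset.sum_const, Finset.card_univ, Fintype.card_fin, nsmul_eq_mul, neg_add_rev, neg_mul, add_left_inj, add_right_inj]
  ring

theorem b9_hp_resolution {E : ℤ → Submodule k V} {N e g : ℤ} (h : HasHilb E N e g) {l l' : ℕ}
    (c : Fin l → ℤ) (c' : Fin l' → ℤ)
    (hc : ∀ n, Module.finrank k (E n) + ∑ j, Module.finrank k (Ad k (n - c' j)) =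
      ∑ i, Module.finrank k (Ad k (n - c i))) (n : ℚ) :
    hp N e g n + ∑ j, hp 1 0 0 (n - c' j) = ∑ i, hp 1 0 0 (n - c i) := by
  have h1 : HasHilb E ((l : ℤ) - l') (-∑ i, c i + ∑ j, c' j)
      (∑ i, c i * (c i - 1) / 2 - ∑ j, c' j * (c' j - 1) / 2) := by
    refine Filter.eventually_atTop.2 ⟨∑ i, |c i| + ∑ j, |c' j|, fun m hm => ?_⟩
    have a1 : ∀ i, c i ≤ m := by
      intro i
      have h1 := Finset.single_le_sum (f := fun i => |c i|)
        (fun j _ => abs_nonneg _) (Finset.mem_univ i)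
      have h2 : 0 ≤ ∑ j, |c' j| := Finset.sum_nonneg fun j _ => abs_nonneg _
      have h3 := le_abs_self (c i)
      omega
    have a2 : ∀ i, c' i ≤ m := by
      intro i
      have h1 := Finset.single_le_sum (f := fun i => |c' i|)
        (fun j _ => abs_nonneg _) (Finset.mem_univ i)
      have h2 : 0 ≤ ∑ j, |c j| := Finset.sum_nonneg fun j _ => abs_nonneg _
      have h3 := le_abs_self (c' i)
      omega
    have h3 := hc m
    have h4 : ∑ i, (Module.finrank k (Ad k (m - c i)) : ℚ) = ∑ i, hp 1 0 0 ((m : ℚ) - c i) := by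
      refine Finset.sum_congr rfl fun i _ => ?_
      rw [finrank_Ad (by have := a1 i; omega)]
      push_cast
      rfl
    have h5 : ∑ j, (Module.finrank k (Ad k (m - c' j)) : ℚ) = ∑ j, hp 1 0 0 ((m : ℚ) - c' j) := by
      refine Finset.sum_congr rfl fun i _ => ?_
      rw [finrank_Ad (by have := a2 i; omega)]
      push_cast
      rfl
    rw [b9_sum_hp_shift] at h4 h5
    have h6 : (Module.finrank k (E m) : ℚ) + ∑ j, (Module.finrank k (Ad k (m - c' j)) : ℚ) =
      ∑ i, (Module.finrank k (Ad k (m - c i)) : ℚ) := by exact_mod_cast h3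
    rw [h4, h5] at h6
    have h7 := eq_sub_of_add_eq h6
    rw [h7]
    unfold hp
    push_cast
    ring
  obtain ⟨rfl, rfl, rfl⟩ := h.unique h1
  rw [b9_sum_hp_shift, b9_sum_hp_shift]
  unfold hp
  push_cast
  ring

/-- 1.10 -/
theorem hp_le_finrank_add_dual {E : ℤ → Submodule k V} (hE : IsBLat E) (h2 : IsS2 E)
    (hs : spanK E = ⊤) {N e g : ℤ} (h : HasHilb E N e g) (n : ℤ) :
    hp N e g n ≤ Module.finrank k (E n) + Module.finrank k (dualLat E (-n - 3)) := by
  obtain ⟨l, v, c, -, hv⟩ := hE.exists_gen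
  obtain ⟨l', c', φ, hφ, hφv, hex⟩ := h2.exists_resolution hE v c hv
  have h3 : ∀ n, Module.finrank k (E n) + ∑ j, Module.finrank k (Ad k (n - c' j)) =
      ∑ i, Module.finrank k (Ad k (n - c i)) := fun n => by
    rw [hv n]
    exact b9_finrank_of_resolution v c c' φ hφ hφv hex n
  have h4 := b9_hp_resolution h c c' h3 n
  have h5 := b9_le_finrank_dual hE hs v c hv c' φ hφ hex (-n - 3)
  have h6 := h3 n
  have h7 : ∀ {r : ℕ} (d : Fin r → ℤ), ∑ i, hp 1 0 0 ((n : ℚ) - d i) =
      ∑ i, (Module.finrank k (Ad k (n - d i)) : ℚ) +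
        ∑ i, (Module.finrank k (Ad k (-n - 3 + d i)) : ℚ) := by
    intro r d
    rw [← Finset.sum_add_distrib]
    refine Finset.sum_congr rfl fun i _ => ?_
    have := finrank_Ad_dual (k := k) (n - d i)
    rw [show -(n - d i) - 3 = -n - 3 + d i by ring] at this
    rw [this]
    push_cast
    rfl
  rw [h7, h7] at h4
  have h5' : ∑ i, (Module.finrank k (Ad k (-n - 3 + c i)) : ℚ) ≤
      Module.finrank k (dualLat E (-n - 3)) +
        ∑ j, (Module.finrank k (Ad k (-n - 3 + c' j)) : ℚ) := by exact_mod_cast h5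
  have h6' : (Module.finrank k (E n) : ℚ) + ∑ j, (Module.finrank k (Ad k (n - c' j)) : ℚ) =
      ∑ i, (Module.finrank k (Ad k (n - c i)) : ℚ) := by exact_mod_cast h6
  linarith only [h6', h5', h4]

theorem spanK_dualLat {E : ℤ → Submodule k V} (hE : IsBLat E) (hs : spanK E = ⊤) :
    spanK (dualLat E) = ⊤ := by
  rw [eq_top_iff]
  intro f _
  obtain ⟨l, v, c, -, hv⟩ := hE.exists_gen
  obtain ⟨D, hD⟩ := IsLocalization.exist_integer_multiples_of_finite
    (nonZeroDivisors (A k)) (fun i => f (v i))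
  choose d hd using hD
  have hD0 : (D : A k) ≠ 0 := nonZeroDivisors.coe_ne_zero D
  have hD0' : algebraMap (A k) (KK k) D ≠ 0 := by
    rwa [Ne, FaithfulSMul.algebraMap_eq_zero_iff]
  let m : ℤ := ∑ i, (((d i).totalDegree : ℤ) + |c i|)
  have hm : ∀ i, ((d i).totalDegree : ℤ) - c i ≤ m := by
    intro i
    have : ((d i).totalDegree : ℤ) + |c i| ≤ m :=
      Finset.single_le_sum (f := fun i => ((d i).totalDegree : ℤ) + |c i|)
        (fun j _ => by (clear * -; positivity)) (Finset.mem_univ i)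
    have := neg_abs_le (c i)
    omega
  have hmem : algebraMap (A k) (KK k) D • f ∈ dualLat E m := by
    intro n x hx
    rw [hv n] at hx
    obtain ⟨b, hb, rfl⟩ := mem_genLat.1 hx
    refine ⟨∑ i, b i * d i, Submodule.sum_mem _ fun i _ => ?_, ?_⟩
    · have := Ad_mul (hb i) (mem_Ad.2 (Or.inr le_rfl) : d i ∈ Ad k (d i).totalDegree)
      refine Ad_mono ?_ this
      have := hm i
      omega
    · rw [LinearMap.smul_apply, map_sum, map_sum, Finset.smul_sum]
      refine Finset.sum_congr rfl fun i _ => ?_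
      have hdi := hd i
      rw [Algebra.smul_def] at hdi
      rw [← algebraMap_smul (KK k) (b i) (v i), map_smul, map_mul, hdi,
        smul_eq_mul, smul_eq_mul]
      ring
  have : f = (algebraMap (A k) (KK k) D)⁻¹ • (algebraMap (A k) (KK k) D • f) := by
    rw [smul_smul, inv_mul_cancel₀ hD0', one_smul]
  rw [this]
  exact Submodule.smul_mem _ _ (Submodule.subset_span (Set.mem_iUnion.2 ⟨m, hmem⟩))

theorem HasHilb.dual {E : ℤ → Submodule k V} (hE : IsBLat E) (h2 : IsS2 E)
    (hs : spanK E = ⊤) {N e g : ℤ} (h : HasHilb E N e g) :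
    ∃ g' : ℤ, HasHilb (dualLat E) N (-e) g' := by
  have hG := isBLat_dualLat hE hs
  obtain ⟨N', e', g', h'⟩ := hG.exists_hilb
  obtain ⟨r, b, c, hb⟩ := exists_basis_of_spanK hE hs
  have hr : Module.finrank (KK k) V = r := by
    rw [Module.finrank_eq_card_basis b, Fintype.card_fin]
  have hN : N = r := by
    rw [h.N_eq hE, hs, finrank_top, hr]
  have hfin : Module.Finite (KK k) V := Module.Finite.of_basis b
  have hN' : N' = r := by
    rw [h'.N_eq hG, spanK_dualLat hE hs, finrank_top]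
    have : Module.finrank (KK k) (V →ₗ[KK k] KK k) = Module.finrank (KK k) V :=
      Subspace.dual_finrank_eq
    rw [this, hr]
  subst hN hN'
  -- lower bound
  have hlow : -e ≤ e' := by
    obtain ⟨n₀, hn₀⟩ := hE.bdd
    obtain ⟨n₁, hn₁⟩ := Filter.eventually_atTop.1 h'
    have key : ∀ n : ℤ, n < n₀ → n₁ ≤ -n - 3 → (e + e') * (n + 1) ≤ g' - g - e' := by
      intro n hn hn'
      have h1 := hp_le_finrank_add_dual hE h2 hs h n
      rw [hn₀ n hn, hn₁ _ hn'] at h1
      simp only [finrank_bot, Nat.cast_zero, zero_add] at h1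
      unfold hp at h1
      push_cast at h1
      have h3 : ((e + e') * (n + 1) : ℚ) ≤ g' - g - e' := by linarith only [h1]
      exact_mod_cast h3
    by_contra hcon
    push Not at hcon
    -- `e + e' ≤ -1`
    let n : ℤ := -(|n₀| + |n₁| + |g' - g - e'| + 10)
    have b1 := neg_abs_le n₀
    have b2 := neg_abs_le n₁
    have b3 := le_abs_self (g' - g - e')
    have b4 := le_abs_self n₁
    have b5 := abs_nonneg n₀
    have b6 := abs_nonneg n₁
    have b7 := abs_nonneg (g' - g - e')
    have h3 := key n (by omega) (by (clear * - b4 b5 b7; omega))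
    have h4 : (e + e') ≤ -1 := by (clear * - hcon; omega)
    have h5 : n + 1 ≤ 0 := by omega
    have h6 : -1 * (n + 1) ≤ (e + e') * (n + 1) := by nlinarith only [hcon, b2, b4, b5, b7]
    omega
  -- upper bound
  have hup : e + e' ≤ 0 := by
    let f : V →ₗ[A k] (Fin r → KK k) := (b.equivFun : V →ₗ[KK k] (Fin r → KK k)).restrictScalars _
    let f' : (V →ₗ[KK k] KK k) →ₗ[A k] (Fin r → KK k) :=
      { toFun := fun φ i => φ (b i)
        map_add' := fun φ ψ => rfl
        map_smul' := fun a φ => rfl }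
    have hf : Function.Injective f := b.equivFun.injective
    have hf' : Function.Injective f' := by
      intro φ ψ hφψ
      exact b.ext fun i => congrFun hφψ i
    refine b9_pair_le r (hE.map f) (hG.map f') ?_ (h.map_injective f hf) (h'.map_injective f' hf')
    rintro n m _ ⟨v, hv, rfl⟩ _ ⟨φ, hφ, rfl⟩
    obtain ⟨a, ha, hva⟩ := hφ n v hv
    refine ⟨a, ha, ?_⟩
    rw [← hva]
    conv_rhs => rw [← b.sum_equivFun v, map_sum]
    refine Finset.sum_congr rfl fun i _ => ?_
    rw [map_smul, smul_eq_mul]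
    rfl
  have : e' = -e := by omega
  subst this
  exact ⟨g', h'⟩

end Vale.Agent.P190.D
end
end

section

section

/-! Section 3, file S1: the order filtration of `k[[x₁,x₂,x₃]]` and dehomogenised initial forms. -/

set_option autoImplicit false
set_option linter.unusedSectionVars false

open MvPolynomial Filter

namespace Vale.Agent.P190.D

variable {k : Type} [Field k]

/-- power series of order at least `j` -/
noncomputable def Fil (k : Type) [Field k] (j : ℤ) : Ideal (Bh k) where
  carrier := {f | ∀ d : Fin 3 →₀ ℕ, (d.degree : ℤ) < j → MvPowerSeries.coeff d f = 0}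
  add_mem' := fun {a b} ha hb d hd => by rw [map_add, ha d hd, hb d hd, add_zero]
  zero_mem' := fun d _ => by simp
  smul_mem' := by
    intro c f hf d hd
    rw [smul_eq_mul, MvPowerSeries.coeff_mul]
    refine Finset.sum_eq_zero fun x hx => ?_
    rw [hf x.2 ?_, mul_zero]
    have : x.1 + x.2 = d := Finset.HasAntidiagonal.mem_antidiagonal.1 hx
    have h2 : x.1.degree + x.2.degree = d.degree := by rw [← this, map_add]
    omega

theorem mem_Fil {j : ℤ} {f : Bh k} : f ∈ Fil k j ↔
    ∀ d : Fin 3 →₀ ℕ, (d.degree : ℤ) < j → MvPowerSeries.coeff d f = 0 := Iff.rfl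

theorem Fil_anti {i j : ℤ} (h : i ≤ j) : Fil k j ≤ Fil k i :=
  fun _ hf d hd => hf d (hd.trans_le h)

theorem Fil_of_nonpos {j : ℤ} (h : j ≤ 0) : Fil k j = ⊤ := by
  rw [eq_top_iff]
  intro f _ d hd
  omega

theorem Fil_mul {i j : ℤ} {f g : Bh k} (hf : f ∈ Fil k i) (hg : g ∈ Fil k j) :
    f * g ∈ Fil k (i + j) := by
  intro d hd
  rw [MvPowerSeries.coeff_mul]
  refine Finset.sum_eq_zero fun x hx => ?_
  have h1 : x.1 + x.2 = d := Finset.HasAntidiagonal.mem_antidiagonal.1 hx
  have h2 : x.1.degree + x.2.degree = d.degree := by rw [← h1, map_add]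
  by_cases h3 : (x.1.degree : ℤ) < i
  · rw [hf _ h3, zero_mul]
  · rw [hg _ (by (clear * - hd h2 h3; omega)), mul_zero]

/-- the powers of the maximal ideal -/
theorem Fil_eq_pow (j : ℕ) :
    Fil k j = (Ideal.span (Set.range fun i : Fin 3 => (MvPowerSeries.X i : Bh k))) ^ j := by
  have h1 : Fil k j = totIdeal (Fin 3) k j := by
    ext f
    rw [mem_Fil, mem_totIdeal]
    constructor
    · intro h d hd
      exact h d (by exact_mod_cast hd)
    · intro h d hd
      exact h d (by exact_mod_cast hd)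
  rw [h1, ← maximalIdeal_eq_span_X]
  exact le_antisymm (totIdeal_le_pow j) (pow_le_totIdeal j)

theorem exists_order {f : Bh k} (hf : f ≠ 0) : ∃ j : ℕ, f ∈ Fil k j ∧ f ∉ Fil k (j + 1) := by
  classical
  have h1 : ∃ n : ℕ, ∃ d : Fin 3 →₀ ℕ, d.degree = n ∧ MvPowerSeries.coeff d f ≠ 0 := by
    by_contra hcon
    push Not at hcon
    apply hf
    ext d
    rw [hcon _ d rfl, map_zero]
  obtain ⟨d, hd, hd0⟩ := Nat.find_spec h1
  refine ⟨Nat.find h1, fun e he => ?_, fun h => ?_⟩
  · by_contra h0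
    exact Nat.find_min h1 (by exact_mod_cast he) ⟨e, rfl, h0⟩
  · exact hd0 (h d (by rw [hd]; omega))

/-- lift of an exponent to degree `j` -/
noncomputable def s1lft (j : ℕ) (m : Fin 2 →₀ ℕ) : Fin 3 →₀ ℕ :=
  Finsupp.single (0 : Fin 3) (j - m 0 - m 1) + Finsupp.single 1 (m 0) + Finsupp.single 2 (m 1)

/-- projection of an exponent -/
noncomputable def s1prj (d : Fin 3 →₀ ℕ) : Fin 2 →₀ ℕ :=
  Finsupp.single (0 : Fin 2) (d 1) + Finsupp.single 1 (d 2)

theorem s1prj_zero (d : Fin 3 →₀ ℕ) : s1prj d 0 = d 1 := by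
  simp only [s1prj, Fin.isValue, Finsupp.coe_add, Pi.add_apply, Finsupp.single_eq_same, ne_eq, zero_ne_one, not_false_eq_true, Finsupp.single_eq_of_ne, add_zero]

theorem s1prj_one (d : Fin 3 →₀ ℕ) : s1prj d 1 = d 2 := by
  simp only [s1prj, Fin.isValue, Finsupp.coe_add, Pi.add_apply, ne_eq, one_ne_zero, not_false_eq_true, Finsupp.single_eq_of_ne, Finsupp.single_eq_same, zero_add]

theorem s1lft_zero (j : ℕ) (m : Fin 2 →₀ ℕ) : s1lft j m 0 = j - m 0 - m 1 := by
  simp only [s1lft, Fin.isValue, Finsupp.single_tsub, Finsupp.coe_add, Finsupp.coe_tsub, Pi.add_apply, Pi.sub_apply, Finsupp.single_eq_same, ne_eq, zero_ne_one, not_false_eq_true, Finsupp.single_eq_of_ne, add_zero, Fin.reduceEq]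

theorem s1lft_one (j : ℕ) (m : Fin 2 →₀ ℕ) : s1lft j m 1 = m 0 := by
  simp only [s1lft, Fin.isValue, Finsupp.single_tsub, Finsupp.coe_add, Finsupp.coe_tsub, Pi.add_apply, Pi.sub_apply, ne_eq, one_ne_zero, not_false_eq_true, Finsupp.single_eq_of_ne, tsub_self, Finsupp.single_eq_same, zero_add, Fin.reduceEq, add_zero]

theorem s1lft_two (j : ℕ) (m : Fin 2 →₀ ℕ) : s1lft j m 2 = m 1 := by
  simp only [s1lft, Fin.isValue, Finsupp.single_tsub, Finsupp.coe_add, Finsupp.coe_tsub, Pi.add_apply, Pi.sub_apply, ne_eq, Fin.reduceEq, not_false_eq_true, Finsupp.single_eq_of_ne, tsub_self, add_zero, Finsupp.single_eq_same, zero_add]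

theorem s1_ext2 {m m' : Fin 2 →₀ ℕ} (h0 : m 0 = m' 0) (h1 : m 1 = m' 1) : m = m' := by
  ext i
  fin_cases i
  · exact h0
  · exact h1

theorem s1_ext3 {m m' : Fin 3 →₀ ℕ} (h0 : m 0 = m' 0) (h1 : m 1 = m' 1) (h2 : m 2 = m' 2) :
    m = m' := by
  ext i
  fin_cases i
  · exact h0
  · exact h1
  · exact h2

theorem s1_degree (d : Fin 3 →₀ ℕ) : d.degree = d 0 + d 1 + d 2 := by
  rw [Finsupp.degree_eq_sum, Fin.sum_univ_three]

theorem s1prj_lft (j : ℕ) (m : Fin 2 →₀ ℕ) : s1prj (s1lft j m) = m :=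
  s1_ext2 (by rw [s1prj_zero, s1lft_one]) (by rw [s1prj_one, s1lft_two])

theorem s1lft_prj {j : ℕ} {d : Fin 3 →₀ ℕ} (h : d.degree = j) : s1lft j (s1prj d) = d := by
  rw [s1_degree] at h
  refine s1_ext3 ?_ ?_ ?_
  · rw [s1lft_zero, s1prj_zero, s1prj_one]; (clear * - h; omega)
  · rw [s1lft_one, s1prj_zero]
  · rw [s1lft_two, s1prj_one]

theorem s1lft_degree {j : ℕ} {m : Fin 2 →₀ ℕ} (h : m 0 + m 1 ≤ j) : (s1lft j m).degree = j := by
  rw [s1_degree, s1lft_zero, s1lft_one, s1lft_two]
  omega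

theorem s1prj_add (d e : Fin 3 →₀ ℕ) : s1prj (d + e) = s1prj d + s1prj e := by
  refine s1_ext2 ?_ ?_
  · rw [s1prj_zero, Finsupp.add_apply, Finsupp.add_apply, s1prj_zero, s1prj_zero]
  · rw [s1prj_one, Finsupp.add_apply, Finsupp.add_apply, s1prj_one, s1prj_one]

theorem s1_mem_Ad {n : ℤ} {a : A k} :
    a ∈ Ad k n ↔ ∀ m, MvPolynomial.coeff m a ≠ 0 → ((m 0 : ℤ) + m 1 ≤ n) := by
  have hd : ∀ m : Fin 2 →₀ ℕ, (m.sum fun _ e => e) = m 0 + m 1 := by
    intro m
    rw [Finsupp.sum_fintype _ _ (fun _ => rfl), Fin.sum_univ_two]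
  constructor
  · intro h m hm
    rcases mem_Ad.1 h with h0 | h0
    · rw [h0] at hm; simp at hm
    · have h1 := le_totalDegree (MvPolynomial.mem_support_iff.2 hm)
      rw [hd] at h1
      have h2 : ((m 0 + m 1 : ℕ) : ℤ) ≤ a.totalDegree := by exact_mod_cast h1
      push_cast at h2
      omega
  · intro h
    rw [mem_Ad]
    by_cases h0 : a = 0
    · exact Or.inl h0
    · right
      obtain ⟨m, hm⟩ := MvPolynomial.ne_zero_iff.1 h0
      have hn : 0 ≤ n := by have := h m hm; (clear * - this; omega)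
      obtain ⟨N, rfl⟩ := Int.eq_ofNat_of_zero_le hn
      have : a.totalDegree ≤ N := by
        unfold totalDegree
        refine Finset.sup_le fun m' hm' => ?_
        rw [hd]
        have := h m' (MvPolynomial.mem_support_iff.1 hm')
        omega
      exact_mod_cast this

/-- dehomogenised degree `j` part (zero for `j < 0`) -/
noncomputable def dh (k : Type) [Field k] (j : ℤ) : Bh k →ₗ[k] A k where
  toFun f := ∑ d ∈ (Finset.range (j.toNat + 1) ×ˢ Finset.range (j.toNat + 1)),
    if ((d.1 : ℤ) + d.2 ≤ j) then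
      C (MvPowerSeries.coeff
        (Finsupp.single (0 : Fin 3) (j.toNat - d.1 - d.2) + Finsupp.single 1 d.1 +
          Finsupp.single 2 d.2) f) *
        (MvPolynomial.X 0 ^ d.1 * MvPolynomial.X 1 ^ d.2)
    else 0
  map_add' := by
    intro f g
    rw [← Finset.sum_add_distrib]
    refine Finset.sum_congr rfl fun d _ => ?_
    split_ifs
    · rw [map_add, C_add, add_mul]
    · rw [add_zero]
  map_smul' := by
    intro c f
    rw [RingHom.id_apply, Finset.smul_sum]
    refine Finset.sum_congr rfl fun d _ => ?_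
    split_ifs
    · rw [MvPowerSeries.coeff_smul, C_mul, mul_assoc, smul_eq_C_mul]
    · rw [smul_zero]

theorem coeff_dh (j : ℤ) (f : Bh k) (m : Fin 2 →₀ ℕ) :
    MvPolynomial.coeff m (dh k j f) =
      if ((m 0 : ℤ) + m 1 ≤ j) then MvPowerSeries.coeff (s1lft j.toNat m) f else 0 := by
  classical
  change MvPolynomial.coeff m (∑ d ∈ (Finset.range (j.toNat + 1) ×ˢ Finset.range (j.toNat + 1)),
    if ((d.1 : ℤ) + d.2 ≤ j) then
      C (MvPowerSeries.coeff
        (Finsupp.single (0 : Fin 3) (j.toNat - d.1 - d.2) + Finsupp.single 1 d.1 +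
          Finsupp.single 2 d.2) f) *
        (MvPolynomial.X 0 ^ d.1 * MvPolynomial.X 1 ^ d.2)
    else 0) = _
  rw [MvPolynomial.coeff_sum]
  have h1 : ∀ d : ℕ × ℕ, (MvPolynomial.X 0 ^ d.1 * MvPolynomial.X 1 ^ d.2 : A k) =
      monomial (Finsupp.single 0 d.1 + Finsupp.single 1 d.2) 1 := by
    intro d
    rw [MvPolynomial.X_pow_eq_monomial, MvPolynomial.X_pow_eq_monomial, monomial_mul, one_mul]
  have h2 : ∀ d : ℕ × ℕ, MvPolynomial.coeff m (if ((d.1 : ℤ) + d.2 ≤ j) then
      C (MvPowerSeries.coeff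
        (Finsupp.single (0 : Fin 3) (j.toNat - d.1 - d.2) + Finsupp.single 1 d.1 +
          Finsupp.single 2 d.2) f) *
        (MvPolynomial.X 0 ^ d.1 * MvPolynomial.X 1 ^ d.2)
      else 0 : A k) = if d = (m 0, m 1) then
        (if ((m 0 : ℤ) + m 1 ≤ j) then MvPowerSeries.coeff (s1lft j.toNat m) f else 0) else 0 := by
    intro d
    by_cases hd : d = (m 0, m 1)
    · subst hd
      simp only [if_true]
      split_ifs with h
      · rw [show (MvPolynomial.X 0 ^ m 0 * MvPolynomial.X 1 ^ m 1 : A k) =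
          monomial (Finsupp.single 0 (m 0) + Finsupp.single 1 (m 1)) 1 from h1 (m 0, m 1),
          MvPolynomial.coeff_C_mul, MvPolynomial.coeff_monomial, if_pos, mul_one]
        · rfl
        · exact s1_ext2 (by simp only [Fin.isValue, Finsupp.coe_add, Pi.add_apply, Finsupp.single_eq_same, ne_eq, zero_ne_one, not_false_eq_true, Finsupp.single_eq_of_ne, add_zero]) (by simp only [Fin.isValue, Finsupp.coe_add, Pi.add_apply, ne_eq, one_ne_zero, not_false_eq_true, Finsupp.single_eq_of_ne, Finsupp.single_eq_same, zero_add])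
      · simp
    · rw [if_neg hd]
      split_ifs with h
      · rw [h1, MvPolynomial.coeff_C_mul, MvPolynomial.coeff_monomial, if_neg, mul_zero]
        intro h3
        apply hd
        rw [← h3]
        ext <;> simp
      · simp
  simp only [h2]
  rw [Finset.sum_ite_eq']
  split_ifs with h3 h4 h4
  · rfl
  · rfl
  · exfalso
    apply h3
    simp only [Finset.mem_product, Finset.mem_range]
    omega
  · rfl

theorem dh_mem (j : ℤ) (f : Bh k) : dh k j f ∈ Ad k j := by
  rw [s1_mem_Ad]
  intro m hm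
  rw [coeff_dh] at hm
  by_contra h
  rw [if_neg h] at hm
  exact hm rfl

theorem dh_eq_zero_iff {j : ℤ} {f : Bh k} (hf : f ∈ Fil k j) :
    dh k j f = 0 ↔ (j < 0 ∨ f ∈ Fil k (j + 1)) := by
  constructor
  · intro h
    by_cases hj : j < 0
    · exact Or.inl hj
    · right
      intro d hd
      by_cases hd' : (d.degree : ℤ) < j
      · exact hf d hd'
      · obtain ⟨N, rfl⟩ := Int.eq_ofNat_of_zero_le (not_lt.1 hj)
        have hdN : d.degree = N := by omega
        have h1 := congrArg (MvPolynomial.coeff (s1prj d)) h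
        rw [coeff_dh, MvPolynomial.coeff_zero] at h1
        have h2 := s1_degree d
        have h4 := s1prj_zero d
        have h5 := s1prj_one d
        rw [if_pos (by omega), Int.toNat_natCast, s1lft_prj hdN] at h1
        exact h1
  · intro h
    ext m
    rw [coeff_dh, MvPolynomial.coeff_zero]
    split_ifs with h1
    · rcases h with h | h
      · omega
      · apply h
        obtain ⟨N, rfl⟩ := Int.eq_ofNat_of_zero_le (show 0 ≤ j by omega)
        rw [Int.toNat_natCast, s1lft_degree (by omega)]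
        omega
    · rfl

theorem dh_mul {i j : ℤ} {f g : Bh k} (hf : f ∈ Fil k i) (hg : g ∈ Fil k j) (hi : 0 ≤ i)
    (hj : 0 ≤ j) : dh k (i + j) (f * g) = dh k i f * dh k j g := by
  classical
  obtain ⟨a, rfl⟩ := Int.eq_ofNat_of_zero_le hi
  obtain ⟨b, rfl⟩ := Int.eq_ofNat_of_zero_le hj
  ext m
  rw [coeff_dh, MvPolynomial.coeff_mul]
  have hT : ∑ x ∈ Finset.HasAntidiagonal.antidiagonal m, MvPolynomial.coeff x.1 (dh k a f) *
      MvPolynomial.coeff x.2 (dh k b g) =
      ∑ x ∈ (Finset.HasAntidiagonal.antidiagonal m).filter (fun x => x.1 0 + x.1 1 ≤ a ∧ x.2 0 + x.2 1 ≤ b),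
        MvPowerSeries.coeff (s1lft a x.1) f * MvPowerSeries.coeff (s1lft b x.2) g := by
    rw [Finset.sum_filter]
    refine Finset.sum_congr rfl fun x _ => ?_
    rw [coeff_dh, coeff_dh, Int.toNat_natCast, Int.toNat_natCast]
    by_cases h1 : x.1 0 + x.1 1 ≤ a
    · by_cases h2 : x.2 0 + x.2 1 ≤ b
      · rw [if_pos (by omega), if_pos (by omega), if_pos ⟨h1, h2⟩]
      · rw [if_neg (c := ((x.2 0 : ℤ) + x.2 1 ≤ b)) (by omega), mul_zero,
          if_neg (fun h => h2 h.2)]
    · rw [if_neg (c := ((x.1 0 : ℤ) + x.1 1 ≤ a)) (by omega), zero_mul,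
          if_neg (fun h => h1 h.1)]
  rw [hT]
  by_cases hm : m 0 + m 1 ≤ a + b
  · rw [if_pos (by omega), show ((a : ℤ) + b).toNat = a + b by omega, MvPowerSeries.coeff_mul]
    have hS : ∑ p ∈ Finset.HasAntidiagonal.antidiagonal (s1lft (a + b) m), MvPowerSeries.coeff p.1 f *
        MvPowerSeries.coeff p.2 g =
        ∑ p ∈ (Finset.HasAntidiagonal.antidiagonal (s1lft (a + b) m)).filter
          (fun p => p.1.degree = a ∧ p.2.degree = b), MvPowerSeries.coeff p.1 f *
        MvPowerSeries.coeff p.2 g := by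
      rw [Finset.sum_filter]
      refine Finset.sum_congr rfl fun p hp => ?_
      have h1 : p.1 + p.2 = s1lft (a + b) m := Finset.HasAntidiagonal.mem_antidiagonal.1 hp
      have h2 : p.1.degree + p.2.degree = a + b := by
        rw [← map_add, h1, s1lft_degree hm]
      by_cases h3 : p.1.degree < a
      · rw [hf _ (by exact_mod_cast h3), zero_mul, if_neg (fun h => by omega)]
      · by_cases h4 : p.2.degree < b
        · rw [hg _ (by exact_mod_cast h4), mul_zero, if_neg (fun h => by omega)]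
        · rw [if_pos ⟨by (clear * - h2 h3 h4; omega), by omega⟩]
    rw [hS]
    refine Finset.sum_nbij' (fun p => (s1prj p.1, s1prj p.2))
      (fun x => (s1lft a x.1, s1lft b x.2)) ?_ ?_ ?_ ?_ ?_
    · intro p hp
      rw [Finset.mem_filter] at hp ⊢
      obtain ⟨hp1, hp2, hp3⟩ := hp
      have h1 : p.1 + p.2 = s1lft (a + b) m := Finset.HasAntidiagonal.mem_antidiagonal.1 hp1
      refine ⟨Finset.HasAntidiagonal.mem_antidiagonal.2 ?_, ?_, ?_⟩
      · change s1prj p.1 + s1prj p.2 = m
        rw [← s1prj_add, h1, s1prj_lft]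
      · change s1prj p.1 0 + s1prj p.1 1 ≤ a
        rw [s1prj_zero, s1prj_one, ← hp2, s1_degree]
        (clear * -; omega)
      · change s1prj p.2 0 + s1prj p.2 1 ≤ b
        rw [s1prj_zero, s1prj_one, ← hp3, s1_degree]
        (clear * -; omega)
    · intro x hx
      rw [Finset.mem_filter] at hx ⊢
      obtain ⟨hx1, hx2, hx3⟩ := hx
      have h1 : x.1 + x.2 = m := Finset.HasAntidiagonal.mem_antidiagonal.1 hx1
      refine ⟨Finset.HasAntidiagonal.mem_antidiagonal.2 ?_, s1lft_degree hx2, s1lft_degree hx3⟩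
      have h2 : m 0 = x.1 0 + x.2 0 := by rw [← h1, Finsupp.add_apply]
      have h3 : m 1 = x.1 1 + x.2 1 := by rw [← h1, Finsupp.add_apply]
      refine s1_ext3 ?_ ?_ ?_
      · change (s1lft a x.1 + s1lft b x.2) 0 = _
        rw [Finsupp.add_apply, s1lft_zero, s1lft_zero, s1lft_zero]
        omega
      · change (s1lft a x.1 + s1lft b x.2) 1 = _
        rw [Finsupp.add_apply, s1lft_one, s1lft_one, s1lft_one]
        omega
      · change (s1lft a x.1 + s1lft b x.2) 2 = _
        rw [Finsupp.add_apply, s1lft_two, s1lft_two, s1lft_two]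
        omega
    · intro p hp
      rw [Finset.mem_filter] at hp
      obtain ⟨hp1, hp2, hp3⟩ := hp
      exact Prod.ext (s1lft_prj hp2) (s1lft_prj hp3)
    · intro x _
      exact Prod.ext (s1prj_lft a x.1) (s1prj_lft b x.2)
    · intro p hp
      rw [Finset.mem_filter] at hp
      obtain ⟨hp1, hp2, hp3⟩ := hp
      simp only [s1lft_prj hp2, s1lft_prj hp3]
  · rw [if_neg (by omega)]
    symm
    refine Finset.sum_eq_zero fun x hx => ?_
    exfalso
    rw [Finset.mem_filter] at hx
    obtain ⟨hx1, hx2, hx3⟩ := hx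
    have h1 : x.1 + x.2 = m := Finset.HasAntidiagonal.mem_antidiagonal.1 hx1
    have h2 : m 0 = x.1 0 + x.2 0 := by rw [← h1, Finsupp.add_apply]
    have h3 : m 1 = x.1 1 + x.2 1 := by rw [← h1, Finsupp.add_apply]
    omega

/-- order is additive -/
theorem Fil_mul_not {i j : ℤ} {f g : Bh k} (hf : f ∉ Fil k (i + 1)) (hg : g ∉ Fil k (j + 1)) :
    f * g ∉ Fil k (i + j + 1) := by
  have hf0 : f ≠ 0 := fun h => hf (h ▸ Submodule.zero_mem _)
  have hg0 : g ≠ 0 := fun h => hg (h ▸ Submodule.zero_mem _)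
  obtain ⟨a, ha1, ha2⟩ := exists_order hf0
  obtain ⟨b, hb1, hb2⟩ := exists_order hg0
  have hai : (a : ℤ) ≤ i := by
    by_contra h
    exact hf (Fil_anti (by omega) ha1)
  have hbj : (b : ℤ) ≤ j := by
    by_contra h
    exact hg (Fil_anti (by omega) hb1)
  intro h
  have h1 : f * g ∈ Fil k ((a : ℤ) + b + 1) := Fil_anti (by omega) h
  have h2 := (dh_eq_zero_iff (Fil_mul ha1 hb1)).2 (Or.inr h1)
  rw [dh_mul ha1 hb1 (by omega) (by omega), mul_eq_zero] at h2
  rcases h2 with h2 | h2
  · rcases (dh_eq_zero_iff ha1).1 h2 with h3 | h3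
    · omega
    · exact ha2 h3
  · rcases (dh_eq_zero_iff hb1).1 h2 with h3 | h3
    · omega
    · exact hb2 h3

theorem mem_Fil_of_mul {i j : ℤ} {f g : Bh k} (hf : f ∉ Fil k (i + 1))
    (hg : f * g ∈ Fil k (i + j)) : g ∈ Fil k j := by
  by_contra h
  have h1 := Fil_mul_not (j := j - 1) hf (by rwa [sub_add_cancel])
  apply h1
  rwa [show i + (j - 1) + 1 = i + j by ring]

/-- power series with given coefficients -/
def mkPS (f : (Fin 3 →₀ ℕ) → k) : Bh k := f

theorem coeff_mkPS (f : (Fin 3 →₀ ℕ) → k) (d : Fin 3 →₀ ℕ) :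
    MvPowerSeries.coeff d (mkPS f) = f d := rfl

/-- homogenisation: the form of degree `j` in `x₁,x₂,x₃` with dehomogenisation `c` -/
noncomputable def hg (k : Type) [Field k] (j : ℤ) : A k →ₗ[k] Bh k where
  toFun c := mkPS fun d => if (d.degree : ℤ) = j then
    MvPolynomial.coeff (Finsupp.single (0 : Fin 2) (d 1) + Finsupp.single 1 (d 2)) c else 0
  map_add' := by
    intro f g
    ext d
    rw [map_add]
    simp only [coeff_mkPS]
    split_ifs <;> simp
  map_smul' := by
    intro c f
    ext d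
    rw [MvPowerSeries.coeff_smul]
    simp only [coeff_mkPS, RingHom.id_apply]
    split_ifs <;> simp

theorem coeff_hg (j : ℤ) (c : A k) (d : Fin 3 →₀ ℕ) : MvPowerSeries.coeff d (hg k j c) =
    if (d.degree : ℤ) = j then
      MvPolynomial.coeff (Finsupp.single (0 : Fin 2) (d 1) + Finsupp.single 1 (d 2)) c else 0 :=
  rfl

theorem hg_mem (j : ℤ) (c : A k) : hg k j c ∈ Fil k j := by
  intro d hd
  rw [coeff_hg, if_neg (by omega)]

theorem dh_hg {j : ℤ} {c : A k} (hc : c ∈ Ad k j) : dh k j (hg k j c) = c := by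
  ext m
  rw [coeff_dh]
  split_ifs with h
  · obtain ⟨N, rfl⟩ := Int.eq_ofNat_of_zero_le (show 0 ≤ j by omega)
    rw [coeff_hg, Int.toNat_natCast, s1lft_degree (by omega), if_pos rfl]
    congr 1
    exact s1prj_lft N m
  · by_contra h0
    exact h (s1_mem_Ad.1 hc m (Ne.symm h0))

theorem s1_hg_zero_of_neg {j : ℤ} (hj : j < 0) (c : A k) : hg k j c = 0 := by
  ext d
  rw [coeff_hg, if_neg (by omega), map_zero]

theorem hg_mul {i j : ℤ} {a b : A k} (ha : a ∈ Ad k i) (hb : b ∈ Ad k j) :
    hg k i a * hg k j b = hg k (i + j) (a * b) := by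
  by_cases hi : i < 0
  · rw [Ad_of_neg hi, Submodule.mem_bot] at ha
    rw [ha, zero_mul, map_zero, map_zero, zero_mul]
  by_cases hj : j < 0
  · rw [Ad_of_neg hj, Submodule.mem_bot] at hb
    rw [hb, mul_zero, map_zero, map_zero, mul_zero]
  have h1 := dh_mul (hg_mem i a) (hg_mem j b) (not_lt.1 hi) (not_lt.1 hj)
  rw [dh_hg ha, dh_hg hb] at h1
  have h2 : dh k (i + j) (hg k i a * hg k j b - hg k (i + j) (a * b)) = 0 := by
    rw [map_sub, h1, dh_hg (Ad_mul ha hb), sub_self]
  have h3 : hg k i a * hg k j b - hg k (i + j) (a * b) ∈ Fil k (i + j) :=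
    Submodule.sub_mem _ (Fil_mul (hg_mem i a) (hg_mem j b)) (hg_mem _ _)
  have h4 := (dh_eq_zero_iff h3).1 h2
  rw [← sub_eq_zero]
  ext d
  rw [map_zero]
  by_cases hd : (d.degree : ℤ) < i + j + 1
  · rcases h4 with h4 | h4
    · omega
    · exact h4 d hd
  · rw [map_sub, coeff_hg (i + j), if_neg (by (clear * - hd; omega)), sub_zero, MvPowerSeries.coeff_mul]
    refine Finset.sum_eq_zero fun x hx => ?_
    have h5 : x.1 + x.2 = d := Finset.HasAntidiagonal.mem_antidiagonal.1 hx
    have h6 : x.1.degree + x.2.degree = d.degree := by rw [← h5, map_add]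
    by_cases h7 : (x.1.degree : ℤ) = i
    · rw [coeff_hg j, if_neg (by (clear * - hd h6 h7; omega)), mul_zero]
    · rw [coeff_hg i, if_neg h7, zero_mul]

theorem hg_not_mem {j : ℤ} {c : A k} (hc : c ∈ Ad k j) (h0 : c ≠ 0) :
    hg k j c ∉ Fil k (j + 1) := by
  intro h
  apply h0
  rw [← dh_hg hc]
  exact (dh_eq_zero_iff (hg_mem j c)).2 (Or.inr h)

theorem hg_one : hg k 0 (1 : A k) = 1 := by
  classical
  ext d
  rw [coeff_hg, MvPowerSeries.coeff_one, MvPolynomial.coeff_one]
  have h := s1_degree d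
  by_cases hd : d = 0
  · subst hd
    simp only [map_zero, CharP.cast_eq_zero, ↓reduceIte, Fin.isValue, Finsupp.coe_zero, Pi.zero_apply, Finsupp.single_zero, add_zero]
  · rw [if_neg hd, if_neg]
    intro h1
    apply hd
    refine s1_ext3 ?_ ?_ ?_ <;> simp only [Fin.isValue, Finsupp.coe_zero, Pi.zero_apply] <;> omega

theorem s1_coeff_X (i : Fin 3) (d : Fin 3 →₀ ℕ) : MvPowerSeries.coeff d (MvPowerSeries.X i : Bh k) =
    if d = Finsupp.single i 1 then 1 else 0 := by
  classical
  rw [MvPowerSeries.coeff_X]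

theorem hg_one_one : hg k 1 (1 : A k) = MvPowerSeries.X 0 := by
  classical
  ext d
  rw [coeff_hg, s1_coeff_X, MvPolynomial.coeff_one]
  have h := s1_degree d
  by_cases hd : d = Finsupp.single 0 1
  · subst hd
    simp only [Fin.isValue, Finsupp.degree_single, Nat.cast_one, ↓reduceIte, ne_eq, one_ne_zero, not_false_eq_true, Finsupp.single_eq_of_ne, Finsupp.single_zero, Fin.reduceEq, add_zero]
  · rw [if_neg hd]
    split_ifs with h1 h2
    · exfalso
      apply hd
      have h3 := DFunLike.congr_fun h2 0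
      have h4 := DFunLike.congr_fun h2 1
      simp only [Fin.isValue, Finsupp.coe_zero, Pi.zero_apply, Finsupp.coe_add, Pi.add_apply, Finsupp.single_eq_same, ne_eq, zero_ne_one, not_false_eq_true, Finsupp.single_eq_of_ne, add_zero, one_ne_zero, zero_add] at h3 h4
      refine s1_ext3 ?_ ?_ ?_ <;> simp <;> omega
    · rfl
    · rfl

theorem hg_one_X0 : hg k 1 (MvPolynomial.X 0 : A k) = MvPowerSeries.X 1 := by
  classical
  ext d
  rw [coeff_hg, s1_coeff_X, MvPolynomial.coeff_X]
  have h := s1_degree d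
  by_cases hd : d = Finsupp.single 1 1
  · subst hd
    simp only [Fin.isValue, Finsupp.degree_single, Nat.cast_one, ↓reduceIte, Finsupp.single_eq_same, ne_eq, Fin.reduceEq, not_false_eq_true, Finsupp.single_eq_of_ne, Finsupp.single_zero, add_zero]
  · rw [if_neg hd]
    split_ifs with h1 h2
    · exfalso
      apply hd
      have h3 := DFunLike.congr_fun h2 0
      have h4 := DFunLike.congr_fun h2 1
      simp only [Fin.isValue, Finsupp.single_eq_same, Finsupp.coe_add, Pi.add_apply, ne_eq, zero_ne_one, not_false_eq_true, Finsupp.single_eq_of_ne, add_zero, one_ne_zero, zero_add] at h3 h4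
      refine s1_ext3 ?_ ?_ ?_ <;> simp <;> omega
    · rfl
    · rfl

theorem hg_one_X1 : hg k 1 (MvPolynomial.X 1 : A k) = MvPowerSeries.X 2 := by
  classical
  ext d
  rw [coeff_hg, s1_coeff_X, MvPolynomial.coeff_X]
  have h := s1_degree d
  by_cases hd : d = Finsupp.single 2 1
  · subst hd
    simp only [Fin.isValue, Finsupp.degree_single, Nat.cast_one, ↓reduceIte, ne_eq, Fin.reduceEq, not_false_eq_true, Finsupp.single_eq_of_ne, Finsupp.single_zero, Finsupp.single_eq_same, zero_add]
  · rw [if_neg hd]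
    split_ifs with h1 h2
    · exfalso
      apply hd
      have h3 := DFunLike.congr_fun h2 0
      have h4 := DFunLike.congr_fun h2 1
      simp only [Fin.isValue, ne_eq, zero_ne_one, not_false_eq_true, Finsupp.single_eq_of_ne, Finsupp.coe_add, Pi.add_apply, Finsupp.single_eq_same, add_zero, one_ne_zero, zero_add] at h3 h4
      refine s1_ext3 ?_ ?_ ?_ <;> simp <;> omega
    · rfl
    · rfl

end Vale.Agent.P190.D
end
end

section

section

/-! Section 3, file S2: filtrations of a free module over `k[[x₁,x₂,x₃]]`; the inequality (A2). -/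

set_option autoImplicit false
set_option linter.unusedSectionVars false

open MvPolynomial Filter

namespace Vale.Agent.P190.D

variable {k : Type} [Field k]

/-- the free module `Bh^N` -/
abbrev MM (k : Type) [Field k] (N : ℕ) : Type := Fin N → Bh k

/-- the submodule of vectors of order at least `j` -/
noncomputable def FM (k : Type) [Field k] (N : ℕ) (j : ℤ) : Submodule (Bh k) (MM k N) where
  carrier := {v | ∀ i, v i ∈ Fil k j}
  add_mem' := fun ha hb i => add_mem (ha i) (hb i)
  zero_mem' := fun _ => zero_mem _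
  smul_mem' := fun c _ hv i => (Fil k j).mul_mem_left c (hv i)

variable {N : ℕ}

/-- filtrations compatible with the order filtration of `Bh` -/
structure IsFilt (F : ℤ → Submodule (Bh k) (MM k N)) : Prop where
  anti : ∀ n, F (n + 1) ≤ F n
  x_mem : ∀ (i : Fin 3) {n : ℤ} {v : MM k N}, v ∈ F n → (MvPowerSeries.X i : Bh k) • v ∈ F (n + 1)
  bdd : ∃ c : ℤ, ∀ n, FM k N (n + c) ≤ F n ∧ F n ≤ FM k N (n - c)

/-- the dimension of `F n / F (n + 1)` -/
noncomputable def gdim (F : ℤ → Submodule (Bh k) (MM k N)) (n : ℤ) : ℕ :=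
  Module.finrank k (((F n).restrictScalars k).map ((F (n + 1)).restrictScalars k).mkQ)

/-! ### Linear algebra -/

theorem s2_rank {M T T' : Type} [AddCommGroup M] [Module k M] [AddCommGroup T] [Module k T]
    [AddCommGroup T'] [Module k T'] (θ : M →ₗ[k] T) (g : T →ₗ[k] T') (P : Submodule k M)
    (hfin : Module.Finite k (P.map θ)) :
    Module.finrank k (P.map θ) = Module.finrank k (P.map (g ∘ₗ θ)) +
      Module.finrank k ((P ⊓ LinearMap.ker (g ∘ₗ θ)).map θ : Submodule k T) := by
  have h1 := LinearMap.finrank_range_add_finrank_ker (g.domRestrict (P.map θ))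
  have h2 : LinearMap.range (g.domRestrict (P.map θ)) = P.map (g ∘ₗ θ) := by
    rw [LinearMap.range_domRestrict, Submodule.map_comp]
  have h3 : Module.finrank k (LinearMap.ker (g.domRestrict (P.map θ))) =
      Module.finrank k ((P ⊓ LinearMap.ker (g ∘ₗ θ)).map θ : Submodule k T) := by
    rw [LinearMap.ker_domRestrict]
    have e : ((P ⊓ LinearMap.ker (g ∘ₗ θ)).map θ : Submodule k T) =
        P.map θ ⊓ LinearMap.ker g := by
      ext t
      simp only [Submodule.mem_map, Submodule.mem_inf, LinearMap.mem_ker, LinearMap.comp_apply]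
      constructor
      · rintro ⟨x, ⟨hx, hx'⟩, rfl⟩
        exact ⟨⟨x, hx, rfl⟩, hx'⟩
      · rintro ⟨⟨x, hx, rfl⟩, hx'⟩
        exact ⟨x, ⟨hx, hx'⟩, rfl⟩
    rw [e, ← Submodule.map_comap_subtype]
    exact (LinearEquiv.finrank_eq
      (Submodule.equivMapOfInjective _ (Submodule.subtype_injective _) _))
  rw [h2, h3] at h1
  exact h1.symm

/-! ### The order filtration of the free module -/

theorem mem_FM {j : ℤ} {v : MM k N} : v ∈ FM k N j ↔ ∀ i, v i ∈ Fil k j := Iff.rfl

theorem FM_anti {i j : ℤ} (h : i ≤ j) : FM k N j ≤ FM k N i := fun _ hv l => Fil_anti h (hv l)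

theorem FM_of_nonpos {j : ℤ} (h : j ≤ 0) : FM k N j = ⊤ := by
  rw [eq_top_iff]
  intro v _ l
  rw [Fil_of_nonpos h]
  exact Submodule.mem_top

/-- componentwise dehomogenised degree `i` part -/
noncomputable def dhv (k : Type) [Field k] (N : ℕ) (i : ℤ) : MM k N →ₗ[k] (Fin N → A k) :=
  (dh k i).compLeft (Fin N)

theorem dhv_apply (i : ℤ) (v : MM k N) (l : Fin N) : dhv k N i v l = dh k i (v l) := rfl

theorem dhv_of_neg {i : ℤ} (hi : i < 0) (v : MM k N) : dhv k N i v = 0 := by
  funext l
  rw [dhv_apply]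
  refine (dh_eq_zero_iff (j := i) ?_).2 (Or.inl hi)
  rw [Fil_of_nonpos hi.le]
  exact Submodule.mem_top

theorem dhv_eq_zero {i : ℤ} (hi : 0 ≤ i) {v : MM k N} (hv : v ∈ FM k N i) :
    dhv k N i v = 0 ↔ v ∈ FM k N (i + 1) := by
  constructor
  · intro h l
    have h1 := congrFun h l
    rw [dhv_apply] at h1
    rcases (dh_eq_zero_iff (hv l)).1 h1 with h2 | h2
    · omega
    · exact h2
  · intro h
    funext l
    rw [dhv_apply]
    exact (dh_eq_zero_iff (hv l)).2 (Or.inr (h l))

/-- all components up to degree `m` -/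
noncomputable def dhAll (k : Type) [Field k] (N m : ℕ) :
    MM k N →ₗ[k] (Fin m → Fin N → Ad k m) :=
  LinearMap.pi fun i => LinearMap.pi fun l =>
    LinearMap.codRestrict (Ad k m) ((dh k ((i : ℕ) : ℤ)) ∘ₗ LinearMap.proj l)
      (fun v => Ad_mono (by have := i.2; omega) (dh_mem ((i : ℕ) : ℤ) (v l)))

theorem FM_of_dhAll {m : ℕ} {v : MM k N} (h : dhAll k N m v = 0) : v ∈ FM k N m := by
  have key : ∀ i : ℕ, i ≤ m → v ∈ FM k N i := by
    intro i
    induction i with
    | zero => intro _; rw [FM_of_nonpos (by simp)]; exact Submodule.mem_top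
    | succ i ih =>
      intro hi
      have h1 := ih (by omega)
      push_cast
      refine (dhv_eq_zero (by omega) h1).1 ?_
      funext l
      have h2 := congrFun (congrFun h ⟨i, by omega⟩) l
      exact congrArg Subtype.val h2
  exact key m le_rfl

/-- `M / FM m` is finite dimensional -/
theorem s2_finite (m : ℕ) : Module.Finite k (MM k N ⧸ (FM k N m).restrictScalars k) := by
  have h1 : Module.Finite k (LinearMap.range (dhAll k N m)) := inferInstance
  have h2 : Module.Finite k (MM k N ⧸ LinearMap.ker (dhAll k N m)) :=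
    Module.Finite.equiv (dhAll k N m).quotKerEquivRange.symm
  have h3 : LinearMap.ker (dhAll k N m) ≤ (FM k N m).restrictScalars k := fun v hv =>
    FM_of_dhAll hv
  exact Module.Finite.of_surjective (Submodule.factor h3) (Submodule.factor_surjective h3)

/-! ### Initial lattices -/

/-- initial forms of degree `i` of elements of `F (i + j)` -/
noncomputable def IN (F : ℤ → Submodule (Bh k) (MM k N)) (j i : ℤ) : Submodule k (Fin N → A k) :=
  ((FM k N i ⊓ F (i + j)).restrictScalars k).map (dhv k N i)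

theorem mem_IN {F : ℤ → Submodule (Bh k) (MM k N)} {j i : ℤ} {u : Fin N → A k} :
    u ∈ IN F j i ↔ ∃ v, v ∈ FM k N i ∧ v ∈ F (i + j) ∧ dhv k N i v = u := by
  unfold IN
  rw [Submodule.mem_map]
  constructor
  · rintro ⟨v, ⟨h1, h2⟩, h3⟩
    exact ⟨v, h1, h2, h3⟩
  · rintro ⟨v, h1, h2, h3⟩
    exact ⟨v, ⟨h1, h2⟩, h3⟩

theorem IsFilt.s2_smul_mem {F : ℤ → Submodule (Bh k) (MM k N)} (hF : IsFilt F) (j : ℕ) :
    ∀ (n : ℤ) (b : Bh k) (v : MM k N), b ∈ Fil k j → v ∈ F n → b • v ∈ F (n + j) := by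
  have key : ∀ (j : ℕ) (n : ℤ),
      ((Ideal.span (Set.range fun i : Fin 3 => (MvPowerSeries.X i : Bh k))) ^ j) • F n ≤
        F (n + j) := by
    intro j
    induction j with
    | zero => intro n; simp
    | succ j ih =>
      intro n
      rw [pow_succ, Submodule.mul_smul]
      have h1 : (Ideal.span (Set.range fun i : Fin 3 => (MvPowerSeries.X i : Bh k))) • F n ≤
          F (n + 1) := by
        rw [Submodule.smul_le]
        intro r hr v hv
        induction hr using Submodule.span_induction with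
        | mem x hx =>
          obtain ⟨i, rfl⟩ := hx
          exact hF.x_mem i hv
        | zero => rw [zero_smul]; exact zero_mem _
        | add x y _ _ hx hy => rw [add_smul]; exact add_mem hx hy
        | smul a x _ hx => rw [smul_assoc]; exact (F (n + 1)).smul_mem a hx
      refine (Submodule.smul_mono le_rfl h1).trans ((ih (n + 1)).trans (le_of_eq ?_))
      congr 1
      push_cast
      ring
  intro n b v hb hv
  rw [Fil_eq_pow] at hb
  exact key j n (Submodule.smul_mem_smul hb hv)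

theorem IsFilt.IN_smul {F : ℤ → Submodule (Bh k) (MM k N)} (hF : IsFilt F) (j : ℤ) {a i : ℤ}
    {c : A k} {u : Fin N → A k} (hc : c ∈ Ad k a) (hu : u ∈ IN F j i) : c • u ∈ IN F j (i + a) := by
  rcases lt_or_ge a 0 with ha | ha
  · rw [Ad_of_neg ha, Submodule.mem_bot] at hc
    rw [hc, zero_smul]
    exact zero_mem _
  obtain ⟨v, hv1, hv2, rfl⟩ := mem_IN.1 hu
  rcases lt_or_ge i 0 with hi | hi
  · rw [dhv_of_neg hi, smul_zero]
    exact zero_mem _
  refine mem_IN.2 ⟨hg k a c • v, fun l => ?_, ?_, ?_⟩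
  · have := Fil_mul (hg_mem a c) (hv1 l)
    rw [add_comm i a]
    exact this
  · obtain ⟨a', rfl⟩ := Int.eq_ofNat_of_zero_le ha
    have := hF.s2_smul_mem a' (i + j) _ v (hg_mem _ c) hv2
    rwa [show i + j + (a' : ℤ) = i + (a' : ℤ) + j by ring] at this
  · funext l
    rw [dhv_apply]
    change dh k (i + a) (hg k a c * v l) = c * dh k i (v l)
    rw [add_comm i a, dh_mul (hg_mem a c) (hv1 l) ha hi, dh_hg hc]

theorem IN_anti {F : ℤ → Submodule (Bh k) (MM k N)} (hF : IsFilt F) (j i : ℤ) :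
    IN F (j + 1) i ≤ IN F j i := by
  intro u hu
  obtain ⟨v, h1, h2, h3⟩ := mem_IN.1 hu
  refine mem_IN.2 ⟨v, h1, ?_, h3⟩
  rw [← add_assoc] at h2
  exact hF.anti _ h2

/-- the full lattice -/
noncomputable def s2L (k : Type) [Field k] (N : ℕ) : ℤ → Submodule k (Fin N → A k) :=
  genLat (k := k) (fun l : Fin N => Pi.single l (1 : A k)) (fun _ => 0)

theorem mem_s2L {i : ℤ} {u : Fin N → A k} : u ∈ s2L k N i ↔ ∀ l, u l ∈ Ad k i := by
  unfold s2L
  rw [mem_genLat]
  have key : ∀ a : Fin N → A k, ∑ l, a l • (Pi.single l (1 : A k) : Fin N → A k) = a := by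
    intro a
    funext l
    rw [Finset.sum_apply, Finset.sum_eq_single l]
    · simp
    · intro b _ hb
      rw [Pi.smul_apply, Pi.single_eq_of_ne hb.symm, smul_zero]
    · intro h; exact absurd (Finset.mem_univ l) h
  simp only [key, sub_zero]
  constructor
  · rintro ⟨a, ha, rfl⟩
    exact ha
  · intro h
    exact ⟨u, h, rfl⟩

theorem isBLat_s2L : IsBLat (s2L k N) := isBLat_genLat _ _

theorem finrank_s2L (n : ℤ) :
    Module.finrank k (s2L k N n) = N * Module.finrank k (Ad k n) := by
  unfold s2L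
  rw [finrank_genLat (Pi.linearIndependent_single_one (Fin N) (A k))]
  have : ∀ i : Fin N, Module.finrank k (Ad k (n - (fun _ : Fin N => (0 : ℤ)) i)) =
      Module.finrank k (Ad k n) := fun i => by
    show Module.finrank k (Ad k (n - 0)) = _
    rw [sub_zero]
  rw [Finset.sum_congr rfl fun i _ => this i, Finset.sum_const, Finset.card_univ,
    Fintype.card_fin, smul_eq_mul]

theorem hasHilb_s2L : HasHilb (s2L k N) N 0 0 := by
  filter_upwards [eventually_ge_atTop (-2)] with n hn
  rw [finrank_s2L]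
  push_cast
  rw [finrank_Ad hn]
  simp only [hp]
  push_cast
  ring

theorem IN_le_s2L (F : ℤ → Submodule (Bh k) (MM k N)) (j i : ℤ) : IN F j i ≤ s2L k N i := by
  intro u hu
  obtain ⟨v, h1, h2, rfl⟩ := mem_IN.1 hu
  rw [mem_s2L]
  intro l
  exact dh_mem i (v l)

theorem IsFilt.isBLat_IN {F : ℤ → Submodule (Bh k) (MM k N)} (hF : IsFilt F) (j : ℤ) :
    IsBLat (IN F j) :=
  isBLat_s2L.of_le (fun n => IN_le_s2L F j n) (fun ha hv => hF.IN_smul j ha hv)

theorem IN_eq_full {F : ℤ → Submodule (Bh k) (MM k N)} {c : ℤ}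
    (hc : ∀ n, FM k N (n + c) ≤ F n) {j : ℤ} (hj : j ≤ -c) (i : ℤ) : IN F j i = s2L k N i := by
  refine le_antisymm (IN_le_s2L F j i) fun u hu => ?_
  rw [mem_s2L] at hu
  refine mem_IN.2 ⟨fun l => hg k i (u l), fun l => hg_mem i (u l), ?_, ?_⟩
  · refine hc (i + j) ?_
    refine FM_anti (i := i + j + c) (j := i) (by (clear * - hj; omega)) ?_
    exact fun l => hg_mem i (u l)
  · funext l
    exact dh_hg (hu l)

theorem IN_eq_bot {F : ℤ → Submodule (Bh k) (MM k N)} {c : ℤ}
    (hc : ∀ n, F n ≤ FM k N (n - c)) {j : ℤ} (hj : c + 1 ≤ j) (i : ℤ) : IN F j i = ⊥ := by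
  rw [eq_bot_iff]
  intro u hu
  obtain ⟨v, h1, h2, rfl⟩ := mem_IN.1 hu
  rw [Submodule.mem_bot]
  rcases lt_or_ge i 0 with hi | hi
  · exact dhv_of_neg hi v
  · rw [dhv_eq_zero hi h1]
    exact FM_anti (by omega) (hc _ h2)

/-! ### The dimension count -/

/-- dimension of the image modulo `FM m` -/
noncomputable def s2d (m : ℕ) (P : Submodule (Bh k) (MM k N)) : ℕ :=
  Module.finrank k ((P.restrictScalars k).map ((FM k N m).restrictScalars k).mkQ)

theorem s2_map_finite (m : ℕ) (P : Submodule k (MM k N)) :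
    Module.Finite k (P.map ((FM k N m).restrictScalars k).mkQ) := by
  have := s2_finite (k := k) (N := N) m
  infer_instance

theorem s2d_step (F : ℤ → Submodule (Bh k) (MM k N)) (n : ℤ) {m i : ℕ} (hi : i < m) :
    s2d m (FM k N i ⊓ F n) = Module.finrank k (IN F (n - i) i) + s2d m (FM k N (i + 1) ⊓ F n) := by
  have hi' : (0 : ℤ) ≤ i := by omega
  have hle : (FM k N m).restrictScalars k ≤ LinearMap.ker (dhv k N i) := by
    intro v hv
    have h1 : v ∈ FM k N (i + 1) := FM_anti (by omega) hv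
    have h2 : v ∈ FM k N i := FM_anti (by omega) hv
    exact (dhv_eq_zero hi' h2).2 h1
  have h := s2_rank ((FM k N m).restrictScalars k).mkQ
    (((FM k N m).restrictScalars k).liftQ (dhv k N i) hle)
    ((FM k N i ⊓ F n).restrictScalars k) (s2_map_finite m _)
  rw [Submodule.liftQ_mkQ] at h
  have e1 : ((FM k N i ⊓ F n).restrictScalars k).map (dhv k N i) = IN F (n - i) i := by
    unfold IN
    rw [add_sub_cancel]
  have e2 : (FM k N i ⊓ F n).restrictScalars k ⊓ LinearMap.ker (dhv k N i) =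
      (FM k N (i + 1) ⊓ F n).restrictScalars k := by
    ext v
    simp only [Submodule.mem_inf, Submodule.restrictScalars_mem, LinearMap.mem_ker]
    constructor
    · rintro ⟨⟨h1, h2⟩, h3⟩
      exact ⟨(dhv_eq_zero hi' h1).1 h3, h2⟩
    · rintro ⟨h1, h2⟩
      have h3 : v ∈ FM k N i := FM_anti (by omega) h1
      exact ⟨⟨h3, h2⟩, (dhv_eq_zero hi' h3).2 h1⟩
  rw [e1, e2] at h
  exact h

theorem s2d_sum (F : ℤ → Submodule (Bh k) (MM k N)) (n : ℤ) (m : ℕ) :
    s2d m (F n) = ∑ i ∈ Finset.range m, Module.finrank k (IN F (n - i) i) := by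
  have key : ∀ i : ℕ, i ≤ m → s2d m (F n) =
      (∑ t ∈ Finset.range i, Module.finrank k (IN F (n - t) t)) + s2d m (FM k N i ⊓ F n) := by
    intro i
    induction i with
    | zero =>
      intro _
      rw [FM_of_nonpos (by simp), top_inf_eq, Finset.sum_range_zero, zero_add]
    | succ i ih =>
      intro hi
      rw [ih (by omega), s2d_step F n (show i < m by omega), Finset.sum_range_succ]
      push_cast
      ring
  rw [key m le_rfl]
  have h0 : s2d m (FM k N m ⊓ F n) = 0 := by
    unfold s2d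
    have : (((FM k N m ⊓ F n).restrictScalars k).map ((FM k N m).restrictScalars k).mkQ) = ⊥ := by
      rw [eq_bot_iff]
      rintro _ ⟨v, hv, rfl⟩
      rw [Submodule.mem_bot, Submodule.mkQ_apply, Submodule.Quotient.mk_eq_zero]
      exact hv.1
    rw [this, finrank_bot]
  rw [h0, add_zero]

theorem gdim_add (F : ℤ → Submodule (Bh k) (MM k N)) (hF : ∀ n, F (n + 1) ≤ F n) (n : ℤ) {m : ℕ}
    (hm : FM k N m ≤ F (n + 1)) : gdim F n + s2d m (F (n + 1)) = s2d m (F n) := by
  have hle : (FM k N m).restrictScalars k ≤ LinearMap.ker ((F (n + 1)).restrictScalars k).mkQ := by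
    rw [Submodule.ker_mkQ]
    exact hm
  have h := s2_rank ((FM k N m).restrictScalars k).mkQ
    (((FM k N m).restrictScalars k).liftQ ((F (n + 1)).restrictScalars k).mkQ hle)
    ((F n).restrictScalars k) (s2_map_finite m _)
  rw [Submodule.liftQ_mkQ, Submodule.ker_mkQ] at h
  have e2 : (F n).restrictScalars k ⊓ (F (n + 1)).restrictScalars k =
      (F (n + 1)).restrictScalars k := inf_eq_right.2 (hF n)
  rw [e2] at h
  exact h.symm

/-- the dimension formula -/
theorem s2_formula {F : ℤ → Submodule (Bh k) (MM k N)} (hF : IsFilt F) {c : ℕ}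
    (hc : ∀ n, FM k N (n + c) ≤ F n ∧ F n ≤ FM k N (n - c)) (n' : ℕ) :
    (gdim F (n' + c) : ℚ) = ∑ t ∈ Finset.range (2 * c + 1),
      ((Module.finrank k (IN F (c - t) (n' + t)) : ℚ) -
        Module.finrank k (IN F (c + 1 - t) (n' + t))) := by
  have h1 := gdim_add F hF.anti (n' + c) (m := n' + (2 * c + 1)) (by
    refine le_trans (FM_anti ?_) (hc _).1
    push_cast
    (clear * -; omega))
  rw [s2d_sum, s2d_sum, Finset.sum_range_add _ n' (2 * c + 1),
    Finset.sum_range_add _ n' (2 * c + 1)] at h1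
  have z1 : ∑ x ∈ Finset.range n', Module.finrank k (IN F ((n' : ℤ) + c + 1 - x) x) = 0 := by
    refine Finset.sum_eq_zero fun x hx => ?_
    have hx' := Finset.mem_range.1 hx
    rw [IN_eq_bot (fun n => (hc n).2) (by (clear * - hx'; omega)), finrank_bot]
  have z2 : ∑ x ∈ Finset.range n', Module.finrank k (IN F ((n' : ℤ) + c - x) x) = 0 := by
    refine Finset.sum_eq_zero fun x hx => ?_
    have hx' := Finset.mem_range.1 hx
    rw [IN_eq_bot (fun n => (hc n).2) (by omega), finrank_bot]
  rw [z1, z2, zero_add, zero_add] at h1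
  have h2 : (gdim F (n' + c) : ℚ) +
      ∑ x ∈ Finset.range (2 * c + 1), (Module.finrank k
        (IN F ((n' : ℤ) + c + 1 - ((n' + x : ℕ) : ℤ)) ((n' + x : ℕ) : ℤ)) : ℚ) =
      ∑ x ∈ Finset.range (2 * c + 1), (Module.finrank k
        (IN F ((n' : ℤ) + c - ((n' + x : ℕ) : ℤ)) ((n' + x : ℕ) : ℤ)) : ℚ) := by
    exact_mod_cast h1
  rw [Finset.sum_sub_distrib]
  have e1 : ∀ x : ℕ, (n' : ℤ) + c + 1 - ((n' + x : ℕ) : ℤ) = c + 1 - x := by
    intro x; push_cast; ring
  have e2 : ∀ x : ℕ, (n' : ℤ) + c - ((n' + x : ℕ) : ℤ) = c - x := by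
    intro x; push_cast; ring
  have e3 : ∀ x : ℕ, ((n' + x : ℕ) : ℤ) = n' + x := by
    intro x; push_cast; ring
  have f1 : ∀ x : ℕ, (Module.finrank k
      (IN F ((n' : ℤ) + c + 1 - ((n' + x : ℕ) : ℤ)) ((n' + x : ℕ) : ℤ)) : ℚ) =
      Module.finrank k (IN F ((c : ℤ) + 1 - x) ((n' : ℤ) + x)) := fun x => by rw [e1, e3]
  have f2 : ∀ x : ℕ, (Module.finrank k
      (IN F ((n' : ℤ) + c - ((n' + x : ℕ) : ℤ)) ((n' + x : ℕ) : ℤ)) : ℚ) =
      Module.finrank k (IN F ((c : ℤ) - x) ((n' : ℤ) + x)) := fun x => by rw [e2, e3]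
  rw [Finset.sum_congr rfl fun x _ => f1 x, Finset.sum_congr rfl fun x _ => f2 x] at h2
  linarith only [h2]

/-! ### Quadratic polynomials -/

/-- quadratic polynomial functions -/
def IsQuad (f : ℚ → ℚ) : Prop := ∃ a b d : ℚ, ∀ x, f x = a * x ^ 2 + b * x + d

theorem isQuad_hp (N e g : ℤ) (s : ℚ) : IsQuad fun x => hp N e g (x + s) := by
  refine ⟨N / 2, N * (2 * s + 3) / 2 + e, N * ((s + 1) * (s + 2) / 2) + e * (s + 1) + g,
    fun x => ?_⟩
  simp only [hp]
  ring

theorem IsQuad.sub {f f' : ℚ → ℚ} (h : IsQuad f) (h' : IsQuad f') :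
    IsQuad fun x => f x - f' x := by
  obtain ⟨a, b, d, h⟩ := h
  obtain ⟨a', b', d', h'⟩ := h'
  refine ⟨a - a', b - b', d - d', fun x => ?_⟩
  show f x - f' x = _
  rw [h, h']
  ring

theorem IsQuad.sum (T : ℕ) (f : ℕ → ℚ → ℚ) (h : ∀ t, IsQuad (f t)) :
    IsQuad fun x => ∑ t ∈ Finset.range T, f t x := by
  induction T with
  | zero => exact ⟨0, 0, 0, fun x => by simp⟩
  | succ T ih =>
    obtain ⟨a, b, d, h1⟩ := ih
    obtain ⟨a', b', d', h2⟩ := h T
    refine ⟨a + a', b + b', d + d', fun x => ?_⟩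
    have h3 := h1 x
    show ∑ t ∈ Finset.range (T + 1), f t x = _
    rw [Finset.sum_range_succ, h2]
    linear_combination h3

theorem IsQuad.eq_zero {f : ℚ → ℚ} (h : IsQuad f) {n₀ : ℤ} (h0 : ∀ n : ℤ, n₀ ≤ n → f n = 0)
    (x : ℚ) : f x = 0 := by
  obtain ⟨a, b, d, h⟩ := h
  have h1 := h0 n₀ le_rfl
  have h2 := h0 (n₀ + 1) (by omega)
  have h3 := h0 (n₀ + 2) (by omega)
  rw [h] at h1 h2 h3
  push_cast at h1 h2 h3
  have ha : a = 0 := by linear_combination (h1 - 2 * h2 + h3) / 2
  have hb : b = 0 := by rw [ha] at h1 h2; linear_combination h2 - h1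
  have hd : d = 0 := by rw [ha, hb] at h1; linear_combination h1
  rw [h, ha, hb, hd]
  ring

/-- Abel summation -/
theorem s2_abel (E : ℕ → ℤ) (c : ℤ) (T : ℕ) :
    ∑ t ∈ Finset.range T, (E (t + 1) - E t) * ((t : ℤ) - c) =
      E T * (T - c) - E 0 * (-c) - ∑ t ∈ Finset.range T, E (t + 1) := by
  induction T with
  | zero => simp only [Finset.range_zero, Finset.sum_empty, CharP.cast_eq_zero, zero_sub, mul_neg, sub_self]
  | succ T ih =>
    rw [Finset.sum_range_succ, Finset.sum_range_succ, ih]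
    push_cast
    ring

theorem s2_N_mono {V : Type} [AddCommGroup V] [Module k V] {E E' : ℤ → Submodule k V}
    (hfin : ∀ n, Module.Finite k (E' n)) (hle : ∀ n, E n ≤ E' n) {N e g N' e' g' : ℤ}
    (h : ∀ᶠ n : ℤ in atTop, (Module.finrank k (E n) : ℚ) = hp N e g n)
    (h' : ∀ᶠ n : ℤ in atTop, (Module.finrank k (E' n) : ℚ) = hp N' e' g' n) : N ≤ N' := by
  have h1 : ∀ᶠ n : ℤ in atTop, 0 ≤ (((N' : ℚ) - N) / 2) * (n : ℚ) ^ 2 +
      (3 / 2 * (N' - N) + (e' - e)) * n + (N' - N + (e' - e) + (g' - g)) := by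
    filter_upwards [h, h'] with n hn hn'
    have := hfin n
    have h2 : (Module.finrank k (E n) : ℚ) ≤ Module.finrank k (E' n) := by
      exact_mod_cast Submodule.finrank_mono (hle n)
    rw [hn, hn'] at h2
    simp only [hp] at h2
    linarith only [h2]
  have h2 := b4_quad h1
  have h3 : (N : ℚ) ≤ N' := by linarith
  exact_mod_cast h3

/-- (A2) -/
theorem IsFilt.g_nonneg {F : ℤ → Submodule (Bh k) (MM k N)} (hF : IsFilt F) {N' e g : ℤ}
    (h : ∀ᶠ n : ℤ in atTop, (gdim F n : ℚ) = hp N' e g n) : 0 ≤ g := by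
  obtain ⟨c₀, hc₀⟩ := hF.bdd
  obtain ⟨c, hc⟩ : ∃ c : ℕ, ∀ n : ℤ, FM k N (n + c) ≤ F n ∧ F n ≤ FM k N (n - c) := by
    refine ⟨c₀.toNat, fun n => ⟨le_trans (FM_anti ?_) (hc₀ n).1, le_trans (hc₀ n).2 (FM_anti ?_)⟩⟩
    · have := Int.self_le_toNat c₀; omega
    · have := Int.self_le_toNat c₀; omega
  -- Hilbert triples
  have hB : ∀ t : ℕ, IsBLat (IN F (c + 1 - t)) := fun t => hF.isBLat_IN _
  have hex : ∀ t : ℕ, ∃ w e g : ℤ, HasHilb (IN F (c + 1 - t)) w e g := fun t => (hB t).exists_hilb
  choose w ee gg hH using hex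
  have hsucc : ∀ t : ℕ, (c : ℤ) + 1 - ((t + 1 : ℕ) : ℤ) = c - t := by
    intro t; push_cast; ring
  -- the ends
  have h0 : w 0 = 0 ∧ ee 0 = 0 ∧ gg 0 = 0 := by
    refine HasHilb.unique (hH 0) ?_
    refine Eventually.of_forall fun n => ?_
    rw [IN_eq_bot (fun n => (hc n).2) (by simp), finrank_bot]
    simp only [CharP.cast_eq_zero, hp, Int.cast_zero, zero_mul, add_zero]
  have hT : w (2 * c + 1) = N ∧ ee (2 * c + 1) = 0 ∧ gg (2 * c + 1) = 0 := by
    refine HasHilb.unique (hH _) ?_
    filter_upwards [hasHilb_s2L (k := k) (N := N)] with n hn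
    rw [IN_eq_full (fun n => (hc n).1) (by push_cast; omega), hn]
  -- slopes
  have he : ∀ t, ee t ≤ 0 := by
    intro t
    let f : (Fin N → A k) →ₗ[A k] (Fin N → KK k) :=
      (Algebra.linearMap (A k) (KK k)).compLeft (Fin N)
    have hf : Function.Injective f := by
      intro a b hab
      funext l
      exact FaithfulSMul.algebraMap_injective (A k) (KK k) (congrFun hab l)
    have h1 := HasHilb.e_nonpos ((hB t).map f) 0 (fun n v hv i => by
      obtain ⟨u, hu, rfl⟩ := hv
      refine ⟨u i, ?_, rfl⟩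
      rw [add_zero]
      exact mem_s2L.1 (IN_le_s2L F _ n hu) i) ((hH t).map_injective f hf)
    rwa [zero_mul] at h1
  have hw : ∀ t, w t ≤ w (t + 1) := by
    intro t
    refine s2_N_mono (hB (t + 1)).fin (fun n => ?_) (hH t) (hH (t + 1))
    have := IN_anti hF ((c : ℤ) - t) n
    rw [hsucc]
    rwa [show (c : ℤ) - t + 1 = c + 1 - t by ring] at this
  -- the polynomial identity
  have hpoly : ∀ x : ℚ, hp N' e g (x + c) - ∑ t ∈ Finset.range (2 * c + 1),
      (hp (w (t + 1)) (ee (t + 1)) (gg (t + 1)) (x + t) - hp (w t) (ee t) (gg t) (x + t)) = 0 := by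
    have hth : ∀ t : ℕ, ∃ n₀ : ℤ, ∀ n : ℤ, n₀ ≤ n →
        (Module.finrank k (IN F (c + 1 - t) n) : ℚ) = hp (w t) (ee t) (gg t) n := fun t =>
      eventually_atTop.1 (hH t)
    choose θ hθ using hth
    obtain ⟨n₁, hn₁⟩ := eventually_atTop.1 h
    refine IsQuad.eq_zero (n₀ := max 0 (max n₁ (∑ t ∈ Finset.range (2 * c + 2), |θ t|)))
      (IsQuad.sub (isQuad_hp N' e g c) (IsQuad.sum _ _ fun t =>
        IsQuad.sub (isQuad_hp _ _ _ _) (isQuad_hp _ _ _ _))) fun n hn => ?_
    have hn0 : 0 ≤ n := (le_max_left _ _).trans hn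
    have hn1 : n₁ ≤ n := (le_max_left _ _).trans ((le_max_right _ _).trans hn)
    have hn2 : (∑ t ∈ Finset.range (2 * c + 2), |θ t|) ≤ n :=
      (le_max_right _ _).trans ((le_max_right _ _).trans hn)
    have hθn : ∀ t ∈ Finset.range (2 * c + 2), θ t ≤ n := fun t ht =>
      (le_abs_self _).trans ((Finset.single_le_sum (fun s _ => abs_nonneg (θ s)) ht).trans hn2)
    obtain ⟨n', rfl⟩ := Int.eq_ofNat_of_zero_le hn0
    have h3 := s2_formula hF hc n'
    rw [hn₁ _ (by omega)] at h3
    push_cast at h3 ⊢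
    rw [h3, sub_eq_zero]
    refine Finset.sum_congr rfl fun t ht => ?_
    have ht' := Finset.mem_range.1 ht
    have k1 := hθ t ((n' : ℤ) + t) (by
      have := hθn t (Finset.mem_range.2 (by omega)); omega)
    have k2 := hθ (t + 1) ((n' : ℤ) + t) (by
      have := hθn (t + 1) (Finset.mem_range.2 (by omega)); omega)
    rw [hsucc] at k2
    rw [k1, k2]
    push_cast
    rfl
  have hfin := hpoly (-1 - c)
  have e1 : hp N' e g (-1 - c + c) = g := by
    simp only [hp]; ring
  rw [e1, sub_eq_zero] at hfin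
  have e2 : ∀ t : ℕ, hp (w (t + 1)) (ee (t + 1)) (gg (t + 1)) (-1 - (c : ℚ) + t) -
      hp (w t) (ee t) (gg t) (-1 - (c : ℚ) + t) =
      ((w (t + 1) - w t : ℤ) : ℚ) * ((((t : ℤ) - c) * ((t : ℤ) - c + 1) : ℤ) / 2) +
        (((ee (t + 1) - ee t) * ((t : ℤ) - c) : ℤ) : ℚ) + ((gg (t + 1) - gg t : ℤ) : ℚ) := by
    intro t
    simp only [hp]
    push_cast
    ring
  simp only [e2] at hfin
  rw [Finset.sum_add_distrib, Finset.sum_add_distrib] at hfin
  have s3 : ∑ t ∈ Finset.range (2 * c + 1), ((gg (t + 1) - gg t : ℤ) : ℚ) = 0 := by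
    rw [← Int.cast_sum, Finset.sum_range_sub, hT.2.2, h0.2.2]
    simp
  have s2 : 0 ≤ ∑ t ∈ Finset.range (2 * c + 1), (((ee (t + 1) - ee t) * ((t : ℤ) - c) : ℤ) : ℚ) := by
    rw [← Int.cast_sum, s2_abel, hT.2.1, h0.2.1]
    have : 0 ≤ -∑ t ∈ Finset.range (2 * c + 1), ee (t + 1) := by
      rw [← Finset.sum_neg_distrib]
      exact Finset.sum_nonneg fun t _ => by have := he (t + 1); omega
    have h4 : (0 : ℤ) ≤ 0 * ((2 * c + 1 : ℕ) - (c : ℤ)) - 0 * (-(c : ℤ)) -
        ∑ t ∈ Finset.range (2 * c + 1), ee (t + 1) := by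
      rw [zero_mul, zero_mul]; omega
    exact_mod_cast h4
  have s1 : 0 ≤ ∑ t ∈ Finset.range (2 * c + 1), ((w (t + 1) - w t : ℤ) : ℚ) *
      ((((t : ℤ) - c) * ((t : ℤ) - c + 1) : ℤ) / 2) := by
    refine Finset.sum_nonneg fun t _ => ?_
    have h5 : 0 ≤ w (t + 1) - w t := by have := hw t; omega
    have h6 : 0 ≤ ((t : ℤ) - c) * ((t : ℤ) - c + 1) := by
      rcases le_or_gt 0 ((t : ℤ) - c) with h7 | h7
      · exact mul_nonneg h7 (by omega)
      · exact mul_nonneg_of_nonpos_of_nonpos h7.le (by omega)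
    have h7 : (0 : ℚ) ≤ ((w (t + 1) - w t : ℤ) : ℚ) := by exact_mod_cast h5
    have h8 : (0 : ℚ) ≤ ((((t : ℤ) - c) * ((t : ℤ) - c + 1) : ℤ) : ℚ) := by exact_mod_cast h6
    (clear * - h5 h6; positivity)
  have : (0 : ℚ) ≤ (g : ℚ) := by rw [hfin, s3]; linarith only [s2, s1]
  exact_mod_cast this

end Vale.Agent.P190.D
end
end
namespace AFast7f54d5x2824a
@[reducible] noncomputable def a0 {x1 : Type} [x2 : Field x1] {x3 : ℕ} : SMulZeroClass (Vale.Agent.P190.D.Bh x1) (Vale.Agent.P190.D.MM x1 x3) := inferInstance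
end AFast7f54d5x2824a
attribute [local instance] AFast7f54d5x2824a.a0
namespace AFast7f54d5x2824b
@[reducible] def a0 {x1 : Type} [x2 : CommRing x1] {x3 : Type} [x4 : Field x3] {x5 : ℕ} [x6 : Module x1 (Vale.Agent.P190.D.MM x3 x5)] : SMul (Ideal x1) (Submodule x1 (Vale.Agent.P190.D.MM x3 x5)) := inferInstance
end AFast7f54d5x2824b
attribute [local instance] AFast7f54d5x2824b.a0

section

section

/-! Section 3, file S3: admissible filtrations and their existence. -/

set_option autoImplicit false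
set_option linter.unusedSectionVars false

open MvPolynomial Filter

namespace Vale.Agent.P190.D

variable {k : Type} [Field k] {X : Arr k} {R : Type} [CommRing R] [Algebra (Bh k) R]
  {N : ℕ} [Module R (MM k N)] [IsScalarTower (Bh k) R (MM k N)]

/-- admissible filtrations -/
structure Adm (D : RData X R) (F : ℤ → Submodule (Bh k) (MM k N)) : Prop extends IsFilt F where
  s_mem : ∀ (x : X.I) {n : ℤ} {v : MM k N}, v ∈ F n → D.s x • v ∈ F (n + 1)
  G_mem : ∀ (ε : X.S → Bool) {n : ℤ} {v : MM k N}, v ∈ F n → D.G ε • v ∈ F (n + X.w)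
  sat : ∀ {j : ℤ} {b : Bh k}, b ∈ Fil k j → b ∉ Fil k (j + 1) →
    ∀ {n : ℤ} {v : MM k N}, b • v ∈ F (n + j) → v ∈ F n

theorem filt_smul_mem {F : ℤ → Submodule (Bh k) (MM k N)}
    (hx : ∀ (i : Fin 3) {n : ℤ} {v : MM k N}, v ∈ F n →
      (MvPowerSeries.X i : Bh k) • v ∈ F (n + 1)) {j n : ℤ}
    (hj : 0 ≤ j) {b : Bh k} (hb : b ∈ Fil k j) {v : MM k N} (hv : v ∈ F n) :
    b • v ∈ F (n + j) := by
  lift j to ℕ using hj
  rw [Fil_eq_pow] at hb
  induction j generalizing b n v with
  | zero => simpa only [CharP.cast_eq_zero, add_zero] using (F n).smul_mem b hv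
  | succ j ih =>
    rw [pow_succ'] at hb
    refine Submodule.mul_induction_on hb ?_ ?_
    · intro r hr s hs
      rw [mul_smul]
      have h1 : s • v ∈ F (n + j) := ih hv hs
      refine Submodule.span_induction (p := fun r _ => r • (s • v) ∈ F (n + ((j + 1 : ℕ) : ℤ)))
        ?_ ?_ ?_ ?_ hr
      · rintro _ ⟨i, rfl⟩
        have h2 := hx i h1
        rwa [show n + ((j + 1 : ℕ) : ℤ) = n + j + 1 by push_cast; ring]
      · simp
      · intro a c _ _ ha hc
        rw [add_smul]
        exact add_mem ha hc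
      · intro a c _ hc
        rw [smul_assoc]
        exact Submodule.smul_mem _ _ hc
    · intro a c ha hc
      rw [add_smul]
      exact add_mem ha hc

theorem IsFilt.smul_mem {F : ℤ → Submodule (Bh k) (MM k N)} (hF : IsFilt F) {j n : ℤ}
    (hj : 0 ≤ j) {b : Bh k} (hb : b ∈ Fil k j) {v : MM k N} (hv : v ∈ F n) :
    b • v ∈ F (n + j) :=
  filt_smul_mem hF.x_mem hj hb hv

namespace S3

/-- the ideal generated by the `s_x` -/
def nn (D : RData X R) : Ideal R := Ideal.span (Set.range D.s)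

/-- `nn^n M` -/
def PP (D : RData X R) (N : ℕ) [Module R (MM k N)] (n : ℤ) : Submodule R (MM k N) :=
  (nn D) ^ n.toNat • ⊤

/-- the filtration generated by `s`, `G` -/
def NN (D : RData X R) (N : ℕ) [Module R (MM k N)] (n : ℤ) : Submodule R (MM k N) :=
  PP D N n ⊔ ⨆ ε : X.S → Bool, (PP D N (n - X.w)).map (LinearMap.lsmul R (MM k N) (D.G ε))

variable {D : RData X R}

lemma s_mem_nn (x : X.I) : D.s x ∈ nn D := Ideal.subset_span ⟨x, rfl⟩

lemma PP_anti {a b : ℤ} (h : a ≤ b) : PP D N b ≤ PP D N a :=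
  Submodule.smul_mono_left (Ideal.pow_le_pow_right (Int.toNat_le_toNat h))

lemma PP_nonpos {a : ℤ} (h : a ≤ 0) : PP D N a = ⊤ := by
  unfold PP
  rw [Int.toNat_of_nonpos h, pow_zero, Ideal.one_eq_top, Submodule.top_smul]

lemma smul_PP {a : ℕ} {r : R} (hr : r ∈ nn D ^ a) {n : ℤ} {v : MM k N} (hv : v ∈ PP D N n) :
    r • v ∈ PP D N (n + a) := by
  have h1 : r • v ∈ (nn D ^ a) • ((nn D) ^ n.toNat • (⊤ : Submodule R (MM k N))) :=
    Submodule.smul_mem_smul hr hv
  rw [← Submodule.mul_smul, ← pow_add] at h1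
  refine Submodule.smul_mono_left (Ideal.pow_le_pow_right ?_) h1
  (clear * -; omega)

lemma PP_le_NN (n : ℤ) : PP D N n ≤ NN D N n := le_sup_left

lemma G_PP_mem (ε : X.S → Bool) {n : ℤ} {v : MM k N} (hv : v ∈ PP D N (n - X.w)) :
    D.G ε • v ∈ NN D N n := by
  refine le_sup_right (a := PP D N n) (Submodule.mem_iSup_of_mem ε ?_)
  exact ⟨v, hv, rfl⟩

lemma NN_le {n : ℤ} {Q : Submodule R (MM k N)} (h1 : PP D N n ≤ Q)
    (h2 : ∀ ε : X.S → Bool, ∀ v ∈ PP D N (n - X.w), D.G ε • v ∈ Q) : NN D N n ≤ Q := by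
  refine sup_le h1 (iSup_le fun ε => ?_)
  rw [Submodule.map_le_iff_le_comap]
  exact fun v hv => h2 ε v hv

lemma NN_anti {a b : ℤ} (h : a ≤ b) : NN D N b ≤ NN D N a :=
  NN_le ((PP_anti h).trans (PP_le_NN a)) fun ε _ hv => G_PP_mem ε (PP_anti (by (clear * - h; omega)) hv)

lemma s_NN (x : X.I) {n : ℤ} {v : MM k N} (hv : v ∈ NN D N n) : D.s x • v ∈ NN D N (n + 1) := by
  have hx : D.s x ∈ nn D ^ 1 := by rw [pow_one]; exact s_mem_nn x
  have h : NN D N n ≤ (NN D N (n + 1)).comap (LinearMap.lsmul R (MM k N) (D.s x)) := by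
    refine NN_le (fun v hv => PP_le_NN _ ?_) fun ε v hv => ?_
    · have := smul_PP hx hv
      simpa only [LinearMap.lsmul_apply, Nat.cast_one] using this
    · change D.s x • (D.G ε • v) ∈ NN D N (n + 1)
      rw [smul_comm]
      refine G_PP_mem ε ?_
      have := smul_PP hx hv
      rw [Nat.cast_one] at this
      rwa [show n + 1 - (X.w : ℤ) = n - X.w + 1 by ring]
  exact h hv

lemma card_S : Fintype.card X.S = X.w + X.w := by
  have := X.even
  unfold Arr.w
  obtain ⟨a, ha⟩ := this
  omega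

lemma GG_mem (ε ε' : X.S → Bool) : D.G ε * D.G ε' ∈ nn D ^ (X.w + X.w) := by
  rw [D.G_G, ← card_S, ← Finset.card_univ, ← Finset.prod_const]
  refine Ideal.prod_mem_prod fun t _ => ?_
  have h1 := s_mem_nn (D := D) (X.d t)
  have h2 := s_mem_nn (D := D) (X.h t)
  have h3 := s_mem_nn (D := D) (X.v t)
  split_ifs
  · exact add_mem (Ideal.mul_mem_left _ _ h1) (Ideal.mul_mem_left _ _ h2)
  · exact sub_mem (Ideal.mul_mem_left _ _ h1) (Ideal.mul_mem_left _ _ h2)
  · exact Ideal.mul_mem_left _ _ h3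

lemma G_NN (ε : X.S → Bool) {n : ℤ} {v : MM k N} (hv : v ∈ NN D N n) :
    D.G ε • v ∈ NN D N (n + X.w) := by
  have h : NN D N n ≤ (NN D N (n + X.w)).comap (LinearMap.lsmul R (MM k N) (D.G ε)) := by
    refine NN_le (fun v hv => ?_) fun ε' v hv => ?_
    · exact G_PP_mem ε (by simpa using hv)
    · change D.G ε • (D.G ε' • v) ∈ NN D N (n + X.w)
      rw [smul_smul]
      refine PP_le_NN _ ?_
      have := smul_PP (GG_mem ε ε') hv
      refine PP_anti ?_ this
      push_cast
      omega
  exact h hv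

lemma x_NN (i : Fin 3) {n : ℤ} {v : MM k N} (hv : v ∈ NN D N n) :
    (MvPowerSeries.X i : Bh k) • v ∈ NN D N (n + 1) := by
  have := s_NN (X.b i) hv
  rwa [D.s_b, algebraMap_smul] at this

lemma Fil_NN {j n : ℤ} (hj : 0 ≤ j) {b : Bh k} (hb : b ∈ Fil k j) {v : MM k N}
    (hv : v ∈ NN D N n) : b • v ∈ NN D N (n + j) :=
  filt_smul_mem (F := fun n => (NN D N n).restrictScalars (Bh k)) (fun i _ _ h => x_NN i h) hj hb hv

lemma vec_eq (v : MM k N) : v = ∑ i, v i • (Pi.single i 1 : MM k N) := by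
  ext1 l
  rw [Finset.sum_apply, Finset.sum_eq_single l]
  · simp only [Pi.smul_apply, Pi.single_eq_same, smul_eq_mul, mul_one]
  · intro i _ hi
    simp only [Pi.smul_apply, Pi.single_eq_of_ne hi.symm, smul_eq_mul, mul_zero]
  · simp only [Finset.mem_univ, not_true_eq_false, Pi.smul_apply, Pi.single_eq_same, smul_eq_mul, mul_one, IsEmpty.forall_iff]

lemma FM_le_NN {n : ℤ} {v : MM k N} (hv : v ∈ FM k N n) : v ∈ NN D N n := by
  by_cases hn : n ≤ 0
  · refine PP_le_NN _ ?_
    rw [PP_nonpos hn]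
    trivial
  · push Not at hn
    rw [vec_eq v]
    refine Submodule.sum_mem _ fun i _ => ?_
    have h0 : (Pi.single i 1 : MM k N) ∈ NN D N 0 := by
      refine PP_le_NN _ ?_
      rw [PP_nonpos le_rfl]
      trivial
    have := Fil_NN hn.le (hv i) h0
    rwa [zero_add] at this

lemma smul_FM (r : R) {j : ℤ} {v : MM k N} (hv : v ∈ FM k N j) : r • v ∈ FM k N j := by
  rw [vec_eq v, Finset.smul_sum]
  refine Submodule.sum_mem _ fun i _ => ?_
  rw [smul_comm]
  intro l
  exact Ideal.mul_mem_right _ _ (hv i)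

lemma FM_anti {a b : ℤ} (h : a ≤ b) : FM k N b ≤ FM k N a := fun _ hv i => Fil_anti h (hv i)

lemma FM_nonpos {a : ℤ} (h : a ≤ 0) (v : MM k N) : v ∈ FM k N a := by
  intro i
  rw [Fil_of_nonpos h]
  trivial

/-- bounds the powers of `nn` -/
def JJ (D : RData X R) (n : ℕ) : Ideal R :=
  Ideal.span {r | ∃ (T : Finset X.I) (b : Bh k), b ∈ Fil k ((n : ℤ) - T.card) ∧
    r = algebraMap (Bh k) R b * ∏ x ∈ T, D.s x}

lemma sum_sq_mem (x : X.I) :
    (∑ i, (MvPowerSeries.C (X.l x i) : Bh k) * MvPowerSeries.X i ^ 2) ∈ Fil k 2 := by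
  refine Ideal.sum_mem _ fun i _ => Ideal.mul_mem_left _ _ ?_
  have h1 : (MvPowerSeries.X i : Bh k) ∈ Fil k ((1 : ℕ) : ℤ) := by
    rw [Fil_eq_pow, pow_one]
    exact Ideal.subset_span ⟨i, rfl⟩
  have := Fil_mul h1 h1
  rw [pow_two]
  simpa only [Nat.cast_one, Int.reduceAdd] using this

lemma nn_pow_le (n : ℕ) : nn D ^ n ≤ JJ D n := by
  induction n with
  | zero =>
    rw [pow_zero, Ideal.one_eq_top]
    intro r _
    have h1 : (1 : R) ∈ JJ D 0 := by
      refine Ideal.subset_span ⟨∅, 1, ?_, by simp only [map_one, Finset.prod_empty, mul_one]⟩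
      rw [Fil_of_nonpos (by simp)]
      trivial
    simpa only [mul_one] using Ideal.mul_mem_left _ r h1
  | succ n ih =>
    rw [pow_succ']
    refine (Ideal.mul_mono_right ih).trans ?_
    unfold nn JJ
    rw [Ideal.span_mul_span', Ideal.span_le]
    rintro _ ⟨_, ⟨x, rfl⟩, _, ⟨T, b, hb, rfl⟩, rfl⟩
    by_cases hx : x ∈ T
    · have h1 : (fun x1 x2 => x1 * x2) (D.s x) (algebraMap (Bh k) R b * ∏ x ∈ T, D.s x)
          = algebraMap (Bh k) R ((∑ i, (MvPowerSeries.C (X.l x i) : Bh k) *
            MvPowerSeries.X i ^ 2) * b) * ∏ x ∈ T.erase x, D.s x := by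
        simp only
        rw [← Finset.mul_prod_erase T _ hx, map_mul, ← D.s_sq]
        ring
      rw [h1]
      refine Ideal.subset_span ⟨T.erase x, _, ?_, rfl⟩
      have h2 := Fil_mul (sum_sq_mem x) hb
      have h3 := Finset.card_pos.2 ⟨x, hx⟩
      rw [Finset.card_erase_of_mem hx]
      refine Fil_anti ?_ h2
      push_cast [Nat.cast_sub h3]
      omega
    · have h1 : (fun x1 x2 => x1 * x2) (D.s x) (algebraMap (Bh k) R b * ∏ x ∈ T, D.s x)
          = algebraMap (Bh k) R b * ∏ x ∈ insert x T, D.s x := by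
        simp only
        rw [Finset.prod_insert hx]
        ring
      rw [h1]
      refine Ideal.subset_span ⟨insert x T, _, ?_, rfl⟩
      rw [Finset.card_insert_of_notMem hx]
      refine Fil_anti ?_ hb
      push_cast
      omega

lemma JJ_smul {n : ℕ} {r : R} (hr : r ∈ JJ D n) (v : MM k N) :
    r • v ∈ FM k N ((n : ℤ) - X.m) := by
  refine Submodule.span_induction (p := fun r _ => r • v ∈ FM k N ((n : ℤ) - X.m))
        ?_ ?_ ?_ ?_ hr
  · rintro _ ⟨T, b, hb, rfl⟩
    rw [mul_smul, algebraMap_smul]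
    intro i
    refine Ideal.mul_mem_right _ _ (Fil_anti ?_ hb)
    have : T.card ≤ X.m := Finset.card_le_univ T
    (clear * - this; omega)
  · simp only [zero_smul, zero_mem]
  · intro a c _ _ ha hc
    rw [add_smul]
    exact add_mem ha hc
  · intro a c _ hc
    rw [smul_assoc]
    exact smul_FM a hc

lemma PP_le_FM {n : ℤ} {v : MM k N} (hv : v ∈ PP D N n) : v ∈ FM k N (n - X.m) := by
  by_cases hn : n ≤ 0
  · exact FM_nonpos (by omega) v
  · push Not at hn
    refine Submodule.smul_induction_on hv ?_ ?_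
    · intro r hr w _
      have := JJ_smul (nn_pow_le _ hr) w
      rwa [Int.toNat_of_nonneg hn.le] at this
    · intro a b ha hb
      exact add_mem ha hb

/-- the filtration of `M` by `R`-submodules -/
def FMR (R : Type) [CommRing R] [Algebra (Bh k) R] (N : ℕ) [Module R (MM k N)]
    [IsScalarTower (Bh k) R (MM k N)] (j : ℤ) : Submodule R (MM k N) where
  carrier := FM k N j
  add_mem' := fun ha hb => add_mem ha hb
  zero_mem' := zero_mem _
  smul_mem' := fun r _ hv => smul_FM r hv

lemma NN_le_FM {n : ℤ} {v : MM k N} (hv : v ∈ NN D N n) : v ∈ FM k N (n - X.w - X.m) := by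
  have h : NN D N n ≤ FMR R N (n - X.w - X.m) := by
    refine NN_le (fun v hv => ?_) fun ε v hv => ?_
    · exact FM_anti (by omega) (PP_le_FM hv)
    · exact smul_FM _ (PP_le_FM hv)
  exact h hv

/-- the saturated filtration -/
def FF (D : RData X R) (N : ℕ) [Module R (MM k N)] [IsScalarTower (Bh k) R (MM k N)] (n : ℤ) :
    Submodule (Bh k) (MM k N) where
  carrier := {v | ∃ (j : ℤ) (b : Bh k), b ∈ Fil k j ∧ b ∉ Fil k (j + 1) ∧ b • v ∈ NN D N (n + j)}
  add_mem' := by
    rintro v w ⟨j, b, hb, hb', hv⟩ ⟨j', b', hc, hc', hw⟩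
    have hj : 0 ≤ j := by
      by_contra hlt
      exact hb' (by rw [Fil_of_nonpos (by omega)]; trivial)
    have hj' : 0 ≤ j' := by
      by_contra hlt
      exact hc' (by rw [Fil_of_nonpos (by omega)]; trivial)
    refine ⟨j + j', b * b', Fil_mul hb hc, Fil_mul_not hb' hc', ?_⟩
    rw [smul_add]
    refine add_mem ?_ ?_
    · rw [mul_comm, mul_smul]
      have := Fil_NN hj' hc hv
      rwa [← add_assoc]
    · rw [mul_smul]
      have := Fil_NN hj hb hw
      rwa [show n + (j + j') = n + j' + j by ring]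
  zero_mem' := by
    refine ⟨0, 1, ?_, ?_, ?_⟩
    · rw [Fil_of_nonpos le_rfl]; trivial
    · intro h1
      have := h1 0 (by simp)
      simp at this
    · simp
  smul_mem' := by
    rintro c v ⟨j, b, hb, hb', hv⟩
    refine ⟨j, b, hb, hb', ?_⟩
    rw [smul_comm]
    exact Submodule.smul_of_tower_mem _ c hv

lemma one_mem_Fil : (1 : Bh k) ∈ Fil k 0 ∧ (1 : Bh k) ∉ Fil k (0 + 1) := by
  constructor
  · rw [Fil_of_nonpos le_rfl]; trivial
  · intro h1
    have := h1 0 (by simp only [map_zero, CharP.cast_eq_zero, zero_add, zero_lt_one])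
    simp at this

end S3

open S3 in
/-- 3.0 -/
theorem exists_adm (D : RData X R) : ∃ F : ℤ → Submodule (Bh k) (MM k N), Adm D F := by
  have hs : ∀ (x : X.I) {n : ℤ} {v : MM k N}, v ∈ FF D N n → D.s x • v ∈ FF D N (n + 1) := by
    rintro x n v ⟨j, b, hb, hb', hv⟩
    refine ⟨j, b, hb, hb', ?_⟩
    rw [smul_comm, show n + 1 + j = n + j + 1 by ring]
    exact s_NN x hv
  refine ⟨FF D N, ⟨⟨?_, ?_, ?_⟩, hs, ?_, ?_⟩⟩
  · rintro n v ⟨j, b, hb, hb', hv⟩
    exact ⟨j, b, hb, hb', NN_anti (by omega) hv⟩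
  · intro i n v hv
    have := hs (X.b i) hv
    rwa [D.s_b, algebraMap_smul] at this
  · refine ⟨X.w + X.m, fun n => ⟨fun v hv => ?_, ?_⟩⟩
    · refine ⟨0, 1, one_mem_Fil.1, one_mem_Fil.2, ?_⟩
      rw [one_smul, add_zero]
      exact FM_le_NN (FM_anti (by omega) hv)
    · rintro v ⟨j, b, hb, hb', hv⟩ i
      have h1 := NN_le_FM hv i
      refine mem_Fil_of_mul (i := j) hb' ?_
      rw [show j + (n - (X.w + X.m : ℤ)) = n + j - X.w - X.m by ring]
      exact h1
  · rintro ε n v ⟨j, b, hb, hb', hv⟩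
    refine ⟨j, b, hb, hb', ?_⟩
    rw [smul_comm, show n + (X.w : ℤ) + j = n + j + X.w by ring]
    exact G_NN ε hv
  · rintro j b hb hb' n v ⟨j', b', hc, hc', hv⟩
    refine ⟨j + j', b' * b, ?_, ?_, ?_⟩
    · rw [mul_comm]; exact Fil_mul hb hc
    · rw [mul_comm]; exact Fil_mul_not hb' hc'
    · rw [mul_smul, ← add_assoc]
      exact hv

end Vale.Agent.P190.D
end
end

section

section

/-! Section 1, auxiliary file for B10: dimension counts for resolutions and duals. -/

set_option autoImplicit false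
set_option linter.unusedSectionVars false

open MvPolynomial Filter

namespace Vale.Agent.P190.D

section gen

variable {k : Type} [Field k]

/-- tuples of polynomials of bounded degrees -/
noncomputable def pD (k : Type) [Field k] {ι : Type} (d : ι → ℤ) : Submodule k (ι → A k) :=
  Submodule.pi Set.univ fun i => Ad k (d i)

theorem mem_pD {ι : Type} {d : ι → ℤ} {a : ι → A k} :
    a ∈ pD k d ↔ ∀ i, a i ∈ Ad k (d i) := by
  simp only [pD, Submodule.mem_pi, Set.mem_univ, forall_const]

/-- the inclusion of a product of pieces -/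
noncomputable def pDinc (k : Type) [Field k] {ι : Type} (d : ι → ℤ) :
    (∀ i, Ad k (d i)) →ₗ[k] (ι → A k) :=
  LinearMap.pi fun i => (Ad k (d i)).subtype ∘ₗ LinearMap.proj i

theorem pDinc_inj {ι : Type} (d : ι → ℤ) : Function.Injective (pDinc k d) := by
  intro a b h
  funext i
  have := congrFun h i
  exact Subtype.ext this

theorem range_pDinc {ι : Type} (d : ι → ℤ) : LinearMap.range (pDinc k d) = pD k d := by
  ext a
  rw [mem_pD]
  constructor
  · rintro ⟨b, rfl⟩ i
    exact (b i).2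
  · intro h
    exact ⟨fun i => ⟨a i, h i⟩, rfl⟩

instance pD_fin {ι : Type} [Finite ι] (d : ι → ℤ) : Module.Finite k (pD k d) := by
  rw [← range_pDinc]
  infer_instance

theorem finrank_pD {ι : Type} [Fintype ι] (d : ι → ℤ) :
    Module.finrank k (pD k d) = ∑ i, Module.finrank k (Ad k (d i)) := by
  rw [← range_pDinc, LinearMap.finrank_range_of_inj (pDinc_inj d), Module.finrank_pi_fintype]

theorem finrank_ker_add_map {W W' : Type} [AddCommGroup W] [Module k W] [AddCommGroup W']
    [Module k W'] (f : W →ₗ[k] W') (P : Submodule k W) [Module.Finite k P] :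
    Module.finrank k (P ⊓ LinearMap.ker f : Submodule k W) + Module.finrank k (P.map f) =
      Module.finrank k P := by
  have h := LinearMap.finrank_range_add_finrank_ker (f.domRestrict P)
  rw [LinearMap.range_domRestrict, LinearMap.ker_domRestrict] at h
  rw [← h, add_comm, ← Submodule.map_comap_subtype, Submodule.finrank_map_subtype_eq]

theorem finrank_map_of_injOn {W W' : Type} [AddCommGroup W] [Module k W] [AddCommGroup W']
    [Module k W'] (f : W →ₗ[k] W') (P : Submodule k W) [Module.Finite k P]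
    (hf : ∀ x ∈ P, f x = 0 → x = 0) :
    Module.finrank k (P.map f) = Module.finrank k P := by
  have h := finrank_ker_add_map f P
  have h0 : P ⊓ LinearMap.ker f = ⊥ := by
    rw [eq_bot_iff]
    rintro x ⟨hx, hx'⟩
    exact hf x hx hx'
  rw [h0, finrank_bot, zero_add] at h
  exact h

/-- the linear map of a matrix -/
noncomputable def matMap {l l' : ℕ} (φ : Fin l → Fin l' → A k) :
    (Fin l' → A k) →ₗ[k] (Fin l → A k) where
  toFun b i := ∑ j, φ i j * b j
  map_add' b b' := by
    funext i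
    simp [mul_add, Finset.sum_add_distrib]
  map_smul' r b := by
    funext i
    simp [Finset.smul_sum]

/-- the linear map of the transposed matrix -/
noncomputable def matMapT {l l' : ℕ} (φ : Fin l → Fin l' → A k) :
    (Fin l → A k) →ₗ[k] (Fin l' → A k) where
  toFun a j := ∑ i, φ i j * a i
  map_add' b b' := by
    funext i
    simp [mul_add, Finset.sum_add_distrib]
  map_smul' r b := by
    funext i
    simp [Finset.smul_sum]

theorem matMapT_le {l l' : ℕ} {c : Fin l → ℤ} {c' : Fin l' → ℤ} {φ : Fin l → Fin l' → A k}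
    (hφ : ∀ i j, φ i j ∈ Ad k (c' j - c i)) (m : ℤ) :
    (pD k fun i => m + c i).map (matMapT φ) ≤ pD k fun j => m + c' j := by
  rintro _ ⟨a, ha, rfl⟩
  rw [mem_pD]
  intro j
  change ∑ i, φ i j * a i ∈ Ad k (m + c' j)
  refine Submodule.sum_mem _ fun i _ => ?_
  have h1 := Ad_mul (hφ i j) ((mem_pD.1 ha) i)
  have h2 : c' j - c i + (m + c i) = m + c' j := by ring
  rwa [h2] at h1

/-- polynomial version of `hp` -/
noncomputable def hpPoly (N e g : ℤ) : Polynomial ℚ :=
  Polynomial.C (N : ℚ) * ((Polynomial.X + 1) * (Polynomial.X + 2) * Polynomial.C (1 / 2)) +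
    Polynomial.C (e : ℚ) * (Polynomial.X + 1) + Polynomial.C (g : ℚ)

theorem eval_hpPoly (N e g : ℤ) (x : ℚ) : (hpPoly N e g).eval x = hp N e g x := by
  simp only [hpPoly, hp, Polynomial.eval_add, Polynomial.eval_mul, Polynomial.eval_C,
    Polynomial.eval_X, Polynomial.eval_one, Polynomial.eval_ofNat]
  ring

theorem hp_extend {l l' : ℕ} {c : Fin l → ℤ} {c' : Fin l' → ℤ} {N e g : ℤ}
    (h : ∀ᶠ n : ℤ in atTop, hp N e g n + ∑ j, hp 1 0 0 ((n : ℚ) - c' j) =
      ∑ i, hp 1 0 0 ((n : ℚ) - c i)) (x : ℚ) :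
    hp N e g x + ∑ j, hp 1 0 0 (x - c' j) = ∑ i, hp 1 0 0 (x - c i) := by
  set p : Polynomial ℚ := hpPoly N e g +
    ∑ j, (hpPoly 1 0 0).comp (Polynomial.X - Polynomial.C (c' j : ℚ)) -
    ∑ i, (hpPoly 1 0 0).comp (Polynomial.X - Polynomial.C (c i : ℚ)) with hp'
  have hev : ∀ y : ℚ, p.eval y = hp N e g y + ∑ j, hp 1 0 0 (y - c' j) -
      ∑ i, hp 1 0 0 (y - c i) := by
    intro y
    rw [hp', Polynomial.eval_sub, Polynomial.eval_add, Polynomial.eval_finsetSum,
      Polynomial.eval_finsetSum, eval_hpPoly]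
    simp only [map_intCast, Polynomial.eval_comp, Polynomial.eval_sub, Polynomial.eval_X, Polynomial.eval_intCast, eval_hpPoly]
  have h0 : p = 0 := by
    obtain ⟨n0, hn0⟩ := Filter.eventually_atTop.1 h
    apply Polynomial.eq_zero_of_infinite_isRoot
    refine Set.Infinite.mono ?_ ((Set.Ici_infinite n0).image
      ((Int.cast_injective (α := ℚ)).injOn))
    rintro _ ⟨n, hn, rfl⟩
    change p.eval (n : ℚ) = 0
    rw [hev, hn0 n hn, sub_self]
  have := hev x
  rw [h0, Polynomial.eval_zero] at this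
  linarith only [this]

theorem hp_neg (c m : ℚ) : hp 1 0 0 (-m - 3 - c) = hp 1 0 0 (m + c) := by
  simp only [hp]
  push_cast
  ring

theorem finrank_Ad_eventually {l : ℕ} (c : Fin l → ℤ) : ∀ᶠ n : ℤ in atTop,
    ((∑ i, Module.finrank k (Ad k (n + c i)) : ℕ) : ℚ) = ∑ i, hp 1 0 0 ((n : ℚ) + c i) := by
  have h : ∀ i, ∀ᶠ n : ℤ in atTop, (Module.finrank k (Ad k (n + c i)) : ℚ) =
      hp 1 0 0 ((n : ℚ) + c i) := by
    intro i
    filter_upwards [eventually_ge_atTop (-2 - c i)] with n hn
    rw [finrank_Ad (by linarith only [hn])]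
    push_cast
    rfl
  filter_upwards [eventually_all.2 h] with n hn
  push_cast
  exact Finset.sum_congr rfl fun i _ => hn i

end gen

section res

variable {k : Type} [Field k] {V : Type} [AddCommGroup V] [Module k V] [Module (A k) V]
  [Module (KK k) V] [IsScalarTower k (A k) V] [IsScalarTower (A k) (KK k) V]

/-- resolution data -/
structure IsRes (E : ℤ → Submodule k V) {l l' : ℕ} (v : Fin l → V) (c : Fin l → ℤ)
    (c' : Fin l' → ℤ) (φ : Fin l → Fin l' → A k) : Prop where
  hv : ∀ n, E n = genLat v c n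
  hφ : ∀ i j, φ i j ∈ Ad k (c' j - c i)
  hφv : ∀ j, ∑ i, φ i j • v i = 0
  hex : ∀ (n : ℤ) (a : Fin l → A k), (∀ i, a i ∈ Ad k (n - c i)) → ∑ i, a i • v i = 0 →
        ∃! b : Fin l' → A k, (∀ j, b j ∈ Ad k (n - c' j)) ∧ ∀ i, a i = ∑ j, φ i j * b j

variable {E : ℤ → Submodule k V} {l l' : ℕ} {v : Fin l → V} {c : Fin l → ℤ}
    {c' : Fin l' → ℤ} {φ : Fin l → Fin l' → A k}

theorem IsRes.mat_mem (R : IsRes E v c c' φ) {n : ℤ} {b : Fin l' → A k}
    (hb : ∀ j, b j ∈ Ad k (n - c' j)) (i : Fin l) : ∑ j, φ i j * b j ∈ Ad k (n - c i) := by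
  refine Submodule.sum_mem _ fun j _ => ?_
  have h1 := Ad_mul (R.hφ i j) (hb j)
  have h2 : c' j - c i + (n - c' j) = n - c i := by ring
  rwa [h2] at h1

theorem IsRes.mat_smul (R : IsRes E v c c' φ) (b : Fin l' → A k) :
    ∑ i, (∑ j, φ i j * b j) • v i = 0 := by
  calc ∑ i, (∑ j, φ i j * b j) • v i = ∑ i, ∑ j, b j • φ i j • v i := by
        refine Finset.sum_congr rfl fun i _ => ?_
        rw [Finset.sum_smul]
        refine Finset.sum_congr rfl fun j _ => ?_
        rw [smul_smul, mul_comm]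
    _ = ∑ j, ∑ i, b j • φ i j • v i := Finset.sum_comm
    _ = 0 := by
        refine Finset.sum_eq_zero fun j _ => ?_
        rw [← Finset.smul_sum, R.hφv, smul_zero]

/-- dimensions from a resolution -/
theorem IsRes.finrank_eq (R : IsRes E v c c' φ) (n : ℤ) :
    Module.finrank k (E n) + ∑ j, Module.finrank k (Ad k (n - c' j)) =
      ∑ i, Module.finrank k (Ad k (n - c i)) := by
  have h := finrank_ker_add_map ((Fintype.linearCombination (A k) v).restrictScalars k)
    (pD k fun i => n - c i)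
  rw [finrank_pD] at h
  have h1 : (pD k fun i => n - c i).map
      ((Fintype.linearCombination (A k) v).restrictScalars k) = E n := by
    rw [R.hv]; rfl
  rw [h1] at h
  have h2 : (pD k fun i => n - c i) ⊓
      LinearMap.ker ((Fintype.linearCombination (A k) v).restrictScalars k) =
      (pD k fun j => n - c' j).map (matMap φ) := by
    ext a
    constructor
    · rintro ⟨ha, ha'⟩
      have ha' : ∑ i, a i • v i = 0 := ha'
      obtain ⟨b, ⟨hb, hab⟩, -⟩ := R.hex n a (mem_pD.1 ha) ha'
      refine ⟨b, mem_pD.2 hb, ?_⟩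
      funext i
      exact (hab i).symm
    · rintro ⟨b, hb, rfl⟩
      refine ⟨mem_pD.2 fun i => R.mat_mem (mem_pD.1 hb) i, ?_⟩
      exact R.mat_smul b
  have h3 : Module.finrank k ((pD k fun j => n - c' j).map (matMap φ)) =
      ∑ j, Module.finrank k (Ad k (n - c' j)) := by
    rw [finrank_map_of_injOn, finrank_pD]
    intro b hb hb0
    obtain ⟨b', -, hu⟩ := R.hex n 0 (fun i => zero_mem _) (by simp only [Pi.zero_apply, zero_smul, Finset.sum_const_zero])
    have e1 := hu b ⟨mem_pD.1 hb, fun i => (congrFun hb0 i).symm⟩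
    have e2 := hu 0 ⟨fun i => zero_mem _, fun i => by simp only [Pi.zero_apply, mul_zero, Finset.sum_const_zero]⟩
    rw [e1, ← e2]
  rw [h2, h3] at h
  rw [add_comm]
  exact h

theorem IsRes.hp_eq (R : IsRes E v c c' φ) {N e g : ℤ} (h : HasHilb E N e g) (x : ℚ) :
    hp N e g x + ∑ j, hp 1 0 0 (x - c' j) = ∑ i, hp 1 0 0 (x - c i) := by
  refine hp_extend ?_ x
  filter_upwards [h, finrank_Ad_eventually (k := k) (fun i => - c i),
    finrank_Ad_eventually (k := k) (fun j => - c' j)] with n h1 h2 h3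
  have h4 := R.finrank_eq n
  rw [← h1]
  simp only [← sub_eq_add_neg, Int.cast_neg] at h2 h3
  have h2' : ((∑ i, Module.finrank k (Ad k (n - c i)) : ℕ) : ℚ) =
    ∑ i, hp 1 0 0 ((n : ℚ) - c i) := h2
  have h3' : ((∑ j, Module.finrank k (Ad k (n - c' j)) : ℕ) : ℚ) =
    ∑ j, hp 1 0 0 ((n : ℚ) - c' j) := h3
  rw [← h2', ← h3', ← h4]
  push_cast
  rfl

theorem IsRes.mem_gen (R : IsRes E v c c' φ) (i : Fin l) : v i ∈ E (c i) := by
  classical
  rw [R.hv, mem_genLat]
  refine ⟨Pi.single i 1, fun j => ?_, ?_⟩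
  · by_cases hj : j = i
    · subst hj
      rw [Pi.single_eq_same, sub_self]
      exact mem_Ad.2 (Or.inr (by simp))
    · rw [Pi.single_eq_of_ne hj]
      exact zero_mem _
  · rw [Finset.sum_eq_single i]
    · simp
    · intro j _ hj
      rw [Pi.single_eq_of_ne hj, zero_smul]
    · simp only [Finset.mem_univ, not_true_eq_false, Pi.single_eq_same, one_smul, IsEmpty.forall_iff]

/-- evaluation of functionals at the generators -/
noncomputable def evGen (k : Type) [Field k] {V : Type} [AddCommGroup V] [Module k V]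
    [Module (A k) V] [Module (KK k) V] [IsScalarTower k (A k) V] [IsScalarTower (A k) (KK k) V]
    {l : ℕ} (v : Fin l → V) : (V →ₗ[KK k] KK k) →ₗ[k] (Fin l → KK k) where
  toFun f i := f (v i)
  map_add' _ _ := rfl
  map_smul' _ _ := rfl

/-- the inclusion of tuples of polynomials in tuples of rational functions -/
noncomputable def incKK (k : Type) [Field k] (l : ℕ) : (Fin l → A k) →ₗ[k] (Fin l → KK k) where
  toFun a i := algebraMap (A k) (KK k) (a i)
  map_add' f g := by
    funext i
    simp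
  map_smul' r f := by
    funext i
    simp only [Pi.smul_apply, RingHom.id_apply]
    rw [← algebraMap_smul (KK k) r (algebraMap (A k) (KK k) (f i)), smul_eq_mul,
      ← algebraMap_smul (A k) r (f i), smul_eq_mul, map_mul,
      ← IsScalarTower.algebraMap_apply k (A k) (KK k)]

theorem incKK_inj (l : ℕ) : Function.Injective (incKK k l) := by
  intro a b h
  funext i
  exact IsFractionRing.injective (A k) (KK k) (congrFun h i)

theorem IsRes.surj (R : IsRes E v c c' φ) (hs : spanK E = ⊤) :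
    Function.Surjective (Fintype.linearCombination (KK k) v) := by
  rw [← LinearMap.range_eq_top, eq_top_iff, ← hs]
  refine Submodule.span_le.2 ?_
  rintro w hw
  obtain ⟨n, hn⟩ := Set.mem_iUnion.1 hw
  have hn : w ∈ E n := hn
  rw [R.hv, mem_genLat] at hn
  obtain ⟨a, -, rfl⟩ := hn
  refine ⟨fun i => algebraMap (A k) (KK k) (a i), ?_⟩
  simp only [Fintype.linearCombination_apply, algebraMap_smul]

theorem evGen_inj (hsurj : Function.Surjective (Fintype.linearCombination (KK k) v)) :
    Function.Injective (evGen k v) := by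
  intro f g h
  ext w
  obtain ⟨r, rfl⟩ := hsurj w
  simp only [Fintype.linearCombination_apply, map_sum, map_smul]
  refine Finset.sum_congr rfl fun i _ => ?_
  have : f (v i) = g (v i) := congrFun h i
  rw [this]

theorem IsRes.ker_le (R : IsRes E v c c' φ) {a : Fin l → A k} (ha : ∀ j, ∑ i, φ i j * a i = 0)
    {r : Fin l → KK k} (hr : ∑ i, r i • v i = 0) :
    ∑ i, r i * algebraMap (A k) (KK k) (a i) = 0 := by
  obtain ⟨b, hb⟩ := IsLocalization.exist_integer_multiples_of_finite (nonZeroDivisors (A k)) r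
  choose s hs using hb
  have h1 : ∑ i, s i • v i = 0 := by
    calc ∑ i, s i • v i = ∑ i, (b : A k) • r i • v i := by
          refine Finset.sum_congr rfl fun i _ => ?_
          rw [← smul_assoc, ← hs i, algebraMap_smul]
      _ = 0 := by rw [← Finset.smul_sum, hr, smul_zero]
  obtain ⟨n, hn⟩ := (Set.finite_range fun i => ((s i).totalDegree : ℤ) + c i).bddAbove
  obtain ⟨β, ⟨-, hβ⟩, -⟩ := R.hex n s (fun i => mem_Ad.2 (Or.inr (by
    have := hn (Set.mem_range_self i)
    linarith only [this]))) h1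
  have h2 : ∑ i, s i * a i = 0 := by
    calc ∑ i, s i * a i = ∑ i, ∑ j, β j * (φ i j * a i) := by
          refine Finset.sum_congr rfl fun i _ => ?_
          rw [hβ i, Finset.sum_mul]
          refine Finset.sum_congr rfl fun j _ => ?_
          ring
      _ = ∑ j, ∑ i, β j * (φ i j * a i) := Finset.sum_comm
      _ = 0 := by
          refine Finset.sum_eq_zero fun j _ => ?_
          rw [← Finset.mul_sum, ha, mul_zero]
  have h3 : algebraMap (A k) (KK k) b * ∑ i, r i * algebraMap (A k) (KK k) (a i) = 0 := by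
    rw [Finset.mul_sum]
    calc ∑ i, algebraMap (A k) (KK k) b * (r i * algebraMap (A k) (KK k) (a i))
        = ∑ i, algebraMap (A k) (KK k) (s i * a i) := by
          refine Finset.sum_congr rfl fun i _ => ?_
          rw [map_mul, hs i, Algebra.smul_def, mul_assoc]
      _ = 0 := by rw [← map_sum, h2, map_zero]
  rcases mul_eq_zero.1 h3 with h | h
  · exfalso
    have : (b : A k) ≠ 0 := nonZeroDivisors.ne_zero b.2
    exact this ((IsFractionRing.injective (A k) (KK k)) (by rw [h, map_zero]))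
  · exact h

/-- the dual lattice in coordinates -/
theorem IsRes.map_dual (R : IsRes E v c c' φ) (hs : spanK E = ⊤) (m : ℤ) :
    (dualLat E m).map (evGen k v) =
      ((pD k fun i => m + c i) ⊓ LinearMap.ker (matMapT φ)).map (incKK k l) := by
  have hsurj := R.surj hs
  apply le_antisymm
  · rintro _ ⟨f, hf, rfl⟩
    have h : ∀ i, ∃ a ∈ Ad k (m + c i), f (v i) = algebraMap (A k) (KK k) a := by
      intro i
      obtain ⟨a, ha, h1⟩ := hf (c i) (v i) (R.mem_gen i)
      exact ⟨a, by rwa [add_comm], h1⟩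
    choose a ha h1 using h
    refine ⟨a, ⟨mem_pD.2 ha, ?_⟩, ?_⟩
    · rw [SetLike.mem_coe, LinearMap.mem_ker]
      funext j
      apply IsFractionRing.injective (A k) (KK k)
      change algebraMap (A k) (KK k) (∑ i, φ i j * a i) = algebraMap (A k) (KK k) 0
      rw [map_sum, map_zero]
      calc ∑ i, algebraMap (A k) (KK k) (φ i j * a i) = f (∑ i, φ i j • v i) := by
            rw [map_sum]
            refine Finset.sum_congr rfl fun i _ => ?_
            rw [map_mul, ← h1 i, ← algebraMap_smul (KK k) (φ i j) (v i), map_smul, smul_eq_mul]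
        _ = 0 := by rw [R.hφv, map_zero]
    · funext i
      exact (h1 i).symm
  · rintro _ ⟨a, ⟨ha, ha'⟩, rfl⟩
    have ha0 : ∀ j, ∑ i, φ i j * a i = 0 := fun j => congrFun ha' j
    obtain ⟨s, hs'⟩ := (Fintype.linearCombination (KK k) v).exists_rightInverse_of_surjective
      (LinearMap.range_eq_top.2 hsurj)
    let G : (Fin l → KK k) →ₗ[KK k] KK k :=
      Fintype.linearCombination (KK k) (fun i => algebraMap (A k) (KK k) (a i))
    have hG : ∀ r, G r = ∑ i, r i * algebraMap (A k) (KK k) (a i) := fun r => rfl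
    have hGs : ∀ r, G (s (Fintype.linearCombination (KK k) v r)) = G r := by
      intro r
      have e1 : G (s (Fintype.linearCombination (KK k) v r) - r) = 0 := by
        rw [hG]
        apply R.ker_le ha0
        have e2 := LinearMap.congr_fun hs' (Fintype.linearCombination (KK k) v r)
        have e3 : Fintype.linearCombination (KK k) v
            (s (Fintype.linearCombination (KK k) v r) - r) = 0 := by
          rw [map_sub, sub_eq_zero]
          exact e2
        exact e3
      rw [map_sub, sub_eq_zero] at e1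
      exact e1
    refine ⟨G ∘ₗ s, ?_, ?_⟩
    · intro n w hw
      rw [R.hv, mem_genLat] at hw
      obtain ⟨b, hb, rfl⟩ := hw
      refine ⟨∑ i, b i * a i, Submodule.sum_mem _ fun i _ => ?_, ?_⟩
      · have h1 := Ad_mul (hb i) ((mem_pD.1 ha) i)
        have h2 : n - c i + (m + c i) = n + m := by ring
        rwa [h2] at h1
      · have e1 : ∑ i, b i • v i = Fintype.linearCombination (KK k) v
            (fun i => algebraMap (A k) (KK k) (b i)) := by
          simp only [Fintype.linearCombination_apply, algebraMap_smul]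
        rw [e1, LinearMap.comp_apply, hGs, hG, map_sum]
        simp only [map_mul]
    · funext i
      have e1 : v i = Fintype.linearCombination (KK k) v (Pi.single i 1) := by
        rw [Fintype.linearCombination_apply_single, one_smul]
      change G (s (v i)) = algebraMap (A k) (KK k) (a i)
      rw [e1, hGs]
      simp only [Fintype.linearCombination_apply_single, smul_eq_mul, one_mul, G]

theorem IsRes.finrank_dual [Infinite k] (R : IsRes E v c c' φ) (hs : spanK E = ⊤) (m : ℤ) :
    Module.finrank k (dualLat E m) + Module.finrank k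
      ((pD k fun i => m + c i).map (matMapT φ)) = ∑ i, Module.finrank k (Ad k (m + c i)) := by
  rw [← finrank_pD, ← finrank_ker_add_map (matMapT φ) (pD k fun i => m + c i)]
  congr 1
  have h := R.map_dual hs m
  have h1 : Module.finrank k ((dualLat E m).map (evGen k v)) = Module.finrank k (dualLat E m) :=
    LinearEquiv.finrank_eq (Submodule.equivMapOfInjective _ (evGen_inj (R.surj hs)) _).symm
  have h2 : Module.finrank k
      (((pD k fun i => m + c i) ⊓ LinearMap.ker (matMapT φ)).map (incKK k l)) =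
      Module.finrank k ((pD k fun i => m + c i) ⊓ LinearMap.ker (matMapT φ) :
        Submodule k (Fin l → A k)) :=
    LinearEquiv.finrank_eq (Submodule.equivMapOfInjective _ (incKK_inj l) _).symm
  rw [← h1, h, h2]

/-- the dimension of the cokernel of the dual of the resolution -/
theorem IsRes.coker [Infinite k] (R : IsRes E v c c' φ) (hs : spanK E = ⊤) {N e g g' : ℤ}
    (h : HasHilb E N e g) (h' : HasHilb (dualLat E) N (-e) g') :
    ∀ᶠ m : ℤ in atTop, (Module.finrank k (pD k fun j => m + c' j) : ℚ) =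
      Module.finrank k ((pD k fun i => m + c i).map (matMapT φ)) + (e + g' - g) := by
  filter_upwards [h', finrank_Ad_eventually (k := k) c, finrank_Ad_eventually (k := k) c']
    with m h1 h2 h3
  have h4 := R.finrank_dual hs m
  have h5 := R.hp_eq h (-m - 3)
  have h6 : hp N (-e) g' m - hp N e g (-m - 3) = e + g' - g := by
    simp only [hp]
    push_cast
    ring
  simp only [hp_neg] at h5
  rw [finrank_pD, h3]
  rw [← h4] at h2
  push_cast at h2
  linarith only [h1, h6, h5, h2]

theorem IsRes.coker_nonneg [Infinite k] (R : IsRes E v c c' φ) (hs : spanK E = ⊤)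
    {N e g g' : ℤ} (h : HasHilb E N e g) (h' : HasHilb (dualLat E) N (-e) g') :
    0 ≤ e + g' - g := by
  obtain ⟨m, hm⟩ := (R.coker hs h h').exists
  have h1 : Module.finrank k ((pD k fun i => m + c i).map (matMapT φ)) ≤
      Module.finrank k (pD k fun j => m + c' j) := Submodule.finrank_mono (matMapT_le R.hφ m)
  have h2 : (Module.finrank k ((pD k fun i => m + c i).map (matMapT φ)) : ℚ) ≤
      Module.finrank k (pD k fun j => m + c' j) := by exact_mod_cast h1
  have h3 : (0 : ℚ) ≤ ((e + g' - g : ℤ) : ℚ) := by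
    push_cast
    linarith only [hm, h2]
  exact_mod_cast h3

theorem IsRes.coker_eq [Infinite k] (R : IsRes E v c c' φ) (hs : spanK E = ⊤)
    {N e g g' : ℤ} (h : HasHilb E N e g) (h' : HasHilb (dualLat E) N (-e) g')
    (h0 : e + g' - g = 0) :
    ∀ᶠ m : ℤ in atTop, (pD k fun i => m + c i).map (matMapT φ) = pD k fun j => m + c' j := by
  filter_upwards [R.coker hs h h'] with m hm
  refine Submodule.eq_of_le_of_finrank_eq (matMapT_le R.hφ m) ?_
  have h3 : ((e : ℚ) + g' - g) = 0 := by exact_mod_cast h0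
  rw [h3, add_zero] at hm
  exact_mod_cast hm.symm

end res

end Vale.Agent.P190.D
end
end

section

section

/-! Section 1, file B11: lattices from splitting certificates. -/

set_option autoImplicit false
set_option linter.unusedSectionVars false

open MvPolynomial Filter

namespace Vale.Agent.P190.D

variable {k : Type} [Field k]

/-- a homogeneous matrix with a splitting certificate -/
structure Cert {l l' : ℕ} (c : Fin l → ℤ) (c' : Fin l' → ℤ) (φ : Fin l → Fin l' → A k)
    (M : ℕ) : Prop where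
  mem : ∀ i j, φ i j ∈ Ad k (c' j - c i)
  split : ∀ x : A k, (x = 1 ∨ x = X 0 ∨ x = X 1) →
      ∃ τ : Fin l' → Fin l → A k, (∀ j i, τ j i ∈ Ad k (c i - c' j + M)) ∧
        ∀ j j', ∑ i, τ j i * φ i j' = if j = j' then x ^ M else 0

/-- the column space over `KK` -/
noncomputable def colSp {l l' : ℕ} (φ : Fin l → Fin l' → A k) :
    Submodule (KK k) (Fin l → KK k) :=
  Submodule.span (KK k) (Set.range fun j => fun i => algebraMap (A k) (KK k) (φ i j))

/-- the cokernel lattice -/
noncomputable def cokLat {l l' : ℕ} (c : Fin l → ℤ) (φ : Fin l → Fin l' → A k) :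
    ℤ → Submodule k ((Fin l → KK k) ⧸ colSp φ) :=
  genLat (fun i => Submodule.Quotient.mk (Pi.single i 1)) c

theorem b11_mem_Ad_of_coeff {n : ℤ} {a : A k}
    (h : ∀ m, coeff m a ≠ 0 → ((m.sum fun _ e => e : ℕ) : ℤ) ≤ n) : a ∈ Ad k n := by
  rw [mem_Ad]
  by_cases ha : a = 0
  · exact Or.inl ha
  · right
    obtain ⟨m, hm⟩ := MvPolynomial.ne_zero_iff.1 ha
    have h0 : 0 ≤ n := le_trans (Int.natCast_nonneg _) (h m hm)
    have h1 : a.totalDegree ≤ n.toNat := Finset.sup_le fun s hs => by
      have := h s (mem_support_iff.1 hs); omega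
    omega

theorem b11_le_of_coeff {n : ℤ} {a : A k} (ha : a ∈ Ad k n) {m : Fin 2 →₀ ℕ}
    (hm : coeff m a ≠ 0) : ((m.sum fun _ e => e : ℕ) : ℤ) ≤ n := by
  rw [mem_Ad] at ha
  rcases ha with rfl | ha
  · exact absurd (by simp) hm
  · refine le_trans ?_ ha
    exact_mod_cast le_totalDegree (mem_support_iff.2 hm)

theorem b11_X_pow_mem (s : Fin 2) (M : ℕ) : (X s ^ M : A k) ∈ Ad k M := by
  rw [mem_Ad]; right
  rw [totalDegree_X_pow]

theorem b11_of_X_pow_mul {n : ℤ} {M : ℕ} {s : Fin 2} {b : A k}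
    (h : X s ^ M * b ∈ Ad k (n + M)) : b ∈ Ad k n := by
  rw [mem_Ad] at h ⊢
  by_cases hb : b = 0
  · exact Or.inl hb
  · right
    have hX : (X s ^ M : A k) ≠ 0 := pow_ne_zero _ (X_ne_zero s)
    rcases h with h | h
    · exact absurd h (mul_ne_zero hX hb)
    · rw [totalDegree_mul_of_isDomain hX hb, totalDegree_X_pow] at h
      push_cast at h
      omega

/-- splitting of a polynomial at infinity -/
theorem b11_split {D : ℤ} {M : ℕ} {g g' : A k} (hg : g ∈ Ad k (D + 2 * M))
    (h : X 0 ^ M * g' - X 1 ^ M * g ∈ Ad k (D + 2 * M)) :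
    ∃ ε r : A k, g = X 0 ^ M * ε + r ∧ ε ∈ Ad k (D + M) ∧ r ∈ Ad k (D + M) := by
  refine ⟨g.divMonomial (Finsupp.single 0 M), g.modMonomial (Finsupp.single 0 M), ?_, ?_, ?_⟩
  · rw [X_pow_eq_monomial, divMonomial_add_modMonomial]
  · refine b11_mem_Ad_of_coeff fun m hm => ?_
    rw [coeff_divMonomial] at hm
    have := b11_le_of_coeff hg hm
    rw [Finsupp.sum_add_index' (by simp) (by simp), Finsupp.sum_single_index rfl,
      Nat.cast_add] at this
    omega
  · refine b11_mem_Ad_of_coeff fun m hm => ?_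
    by_cases hle : Finsupp.single 0 M ≤ m
    · exact absurd (coeff_modMonomial_of_le _ hle) hm
    · rw [coeff_modMonomial_of_not_le _ hle] at hm
      have h1 : coeff (m + Finsupp.single 1 M) (X 0 ^ M * g' - X 1 ^ M * g) ≠ 0 := by
        rw [coeff_sub, X_pow_eq_monomial, X_pow_eq_monomial,
          coeff_monomial_mul', if_neg, coeff_monomial_mul', if_pos]
        · simpa only [Fin.isValue, add_tsub_cancel_right, one_mul, zero_sub, ne_eq, neg_eq_zero] using hm
        · exact le_add_self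
        · intro hh
          apply hle
          intro i
          have := hh i
          fin_cases i
          · simpa only [Fin.isValue, Fin.zero_eta, Finsupp.single_eq_same, ge_iff_le, Finsupp.coe_add, Pi.add_apply,     ne_eq, zero_ne_one, not_false_eq_true, Finsupp.single_eq_of_ne, add_zero] using this
          · simp only [Fin.isValue, Fin.mk_one, ne_eq, one_ne_zero, not_false_eq_true, Finsupp.single_eq_of_ne, zero_le]
      have := b11_le_of_coeff h h1
      rw [Finsupp.sum_add_index' (by simp) (by simp), Finsupp.sum_single_index rfl,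
        Nat.cast_add] at this
      (clear * - this; omega)

theorem b11_mem_colSp {l l' : ℕ} {φ : Fin l → Fin l' → A k} {v : Fin l → KK k} :
    v ∈ colSp φ ↔ ∃ β : Fin l' → KK k, ∀ i, v i = ∑ j, algebraMap (A k) (KK k) (φ i j) * β j := by
  rw [colSp, Submodule.mem_span_range_iff_exists_fun]
  constructor
  · rintro ⟨β, rfl⟩
    refine ⟨β, fun i => ?_⟩
    simp only [Finset.sum_apply, Pi.smul_apply, smul_eq_mul, mul_comm]
  · rintro ⟨β, h⟩
    refine ⟨β, funext fun i => ?_⟩
    rw [h i]
    simp only [Finset.sum_apply, Pi.smul_apply, smul_eq_mul, mul_comm]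

theorem b11_mem_cokLat {l l' : ℕ} {c : Fin l → ℤ} {φ : Fin l → Fin l' → A k} {n : ℤ}
    {w : (Fin l → KK k) ⧸ colSp φ} : w ∈ cokLat c φ n ↔
      ∃ a : Fin l → A k, (∀ i, a i ∈ Ad k (n - c i)) ∧
        w = Submodule.Quotient.mk (fun i => algebraMap (A k) (KK k) (a i)) := by
  rw [cokLat, mem_genLat]
  have key : ∀ a : Fin l → A k, ∑ i, a i • (Submodule.Quotient.mk (Pi.single i 1) :
      (Fin l → KK k) ⧸ colSp φ) =
      Submodule.Quotient.mk (fun i => algebraMap (A k) (KK k) (a i)) := by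
    intro a
    have h1 : (fun i => algebraMap (A k) (KK k) (a i)) =
        ∑ i, a i • (Pi.single i (1 : KK k) : Fin l → KK k) := by
      funext i
      rw [Finset.sum_apply, Finset.sum_eq_single i]
      · simp [Algebra.smul_def]
      · intro j _ hj
        simp [Ne.symm hj]
      · simp only [Finset.mem_univ, not_true_eq_false, Pi.smul_apply, Pi.single_eq_same, smul_eq_zero, one_ne_zero, or_false, IsEmpty.forall_iff]
    rw [h1]
    have := map_sum ((colSp φ).mkQ.restrictScalars (A k))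
      (fun i => a i • (Pi.single i (1 : KK k) : Fin l → KK k)) Finset.univ
    simp only [map_smul] at this
    exact this.symm
  constructor
  · rintro ⟨a, ha, rfl⟩
    exact ⟨a, ha, key a⟩
  · rintro ⟨a, ha, rfl⟩
    exact ⟨a, ha, (key a).symm⟩

theorem Cert.exact {l l' : ℕ} {c : Fin l → ℤ} {c' : Fin l' → ℤ} {φ : Fin l → Fin l' → A k}
    {M : ℕ} (h : Cert c c' φ M) (n : ℤ) (a : Fin l → A k) (ha : ∀ i, a i ∈ Ad k (n - c i))
    (h0 : (fun i => algebraMap (A k) (KK k) (a i)) ∈ colSp φ) :
    ∃! b : Fin l' → A k, (∀ j, b j ∈ Ad k (n - c' j)) ∧ ∀ i, a i = ∑ j, φ i j * b j := by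
  obtain ⟨τ, hτ, hτφ⟩ := h.split 1 (Or.inl rfl)
  obtain ⟨τy, hτy, hτyφ⟩ := h.split (X 0) (Or.inr (Or.inl rfl))
  obtain ⟨β, hβ⟩ := b11_mem_colSp.1 h0
  have inj : Function.Injective (algebraMap (A k) (KK k)) := IsFractionRing.injective _ _
  -- `τ a = β`
  have hx : ∀ (x : A k) (σ : Fin l' → Fin l → A k)
      (hσ : ∀ j j', ∑ i, σ j i * φ i j' = if j = j' then x ^ M else 0) (j : Fin l'),
      algebraMap (A k) (KK k) (∑ i, σ j i * a i) = algebraMap (A k) (KK k) (x ^ M) * β j := by
    intro x σ hσ j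
    simp only [map_sum, map_mul, hβ, Finset.mul_sum]
    rw [Finset.sum_comm]
    have : ∀ j', ∑ i, algebraMap (A k) (KK k) (σ j i) *
        (algebraMap (A k) (KK k) (φ i j') * β j') =
        algebraMap (A k) (KK k) (if j = j' then x ^ M else 0) * β j' := by
      intro j'
      rw [← hσ j j', map_sum, Finset.sum_mul]
      refine Finset.sum_congr rfl fun i _ => ?_
      rw [map_mul, mul_assoc]
    rw [Finset.sum_congr rfl fun j' _ => this j', Finset.sum_eq_single j]
    · simp only [↓reduceIte, map_pow]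
    · intro j' _ hj'
      rw [if_neg (Ne.symm hj'), map_zero, zero_mul]
    · simp only [Finset.mem_univ, not_true_eq_false, ↓reduceIte, map_pow, mul_eq_zero, pow_eq_zero_iff', FaithfulSMul.algebraMap_eq_zero_iff, ne_eq, IsEmpty.forall_iff]
  have hb : ∀ j, algebraMap (A k) (KK k) (∑ i, τ j i * a i) = β j := by
    intro j
    rw [hx 1 τ hτφ j, one_pow, map_one, one_mul]
  refine ⟨fun j => ∑ i, τ j i * a i, ⟨fun j => ?_, fun i => ?_⟩, ?_⟩
  · refine b11_of_X_pow_mul (M := M) (s := 0) ?_
    have h1 : X 0 ^ M * ∑ i, τ j i * a i = ∑ i, τy j i * a i := by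
      apply inj
      rw [map_mul, hb, hx (X 0) τy hτyφ j]
    rw [h1]
    refine Submodule.sum_mem _ fun i _ => ?_
    have := Ad_mul (hτy j i) (ha i)
    rwa [show c i - c' j + (M : ℤ) + (n - c i) = n - c' j + M by ring] at this
  · apply inj
    rw [hβ i, map_sum]
    refine Finset.sum_congr rfl fun j _ => ?_
    rw [map_mul, hb]
  · rintro b ⟨-, hb'⟩
    funext j
    have : ∑ i, τ j i * a i = ∑ i, τ j i * ∑ j', φ i j' * b j' :=
      Finset.sum_congr rfl fun i _ => by rw [hb' i]
    rw [this]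
    simp only [Finset.mul_sum]
    rw [Finset.sum_comm]
    have h2 : ∀ j', ∑ i, τ j i * (φ i j' * b j') = (if j = j' then 1 ^ M else 0) * b j' := by
      intro j'
      rw [← hτφ j j', Finset.sum_mul]
      exact Finset.sum_congr rfl fun i _ => by rw [mul_assoc]
    rw [Finset.sum_congr rfl fun j' _ => h2 j', Finset.sum_eq_single j]
    · simp
    · intro j' _ hj'
      rw [if_neg (Ne.symm hj'), zero_mul]
    · simp only [Finset.mem_univ, not_true_eq_false, ↓reduceIte, one_pow, one_mul, IsEmpty.forall_iff]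

theorem Cert.inj {l l' : ℕ} {c : Fin l → ℤ} {c' : Fin l' → ℤ} {φ : Fin l → Fin l' → A k}
    {M : ℕ} (h : Cert c c' φ M) {b b' : Fin l' → A k}
    (hb : ∀ i, ∑ j, φ i j * b j = ∑ j, φ i j * b' j) : b = b' := by
  obtain ⟨τ, hτ, hτφ⟩ := h.split 1 (Or.inl rfl)
  have key : ∀ (b : Fin l' → A k) j, ∑ i, τ j i * ∑ j', φ i j' * b j' = b j := by
    intro b j
    simp only [Finset.mul_sum]
    rw [Finset.sum_comm]
    have h2 : ∀ j', ∑ i, τ j i * (φ i j' * b j') = (if j = j' then 1 ^ M else 0) * b j' := by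
      intro j'
      rw [← hτφ j j', Finset.sum_mul]
      exact Finset.sum_congr rfl fun i _ => by rw [mul_assoc]
    rw [Finset.sum_congr rfl fun j' _ => h2 j', Finset.sum_eq_single j]
    · simp
    · intro j' _ hj'
      rw [if_neg (Ne.symm hj'), zero_mul]
    · simp only [Finset.mem_univ, not_true_eq_false, ↓reduceIte, one_pow, one_mul, IsEmpty.forall_iff]
  funext j
  rw [← key b j, ← key b' j]
  exact Finset.sum_congr rfl fun i _ => by rw [hb i]

/-- the operator `x ^ M - φ τ` on the cokernel -/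
theorem Cert.exists_lift {l l' : ℕ} {c : Fin l → ℤ} {c' : Fin l' → ℤ}
    {φ : Fin l → Fin l' → A k} {M : ℕ} (h : Cert c c' φ M) {x : A k} (hx : x ∈ Ad k 1)
    {τ : Fin l' → Fin l → A k} (hτ : ∀ j i, τ j i ∈ Ad k (c i - c' j + M))
    (hτφ : ∀ j j', ∑ i, τ j i * φ i j' = if j = j' then x ^ M else 0)
    {n : ℤ} {v : Fin l → KK k} (hv : LocIn (cokLat c φ) n (Submodule.Quotient.mk v)) :
    ∃ u : Fin l → A k, (∀ i, u i ∈ Ad k (n + M - c i)) ∧
      ∀ i, algebraMap (A k) (KK k) (u i) = algebraMap (A k) (KK k) (x ^ M) * v i -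
        ∑ j, algebraMap (A k) (KK k) (φ i j) * ∑ i', algebraMap (A k) (KK k) (τ j i') * v i' := by
  classical
  have hxM : ∀ M : ℕ, x ^ M ∈ Ad k M := by
    intro M
    induction M with
    | zero => simpa only [CharP.cast_eq_zero, pow_zero] using (mem_Ad.2 (Or.inr (by simp)) : (1 : A k) ∈ Ad k ((0 : ℕ) : ℤ))
    | succ M ih =>
      rw [pow_succ]
      exact_mod_cast Ad_mul ih hx
  let Φ : Matrix (Fin l) (Fin l') (KK k) := Matrix.of fun i j => algebraMap (A k) (KK k) (φ i j)
  let T : Matrix (Fin l') (Fin l) (KK k) := Matrix.of fun j i => algebraMap (A k) (KK k) (τ j i)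
  let e : (Fin l → KK k) →ₗ[KK k] (Fin l → KK k) :=
    (algebraMap (A k) (KK k) (x ^ M)) • LinearMap.id - Φ.mulVecLin ∘ₗ T.mulVecLin
  have he : ∀ (v : Fin l → KK k) (i : Fin l), e v i = algebraMap (A k) (KK k) (x ^ M) * v i -
      ∑ j, algebraMap (A k) (KK k) (φ i j) * ∑ i', algebraMap (A k) (KK k) (τ j i') * v i' := by
    intro v i
    rfl
  have hker : colSp φ ≤ LinearMap.ker e := by
    intro v hv
    rw [LinearMap.mem_ker]
    obtain ⟨β, hβ⟩ := b11_mem_colSp.1 hv
    funext i
    rw [he, Pi.zero_apply, sub_eq_zero, hβ i, Finset.mul_sum]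
    refine Finset.sum_congr rfl fun j _ => ?_
    rw [mul_left_comm]
    congr 1
    have h3 : ∑ i', algebraMap (A k) (KK k) (τ j i') * v i' =
        ∑ j', ∑ i', algebraMap (A k) (KK k) (τ j i') *
          (algebraMap (A k) (KK k) (φ i' j') * β j') := by
      rw [Finset.sum_comm]
      refine Finset.sum_congr rfl fun i' _ => ?_
      rw [hβ i', Finset.mul_sum]
    rw [h3]
    have h4 : ∀ j', ∑ i, algebraMap (A k) (KK k) (τ j i) *
        (algebraMap (A k) (KK k) (φ i j') * β j') =
        algebraMap (A k) (KK k) (if j = j' then x ^ M else 0) * β j' := by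
      intro j'
      rw [← hτφ j j', map_sum, Finset.sum_mul]
      refine Finset.sum_congr rfl fun i _ => ?_
      rw [map_mul, mul_assoc]
    rw [Finset.sum_congr rfl fun j' _ => h4 j', Finset.sum_eq_single j]
    · simp only [map_pow, ↓reduceIte]
    · intro j' _ hj'
      rw [if_neg (Ne.symm hj'), map_zero, zero_mul]
    · simp only [Finset.mem_univ, not_true_eq_false, ↓reduceIte, map_pow, mul_eq_zero, pow_eq_zero_iff', FaithfulSMul.algebraMap_eq_zero_iff, ne_eq, IsEmpty.forall_iff]
  let eb := (colSp φ).liftQ e hker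
  have heb : ∀ v : Fin l → KK k, eb (Submodule.Quotient.mk v) = e v := fun v =>
    Submodule.liftQ_apply _ _ _
  let F : ℤ → Submodule k (Fin l → KK k) := genLat (fun i => Pi.single i 1) c
  have hF : IsS2 F := by
    apply isS2_genLat
    have := (Pi.basisFun (KK k) (Fin l)).linearIndependent.restrict_scalars (R := A k) ?_
    · have h5 : (fun i => Pi.single i (1 : KK k) : Fin l → Fin l → KK k) =
          Pi.basisFun (KK k) (Fin l) := by
        funext i
        rw [Pi.basisFun_apply]
      rw [h5]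
      exact this
    · intro a b hab
      simpa only [Algebra.smul_def, mul_one, algebraMap.coe_inj] using hab
  have hmemF : ∀ (m : ℤ) (v : Fin l → KK k), v ∈ F m ↔
      ∃ a : Fin l → A k, (∀ i, a i ∈ Ad k (m - c i)) ∧
        v = fun i => algebraMap (A k) (KK k) (a i) := by
    intro m v
    have key : ∀ a : Fin l → A k, (fun i => algebraMap (A k) (KK k) (a i)) =
        ∑ i, a i • (Pi.single i (1 : KK k) : Fin l → KK k) := by
      intro a
      funext i
      rw [Finset.sum_apply, Finset.sum_eq_single i]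
      · simp only [Pi.smul_apply, Pi.single_eq_same, Algebra.smul_def, mul_one]
      · intro j _ hj
        simp only [Pi.smul_apply, ne_eq, Ne.symm hj, not_false_eq_true, Pi.single_eq_of_ne, smul_zero]
      · simp only [Finset.mem_univ, not_true_eq_false, Pi.smul_apply, Pi.single_eq_same, smul_eq_zero, one_ne_zero, or_false, IsEmpty.forall_iff]
    show v ∈ genLat _ _ _ ↔ _
    rw [mem_genLat]
    constructor
    · rintro ⟨a, ha, rfl⟩
      exact ⟨a, ha, (key a).symm⟩
    · rintro ⟨a, ha, rfl⟩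
      exact ⟨a, ha, key a⟩
  have hEF : ∀ (m : ℤ) (w : (Fin l → KK k) ⧸ colSp φ), w ∈ cokLat c φ m → eb w ∈ F (m + M) := by
    intro m w hw
    obtain ⟨a, ha, rfl⟩ := b11_mem_cokLat.1 hw
    rw [heb, hmemF]
    refine ⟨fun i => x ^ M * a i - ∑ j, φ i j * ∑ i', τ j i' * a i', fun i => ?_, ?_⟩
    · refine sub_mem ?_ (Submodule.sum_mem _ fun j _ => ?_)
      · have := Ad_mul (hxM M) (ha i)
        rwa [show (M : ℤ) + (m - c i) = m + M - c i by ring] at this
      · rw [Finset.mul_sum]
        refine Submodule.sum_mem _ fun i' _ => ?_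
        have := Ad_mul (h.mem i j) (Ad_mul (hτ j i') (ha i'))
        rwa [show c' j - c i + (c i' - c' j + (M : ℤ) + (m - c i')) = m + M - c i by ring] at this
    · funext i
      rw [he]
      simp only [map_sub, map_mul, map_sum]
  have hloc : LocIn F (n + M) (eb (Submodule.Quotient.mk v)) := by
    obtain ⟨h1, q, hq, h2⟩ := hv
    have hsm : ∀ (q : A k) (w : (Fin l → KK k) ⧸ colSp φ), eb (q • w) = q • eb w := by
      intro q w
      exact (eb.restrictScalars (A k)).map_smul q w
    refine ⟨fun π hπ => ?_, q, hq, ?_⟩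
    · obtain ⟨i, r, hr, hrπ, h3⟩ := h1 π hπ
      refine ⟨i, r, hr, hrπ, ?_⟩
      have := hEF _ _ h3
      rw [hsm] at this
      rwa [show n + (M : ℤ) + i = n + i + M by ring]
    · have := hEF _ _ h2
      rw [hsm] at this
      rwa [show n + (M : ℤ) + (q.totalDegree : ℤ) = n + q.totalDegree + M by ring]
  have := hF _ _ hloc
  rw [heb, hmemF] at this
  obtain ⟨u, hu, hu'⟩ := this
  refine ⟨u, hu, fun i => ?_⟩
  rw [← he, hu']

theorem Cert.isS2 {l l' : ℕ} {c : Fin l → ℤ} {c' : Fin l' → ℤ} {φ : Fin l → Fin l' → A k}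
    {M : ℕ} (h : Cert c c' φ M) : IsS2 (cokLat c φ) := by
  intro n w hw
  obtain ⟨v, rfl⟩ := Submodule.Quotient.mk_surjective _ w
  have inj : Function.Injective (algebraMap (A k) (KK k)) := IsFractionRing.injective _ _
  have hX : ∀ s : Fin 2, (X s : A k) ∈ Ad k 1 := fun s => by
    simpa using b11_X_pow_mem (k := k) s 1
  obtain ⟨τ, hτ, hτφ⟩ := h.split 1 (Or.inl rfl)
  obtain ⟨τy, hτy, hτyφ⟩ := h.split (X 0) (Or.inr (Or.inl rfl))
  obtain ⟨τz, hτz, hτzφ⟩ := h.split (X 1) (Or.inr (Or.inr rfl))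
  obtain ⟨u, hu, hu'⟩ := h.exists_lift (mem_Ad.2 (Or.inr (by simp only [totalDegree_one, CharP.cast_eq_zero, zero_le_one]))) hτ hτφ hw
  obtain ⟨uy, huy, huy'⟩ := h.exists_lift (hX 0) hτy hτyφ hw
  obtain ⟨uz, huz, huz'⟩ := h.exists_lift (hX 1) hτz hτzφ hw
  -- the three comparison vectors
  have hc1 : ∃ γ : Fin l' → A k, (∀ j, γ j ∈ Ad k (n + 2 * M - c' j)) ∧
      ∀ i, X 0 ^ M * u i - uy i = ∑ j, φ i j * γ j := by
    have := (h.exact (n + 2 * M) (fun i => X 0 ^ M * u i - uy i) (fun i => ?_) ?_).exists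
    · exact this
    · refine sub_mem ?_ (Ad_mono (by (clear * -; omega)) (huy i))
      have := Ad_mul (b11_X_pow_mem (k := k) 0 M) (hu i)
      rwa [show (M : ℤ) + (n + M - c i) = n + 2 * M - c i by ring] at this
    · rw [b11_mem_colSp]
      refine ⟨fun j => ∑ i', algebraMap (A k) (KK k) (τy j i') * v i' -
        algebraMap (A k) (KK k) (X 0 ^ M) * ∑ i', algebraMap (A k) (KK k) (τ j i') * v i',
        fun i => ?_⟩
      simp only [map_sub, map_mul, hu', mul_sub, huy', Finset.sum_sub_distrib]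
      have : ∑ j, algebraMap (A k) (KK k) (φ i j) * (algebraMap (A k) (KK k) (X 0 ^ M) *
          ∑ i', algebraMap (A k) (KK k) (τ j i') * v i') =
          algebraMap (A k) (KK k) (X 0 ^ M) * ∑ j, algebraMap (A k) (KK k) (φ i j) *
          ∑ i', algebraMap (A k) (KK k) (τ j i') * v i' := by
        rw [Finset.mul_sum]
        exact Finset.sum_congr rfl fun j _ => by ring
      rw [this, one_pow, map_one, one_mul]
      ring
  have hc2 : ∃ γ : Fin l' → A k, (∀ j, γ j ∈ Ad k (n + 2 * M - c' j)) ∧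
      ∀ i, X 1 ^ M * u i - uz i = ∑ j, φ i j * γ j := by
    have := (h.exact (n + 2 * M) (fun i => X 1 ^ M * u i - uz i) (fun i => ?_) ?_).exists
    · exact this
    · refine sub_mem ?_ (Ad_mono (by omega) (huz i))
      have := Ad_mul (b11_X_pow_mem (k := k) 1 M) (hu i)
      rwa [show (M : ℤ) + (n + M - c i) = n + 2 * M - c i by ring] at this
    · rw [b11_mem_colSp]
      refine ⟨fun j => ∑ i', algebraMap (A k) (KK k) (τz j i') * v i' -
        algebraMap (A k) (KK k) (X 1 ^ M) * ∑ i', algebraMap (A k) (KK k) (τ j i') * v i',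
        fun i => ?_⟩
      simp only [map_sub, map_mul, hu', mul_sub, huz', Finset.sum_sub_distrib]
      have : ∑ j, algebraMap (A k) (KK k) (φ i j) * (algebraMap (A k) (KK k) (X 1 ^ M) *
          ∑ i', algebraMap (A k) (KK k) (τ j i') * v i') =
          algebraMap (A k) (KK k) (X 1 ^ M) * ∑ j, algebraMap (A k) (KK k) (φ i j) *
          ∑ i', algebraMap (A k) (KK k) (τ j i') * v i' := by
        rw [Finset.mul_sum]
        exact Finset.sum_congr rfl fun j _ => by ring
      rw [this, one_pow, map_one, one_mul]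
      ring
  have hc3 : ∃ γ : Fin l' → A k, (∀ j, γ j ∈ Ad k (n + 2 * M - c' j)) ∧
      ∀ i, X 1 ^ M * uy i - X 0 ^ M * uz i = ∑ j, φ i j * γ j := by
    have := (h.exact (n + 2 * M) (fun i => X 1 ^ M * uy i - X 0 ^ M * uz i)
      (fun i => ?_) ?_).exists
    · exact this
    · refine sub_mem ?_ ?_
      · have := Ad_mul (b11_X_pow_mem (k := k) 1 M) (huy i)
        rwa [show (M : ℤ) + (n + M - c i) = n + 2 * M - c i by ring] at this
      · have := Ad_mul (b11_X_pow_mem (k := k) 0 M) (huz i)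
        rwa [show (M : ℤ) + (n + M - c i) = n + 2 * M - c i by ring] at this
    · rw [b11_mem_colSp]
      refine ⟨fun j => algebraMap (A k) (KK k) (X 0 ^ M) *
        ∑ i', algebraMap (A k) (KK k) (τz j i') * v i' -
        algebraMap (A k) (KK k) (X 1 ^ M) * ∑ i', algebraMap (A k) (KK k) (τy j i') * v i',
        fun i => ?_⟩
      simp only [map_sub, map_mul, huy', huz', mul_sub, Finset.sum_sub_distrib]
      have h1 : ∀ (p : A k) (σ : Fin l' → Fin l → A k),
          ∑ j, algebraMap (A k) (KK k) (φ i j) * (algebraMap (A k) (KK k) p *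
          ∑ i', algebraMap (A k) (KK k) (σ j i') * v i') =
          algebraMap (A k) (KK k) p * ∑ j, algebraMap (A k) (KK k) (φ i j) *
          ∑ i', algebraMap (A k) (KK k) (σ j i') * v i' := by
        intro p σ
        rw [Finset.mul_sum]
        exact Finset.sum_congr rfl fun j _ => by ring
      rw [h1, h1]
      ring
  obtain ⟨γ, hγ, hγ'⟩ := hc1
  obtain ⟨γ', -, hγ''⟩ := hc2
  obtain ⟨γ₃, hγ₃, hγ₃'⟩ := hc3
  have hrel : γ₃ = fun j => X 0 ^ M * γ' j - X 1 ^ M * γ j := by
    apply h.inj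
    intro i
    rw [← hγ₃' i]
    simp only [mul_sub, Finset.sum_sub_distrib]
    have h1 : ∀ (p : A k) (g : Fin l' → A k), ∑ j, φ i j * (p * g j) = p * ∑ j, φ i j * g j := by
      intro p g
      rw [Finset.mul_sum]
      exact Finset.sum_congr rfl fun j _ => by ring
    rw [h1, h1, ← hγ' i, ← hγ'' i]
    ring
  have hsplit : ∀ j, ∃ ε r : A k, γ j = X 0 ^ M * ε + r ∧ ε ∈ Ad k (n - c' j + M) ∧
      r ∈ Ad k (n - c' j + M) := by
    intro j
    have h1 := hγ j
    have h2 := hγ₃ j
    rw [hrel] at h2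
    rw [show n + 2 * (M : ℤ) - c' j = n - c' j + 2 * M by ring] at h1 h2
    exact b11_split h1 h2
  choose ε r hεr hε hr using hsplit
  rw [b11_mem_cokLat]
  refine ⟨fun i => u i - ∑ j, φ i j * ε j, fun i => ?_, ?_⟩
  · refine b11_of_X_pow_mul (M := M) (s := 0) ?_
    have h1 : X 0 ^ M * (u i - ∑ j, φ i j * ε j) = uy i + ∑ j, φ i j * r j := by
      have h2 : ∑ j, φ i j * γ j = X 0 ^ M * ∑ j, φ i j * ε j + ∑ j, φ i j * r j := by
        rw [Finset.mul_sum, ← Finset.sum_add_distrib]
        refine Finset.sum_congr rfl fun j _ => ?_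
        rw [hεr j]
        ring
      rw [mul_sub]
      have h3 := hγ' i
      rw [h2] at h3
      linear_combination h3
    rw [h1]
    refine add_mem ?_ (Submodule.sum_mem _ fun j _ => ?_)
    · have := huy i
      rwa [show n + (M : ℤ) - c i = n - c i + M by ring] at this
    · have := Ad_mul (h.mem i j) (hr j)
      rwa [show c' j - c i + (n - c' j + (M : ℤ)) = n - c i + M by ring] at this
  · rw [Submodule.Quotient.eq, b11_mem_colSp]
    refine ⟨fun j => ∑ i', algebraMap (A k) (KK k) (τ j i') * v i' +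
      algebraMap (A k) (KK k) (ε j), fun i => ?_⟩
    rw [Pi.sub_apply, map_sub, hu' i, one_pow, map_one, one_mul, map_sum]
    simp only [mul_add, Finset.sum_add_distrib, map_mul]
    ring

theorem Cert.finrank {l l' : ℕ} {c : Fin l → ℤ} {c' : Fin l' → ℤ} {φ : Fin l → Fin l' → A k}
    {M : ℕ} (h : Cert c c' φ M) (n : ℤ) : Module.finrank k (cokLat c φ n) +
      ∑ j, Module.finrank k (Ad k (n - c' j)) = ∑ i, Module.finrank k (Ad k (n - c i)) := by
  classical
  let F0 := (i : Fin l) → Ad k (n - c i)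
  let F1 := (j : Fin l') → Ad k (n - c' j)
  let f0 : F0 →ₗ[k] ((Fin l → KK k) ⧸ colSp φ) :=
    ((colSp φ).mkQ.restrictScalars k) ∘ₗ
      LinearMap.pi fun i => ((Algebra.linearMap (A k) (KK k)).restrictScalars k) ∘ₗ
        (Ad k (n - c i)).subtype ∘ₗ LinearMap.proj i
  have hf0 : ∀ a : F0, f0 a = Submodule.Quotient.mk
      (fun i => algebraMap (A k) (KK k) ((a i : Ad k (n - c i)) : A k)) := fun a => rfl
  have hrange : LinearMap.range f0 = cokLat c φ n := by
    ext w
    rw [b11_mem_cokLat]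
    constructor
    · rintro ⟨a, rfl⟩
      exact ⟨fun i => a i, fun i => (a i).2, hf0 a⟩
    · rintro ⟨a, ha, rfl⟩
      exact ⟨fun i => ⟨a i, ha i⟩, rfl⟩
  let f1 : F1 →ₗ[k] F0 := LinearMap.pi fun i =>
    LinearMap.codRestrict (Ad k (n - c i))
      (∑ j, (LinearMap.mulLeft k (φ i j)) ∘ₗ (Ad k (n - c' j)).subtype ∘ₗ LinearMap.proj j) (by
        intro b
        rw [LinearMap.sum_apply]
        refine Submodule.sum_mem _ fun j _ => ?_
        have := Ad_mul (h.mem i j) (b j).2
        rw [show c' j - c i + (n - c' j) = n - c i by ring] at this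
        exact this)
  have hf1 : ∀ (b : F1) (i : Fin l), ((f1 b i : Ad k (n - c i)) : A k) =
      ∑ j, φ i j * ((b j : Ad k (n - c' j)) : A k) := by
    intro b i
    show (∑ j, (LinearMap.mulLeft k (φ i j)) ∘ₗ (Ad k (n - c' j)).subtype ∘ₗ
      LinearMap.proj j) b = _
    rw [LinearMap.sum_apply]
    rfl
  have hf1inj : Function.Injective f1 := by
    intro b b' hbb
    have := h.inj (b := fun j => (b j : A k)) (b' := fun j => (b' j : A k)) (fun i => by
      rw [← hf1, ← hf1, hbb])
    funext j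
    exact Subtype.ext (congrFun this j)
  have hker : LinearMap.ker f0 = LinearMap.range f1 := by
    ext a
    rw [LinearMap.mem_ker, hf0, Submodule.Quotient.mk_eq_zero]
    constructor
    · intro ha
      obtain ⟨b, hb, hb'⟩ := (h.exact n (fun i => (a i : A k)) (fun i => (a i).2) ha).exists
      refine ⟨fun j => ⟨b j, hb j⟩, funext fun i => Subtype.ext ?_⟩
      rw [hf1]
      exact (hb' i).symm
    · rintro ⟨b, rfl⟩
      rw [b11_mem_colSp]
      refine ⟨fun j => algebraMap (A k) (KK k) (b j), fun i => ?_⟩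
      rw [hf1, map_sum]
      exact Finset.sum_congr rfl fun j _ => map_mul _ _ _
  have h1 := LinearMap.finrank_range_add_finrank_ker f0
  rw [hrange, hker, LinearMap.finrank_range_of_inj hf1inj, Module.finrank_pi_fintype,
    Module.finrank_pi_fintype] at h1
  exact h1

end Vale.Agent.P190.D
end
end
namespace AFast7f54d5x4226a
@[reducible] noncomputable def a0 {x1 : ℕ} {x2 : Type} [x3 : Field x2] {x4 : ℕ} {x5 : Fin x1 → Fin x4 → Vale.Agent.P190.D.A x2} : AddCommMonoid ((Fin x1 → Vale.Agent.P190.D.KK x2) ⧸ Vale.Agent.P190.D.colSp x5) := inferInstance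
@[reducible] noncomputable def a1 {x1 : ℕ} {x2 : Type} [x3 : Field x2] {x4 : ℕ} {x5 : Fin x1 → Fin x4 → Vale.Agent.P190.D.A x2} : AddCommGroup ((Fin x1 → Vale.Agent.P190.D.KK x2) ⧸ Vale.Agent.P190.D.colSp x5) := inferInstance
end AFast7f54d5x4226a
attribute [local instance] AFast7f54d5x4226a.a0 AFast7f54d5x4226a.a1
namespace AFast7f54d5x4226b
@[reducible] noncomputable def a0 {x1 : Type} [x2 : Field x1] {x3 : ℕ} {x4 : ℕ} {x5 : Fin x3 → Fin x4 → Vale.Agent.P190.D.A x1} : Module (Vale.Agent.P190.D.A x1) ((Fin x3 → Vale.Agent.P190.D.KK x1) ⧸ Vale.Agent.P190.D.colSp x5) := inferInstance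
@[reducible] noncomputable def a1 {x1 : Type} [x2 : Field x1] {x3 : ℕ} {x4 : ℕ} {x5 : Fin x3 → Fin x4 → Vale.Agent.P190.D.A x1} : SMul (Vale.Agent.P190.D.A x1) ((Fin x3 → Vale.Agent.P190.D.KK x1) ⧸ Vale.Agent.P190.D.colSp x5) := inferInstance
@[reducible] noncomputable def a2 {x1 : Type} [x2 : Field x1] {x3 : ℕ} {x4 : ℕ} {x5 : Fin x3 → Fin x4 → Vale.Agent.P190.D.A x1} : SMulZeroClass (Vale.Agent.P190.D.A x1) ((Fin x3 → Vale.Agent.P190.D.KK x1) ⧸ Vale.Agent.P190.D.colSp x5) := inferInstance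
@[reducible] noncomputable def a3 {x1 : Type} [x2 : Field x1] {x3 : ℕ} {x4 : ℕ} {x5 : Fin x3 → Fin x4 → Vale.Agent.P190.D.A x1} : DistribSMul (Vale.Agent.P190.D.A x1) ((Fin x3 → Vale.Agent.P190.D.KK x1) ⧸ Vale.Agent.P190.D.colSp x5) := inferInstance
@[reducible] noncomputable def a4 {x1 : Type} [x2 : Field x1] {x3 : ℕ} {x4 : ℕ} {x5 : Fin x3 → Fin x4 → Vale.Agent.P190.D.A x1} : DistribMulAction (Vale.Agent.P190.D.A x1) ((Fin x3 → Vale.Agent.P190.D.KK x1) ⧸ Vale.Agent.P190.D.colSp x5) := inferInstance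
end AFast7f54d5x4226b
attribute [local instance] AFast7f54d5x4226b.a0 AFast7f54d5x4226b.a1 AFast7f54d5x4226b.a2
  AFast7f54d5x4226b.a3 AFast7f54d5x4226b.a4

section

section

/-! Section 1, file B10: splitting certificates exist. -/

set_option autoImplicit false
set_option linter.unusedSectionVars false

open MvPolynomial Filter

namespace Vale.Agent.P190.D

variable {k : Type} [Field k] {V : Type} [AddCommGroup V] [Module k V] [Module (A k) V]
  [Module (KK k) V] [IsScalarTower k (A k) V] [IsScalarTower (A k) (KK k) V]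
  {V' : Type} [AddCommGroup V'] [Module k V'] [Module (A k) V'] [Module (KK k) V']
  [IsScalarTower k (A k) V'] [IsScalarTower (A k) (KK k) V']

variable [Infinite k]

/-- images of S2 lattices under injective maps with all of `V'` as image are S2 -/
theorem IsS2.map_bijective {E : ℤ → Submodule k V} (h2 : IsS2 E) (f : V →ₗ[A k] V')
    (hf : Function.Bijective f) : IsS2 (mapLat f E) := by
  intro n u hu
  obtain ⟨w, rfl⟩ := hf.2 u
  have key : ∀ (c : A k) (m : ℤ), c • f w ∈ mapLat f E m → c • w ∈ E m := by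
    intro c m h
    obtain ⟨x, hx, hxe⟩ := h
    have h1 : f x = f (c • w) := by rw [map_smul]; exact hxe
    rw [← hf.1 h1]
    exact hx
  have h3 : LocIn E n w := by
    obtain ⟨ha, c, hc, hb⟩ := hu
    refine ⟨fun π hπ => ?_, c, hc, key _ _ hb⟩
    obtain ⟨i, c, hc, hcπ, h5⟩ := ha π hπ
    exact ⟨i, c, hc, hcπ, key _ _ h5⟩
  exact ⟨w, h2 n w h3, rfl⟩

/-- evaluation map in the double dual, as an `A`-linear map -/
noncomputable def evDD (k : Type) [Field k] (V : Type) [AddCommGroup V] [Module k V]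
    [Module (A k) V] [Module (KK k) V] [IsScalarTower k (A k) V] [IsScalarTower (A k) (KK k) V] :
    V →ₗ[A k] ((V →ₗ[KK k] KK k) →ₗ[KK k] KK k) :=
  (Module.Dual.eval (KK k) V).restrictScalars (A k)

theorem evDD_apply (w : V) (f : V →ₗ[KK k] KK k) : evDD k V w f = f w := rfl

theorem evDD_bijective (hfin : Module.Finite (KK k) V) : Function.Bijective (evDD k V) := by
  exact (Module.evalEquiv (KK k) V).bijective

/-- the double dual has the same Hilbert polynomial -/
theorem HasHilb.double_dual {E : ℤ → Submodule k V} (hE : IsBLat E) (h2 : IsS2 E)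
    (hs : spanK E = ⊤) {N e g : ℤ} (h : HasHilb E N e g) :
    HasHilb (dualLat (dualLat E)) N e g := by
  have hfin : Module.Finite (KK k) V := by
    have h1 := hE.finite_spanK
    rw [hs] at h1
    exact Module.Finite.equiv (Submodule.topEquiv (R := KK k) (M := V))
  obtain ⟨g', h'⟩ := h.dual hE h2 hs
  have hD := isBLat_dualLat hE hs
  have hDs := spanK_dualLat hE hs
  have hD2 := isS2_dualLat hE hs
  obtain ⟨g'', h''⟩ := h'.dual hD hD2 hDs
  rw [neg_neg] at h''
  have hDD := isBLat_dualLat hD hDs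
  have hM := hE.map (evDD k V)
  have hMh := h.map_injective (evDD k V) (evDD_bijective hfin).1
  have hle : ∀ n, mapLat (evDD k V) E n ≤ dualLat (dualLat E) n := by
    rintro n _ ⟨w, hw, rfl⟩
    intro m f hf
    obtain ⟨a, ha, h1⟩ := hf n w hw
    exact ⟨a, by rwa [add_comm], h1⟩
  have hM2 : IsS2 (mapLat (evDD k V) E) := h2.map_bijective _ (evDD_bijective hfin)
  have heq : mapLat (evDD k V) E = dualLat (dualLat E) := by
    funext n
    apply le_antisymm (hle n)
    intro u hu
    exact hM2 n u (le_hull_of_bounded hM hDD hle hMh h'' n hu)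
  rw [← heq]
  exact hMh

/-- 1.11 splitting certificate -/
theorem IsS2.exists_splitting {E : ℤ → Submodule k V} (hE : IsBLat E) (h2 : IsS2 E)
    (hs : spanK E = ⊤) {l l' : ℕ} (v : Fin l → V) (c : Fin l → ℤ) (hv : ∀ n, E n = genLat v c n)
    (c' : Fin l' → ℤ) (φ : Fin l → Fin l' → A k) (hφ : ∀ i j, φ i j ∈ Ad k (c' j - c i))
    (hφv : ∀ j, ∑ i, φ i j • v i = 0)
    (hex : ∀ (n : ℤ) (a : Fin l → A k), (∀ i, a i ∈ Ad k (n - c i)) → ∑ i, a i • v i = 0 →
        ∃! b : Fin l' → A k, (∀ j, b j ∈ Ad k (n - c' j)) ∧ ∀ i, a i = ∑ j, φ i j * b j) :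
    ∃ M : ℕ, ∀ x : A k, (x = 1 ∨ x = X 0 ∨ x = X 1) →
      ∃ τ : Fin l' → Fin l → A k, (∀ j i, τ j i ∈ Ad k (c i - c' j + M)) ∧
        ∀ j j', ∑ i, τ j i * φ i j' = if j = j' then x ^ M else 0 := by
  classical
  have R : IsRes E v c c' φ := ⟨hv, hφ, hφv, hex⟩
  obtain ⟨N, e, g, h⟩ := hE.exists_hilb
  obtain ⟨g', h'⟩ := h.dual hE h2 hs
  have hD := isBLat_dualLat hE hs
  have hDs := spanK_dualLat hE hs
  have hD2 := isS2_dualLat hE hs
  have h'' := h.double_dual hE h2 hs
  have ineq1 := R.coker_nonneg hs h h'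
  have ineq2 : 0 ≤ -e + g - g' := by
    obtain ⟨ld, vd, cd, -, hvd⟩ := hD.exists_gen
    obtain ⟨ld', cd', φd, a1, a2, a3⟩ := hD2.exists_resolution hD vd cd hvd
    have Rd : IsRes (dualLat E) vd cd cd' φd := ⟨hvd, a1, a2, a3⟩
    refine Rd.coker_nonneg hDs h' ?_
    rw [neg_neg]
    exact h''
  have h0 : e + g' - g = 0 := by linarith only [ineq1, ineq2]
  obtain ⟨n0, hn0⟩ := Filter.eventually_atTop.1 (R.coker_eq hs h h' h0)
  obtain ⟨M0, hM0⟩ := (Set.finite_range fun j => n0 + c' j).bddAbove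
  refine ⟨M0.toNat, fun x hx => ?_⟩
  have hx1 : x ∈ Ad k 1 := by
    rw [mem_Ad]
    right
    rcases hx with rfl | rfl | rfl
    · simp only [totalDegree_one, CharP.cast_eq_zero, zero_le_one]
    · simp
    · simp
  have hxM : ∀ M : ℕ, x ^ M ∈ Ad k M := by
    intro M
    induction M with
    | zero => rw [pow_zero]; exact mem_Ad.2 (Or.inr (by simp))
    | succ M ih =>
      rw [pow_succ]
      have := Ad_mul ih hx1
      push_cast
      exact this
  set M : ℕ := M0.toNat with hM
  have hMge : ∀ j, n0 ≤ (M : ℤ) - c' j := by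
    intro j
    have h1 := hM0 (Set.mem_range_self j)
    have h1' : n0 + c' j ≤ M0 := h1
    have h2 : M0 ≤ (M0.toNat : ℤ) := Int.self_le_toNat M0
    rw [hM]
    linarith only [h1, h2]
  have key : ∀ j : Fin l', ∃ t : Fin l → A k, (∀ i, t i ∈ Ad k (c i - c' j + M)) ∧
      ∀ j', ∑ i, φ i j' * t i = if j = j' then x ^ M else 0 := by
    intro j
    have h1 := hn0 ((M : ℤ) - c' j) (hMge j)
    have h2 : (Pi.single j (x ^ M) : Fin l' → A k) ∈ pD k fun j' => (M : ℤ) - c' j + c' j' := by
      rw [mem_pD]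
      intro j'
      by_cases hj : j' = j
      · subst hj
        rw [Pi.single_eq_same, sub_add_cancel]
        exact hxM M
      · rw [Pi.single_eq_of_ne hj]
        exact zero_mem _
    rw [← h1] at h2
    obtain ⟨t, ht, hte⟩ := h2
    refine ⟨t, fun i => ?_, fun j' => ?_⟩
    · have h3 := (mem_pD.1 ht) i
      have h4 : (M : ℤ) - c' j + c i = c i - c' j + M := by ring
      rwa [h4] at h3
    · have h3 : (∑ i, φ i j' * t i) = (Pi.single j (x ^ M) : Fin l' → A k) j' :=
        congrFun hte j'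
      rw [h3]
      by_cases hj : j = j'
      · subst hj
        simp
      · rw [if_neg hj, Pi.single_eq_of_ne (Ne.symm hj)]
  choose τ h1 h2 using key
  refine ⟨τ, h1, fun j j' => ?_⟩
  rw [← h2 j j']
  refine Finset.sum_congr rfl fun i _ => ?_
  ring

end Vale.Agent.P190.D
end
end

section

section

/-! Section 5, definitions: certificates for T-lattices. -/

set_option autoImplicit false
set_option linter.unusedSectionVars false

open MvPolynomial Filter

namespace Vale.Agent.P190.D

section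

variable {k : Type} [Field k]

/-- equality modulo the column space of `φ` -/
def ModCol {l l' n : ℕ} (φ : Matrix (Fin l) (Fin l') (A k)) (P Q : Matrix (Fin l) (Fin n) (A k)) :
    Prop := ∃ H : Matrix (Fin l') (Fin n) (A k), P = Q + φ * H

/-- the matrix of `π_ε`, given matrices of the `σ_x` -/
noncomputable def pieM (X : Arr k) {l : ℕ} (s : X.I → Matrix (Fin l) (Fin l) (A k))
    (ε : X.S → Bool) : Matrix (Fin l) (Fin l) (A k) :=
  ((Finset.univ : Finset X.S).toList.map fun t =>
    if ε t then X.δ t • s (X.d t) + X.η t • s (X.h t) else X.ν t • s (X.v t)).prod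

/-- a certificate of a T-lattice: generators in degrees `c`, relations `φ` in degrees `c'` with a
splitting certificate, matrices `s` and `G` of the operators `σ_x` and `Γ_ε`. -/
structure TCert (X : Arr k) {l l' : ℕ} (c : Fin l → ℤ) (c' : Fin l' → ℤ) (M : ℕ)
    (φ : Matrix (Fin l) (Fin l') (A k)) (s : X.I → Matrix (Fin l) (Fin l) (A k))
    (G : (X.S → Bool) → Matrix (Fin l) (Fin l) (A k)) : Prop where
  cert : Cert c c' (fun i j => φ i j) M
  s_mem : ∀ x i j, s x i j ∈ Ad k (c j + 1 - c i)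
  G_mem : ∀ ε i j, G ε i j ∈ Ad k (c j + X.w - c i)
  s_col : ∀ x, ModCol φ (s x * φ) 0
  G_col : ∀ ε, ModCol φ (G ε * φ) 0
  s_comm : ∀ x y, ModCol φ (s x * s y) (s y * s x)
  s_sq : ∀ x, ModCol φ (s x * s x) (X.q x • (1 : Matrix (Fin l) (Fin l) (A k)))
  s_b0 : ModCol φ (s (X.b 0)) 1
  s_b1 : ModCol φ (s (X.b 1)) ((MvPolynomial.X 0 : A k) • (1 : Matrix (Fin l) (Fin l) (A k)))
  s_b2 : ModCol φ (s (X.b 2)) ((MvPolynomial.X 1 : A k) • (1 : Matrix (Fin l) (Fin l) (A k)))
  G_s : ∀ ε x, ModCol φ (G ε * s x) (s x * G ε)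
  G_pie : ∀ ε, ModCol φ (pieM X s (fun _ => true) * G ε) (pieM X s ε * G (fun _ => true))
  G_sq : ModCol φ (G (fun _ => true) * G (fun _ => true)) (pieM X s (fun _ => true))

/-- the T-lattice `E` is described by the certificate -/
structure IsTPres {X : Arr k} {r : ℕ} (Γ : (Fin r → X.L) →ₗ[X.L] (Fin r → X.L))
    (E : ℤ → Submodule k (Fin r → X.L)) {l l' : ℕ} (v : Fin l → (Fin r → X.L)) (c : Fin l → ℤ)
    (c' : Fin l' → ℤ) (φ : Matrix (Fin l) (Fin l') (A k))
    (s : X.I → Matrix (Fin l) (Fin l) (A k))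
    (G : (X.S → Bool) → Matrix (Fin l) (Fin l) (A k)) : Prop where
  res : IsRes E v c c' (fun i j => φ i j)
  sig : ∀ x j, X.σ x • v j = ∑ i, s x i j • v i
  gam : ∀ ε j, gam Γ ε (v j) = ∑ i, G ε i j • v i

end

/-- A graded family of spaces `Z n` of polynomial vectors, stable under polynomials, under the
matrices `s y` (degree 1) and `G ε` (degree `a`), of rank at most `w` modulo the column space of
`φ`, and of dimension at least `d n` for `n ≥ n₂`. -/
structure ZData {k : Type} [Field k] {l l' : ℕ} {I T : Type} (c : Fin l → ℤ) (a : ℤ)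
    (φ : Matrix (Fin l) (Fin l') (A k)) (s : I → Matrix (Fin l) (Fin l) (A k))
    (G : T → Matrix (Fin l) (Fin l) (A k)) (w : ℕ) (d : ℤ → ℕ) (n₂ : ℤ)
    (Z : ℤ → Submodule k (Fin l → A k)) : Prop where
  le : ∀ n, Z n ≤ pD k (fun j => n - c j)
  smul : ∀ {i n : ℤ} {b : A k} {x : Fin l → A k}, b ∈ Ad k i → x ∈ Z n → b • x ∈ Z (n + i)
  sig : ∀ (y : I) {n : ℤ} {x : Fin l → A k}, x ∈ Z n → (s y).mulVec x ∈ Z (n + 1)
  gam : ∀ (ε : T) {n : ℤ} {x : Fin l → A k}, x ∈ Z n → (G ε).mulVec x ∈ Z (n + a)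
  rank : ∀ (n : ℤ) (x : Fin (w + 1) → (Fin l → A k)), (∀ t, x t ∈ Z n) →
    ∃ β : Fin (w + 1) → A k, β ≠ 0 ∧ ∃ b : Fin l' → A k, ∑ t, β t • x t = φ.mulVec b
  dim : ∀ n ≥ n₂, d n ≤ Module.finrank k (Z n)

/-- the dimension of `Ad k n`, for every field `k` -/
noncomputable def adim (n : ℤ) : ℕ := Module.finrank ℚ (Ad ℚ n)

theorem finrank_Ad_eq {k : Type} [Field k] (n : ℤ) : Module.finrank k (Ad k n) = adim n := by
  unfold adim
  rcases lt_or_ge n 0 with h | h
  · rw [finrank_Ad_neg h, finrank_Ad_neg h]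
  · have h1 := finrank_Ad (k := k) (n := n) (by linarith only [h])
    have h2 := finrank_Ad (k := ℚ) (n := n) (by linarith)
    rw [← h2] at h1
    exact_mod_cast h1

end Vale.Agent.P190.D
end
end

section

section

/-! Section 3, file S4a: the ring homomorphism from `L` to a localisation of `R`. -/

set_option autoImplicit false
set_option linter.unusedSectionVars false

open MvPolynomial Filter

namespace Vale.Agent.P190.D

/-- localisation data -/
structure LocD (k : Type) [Field k] (R : Type) [CommRing R] [Algebra (Bh k) R]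
    (RS : Type) [CommRing RS] where
  φ : R →+* RS
  u : RSˣ
  hu : (u : RS) = φ (algebraMap (Bh k) R (MvPowerSeries.X 0))
  unit : ∀ b : Bh k, b ≠ 0 → IsUnit (φ (algebraMap (Bh k) R b))

namespace LocD

variable {k : Type} [Field k] {R : Type} [CommRing R] [Algebra (Bh k) R]
  {RS : Type} [CommRing RS] (P : LocD k R RS)

/-- the map from the power series ring -/
noncomputable def th : Bh k →+* RS := P.φ.comp (algebraMap (Bh k) R)

theorem th_apply (b : Bh k) : P.th b = P.φ (algebraMap (Bh k) R b) := rfl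

/-- the map from the polynomial ring -/
noncomputable def phA : A k →+* RS :=
  MvPolynomial.eval₂Hom (P.th.comp MvPowerSeries.C)
    ![P.th (MvPowerSeries.X 1) * (P.u⁻¹ : RSˣ), P.th (MvPowerSeries.X 2) * (P.u⁻¹ : RSˣ)]

theorem phA_C (c : k) : P.phA (MvPolynomial.C c) = P.th (MvPowerSeries.C c) := by
  simp [phA]

theorem phA_X0 : P.phA (MvPolynomial.X 0) = P.th (MvPowerSeries.X 1) * (P.u⁻¹ : RSˣ) := by
  simp only [phA, Fin.isValue, eval₂Hom_X', Matrix.cons_val_zero]

theorem phA_X1 : P.phA (MvPolynomial.X 1) = P.th (MvPowerSeries.X 2) * (P.u⁻¹ : RSˣ) := by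
  simp only [phA, Fin.isValue, eval₂Hom_X', Matrix.cons_val_one, Matrix.cons_val_fin_one]

theorem th_X0 : P.th (MvPowerSeries.X 0) = P.u := by rw [P.hu, th_apply]

/-- the dehomogenisation formula holds for `c` in degree `i` -/
def Ok (i : ℤ) (c : A k) : Prop := P.phA c * ((P.u ^ i : RSˣ) : RS) = P.th (hg k i c)

theorem ok_smul {i : ℤ} {c : A k} (h : P.Ok i c) (a : k) : P.Ok i (a • c) := by
  unfold Ok at h ⊢
  rw [LinearMap.map_smul (hg k i) a c, MvPowerSeries.smul_eq_C_mul, map_mul, ← h,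
    MvPolynomial.smul_eq_C_mul, map_mul, phA_C, mul_assoc]

theorem ok_add {i : ℤ} {c d : A k} (h : P.Ok i c) (h' : P.Ok i d) : P.Ok i (c + d) := by
  unfold Ok at h h' ⊢
  rw [map_add, map_add, map_add, add_mul, h, h']

theorem ok_zero (i : ℤ) : P.Ok i 0 := by
  unfold Ok
  rw [map_zero, map_zero, map_zero, zero_mul]

theorem ok_one {c : A k} (hc : c ∈ Ad k 1) : P.Ok 1 c := by
  have h1 := mem_span_lin3 hc
  induction h1 using Submodule.span_induction with
  | mem x hx =>
    obtain ⟨i, rfl⟩ := hx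
    unfold Ok
    fin_cases i
    · change P.phA 1 * _ = P.th (hg k 1 1)
      rw [hg_one_one, map_one, one_mul, th_X0, zpow_one]
    · change P.phA (MvPolynomial.X 0) * _ = P.th (hg k 1 (MvPolynomial.X 0))
      rw [hg_one_X0, phA_X0, zpow_one, mul_assoc, ← Units.val_mul, inv_mul_cancel, Units.val_one,
        mul_one]
    · change P.phA (MvPolynomial.X 1) * _ = P.th (hg k 1 (MvPolynomial.X 1))
      rw [hg_one_X1, phA_X1, zpow_one, mul_assoc, ← Units.val_mul, inv_mul_cancel, Units.val_one,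
        mul_one]
  | zero => exact P.ok_zero 1
  | add x y hx hy ihx ihy =>
    have hx' : x ∈ Ad k 1 := by
      refine Submodule.span_le.2 ?_ hx
      rintro _ ⟨i, rfl⟩
      exact lin3_mem i
    have hy' : y ∈ Ad k 1 := by
      refine Submodule.span_le.2 ?_ hy
      rintro _ ⟨i, rfl⟩
      exact lin3_mem i
    exact P.ok_add (ihx hx') (ihy hy')
  | smul a x hx ih =>
    have hx' : x ∈ Ad k 1 := by
      refine Submodule.span_le.2 ?_ hx
      rintro _ ⟨i, rfl⟩
      exact lin3_mem i
    exact P.ok_smul (ih hx') a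

theorem ok_nat (n : ℕ) : ∀ {c : A k}, c ∈ Ad k n → P.Ok n c := by
  induction n with
  | zero =>
    intro c hc
    have h0 : c = MvPolynomial.C (coeff 0 c) := by
      rcases mem_Ad.1 hc with rfl | h
      · simp
      · refine totalDegree_eq_zero_iff_eq_C.1 ?_
        push_cast at h
        omega
    have h1 : P.Ok 0 (1 : A k) := by
      unfold Ok
      rw [hg_one, map_one, map_one, zpow_zero, Units.val_one, mul_one]
    rw [h0, ← mul_one (MvPolynomial.C _), ← MvPolynomial.smul_eq_C_mul]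
    exact P.ok_smul h1 _
  | succ n ih =>
    intro c hc
    push_cast at hc
    rw [Ad_succ (by (clear * -; positivity))] at hc
    induction hc using Submodule.span_induction with
    | mem x hx =>
      obtain ⟨a, ha, b, hb, rfl⟩ := hx
      have h1 := P.ok_one ha
      have h2 := ih hb
      unfold Ok at h1 h2 ⊢
      rw [map_mul, show ((n + 1 : ℕ) : ℤ) = 1 + (n : ℤ) by push_cast; ring, ← hg_mul ha hb,
        map_mul, ← h1, ← h2, zpow_add, Units.val_mul]
      ring
    | zero => exact P.ok_zero _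
    | add x y _ _ ihx ihy => exact P.ok_add ihx ihy
    | smul a x _ ih' => exact P.ok_smul ih' a

/-- K1 -/
theorem phA_mul {i : ℤ} {c : A k} (hc : c ∈ Ad k i) :
    P.phA c * ((P.u ^ i : RSˣ) : RS) = P.th (hg k i c) := by
  rcases lt_or_ge i 0 with hi | hi
  · rw [Ad_of_neg hi, Submodule.mem_bot] at hc
    subst hc
    exact P.ok_zero i
  · obtain ⟨n, rfl⟩ := Int.eq_ofNat_of_zero_le hi
    exact P.ok_nat n hc

theorem self_mem_Ad (c : A k) : c ∈ Ad k c.totalDegree := mem_Ad.2 (Or.inr le_rfl)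

theorem hg_ne_zero {i : ℤ} {c : A k} (hc : c ∈ Ad k i) (h0 : c ≠ 0) : hg k i c ≠ 0 := by
  intro h
  apply hg_not_mem hc h0
  rw [h]
  exact zero_mem _

theorem isUnit_phA {c : A k} (h0 : c ≠ 0) : IsUnit (P.phA c) := by
  have h1 := P.phA_mul (self_mem_Ad c)
  have h2 : IsUnit (P.th (hg k c.totalDegree c)) := P.unit _ (hg_ne_zero (self_mem_Ad c) h0)
  rw [← h1] at h2
  exact isUnit_of_mul_isUnit_left h2

/-- the map from the fraction field -/
noncomputable def phK : KK k →+* RS :=
  IsLocalization.lift (M := nonZeroDivisors (A k)) (g := P.phA)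
    (fun y => P.isUnit_phA (nonZeroDivisors.ne_zero y.2))

theorem phK_A (a : A k) : P.phK (algebraMap (A k) (KK k) a) = P.phA a :=
  IsLocalization.lift_eq _ _

variable {X : Arr k} (D : RData X R)

theorem phA_q (x : X.I) : P.phA (X.q x) = (P.φ (D.s x) * (P.u⁻¹ : RSˣ)) ^ 2 := by
  have hxx : P.th (MvPowerSeries.X 0) * ((P.u⁻¹ : RSˣ) : RS) = 1 := by
    rw [th_X0, ← Units.val_mul, mul_inv_cancel, Units.val_one]
  have h1 : P.φ (D.s x) ^ 2 =
      P.th (∑ i, (MvPowerSeries.C (X.l x i) : Bh k) * MvPowerSeries.X i ^ 2) := by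
    rw [← map_pow, D.s_sq, th_apply]
  rw [mul_pow, h1, Arr.q_eq, map_add, map_add, map_mul, map_mul, map_pow, map_pow, phA_C, phA_C,
    phA_C, phA_X0, phA_X1, map_sum, Fin.sum_univ_three, map_mul, map_mul, map_mul, map_pow,
    map_pow, map_pow]
  calc P.th (MvPowerSeries.C (X.l x 0)) +
      P.th (MvPowerSeries.C (X.l x 1)) * (P.th (MvPowerSeries.X 1) * (P.u⁻¹ : RSˣ)) ^ 2 +
      P.th (MvPowerSeries.C (X.l x 2)) * (P.th (MvPowerSeries.X 2) * (P.u⁻¹ : RSˣ)) ^ 2
      = P.th (MvPowerSeries.C (X.l x 0)) *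
        (P.th (MvPowerSeries.X 0) * ((P.u⁻¹ : RSˣ) : RS)) ^ 2 +
      P.th (MvPowerSeries.C (X.l x 1)) * (P.th (MvPowerSeries.X 1) * (P.u⁻¹ : RSˣ)) ^ 2 +
      P.th (MvPowerSeries.C (X.l x 2)) * (P.th (MvPowerSeries.X 2) * (P.u⁻¹ : RSˣ)) ^ 2 := by
        rw [hxx, one_pow, mul_one]
    _ = _ := by ring

/-- the map from `L` -/
noncomputable def phL : X.L →+* RS :=
  Ideal.Quotient.lift X.idl
    (MvPolynomial.eval₂Hom P.phK (fun j : X.J => P.φ (D.s j.1) * (P.u⁻¹ : RSˣ)))
    (by
      intro a ha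
      have h : X.idl ≤ RingHom.ker
          (MvPolynomial.eval₂Hom P.phK (fun j : X.J => P.φ (D.s j.1) * (P.u⁻¹ : RSˣ))) := by
        unfold Arr.idl
        rw [Ideal.span_le]
        rintro _ ⟨j, rfl⟩
        rw [SetLike.mem_coe, RingHom.mem_ker, map_sub, map_pow, coe_eval₂Hom, eval₂_X, eval₂_C,
          phK_A, P.phA_q D, sub_self]
      exact h ha)

theorem phL_K (a : KK k) : P.phL D (algebraMap (KK k) X.L a) = P.phK a := by
  have h : algebraMap (KK k) X.L a = (Ideal.Quotient.mk X.idl (MvPolynomial.C a) :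
      MvPolynomial X.J (KK k) ⧸ X.idl) := rfl
  unfold phL
  rw [h]
  refine (Ideal.Quotient.lift_mk _ _ _).trans ?_
  rw [coe_eval₂Hom, eval₂_C]

theorem phL_A (a : A k) : P.phL D (algebraMap (A k) X.L a) = P.phA a := by
  rw [IsScalarTower.algebraMap_apply (A k) (KK k) X.L, phL_K, phK_A]

theorem phL_k (c : k) : P.phL D (algebraMap k X.L c) = P.th (MvPowerSeries.C c) := by
  rw [IsScalarTower.algebraMap_apply k (A k) X.L, phL_A]
  exact P.phA_C c

theorem phL_σ (x : X.I) : P.phL D (X.σ x) = P.φ (D.s x) * (P.u⁻¹ : RSˣ) := by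
  by_cases hx : x ∈ Set.range X.b
  · obtain ⟨i, rfl⟩ := hx
    rw [D.s_b]
    fin_cases i
    · change P.phL D (X.σ (X.b 0)) = P.th (MvPowerSeries.X 0) * _
      rw [Arr.σ_base0, map_one, th_X0, ← Units.val_mul, mul_inv_cancel, Units.val_one]
    · change P.phL D (X.σ (X.b 1)) = P.th (MvPowerSeries.X 1) * _
      rw [Arr.σ_base1, phL_A, phA_X0]
    · change P.phL D (X.σ (X.b 2)) = P.th (MvPowerSeries.X 2) * _
      rw [Arr.σ_base2, phL_A, phA_X1]
  · have h : X.σ x = (Ideal.Quotient.mk X.idl (MvPolynomial.X (⟨x, hx⟩ : X.J)) :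
        MvPolynomial X.J (KK k) ⧸ X.idl) := by
      unfold Arr.σ
      exact dif_pos hx
    unfold phL
    rw [h]
    refine (Ideal.Quotient.lift_mk _ _ _).trans ?_
    exact eval₂_X P.phK (fun j : X.J => P.φ (D.s j.1) * (P.u⁻¹ : RSˣ)) (⟨x, hx⟩ : X.J)

theorem phL_ksmul (c : k) (f : X.L) : P.phL D (c • f) = P.th (MvPowerSeries.C c) * P.phL D f := by
  rw [Algebra.smul_def, map_mul, phL_k]

theorem phL_pie (ε : X.S → Bool) : P.phL D (X.pie ε) =
    P.φ (∏ t, if ε t then algebraMap (Bh k) R (MvPowerSeries.C (X.δ t)) * D.s (X.d t) +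
        algebraMap (Bh k) R (MvPowerSeries.C (X.η t)) * D.s (X.h t)
      else algebraMap (Bh k) R (MvPowerSeries.C (X.ν t)) * D.s (X.v t)) *
      ((P.u⁻¹ : RSˣ) : RS) ^ (2 * X.w) := by
  rw [Arr.two_w, ← Finset.card_univ, ← Finset.prod_const, map_prod, ← Finset.prod_mul_distrib,
    Arr.pie, map_prod]
  refine Finset.prod_congr rfl fun t _ => ?_
  split_ifs
  · unfold Arr.a
    rw [if_pos rfl, map_add, phL_ksmul, phL_ksmul, phL_σ, phL_σ, map_add, map_mul, map_mul,
      th_apply, th_apply]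
    ring
  · rw [phL_ksmul, phL_σ, map_mul, th_apply]
    ring

theorem pie_true : X.pie (fun _ => true) = X.PI := by
  unfold Arr.pie Arr.PI
  refine Finset.prod_congr rfl fun t _ => ?_
  rw [if_pos rfl]

/-- the element `Γ / x₁^w` -/
noncomputable def gm : RS := P.φ (D.G fun _ => true) * ((P.u⁻¹ : RSˣ) : RS) ^ X.w

theorem gm_mul_gm : P.gm D * P.gm D = P.phL D X.PI := by
  rw [← pie_true, phL_pie]
  have h := D.G_G (fun _ => true) (fun _ => true)
  simp only [if_true] at h ⊢
  rw [← h, map_mul]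
  unfold gm
  ring

theorem isUnit_phL_PI : IsUnit (P.phL D X.PI) :=
  (IsUnit.mk0 X.PI X.PI_ne_zero).map (P.phL D)

theorem gm_eps (ε : X.S → Bool) :
    P.phL D (X.pie ε / X.PI) * P.gm D = P.φ (D.G ε) * ((P.u⁻¹ : RSˣ) : RS) ^ X.w := by
  have h1 : X.pie ε / X.PI * X.PI = X.pie ε := div_mul_cancel₀ _ X.PI_ne_zero
  apply (P.isUnit_phL_PI D).mul_left_cancel
  have h2 : P.phL D X.PI * P.phL D (X.pie ε / X.PI) = P.phL D (X.pie ε) := by
    rw [← map_mul, mul_comm, h1]
  rw [← mul_assoc, h2, ← pie_true, phL_pie, phL_pie]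
  have h := congrArg P.φ (D.pi_G ε (fun _ => true))
  rw [map_mul, map_mul] at h
  unfold gm
  calc _ = (P.φ (∏ t, if ε t then algebraMap (Bh k) R (MvPowerSeries.C (X.δ t)) * D.s (X.d t) +
        algebraMap (Bh k) R (MvPowerSeries.C (X.η t)) * D.s (X.h t)
      else algebraMap (Bh k) R (MvPowerSeries.C (X.ν t)) * D.s (X.v t)) *
        P.φ (D.G fun _ => true)) * (((P.u⁻¹ : RSˣ) : RS) ^ (2 * X.w) *
        ((P.u⁻¹ : RSˣ) : RS) ^ X.w) := by ring
    _ = _ := by
      rw [h]
      ring

end LocD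

end Vale.Agent.P190.D
end
end

section

section

/-! Section 3, file S4b: from an abstract graded space to a T-lattice. -/

set_option autoImplicit false
set_option linter.unusedSectionVars false

open MvPolynomial Filter

namespace Vale.Agent.P190.D

/-- identification of the associated graded module of `F` with the lattice `E`:
`cls n : F n → E n` is onto with kernel `F (n + 1)`. -/
structure GrData {k : Type} [Field k] {X : Arr k} {R : Type} [CommRing R] [Algebra (Bh k) R]
    {N : ℕ} [Module R (MM k N)]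
    (D : RData X R) (F : ℤ → Submodule (Bh k) (MM k N)) {r : ℕ}
    (Γ : (Fin r → X.L) →ₗ[X.L] (Fin r → X.L)) (E : ℤ → Submodule k (Fin r → X.L)) where
  cls : ℤ → MM k N → (Fin r → X.L)
  add : ∀ {n : ℤ} {v w : MM k N}, v ∈ F n → w ∈ F n → cls n (v + w) = cls n v + cls n w
  smul : ∀ (c : k) {n : ℤ} {v : MM k N}, v ∈ F n → cls n (c • v) = c • cls n v
  mem : ∀ {n : ℤ} {v : MM k N}, v ∈ F n → cls n v ∈ E n
  surj : ∀ {n : ℤ} {u : Fin r → X.L}, u ∈ E n → ∃ v ∈ F n, cls n v = u
  zero_iff : ∀ {n : ℤ} {v : MM k N}, v ∈ F n → (cls n v = 0 ↔ v ∈ F (n + 1))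
  s : ∀ (x : X.I) {n : ℤ} {v : MM k N}, v ∈ F n → cls (n + 1) (D.s x • v) = X.σ x • cls n v
  G : ∀ (ε : X.S → Bool) {n : ℤ} {v : MM k N}, v ∈ F n →
    cls (n + X.w) (D.G ε • v) = gam Γ ε (cls n v)
  b : ∀ {j n : ℤ} {b : Bh k} {v : MM k N}, 0 ≤ j → b ∈ Fil k j → v ∈ F n →
    cls (n + j) (b • v) = dh k j b • cls n v

section

variable {k : Type} [Field k] {X : Arr k} {R : Type} [CommRing R] [Algebra (Bh k) R]
  {N : ℕ} [Module R (MM k N)] [IsScalarTower (Bh k) R (MM k N)]

theorem X_eq_hg (i : Fin 3) : (MvPowerSeries.X i : Bh k) = hg k 1 (lin3 k i) := by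
  fin_cases i
  · exact hg_one_one.symm
  · exact hg_one_X0.symm
  · exact hg_one_X1.symm

theorem s4_FM_of_nonpos {j : ℤ} (h : j ≤ 0) : FM k N j = ⊤ := by
  rw [eq_top_iff]
  intro v _ i
  rw [Fil_of_nonpos h]
  trivial

theorem k_smul_eq (c : k) (v : MM k N) : c • v = (MvPowerSeries.C c : Bh k) • v := by
  funext i
  rw [Pi.smul_apply, Pi.smul_apply, MvPowerSeries.smul_eq_C_mul, smul_eq_mul]

theorem k_smul_mem (S : Submodule (Bh k) (MM k N)) (c : k) {v : MM k N} (hv : v ∈ S) :
    c • v ∈ S := by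
  rw [k_smul_eq]
  exact S.smul_mem _ hv

/-- Artin-Rees: the filtration is generated in low degrees -/
theorem IsFilt.gen {F : ℤ → Submodule (Bh k) (MM k N)} (hF : IsFilt F) :
    ∃ n₁ : ℤ, ∀ n ≥ n₁, ∀ v ∈ F (n + 1), ∃ w : Fin 3 → MM k N, (∀ i, w i ∈ F n) ∧
      v = ∑ i, (MvPowerSeries.X i : Bh k) • w i := by
  obtain ⟨c, hc⟩ := hF.bdd
  set I : Ideal (Bh k) := Ideal.span (Set.range fun i : Fin 3 => (MvPowerSeries.X i : Bh k))
    with hI
  have hIF : ∀ n : ℤ, I • F n ≤ F (n + 1) := by
    intro n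
    rw [Submodule.smul_le]
    intro a ha v hv
    induction ha using Submodule.span_induction with
    | mem x hx =>
      obtain ⟨i, rfl⟩ := hx
      exact hF.x_mem i hv
    | zero => rw [zero_smul]; exact zero_mem _
    | add x y _ _ ihx ihy => rw [add_smul]; exact add_mem ihx ihy
    | smul a x _ ih => rw [smul_assoc]; exact Submodule.smul_mem _ _ ih
  let F1 : I.Filtration (MM k N) :=
    { N := fun n : ℕ => F (n + c)
      mono := fun n => by
        have := hF.anti (n + c)
        rwa [show (n : ℤ) + c + 1 = ((n + 1 : ℕ) : ℤ) + c by push_cast; ring] at this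
      smul_le := fun n => by
        have := hIF (n + c)
        rwa [show (n : ℤ) + c + 1 = ((n + 1 : ℕ) : ℤ) + c by push_cast; ring] at this }
  have hle : F1 ≤ I.stableFiltration ⊤ := by
    intro n
    change F (n + c) ≤ I ^ n • ⊤
    refine (hc (n + c)).2.trans ?_
    rw [add_sub_cancel_right]
    intro v hv
    classical
    have h1 : v = ∑ i, v i • (Pi.single i 1 : MM k N) := by
      rw [← Finset.univ_sum_single v]
      refine Finset.sum_congr rfl fun i _ => ?_
      rw [Finset.univ_sum_single]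
      funext j
      rw [Pi.smul_apply, smul_eq_mul]
      by_cases h : j = i
      · subst h; simp
      · simp only [Pi.single_eq_of_ne h, mul_zero]
    rw [h1]
    refine Submodule.sum_mem _ fun i _ => Submodule.smul_mem_smul ?_ trivial
    have := hv i
    rw [Fil_eq_pow] at this
    exact this
  obtain ⟨n₀, hn₀⟩ := (I.stableFiltration_stable (⊤ : Submodule (Bh k) (MM k N))).of_le hle
  refine ⟨n₀ + c, fun n hn v hv => ?_⟩
  obtain ⟨m, hm⟩ := Int.eq_ofNat_of_zero_le (show 0 ≤ n - c - n₀ by linarith only [hn])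
  have h1 := hn₀ (n₀ + m) (Nat.le_add_right _ _)
  have e1 : ((n₀ + m : ℕ) : ℤ) + c = n := by push_cast; omega
  have e2 : ((n₀ + m + 1 : ℕ) : ℤ) + c = n + 1 := by push_cast; omega
  have h2 : I • F n = F (n + 1) := by
    have h3 : I • F (((n₀ + m : ℕ) : ℤ) + c) = F (((n₀ + m + 1 : ℕ) : ℤ) + c) := h1
    rw [e1, e2] at h3
    exact h3
  rw [← h2] at hv
  induction hv using Submodule.smul_induction_on' with
  | smul a ha v hv =>
    clear h1 h2
    induction ha using Submodule.span_induction with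
    | mem x hx =>
      obtain ⟨i, rfl⟩ := hx
      classical
      refine ⟨Pi.single i v, fun j => ?_, ?_⟩
      · by_cases h : j = i
        · subst h; simpa using hv
        · rw [Pi.single_eq_of_ne h]; exact zero_mem _
      · rw [Finset.sum_eq_single i]
        · rw [Pi.single_eq_same]
        · intro j _ hj
          rw [Pi.single_eq_of_ne hj, smul_zero]
        · intro h; exact absurd (Finset.mem_univ i) h
    | zero =>
      exact ⟨0, fun i => zero_mem _, by simp⟩
    | add x y _ _ ihx ihy =>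
      obtain ⟨w, hw, h⟩ := ihx
      obtain ⟨w', hw', h'⟩ := ihy
      refine ⟨w + w', fun i => add_mem (hw i) (hw' i), ?_⟩
      rw [add_smul, h, h', ← Finset.sum_add_distrib]
      refine Finset.sum_congr rfl fun i _ => ?_
      rw [Pi.add_apply, smul_add]
    | smul a x _ ih =>
      obtain ⟨w, hw, h⟩ := ih
      refine ⟨fun i => a • w i, fun i => Submodule.smul_mem _ _ (hw i), ?_⟩
      rw [smul_assoc, h, Finset.smul_sum]
      refine Finset.sum_congr rfl fun i _ => ?_
      rw [smul_comm]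
  | add x _ y _ ihx ihy =>
    obtain ⟨w, hw, h⟩ := ihx
    obtain ⟨w', hw', h'⟩ := ihy
    refine ⟨w + w', fun i => add_mem (hw i) (hw' i), ?_⟩
    rw [h, h', ← Finset.sum_add_distrib]
    refine Finset.sum_congr rfl fun i _ => ?_
    rw [Pi.add_apply, smul_add]

/-- abstract form of the associated graded space -/
structure GrSp (D : RData X R) (F : ℤ → Submodule (Bh k) (MM k N)) (V : Type) [AddCommGroup V]
    [Module X.L V] where
  cl : ℤ → MM k N →+ V
  Γ : V →ₗ[X.L] V
  smul : ∀ (n : ℤ) (c : k) (v : MM k N), cl n (c • v) = algebraMap k X.L c • cl n v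
  zero_iff : ∀ {n : ℤ} {v : MM k N}, v ∈ F n → (cl n v = 0 ↔ v ∈ F (n + 1))
  s : ∀ (x : X.I) (n : ℤ) (v : MM k N), cl (n + 1) (D.s x • v) = X.σ x • cl n v
  Γsq : ∀ v, Γ (Γ v) = X.PI • v
  G : ∀ (ε : X.S → Bool) (n : ℤ) (v : MM k N),
    cl (n + X.w) (D.G ε • v) = (X.pie ε / X.PI) • Γ (cl n v)
  hgs : ∀ (i n : ℤ) (c : A k) (v : MM k N), c ∈ Ad k i →
    cl (n + i) (hg k i c • v) = algebraMap (A k) X.L c • cl n v

namespace GrSp

variable {D : RData X R} {F : ℤ → Submodule (Bh k) (MM k N)} {V : Type} [AddCommGroup V]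
    [Module X.L V] (P : GrSp D F V)

theorem b_smul (hF : Adm D F) {j n : ℤ} {b : Bh k} {v : MM k N} (hj : 0 ≤ j) (hb : b ∈ Fil k j)
    (hv : v ∈ F n) : P.cl (n + j) (b • v) = algebraMap (A k) X.L (dh k j b) • P.cl n v := by
  set b' := b - hg k j (dh k j b) with hb'
  have h1 : b' ∈ Fil k j := sub_mem hb (hg_mem j _)
  have h2 : dh k j b' = 0 := by
    rw [hb', map_sub, dh_hg (dh_mem j b), sub_self]
  have h3 : b' ∈ Fil k (j + 1) := by
    rcases (dh_eq_zero_iff h1).1 h2 with h | h
    · omega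
    · exact h
  have h4 : b' • v ∈ F (n + j + 1) := by
    have := hF.toIsFilt.smul_mem (by omega) h3 hv
    rwa [show n + (j + 1) = n + j + 1 by ring] at this
  have h5 : P.cl (n + j) (b' • v) = 0 :=
    (P.zero_iff (hF.toIsFilt.smul_mem hj h1 hv)).2 h4
  have h6 : b • v = b' • v + hg k j (dh k j b) • v := by
    rw [← add_smul, hb', sub_add_cancel]
  rw [h6, map_add, h5, zero_add, P.hgs j n _ v (dh_mem j b)]

/-- the span of the classes -/
noncomputable def W : Submodule X.L V :=
  Submodule.span X.L (⋃ n, P.cl n '' (F n : Set (MM k N)))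

theorem cl_mem {n : ℤ} {v : MM k N} (hv : v ∈ F n) : P.cl n v ∈ P.W :=
  Submodule.subset_span (Set.mem_iUnion.2 ⟨n, v, hv, rfl⟩)

theorem X_smul (i : Fin 3) (n : ℤ) (v : MM k N) :
    P.cl (n + 1) ((MvPowerSeries.X i : Bh k) • v) =
      algebraMap (A k) X.L (lin3 k i) • P.cl n v := by
  rw [X_eq_hg, P.hgs 1 n _ v (lin3_mem i)]

theorem W_fg (hF : Adm D F) : P.W.FG := by
  obtain ⟨n₁, hn₁⟩ := hF.toIsFilt.gen
  -- everything comes from degree `n₁`
  have h1 : ∀ n : ℤ, P.cl n '' (F n : Set (MM k N)) ⊆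
      P.cl (n + 1) '' (F (n + 1) : Set (MM k N)) := by
    rintro n _ ⟨v, hv, rfl⟩
    refine ⟨(MvPowerSeries.X 0 : Bh k) • v, hF.x_mem 0 hv, ?_⟩
    rw [P.X_smul]
    change algebraMap (A k) X.L 1 • P.cl n v = P.cl n v
    rw [map_one, one_smul]
  have h2 : ∀ n : ℤ, ∀ j : ℕ, P.cl n '' (F n : Set (MM k N)) ⊆
      P.cl (n + j) '' (F (n + j) : Set (MM k N)) := by
    intro n j
    induction j with
    | zero => simp
    | succ j ih =>
      refine ih.trans ?_
      have := h1 (n + j)
      rwa [show n + (j : ℤ) + 1 = n + ((j + 1 : ℕ) : ℤ) by push_cast; ring] at this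
  set S1 : Submodule X.L V := Submodule.span X.L (P.cl n₁ '' (F n₁ : Set (MM k N))) with hS1
  have h3 : ∀ j : ℕ, P.cl (n₁ + j) '' (F (n₁ + j) : Set (MM k N)) ⊆ S1 := by
    intro j
    induction j with
    | zero =>
      simp only [Nat.cast_zero, add_zero]
      exact Submodule.subset_span
    | succ j ih =>
      rintro _ ⟨v, hv, rfl⟩
      rw [show n₁ + ((j + 1 : ℕ) : ℤ) = n₁ + j + 1 by push_cast; ring] at hv ⊢
      obtain ⟨w, hw, rfl⟩ := hn₁ (n₁ + j) (by linarith only []) v hv
      rw [map_sum]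
      refine Submodule.sum_mem _ fun i _ => ?_
      rw [P.X_smul]
      exact Submodule.smul_mem _ _ (ih ⟨w i, hw i, rfl⟩)
  have h4 : P.W = S1 := by
    apply le_antisymm
    · refine Submodule.span_le.2 (Set.iUnion_subset fun n => ?_)
      obtain ⟨j, hj⟩ := Int.eq_ofNat_of_zero_le (le_max_left 0 (n₁ - n))
      obtain ⟨i, hi⟩ := Int.eq_ofNat_of_zero_le (show 0 ≤ n + j - n₁ by
        have := le_max_right 0 (n₁ - n)
        rw [hj] at this
        linarith only [this])
      refine (h2 n j).trans ?_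
      have := h3 i
      rwa [show n₁ + (i : ℤ) = n + j by linarith only [hi]] at this
    · exact Submodule.span_mono (Set.subset_iUnion (fun n => P.cl n '' (F n : Set (MM k N))) n₁)
  rw [h4]
  -- degree `n₁` is finitely generated
  obtain ⟨t, ht⟩ := (IsNoetherian.noetherian (F n₁) : (F n₁).FG)
  classical
  refine ⟨t.image (P.cl n₁), le_antisymm ?_ ?_⟩
  · rw [Submodule.span_le, Finset.coe_image]
    rintro _ ⟨v, hv, rfl⟩
    exact Submodule.subset_span ⟨v, by rw [← ht]; exact Submodule.subset_span hv, rfl⟩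
  · refine Submodule.span_le.2 ?_
    rintro _ ⟨v, hv, rfl⟩
    have hv' : v ∈ Submodule.span (Bh k) (t : Set (MM k N)) := by rw [ht]; exact hv
    clear hv
    induction hv' using Submodule.span_induction with
    | mem x hx => exact Submodule.subset_span (by
        rw [Finset.coe_image]; exact ⟨x, hx, rfl⟩)
    | zero => rw [map_zero]; exact zero_mem _
    | add x y _ _ ihx ihy => rw [map_add]; exact add_mem ihx ihy
    | smul a x hx ih =>
      have hx' : x ∈ F n₁ := by rw [← ht]; exact hx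
      have := P.b_smul hF (j := 0) (b := a) le_rfl (by rw [Fil_of_nonpos le_rfl]; trivial) hx'
      rw [add_zero] at this
      rw [this]
      exact Submodule.smul_mem _ _ ih

theorem Γ_mem {w : V} (hw : w ∈ P.W) (hF : Adm D F) : P.Γ w ∈ P.W := by
  unfold W at hw
  induction hw using Submodule.span_induction with
  | mem x hx =>
    obtain ⟨n, hn⟩ := Set.mem_iUnion.1 hx
    obtain ⟨v, hv, rfl⟩ := hn
    have h1 := P.G (fun _ => true) n v
    rw [LocD.pie_true, div_self X.PI_ne_zero, one_smul] at h1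
    rw [← h1]
    exact P.cl_mem (hF.G_mem _ hv)
  | zero => rw [map_zero]; exact zero_mem _
  | add x y _ _ ihx ihy => rw [map_add]; exact add_mem ihx ihy
  | smul a x _ ih => rw [map_smul]; exact Submodule.smul_mem _ _ ih

theorem exists_gr (P : GrSp D F V) (hF : Adm D F) (hN : 0 < N) : ∃ (r : ℕ) (Γ : (Fin r → X.L) →ₗ[X.L] (Fin r → X.L))
      (E : ℤ → Submodule k (Fin r → X.L)), 0 < r ∧ IsTSp Γ ∧ IsTLat Γ E ∧ Spans (X := X) E ∧
      Nonempty (GrData D F Γ E) := by
  classical
  have hfin : Module.Finite X.L P.W := Module.Finite.iff_fg.2 (P.W_fg hF)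
  set r := Module.finrank X.L P.W with hr
  let e : P.W ≃ₗ[X.L] (Fin r → X.L) := (Module.finBasis X.L P.W).equivFun
  obtain ⟨π, hπ⟩ := LinearMap.exists_leftInverse_of_injective P.W.subtype P.W.ker_subtype
  let f : V →ₗ[X.L] (Fin r → X.L) := e.toLinearMap ∘ₗ π
  have hf : ∀ w : P.W, f (w : V) = e w := by
    intro w
    have := LinearMap.congr_fun hπ w
    change e (π (P.W.subtype w)) = e w
    rw [LinearMap.comp_apply, LinearMap.id_apply] at this
    rw [this]
  have hf0 : ∀ w ∈ P.W, f w = 0 → w = 0 := by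
    intro w hw h
    have h1 := hf ⟨w, hw⟩
    change f w = _ at h1
    rw [h] at h1
    have h2 : (⟨w, hw⟩ : P.W) = 0 := e.injective (by rw [← h1, map_zero])
    exact congrArg Subtype.val h2
  let Γ' : (Fin r → X.L) →ₗ[X.L] (Fin r → X.L) := f ∘ₗ P.Γ ∘ₗ P.W.subtype ∘ₗ e.symm.toLinearMap
  have hΓ : ∀ w ∈ P.W, Γ' (f w) = f (P.Γ w) := by
    intro w hw
    have h1 := hf ⟨w, hw⟩
    change f w = _ at h1
    rw [h1]
    change f (P.Γ (P.W.subtype (e.symm (e ⟨w, hw⟩)))) = _
    rw [e.symm_apply_apply]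
    rfl
  have hsurj : ∀ u, ∃ w ∈ P.W, f w = u := by
    intro u
    refine ⟨(e.symm u : V), (e.symm u).2, ?_⟩
    rw [hf, e.apply_symm_apply]
  have hksm : ∀ (c : k) (u : Fin r → X.L), c • u = algebraMap k X.L c • u := by
    intro c u
    rw [algebraMap_smul]
  have hAsm : ∀ (c : A k) (u : Fin r → X.L), c • u = algebraMap (A k) X.L c • u := by
    intro c u
    rw [algebraMap_smul]
  let E : ℤ → Submodule k (Fin r → X.L) := fun n =>
    { carrier := {u | ∃ v ∈ F n, f (P.cl n v) = u}
      add_mem' := by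
        rintro _ _ ⟨v, hv, rfl⟩ ⟨w, hw, rfl⟩
        exact ⟨v + w, add_mem hv hw, by rw [map_add, map_add]⟩
      zero_mem' := ⟨0, zero_mem _, by rw [map_zero, map_zero]⟩
      smul_mem' := by
        rintro c _ ⟨v, hv, rfl⟩
        refine ⟨c • v, k_smul_mem _ c hv, ?_⟩
        rw [P.smul, map_smul, hksm] }
  have hE : ∀ {n : ℤ} {u : Fin r → X.L}, u ∈ E n ↔ ∃ v ∈ F n, f (P.cl n v) = u := Iff.rfl
  obtain ⟨c, hc⟩ := hF.bdd
  -- the lattice
  have hlat : IsBLat E := by
    refine ⟨?_, ?_, ?_, ?_⟩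
    · rintro i n a u ha hu
      obtain ⟨v, hv, rfl⟩ := hE.1 hu
      rw [hAsm, ← map_smul, ← P.hgs i n a v ha]
      refine hE.2 ⟨_, ?_, rfl⟩
      rcases lt_or_ge i 0 with hi | hi
      · rw [Ad_of_neg hi, Submodule.mem_bot] at ha
        rw [ha, map_zero, zero_smul]
        exact zero_mem _
      · exact hF.toIsFilt.smul_mem hi (hg_mem i a) hv
    · intro n
      obtain ⟨t, ht⟩ := (IsNoetherian.noetherian (F n) : (F n).FG)
      have h1 : E n = Submodule.span k ((t.image fun v => f (P.cl n v) : Finset (Fin r → X.L)) :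
          Set (Fin r → X.L)) := by
        apply le_antisymm
        · intro u hu
          obtain ⟨v, hv, rfl⟩ := hE.1 hu
          have hv' : v ∈ Submodule.span (Bh k) (t : Set (MM k N)) := by rw [ht]; exact hv
          clear hv hu
          induction hv' using Submodule.span_induction with
          | mem x hx => exact Submodule.subset_span (by
              rw [Finset.coe_image]; exact ⟨x, hx, rfl⟩)
          | zero => rw [map_zero, map_zero]; exact zero_mem _
          | add x y _ _ ihx ihy => rw [map_add, map_add]; exact add_mem ihx ihy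
          | smul a x hx ih =>
            have hx' : x ∈ F n := by rw [← ht]; exact hx
            have := P.b_smul hF (j := 0) (b := a) le_rfl
              (by rw [Fil_of_nonpos le_rfl]; trivial) hx'
            rw [add_zero] at this
            rw [this, map_smul, ← hAsm]
            have h0 : dh k 0 a = MvPolynomial.C (coeff 0 (dh k 0 a)) := by
              rcases mem_Ad.1 (dh_mem 0 a) with h | h
              · rw [h]; simp
              · exact totalDegree_eq_zero_iff_eq_C.1 (by omega)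
            rw [h0, ← mul_one (MvPolynomial.C _), ← MvPolynomial.smul_eq_C_mul, smul_assoc,
              one_smul]
            exact Submodule.smul_mem _ _ ih
        · rw [Submodule.span_le, Finset.coe_image]
          rintro _ ⟨v, hv, rfl⟩
          exact hE.2 ⟨v, by rw [← ht]; exact Submodule.subset_span hv, rfl⟩
      rw [h1]
      exact Module.Finite.span_of_finite k (Finset.finite_toSet _)
    · refine ⟨-c, fun n hn => ?_⟩
      rw [eq_bot_iff]
      intro u hu
      obtain ⟨v, hv, rfl⟩ := hE.1 hu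
      have h1 : v ∈ F (n + 1) := by
        apply (hc (n + 1)).1
        rw [s4_FM_of_nonpos (by omega)]
        trivial
      rw [(P.zero_iff hv).2 h1, map_zero]
      exact zero_mem _
    · obtain ⟨n₁, hn₁⟩ := hF.toIsFilt.gen
      refine ⟨n₁, fun n hn u hu => ?_⟩
      obtain ⟨v, hv, rfl⟩ := hE.1 hu
      obtain ⟨w, hw, rfl⟩ := hn₁ n hn v hv
      rw [map_sum, map_sum]
      refine Submodule.sum_mem _ fun i _ => ?_
      rw [P.X_smul, map_smul, ← hAsm]
      exact Submodule.subset_span ⟨_, lin3_mem i, _, hE.2 ⟨w i, hw i, rfl⟩, rfl⟩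
  have hTL : IsTLat Γ' E := by
    refine { toIsBLat := hlat, sig_mem := ?_, gam_mem := ?_ }
    · rintro x n u hu
      obtain ⟨v, hv, rfl⟩ := hE.1 hu
      rw [← map_smul, ← P.s]
      exact hE.2 ⟨_, hF.s_mem x hv, rfl⟩
    · rintro ε n u hu
      obtain ⟨v, hv, rfl⟩ := hE.1 hu
      unfold gam
      rw [hΓ _ (P.cl_mem hv), ← map_smul, ← P.G]
      exact hE.2 ⟨_, hF.G_mem ε hv, rfl⟩
  refine ⟨r, Γ', E, ?_, ?_, hTL, ?_, ⟨?_⟩⟩
  · -- `r > 0`
    by_contra hr0
    have hr0' : r = 0 := by omega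
    have h1 : ∀ n, F n ≤ F (n + 1) := by
      intro n v hv
      rw [← P.zero_iff hv]
      apply hf0 _ (P.cl_mem hv)
      funext i
      exact absurd i.2 (by omega)
    have h2 : ∀ j : ℕ, F (-c + j) = ⊤ := by
      intro j
      induction j with
      | zero =>
        rw [eq_top_iff]
        have := (hc (-c)).1
        rw [s4_FM_of_nonpos (by omega)] at this
        simpa only [CharP.cast_eq_zero, add_zero, top_le_iff] using this
      | succ j ih =>
        rw [eq_top_iff, ← ih]
        have := h1 (-c + j)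
        rwa [show -c + (j : ℤ) + 1 = -c + ((j + 1 : ℕ) : ℤ) by push_cast; ring] at this
    have hc0 : -c ≤ c + 1 := by
      by_contra h
      have h3 := (hc (-c)).1.trans (hc (-c)).2
      have h4 := h3 (show (fun _ => 1 : MM k N) ∈ FM k N (-c + c) by
        rw [s4_FM_of_nonpos (by omega)]; trivial)
      have h5 := h4 ⟨0, hN⟩
      have h6 := h5 0 (by simp; omega)
      simp at h6
    obtain ⟨j, hj⟩ := Int.eq_ofNat_of_zero_le (show 0 ≤ c + 1 + c by omega)
    have h3 := h2 j
    rw [show -c + (j : ℤ) = c + 1 by omega] at h3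
    have h4 := (hc (c + 1)).2 (show (fun _ => 1 : MM k N) ∈ F (c + 1) by rw [h3]; trivial)
    have h5 := h4 ⟨0, hN⟩
    have h6 := h5 0 (by simp)
    simp at h6
  · intro u
    obtain ⟨w, hw, rfl⟩ := hsurj u
    rw [hΓ w hw, hΓ _ (P.Γ_mem hw hF), P.Γsq, map_smul]
  · unfold Spans
    rw [eq_top_iff]
    rintro u -
    obtain ⟨w, hw, rfl⟩ := hsurj u
    unfold W at hw
    induction hw using Submodule.span_induction with
    | mem x hx =>
      obtain ⟨n, hn⟩ := Set.mem_iUnion.1 hx
      obtain ⟨v, hv, rfl⟩ := hn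
      exact Submodule.subset_span (Set.mem_iUnion.2 ⟨n, hE.2 ⟨v, hv, rfl⟩⟩)
    | zero => rw [map_zero]; exact zero_mem _
    | add x y _ _ ihx ihy => rw [map_add]; exact add_mem ihx ihy
    | smul a x _ ih => rw [map_smul]; exact Submodule.smul_mem _ _ ih
  · exact
      { cls := fun n v => f (P.cl n v)
        add := fun _ _ => by rw [map_add, map_add]
        smul := fun c n v _ => by rw [P.smul, map_smul, hksm]
        mem := fun hv => hE.2 ⟨_, hv, rfl⟩
        surj := fun hu => hE.1 hu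
        zero_iff := fun {n v} hv => by
          rw [← P.zero_iff hv]
          exact ⟨fun h => hf0 _ (P.cl_mem hv) h, fun h => by rw [h, map_zero]⟩
        s := fun x n v _ => by rw [P.s, map_smul]
        G := fun ε n v hv => by
          rw [P.G, map_smul]
          unfold gam
          rw [hΓ _ (P.cl_mem hv)]
        b := fun {j n b v} hj hb hv => by
          rw [P.b_smul hF hj hb hv, map_smul, hAsm] }

end GrSp

end

end Vale.Agent.P190.D
end
end

section

section

/-! Section 3, file S5: modification of an admissible filtration. -/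

set_option autoImplicit false
set_option linter.unusedSectionVars false

open MvPolynomial Filter

namespace Vale.Agent.P190.D

section Rel

variable {k : Type} [Field k] {V W : Type} [AddCommGroup V] [Module k V] [AddCommGroup W]
  [Module k W]

/-- a relative quotient is isomorphic to the range of a map with the right kernel -/
theorem s5_rel_iso {P Q : Submodule k V} (f : P →ₗ[k] W) (hker : ∀ v : P, f v = 0 ↔ (v : V) ∈ Q) :
    Nonempty ((P.map Q.mkQ) ≃ₗ[k] LinearMap.range f) := by
  have hk : LinearMap.ker (Q.mkQ.comp P.subtype) = LinearMap.ker f := by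
    ext v
    rw [LinearMap.mem_ker, LinearMap.mem_ker, hker]
    simp
  have hr : LinearMap.range (Q.mkQ.comp P.subtype) = P.map Q.mkQ := by
    rw [LinearMap.range_comp, Submodule.range_subtype]
  exact ⟨(LinearEquiv.ofEq _ _ hr).symm.trans ((LinearMap.quotKerEquivRange _).symm.trans
    ((Submodule.quotEquivOfEq _ _ hk).trans (LinearMap.quotKerEquivRange f)))⟩

theorem s5_rel_le_fin {P Q S : Submodule k V} (h1 : S ≤ Q) (hf : Module.Finite k (P.map S.mkQ)) :
    Module.Finite k (P.map Q.mkQ) := by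
  have e : P.map Q.mkQ = (P.map S.mkQ).map (Submodule.mapQ S Q LinearMap.id h1) := by
    rw [← Submodule.map_comp]
    congr 1
  rw [e]
  exact Module.Finite.map _ _

theorem s5_rel_add {P Q S : Submodule k V} (h1 : S ≤ Q) (h2 : Q ≤ P)
    (hf1 : Module.Finite k (P.map Q.mkQ)) (hf2 : Module.Finite k (Q.map S.mkQ)) :
    Module.finrank k (P.map S.mkQ) =
      Module.finrank k (P.map Q.mkQ) + Module.finrank k (Q.map S.mkQ) := by
  set T := Submodule.mapQ S Q LinearMap.id h1 with hT
  set f : (P.map S.mkQ) →ₗ[k] (V ⧸ Q) := T.comp (P.map S.mkQ).subtype with hf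
  have hr : LinearMap.range f = P.map Q.mkQ := by
    rw [hf, LinearMap.range_comp, Submodule.range_subtype, ← Submodule.map_comp]
    congr 1
  have hle : Q.map S.mkQ ≤ P.map S.mkQ := Submodule.map_mono h2
  have hk : LinearMap.ker f = (Q.map S.mkQ).comap (P.map S.mkQ).subtype := by
    rw [hf, LinearMap.ker_comp]
    congr 1
    ext x
    obtain ⟨v, rfl⟩ := S.mkQ_surjective x
    rw [LinearMap.mem_ker, hT]
    constructor
    · intro h
      have h3 : v ∈ Q := by
        rw [Submodule.mkQ_apply, Submodule.mapQ_apply, Submodule.Quotient.mk_eq_zero] at h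
        exact h
      exact Submodule.mem_map_of_mem h3
    · rintro ⟨u, hu, huv⟩
      rw [← huv, Submodule.mkQ_apply, Submodule.mapQ_apply, Submodule.Quotient.mk_eq_zero]
      exact hu
  have ek : LinearMap.ker f ≃ₗ[k] (Q.map S.mkQ) :=
    (LinearEquiv.ofEq _ _ hk).trans (Submodule.comapSubtypeEquivOfLe hle)
  have er : LinearMap.range f ≃ₗ[k] (P.map Q.mkQ) := LinearEquiv.ofEq _ _ hr
  have hfk : Module.Finite k (LinearMap.ker f) := Module.Finite.equiv ek.symm
  have hfr : Module.Finite k (LinearMap.range f) := Module.Finite.equiv er.symm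
  have hfq : Module.Finite k ((P.map S.mkQ) ⧸ LinearMap.ker f) :=
    Module.Finite.equiv f.quotKerEquivRange.symm
  have hfin : Module.Finite k (P.map S.mkQ) :=
    Module.Finite.of_submodule_quotient (LinearMap.ker f)
  rw [← LinearMap.finrank_range_add_finrank_ker f, LinearEquiv.finrank_eq ek,
    LinearEquiv.finrank_eq er]

end Rel

variable {k : Type} [Field k] {X : Arr k} {R : Type} [CommRing R] [Algebra (Bh k) R]
  {N : ℕ} [Module R (MM k N)] [IsScalarTower (Bh k) R (MM k N)]
  {D : RData X R} {F : ℤ → Submodule (Bh k) (MM k N)} {r : ℕ}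
  {Γ : (Fin r → X.L) →ₗ[X.L] (Fin r → X.L)} {E : ℤ → Submodule k (Fin r → X.L)}

/-- the class map restricted to a subspace of `F n` -/
def GrData.clsL (G : GrData D F Γ E) (n : ℤ) (P : Submodule k (MM k N))
    (hP : P ≤ (F n).restrictScalars k) : P →ₗ[k] (Fin r → X.L) where
  toFun v := G.cls n v
  map_add' v w := G.add (hP v.2) (hP w.2)
  map_smul' c v := G.smul c (hP v.2)

theorem GrData.gdim_eq (hF : Adm D F) (G : GrData D F Γ E) (n : ℤ) :
    gdim F n = Module.finrank k (E n) := by
  obtain ⟨e⟩ := s5_rel_iso (Q := (F (n + 1)).restrictScalars k)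
    (G.clsL n ((F n).restrictScalars k) le_rfl) (fun v => G.zero_iff v.2)
  have hr : LinearMap.range (G.clsL n ((F n).restrictScalars k) le_rfl) = E n := by
    ext u
    constructor
    · rintro ⟨v, rfl⟩
      exact G.mem v.2
    · intro hu
      obtain ⟨v, hv, hvu⟩ := G.surj hu
      exact ⟨⟨v, hv⟩, hvu⟩
  unfold gdim
  rw [LinearEquiv.finrank_eq e, hr]

theorem GrData.cls_zero (G : GrData D F Γ E) (n : ℤ) : G.cls n 0 = 0 :=
  (G.zero_iff (Submodule.zero_mem _)).2 (Submodule.zero_mem _)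

theorem GrData.mem_of_smul_mem {U : Submodule X.L (Fin r → X.L)} {a : A k} (ha : a ≠ 0)
    {u : Fin r → X.L} (hu : a • u ∈ U) : u ∈ U := by
  have h0 : algebraMap (A k) X.L a ≠ 0 := by
    rw [IsScalarTower.algebraMap_apply (A k) (KK k) X.L]
    intro h
    have h1 := (map_eq_zero_iff (algebraMap (KK k) X.L) (algebraMap (KK k) X.L).injective).1 h
    exact ha ((map_eq_zero_iff _ (IsFractionRing.injective (A k) (KK k))).1 h1)
  have h2 : a • u = algebraMap (A k) X.L a • u := by
    rw [algebraMap_smul]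
  rw [h2] at hu
  have h3 := U.smul_mem (algebraMap (A k) X.L a)⁻¹ hu
  rwa [smul_smul, inv_mul_cancel₀ h0, one_smul] at h3

theorem GrData.smul_mem_of (U : Submodule X.L (Fin r → X.L)) (a : A k)
    {u : Fin r → X.L} (hu : u ∈ U) : a • u ∈ U := by
  rw [← algebraMap_smul X.L a u]
  exact U.smul_mem _ hu

/-- the modified filtration -/
def GrData.modF (G : GrData D F Γ E) (U : Submodule X.L (Fin r → X.L)) (n : ℤ) :
    Submodule (Bh k) (MM k N) where
  carrier := {v | v ∈ F (n - 1) ∧ G.cls (n - 1) v ∈ U}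
  add_mem' := by
    rintro v w ⟨hv, hv'⟩ ⟨hw, hw'⟩
    exact ⟨add_mem hv hw, by rw [G.add hv hw]; exact add_mem hv' hw'⟩
  zero_mem' := ⟨Submodule.zero_mem _, by rw [G.cls_zero]; exact Submodule.zero_mem _⟩
  smul_mem' := by
    rintro b v ⟨hv, hv'⟩
    refine ⟨Submodule.smul_mem _ _ hv, ?_⟩
    have h := G.b (j := 0) (b := b) le_rfl (by rw [Fil_of_nonpos le_rfl]; trivial) hv
    rw [add_zero] at h
    rw [h]
    exact GrData.smul_mem_of U _ hv'

theorem GrData.mem_modF {G : GrData D F Γ E} {U : Submodule X.L (Fin r → X.L)} {n : ℤ}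
    {v : MM k N} : v ∈ G.modF U n ↔ v ∈ F (n - 1) ∧ G.cls (n - 1) v ∈ U := Iff.rfl

theorem GrData.le_modF (hF : Adm D F) (G : GrData D F Γ E) (U : Submodule X.L (Fin r → X.L))
    (n : ℤ) : F n ≤ G.modF U n := by
  intro v hv
  have h1 : v ∈ F (n - 1 + 1) := by rwa [sub_add_cancel]
  have h2 : v ∈ F (n - 1) := hF.anti _ h1
  refine ⟨h2, ?_⟩
  rw [(G.zero_iff h2).2 h1]
  exact Submodule.zero_mem _

theorem GrData.modF_le (G : GrData D F Γ E) (U : Submodule X.L (Fin r → X.L))
    (n : ℤ) : G.modF U n ≤ F (n - 1) := fun _ hv => hv.1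

theorem s5_FM_anti {i j : ℤ} (h : i ≤ j) : FM k N j ≤ FM k N i := fun _ hv a => Fil_anti h (hv a)

theorem GrData.modF_adm (hF : Adm D F) (G : GrData D F Γ E)
    {U : Submodule X.L (Fin r → X.L)} (hU : IsTSub Γ U) : Adm D (G.modF U) := by
  have hs : ∀ (x : X.I) {n : ℤ} {v : MM k N}, v ∈ G.modF U n → D.s x • v ∈ G.modF U (n + 1) := by
    rintro x n v ⟨hv, hv'⟩
    have e : n + 1 - 1 = n - 1 + 1 := by ring
    rw [GrData.mem_modF, e]
    refine ⟨hF.s_mem x hv, ?_⟩
    rw [G.s x hv]
    exact U.smul_mem _ hv'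
  refine { anti := ?_, x_mem := ?_, bdd := ?_, s_mem := hs, G_mem := ?_, sat := ?_ }
  · intro n
    refine le_trans (G.modF_le U (n + 1)) ?_
    rw [add_sub_cancel_right]
    exact G.le_modF hF U n
  · intro i n v hv
    have h := hs (X.b i) hv
    rwa [D.s_b, algebraMap_smul] at h
  · obtain ⟨c, hc⟩ := hF.bdd
    refine ⟨c + 1, fun n => ⟨?_, ?_⟩⟩
    · refine le_trans (s5_FM_anti (i := n + c) (by omega)) ((hc n).1.trans (G.le_modF hF U n))
    · refine (G.modF_le U n).trans ((hc (n - 1)).2.trans (le_of_eq ?_))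
      congr 1
      ring
  · rintro ε n v ⟨hv, hv'⟩
    have e : n + (X.w : ℤ) - 1 = n - 1 + X.w := by ring
    rw [GrData.mem_modF, e]
    refine ⟨hF.G_mem ε hv, ?_⟩
    rw [G.G ε hv]
    exact U.smul_mem _ (hU _ hv')
  · rintro j b hb hb' n v ⟨hv, hv'⟩
    have e : n + j - 1 = n - 1 + j := by ring
    rw [e] at hv hv'
    have h1 : v ∈ F (n - 1) := hF.sat hb hb' hv
    refine ⟨h1, ?_⟩
    have hj : 0 ≤ j := by
      by_contra hj
      refine hb' ?_
      rw [Fil_of_nonpos (by omega)]
      trivial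
    rw [G.b hj hb h1] at hv'
    refine GrData.mem_of_smul_mem ?_ hv'
    intro h0
    rcases (dh_eq_zero_iff hb).1 h0 with h | h
    · omega
    · exact hb' h

/-- `F' n / F n` is the subspace of `E (n - 1)` -/
theorem GrData.modF_iso (hF : Adm D F) (G : GrData D F Γ E) (U : Submodule X.L (Fin r → X.L))
    (n : ℤ) : Nonempty ((((G.modF U n).restrictScalars k).map ((F n).restrictScalars k).mkQ)
      ≃ₗ[k] subLat E U (n - 1)) := by
  have hle : (G.modF U n).restrictScalars k ≤ (F (n - 1)).restrictScalars k :=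
    fun _ hv => hv.1
  obtain ⟨e⟩ := s5_rel_iso (Q := (F n).restrictScalars k)
    (G.clsL (n - 1) ((G.modF U n).restrictScalars k) hle) (fun v => by
      have h := G.zero_iff (hle v.2)
      rw [sub_add_cancel] at h
      exact h)
  have hr : LinearMap.range (G.clsL (n - 1) ((G.modF U n).restrictScalars k) hle) =
      subLat E U (n - 1) := by
    ext u
    constructor
    · rintro ⟨v, rfl⟩
      exact ⟨G.mem (hle v.2), v.2.2⟩
    · rintro ⟨hu, hu'⟩
      obtain ⟨v, hv, hvu⟩ := G.surj hu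
      refine ⟨⟨v, ⟨hv, ?_⟩⟩, hvu⟩
      rw [hvu]
      exact hu'
  exact ⟨e.trans (LinearEquiv.ofEq _ _ hr)⟩

/-- 3.3: there is an admissible filtration `F'` with `F' n = {v ∈ F (n-1) : cls v ∈ U}`; only the
dimensions of its graded pieces matter. -/
theorem exists_mod (hF : Adm D F) (hE : IsTLat Γ E) (G : GrData D F Γ E)
    {U : Submodule X.L (Fin r → X.L)} (hU : IsTSub Γ U) :
    ∃ F' : ℤ → Submodule (Bh k) (MM k N), Adm D F' ∧ ∀ n : ℤ,
      (gdim F' n : ℤ) = Module.finrank k (subLat E U (n - 1)) + Module.finrank k (E n) -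
        Module.finrank k (subLat E U n) := by
  refine ⟨G.modF U, G.modF_adm hF hU, fun n => ?_⟩
  have hsub : ∀ m, Module.Finite k (subLat E U m) := fun m => by
    have := hE.fin m
    exact Submodule.finiteDimensional_of_le (S₁ := subLat E U m) (S₂ := E m) inf_le_left
  obtain ⟨e1⟩ := G.modF_iso hF U n
  obtain ⟨e2⟩ := G.modF_iso hF U (n + 1)
  rw [add_sub_cancel_right] at e2
  have f1 : Module.Finite k (((G.modF U n).restrictScalars k).map
      ((F n).restrictScalars k).mkQ) := by
    have := hsub (n - 1)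
    exact Module.Finite.equiv e1.symm
  have f2 : Module.Finite k (((G.modF U (n + 1)).restrictScalars k).map
      ((F (n + 1)).restrictScalars k).mkQ) := by
    have := hsub n
    exact Module.Finite.equiv e2.symm
  have l1 : (F n).restrictScalars k ≤ (G.modF U n).restrictScalars k := G.le_modF hF U n
  have l2 : (G.modF U (n + 1)).restrictScalars k ≤ (F n).restrictScalars k := by
    intro v hv
    have := hv.1
    rwa [add_sub_cancel_right] at this
  have l3 : (F (n + 1)).restrictScalars k ≤ (G.modF U (n + 1)).restrictScalars k :=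
    G.le_modF hF U (n + 1)
  have f3 : Module.Finite k (((F n).restrictScalars k).map
      ((F (n + 1)).restrictScalars k).mkQ) := by
    obtain ⟨e⟩ := s5_rel_iso (Q := (F (n + 1)).restrictScalars k)
      (G.clsL n ((F n).restrictScalars k) le_rfl) (fun v => G.zero_iff v.2)
    have hr : LinearMap.range (G.clsL n ((F n).restrictScalars k) le_rfl) ≤ E n := by
      rintro _ ⟨v, rfl⟩
      exact G.mem v.2
    have := hE.fin n
    have h4 := Submodule.finiteDimensional_of_le hr
    exact Module.Finite.equiv e.symm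
  have f4 := s5_rel_le_fin (P := (F n).restrictScalars k) l3 f3
  have a1 := s5_rel_add l2 l1 f1 f4
  have a2 := s5_rel_add l3 l2 f4 f2
  have g1 := G.gdim_eq hF n
  unfold gdim at g1
  rw [g1, LinearEquiv.finrank_eq e2] at a2
  rw [LinearEquiv.finrank_eq e1] at a1
  unfold gdim
  rw [a1]
  push_cast
  have a3 : (Module.finrank k (E n) : ℤ) =
      Module.finrank k (((F n).restrictScalars k).map
        ((G.modF U (n + 1)).restrictScalars k).mkQ) + Module.finrank k (subLat E U n) := by
    exact_mod_cast a2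
  rw [a3]
  ring

/-- shifting an admissible filtration -/
theorem Adm.shift (hF : Adm D F) (a : ℤ) : Adm D (fun n => F (n + a)) := by
  refine { anti := ?_, x_mem := ?_, bdd := ?_, s_mem := ?_, G_mem := ?_, sat := ?_ }
  · intro n
    rw [show n + 1 + a = n + a + 1 by ring]
    exact hF.anti _
  · intro i n v hv
    rw [show n + 1 + a = n + a + 1 by ring]
    exact hF.x_mem i hv
  · obtain ⟨c, hc⟩ := hF.bdd
    refine ⟨c + |a|, fun n => ⟨?_, ?_⟩⟩
    · exact le_trans (s5_FM_anti (by have := le_abs_self a; omega)) (hc (n + a)).1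
    · exact le_trans (hc (n + a)).2 (s5_FM_anti (by have := neg_abs_le a; omega))
  · intro x n v hv
    rw [show n + 1 + a = n + a + 1 by ring]
    exact hF.s_mem x hv
  · intro ε n v hv
    rw [show n + (X.w : ℤ) + a = n + a + X.w by ring]
    exact hF.G_mem ε hv
  · intro j b hb hb' n v hv
    rw [show n + j + a = n + a + j by ring] at hv
    exact hF.sat hb hb' hv

end Vale.Agent.P190.D
end
end
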