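import Vale.Agent.P190.MathlibUsed
import Vale.Agent.P190.Bdl.B1
attribute [-instance] IdemCommSemiring.toIdemSemiring KleeneAlgebra.toIdemSemiring DenselyNormedField.toNontriviallyNormedField DenselyNormedField.toNormedField NontriviallyNormedField.toNormedField RCLike.toDenselyNormedField NormedField.toField IdemCommSemiring.toCommSemiring NormedField.toNormedDivisionRing NormedDivisionRing.toDivisionRing NormedField.toNormedCommRing NormedCommRing.toNormedRing NormedDivisionRing.toNormedRing NormedCommRing.toSeminormedCommRing Field.toEuclideanDomain NormedRing.toSeminormedRing SeminormedCommRing.toSeminormedRing EuclideanDomain.toCommRing NormedCommRing.toCommRing SeminormedCommRing.toCommRing NormedRing.toRing SeminormedRing.toRing LinearOrderedAddCommGroupWithTop.instLinearOrderedAddCommMonoidWithTop CommRing.toAddCommGroupWithOne CommSemiring.toNonAssocCommSemiring NonAssocCommRing.toNonAssocCommSemiring NonAssocCommSemiring.toNonAssocSemiring LinearOrderedAddCommGroupWithTop.toAddCommMonoid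 NonUnitalNormedCommRing.toNonUnitalNormedRing NormedCommRing.toNonUnitalNormedCommRing NormedRing.toNonUnitalNormedRing NonUnitalNormedCommRing.toNonUnitalSeminormedCommRing NonUnitalNormedRing.toNonUnitalSeminormedRing NonUnitalSeminormedCommRing.toNonUnitalSeminormedRing SeminormedCommRing.toNonUnitalSeminormedCommRing SeminormedRing.toNonUnitalSeminormedRing NonUnitalNormedCommRing.toNonUnitalCommRing NonUnitalNormedRing.toNonUnitalRing NonUnitalSeminormedCommRing.toNonUnitalCommRing NonUnitalSeminormedRing.toNonUnitalRing Ring.toNonUnitalRing NonAssocCommRing.toNonUnitalNonAssocCommRing CommSemiring.toNonUnitalCommSemiring NonAssocCommSemiring.toNonUnitalNonAssocCommSemiring NonUnitalCommSemiring.toNonUnitalNonAssocCommSemiring NonUnitalNonAssocCommSemiring.toNonUnitalNonAssocSemiring instCoeTOfCoeDep BoxIntegral.Box.instMembershipForallReal Pi.addGroupWithOne instCoeTC RingCat.instRingObjForgetRingHomCarrier instCoeTCOfCoe instCoeHTC instCoeHTCT LinearOrderedAddCommGroupWithTop.toSubNegMonoid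 AbsoluteValue.funLike OrderDual.instPow_1 MulSemiringAction.toDistribMulAction CompleteAtomicBooleanAlgebra.toCompletelyDistribLattice ContinuousAddMonoidHom.instCoeOutOfAddMonoidHomClassOfContinuousMapClass ContinuousMonoidHom.instCoeOutOfMonoidHomClassOfContinuousMapClass HomeomorphClass.instCoeOutHomeomorph IsometryClass.instCoeOutIsometryEquiv CompleteBooleanAlgebra.toCompleteDistribLattice CompletelyDistribLattice.toCompleteDistribLattice LinearOrderedCommGroupWithZero.toLinearOrderedCommMonoidWithZero CompleteDistribLattice.toCoframe TopologicalSpace.Compacts.instSetLike CompleteDistribLattice.toFrame CompleteLinearOrder.toCompleteLattice Order.Coframe.toCompleteLattice Order.Frame.toCompleteLattice Pi.seminormedAddCommGroup ChainCompletePartialOrder.instOfCompleteLattice ChainCompletePartialOrder.instOmegaCompletePartialOrder ChainCompletePartialOrder.toPartialOrder CompletePartialOrder.toOmegaCompletePartialOrder OmegaCompletePartialOrder.toPartialOrder NormedCommGroup.toNormedGroup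 SemiRingCat.instSemiringObjForgetRingHomCarrier NormedCommGroup.toSeminormedCommGroup NormedGroup.toSeminormedGroup SeminormedCommGroup.toSeminormedGroup NonUnitalNormedRing.toNormedAddCommGroup AddMonCat.addMonoidObj LieRing.toAddCommGroup MonCat.monoidObj Pi.preorder LieAlgebra.toModule NormedSpace.toModule CommGroup.toGroup NormedCommGroup.toCommGroup NormedGroup.toGroup SeminormedCommGroup.toCommGroup SeminormedGroup.toGroup LinearOrderedCommGroupWithZero.toCommGroupWithZero Torsor.toMulAction GradedMonoid.GradeZero.mulAction CompleteLinearOrder.toLinearOrder ConditionallyCompleteLinearOrder.toLinearOrder LinearOrderedAddCommGroupWithTop.toLinearOrder LinearOrderedAddCommMonoidWithTop.toLinearOrder LinearOrderedCommMonoidWithZero.toLinearOrder NonUnitalSeminormedRing.toSeminormedAddCommGroup NormedAddCommGroup.toSeminormedAddCommGroup NormedAddCommGroup.toNormedAddGroup AddGrpCat.str LinearOrderedCommMonoidWithZero.toCommMonoidWithZero CompleteBooleanAlgebra.toBooleanAlgebra instDistribSMul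 MonoidWithZero.toSemigroupWithZero NonUnitalNonAssocSemiring.toMulZeroClass SemigroupWithZero.toMulZeroClass BooleanAlgebra.toBiheytingAlgebra CompleteDistribLattice.toBiheytingAlgebra CompleteLinearOrder.toBiheytingAlgebra CompletelyDistribLattice.toBiheytingAlgebra OrderDual.instDivisionRing LinOrd.str IdemSemiring.toSemilatticeSup NormedAddGroup.toSeminormedAddGroup SeminormedAddCommGroup.toSeminormedAddGroup instRingHomSurjectiveForallEvalRingHom Pi.distribSMul' BiheytingAlgebra.toCoheytingAlgebra Order.Coframe.toCoheytingAlgebra BiheytingAlgebra.toHeytingAlgebra BooleanAlgebra.toGeneralizedBooleanAlgebra Order.Frame.toHeytingAlgebra EMetricSpace.toPseudoEMetricSpace MetricSpace.toEMetricSpace MetricSpace.toPseudoMetricSpace NonUnitalNormedRing.toMetricSpace NonUnitalSeminormedRing.toPseudoMetricSpace NormedAddCommGroup.toMetricSpace NormedAddGroup.toMetricSpace NormedCommGroup.toMetricSpace NormedDivisionRing.toMetricSpace NormedField.toMetricSpace NormedGroup.toMetricSpace NormedRing.toMetricSpace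 PseudoEMetricSpace.toUniformSpace PseudoMetricSpace.toPseudoEMetricSpace PseudoMetricSpace.toUniformSpace SeminormedAddCommGroup.toPseudoMetricSpace SeminormedAddGroup.toPseudoMetricSpace SeminormedCommGroup.toPseudoMetricSpace SeminormedGroup.toPseudoMetricSpace SeminormedRing.toPseudoMetricSpace UniformSpace.toTopologicalSpace UpgradedStandardBorel.toTopologicalSpace Valued.toUniformSpace WithIdeal.instTopologicalSpace WithIdeal.instUniformSpace TopologicalSpace.UpgradedIsCompletelyMetrizableSpace.toMetricSpace TopologicalSpace.UpgradedIsCompletelyPseudoMetrizableSpace.toPseudoMetricSpace instNonUnitalAlgHomClassOfNonUnitalAlgEquivClass NormedAddCommGroup.toAddCommGroup SeminormedAddCommGroup.toAddCommGroup CoheytingAlgebra.toGeneralizedCoheytingAlgebra GeneralizedBooleanAlgebra.toGeneralizedCoheytingAlgebra HeytingAlgebra.toGeneralizedHeytingAlgebra instMulActionSemiHomClassMulActionHom AddOpposite.instAddZero CategoryTheory.Limits.Concrete.instUniqueToTypeTerminal instConditionallyCompletePartialOrderSup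 BooleanAlgebra.toDistribLattice CompleteLattice.toCompleteSemilatticeSup CompleteLattice.toPartialOrder' CompleteSemilatticeSup.toPartialOrder ConditionallyCompletePartialOrder.toConditionallyCompletePartialOrderInf ConditionallyCompletePartialOrderInf.toPartialOrder GeneralizedBooleanAlgebra.toDistribLattice GeneralizedCoheytingAlgebra.toDistribLattice GeneralizedCoheytingAlgebra.toLattice GeneralizedHeytingAlgebra.toDistribLattice GeneralizedHeytingAlgebra.toLattice LinearOrder.toLattice Order.Coframe.toDistribLattice Order.Frame.toDistribLattice coePNatNat Nat.Primes.coeNat Nat.Primes.coePNat NormedAddGroup.toAddGroup SeminormedAddGroup.toAddGroup LinearOrderedAddCommGroupWithTop.toSubtractionMonoid Pi.mulZeroOneClass AddCancelCommMonoid.toAddCommMonoid AddCommGroup.toAddCancelCommMonoid ESeminormedAddCommMonoid.toAddCommMonoid TwoSidedIdeal.instIsTwoSidedCoeOrderHomIdealAsIdeal AddCancelCommMonoid.toAddCancelMonoid AddCancelMonoid.toAddLeftCancelMonoid AddLeftCancelMonoid.toAddMonoid AddRightCancelMonoid.toAddMonoid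 ENormedAddCommMonoid.toENormedAddMonoid ENormedAddCommMonoid.toESeminormedAddCommMonoid ENormedAddMonoid.toESeminormedAddMonoid ESeminormedAddCommMonoid.toESeminormedAddMonoid ESeminormedAddMonoid.toAddMonoid NormedAddCommGroup.toENormedAddCommMonoid NormedAddGroup.toENormedAddMonoid AbsoluteValue.zeroHomClass Invertible.toNeZero NeZero.of_gt' Nat.AtLeastTwo.toNeZero Nat.Prime.one_lt' Pi.instMaxForall_mathlib instSMulZeroClass ZMod.instField Pi.instLattice SemimoduleCat.isAddCommMonoid instSubsingleton IsEmpty.instSubsingleton Unique.instSubsingleton ValuationClass.toMonoidWithZeroHomClass Field.instIsLocalRing IsDiscreteValuationRing.toIsLocalRing ValuationRing.isLocalRing instIsDedekindDomainOfIsDomainOfIsDedekindRing IsDedekindDomainDvr.isDedekindDomain LinearOrder.toDecidableEq RCLike.toDecidableEq MulSemiringActionSemiHomClass.toDistribMulActionSemiHomClass NormedAlgebra.toAlgebra Ideal.Quotient.isScalarTower OrderDual.instDivisionSemiring AlgHom.instRingHomCompTripleComp Pi.instTopForall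 FloorSemiring.instCharZero IsStrictOrderedRing.toCharZero NumberField.to_charZero RCLike.charZero_rclike Pi.partialOrder instMonadLiftT instMonadLiftTOfMonadLift MulOpposite.instMulOne Pi.instBotForall FractionRing.instIsScalarTower FractionRing.isScalarTower_liftAlgebra CommRing.toGrindCommRing Field.toGrindField Ring.toGrindRing CommMonCat.str OrderAddMonoidHom.instAddMonoidHomClass AbsoluteValue.mulHomClass DivisionRing.toNontrivial EuclideanDomain.toNontrivial IsSimpleOrder.toNontrivial CategoryTheory.instFinCategoryOfFintypeOfIsThin SetLike.instFintype Unique.fintype CategoryTheory.FinCategory.fintypeObj Vector.instHMul CommSemiRingCat.instCommSemiringObjForgetRingHomCarrier Ideal.instIdemCommSemiring Submodule.instIdemCommSemiring AlgEquivClass.toAlgHomClass ComplexShape.instDecidableRelRelUp LinearOrderedAddCommGroupWithTop.toNontrivial CommSemiring.toGrindCommSemiring Semiring.toGrindSemiring NormMulClass.toNoZeroDivisors Set.instAddLeftMono instIsDomain DivisionRing.isDomain EuclideanDomain.instIsDomain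 Field.isDomain IsDedekindDomain.toIsDomain IsStrictOrderedRing.isDomain SetLike.GradeZero.instCommRing instFiniteProp AddHom.addHomClass CancelCommMonoid.toCancelMonoid CancelCommMonoid.toCommMonoid CancelCommMonoid.toLeftCancelMonoid CancelMonoid.toLeftCancelMonoid CancelMonoid.toRightCancelMonoid CommGroup.toCancelCommMonoid CommGroup.toCommMonoid CommGroup.toDivisionCommMonoid DivInvMonoid.toMonoid DivInvOneMonoid.toDivInvMonoid ENormedCommMonoid.toENormedMonoid ENormedCommMonoid.toESeminormedCommMonoid ENormedMonoid.toESeminormedMonoid ESeminormedCommMonoid.toCommMonoid ESeminormedCommMonoid.toESeminormedMonoid ESeminormedMonoid.toMonoid Group.toCancelMonoid Group.toDivInvMonoid Group.toDivisionMonoid LeftCancelMonoid.toMonoid NormedCommGroup.toENormedCommMonoid NormedGroup.toENormedMonoid RightCancelMonoid.toMonoid GradedMonoid.GradeZero.commMonoid GradedMonoid.GradeZero.monoid instCoeHTCOfCoeHeadOfCoeOTC Monoid.End.instMonoidHomClass Algebra.Generators.instIsScalarTowerRing AddCommGroup.toGrindIntModule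 MonoidWithZero.toMulActionWithZero NormedAlgebra.id IsDedekindDomain.isDedekindDomainDvr instNonemptyOfMonad Std.DTreeMap.Raw.instSingletonSigma instCoeHTCTOfCoeTailOfCoeHTC instCoeOutOfCoeFun instCoeTailIntOfIntCast instCoeTailNatOfNatCast instCoeTailRatOfRatCast LinearMapClass.instCoeToLinearMap NNRatCast.toCoeTail NonUnitalStarRingHomClass.instCoeHeadNonUnitalStarRingHom SemilinearMapClass.instCoeToSemilinearMap StarAlgEquivClass.instCoeHead StarRingEquivClass.instCoeHead ContinuousSemilinearEquivClass.continuousSemilinearMapClass ContinuousSemilinearMapClass.toSemilinearMapClass RingHomClass.toLinearMapClassNNRat RingHomClass.toLinearMapClassRat SemilinearIsometryClass.toContinuousSemilinearMapClass SemilinearIsometryClass.toSemilinearMapClass instSMulCommClassOfIsScalarTower MonomialOrder.orderBot Pi.normedAddCommGroup Std.Time.WallTime.instHSubDuration_1 Pi.distribMulAction' DivisionSemiring.toNNRatCast MulCharClass.toMonoidHomClass MulDistribMulActionSemiHomClass.toMonoidHomClass Algebra.IsFiniteSplit.instFree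 CommRing.Pic.instFreeOfSubsingleton instInfiniteOfUncountable CharZero.infinite Denumerable.instInfinite Infinite.instNontrivial IsAlgClosed.instInfinite IsDedekindDomain.toIsDedekindRing IsOrderedRing.toIsStrictOrderedRing IsSimpleAddGroup.toNontrivial IsSimpleGroup.toNontrivial IsSimpleRing.instNontrivial IsStrictOrderedRing.toNontrivial NoMaxOrder.infinite NoMinOrder.infinite NontriviallyNormedField.infinite MulEquivClass.toMonoidWithZeroHomClass MulRingSeminormClass.toMonoidWithZeroHomClass LinearMap.IsScalarTower.compatibleSMul' FractionRing.instIsScalarTower_1 Ideal.Quotient.normedCommRing Ideal.Quotient.semiNormedCommRing Pi.mulOneClass instNontrivialCarrierObjModuleCatOfFullOfFaithful decidableEq_of_subsingleton Pi.commMagma ClosedSubmodule.instAddSubmonoidClass AlgHomClass.linearMapClass NonUnitalAlgHomClass.instSemilinearMapClassOfNonUnitalAlgSemiHomClassToMonoidHomRingHom AddCommMonoid.toGrindNatModule Pi.mulZeroClass Finite.of_subsingleton SetLike.instFinite Pi.smulZeroClass' Pi.addSemigroup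 Set.instNoZeroDivisors exists_prop_decidable Array.instDecidableExistsAndMemOfDecidablePred Finset.decidableDExistsFinset Finset.decidableExistsAndFinset Finset.decidableExistsAndFinsetCoe Fintype.decidableExistsFintype List.decidableBEx Multiset.decidableDexistsMultiset Option.decidableExistsMem Vector.instDecidableExistsAndMemOfDecidablePred CommMonoid.toCommSemigroup CommSemigroup.toSemigroup LeftCancelMonoid.toLeftCancelSemigroup LeftCancelSemigroup.toSemigroup NonUnitalCommSemiring.toCommSemigroup RightCancelMonoid.toRightCancelSemigroup RightCancelSemigroup.toSemigroup SubfieldClass.toField SubfieldClass.toNormedField SubringClass.toNormedCommRing SubringClass.toSeminormedCommRing MulZeroClass.negZeroClass OrderDual.isDirected_le ShareCommon.instNonemptyStateFactory NonUnitalAlgHomClass.toNonUnitalRingHomClass RingEquivClass.toNonUnitalRingHomClass instIsSemisimpleRingOfSubsingleton CommSemigroup.toCommMagma GradedMonoid.GradeZero.mul SubringClass.toCommRing SetLike.GradeZero.instRing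 instFreeMvPolynomialKaehlerDifferential forall_prop_decidable Array.instDecidableForallForallMemOfDecidablePred Finset.decidableDforallFinset Fintype.decidableForallFintype Multiset.decidableDforallMultiset Option.decidableForallMem Vector.instDecidableForallForallMemOfDecidablePred Pi.subNegZeroMonoid instIsDomainCyclotomicRing instInhabitedOfMonad Unique.instInhabited WithTop.addCommMonoidWithOne Set.instAddRightMono sierpinskiSpace SemilinearIsometryEquivClass.toSemilinearIsometryClass SetLike.GradeZero.instCommSemiring Pi.instSemilatticeSup BooleanAlgebra.toTop CategoryTheory.isConnected_of_nonempty_and_subsingleton CoheytingAlgebra.toOrderTop Group.instTorsor LinearOrderedAddCommGroupWithTop.toOrderTop LinearOrderedAddCommMonoidWithTop.toOrderTop NormedAddTorsor.toAddTorsor Preorder.smallCategory SeminormedAddCommGroup.toNormedAddTorsor Torsor.nonempty Zero.ofOfNat0 CategoryTheory.Groupoid.toCategory CategoryTheory.IsConnected.is_nonempty CategoryTheory.StrictBicategory.category MulActionWithZero.toMulAction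 MulDistribMulAction.toMulAction MulSemiringAction.toMulDistribMulAction Pi.subNegMonoid instDecidableAnd instIsNoetherianRingOfIsArtinianRing IsDedekindDomainDvr.toIsNoetherian IsDedekindRing.toIsNoetherian IsRegularLocalRing.toIsNoetherian IsSimpleModule.instIsNoetherian NumberField.instFiniteDimensional Pi.instOrderTop Algebra.IsQuadraticExtension.toFree Algebra.Smooth.flat Module.FaithfullyFlat.instOfNontrivialOfFree Module.FaithfullyFlat.of_isIntegral_of_isDomain Module.FaithfullyFlat.self Module.FaithfullyFlat.toFlat Module.Free.self instIsFractionRing ConvexCone.instAddMemClass Pi.instMinForall_mathlib SubalgebraClass.normedRing SubalgebraClass.seminormedRing SubfieldClass.toDivisionRing SubringClass.toNormedRing SubringClass.toSeminormedRing SetLike.GradeZero.instSemiring Function.infinite_of_right One.ofOfNat1 Pi.instSubtractionCommMonoid OneHom.oneHomClass CompTriple.instComp_id CompTriple.instId_comp of_isDiscreteValuationRing ValuationRing.instOfIsLocalRingOfIsBezout ValuationRing.of_field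 ValuationRing.toPreValuationRing SubringClass.toRing IdemSemiring.toCanonicallyOrderedAdd bot_nonempty infSet_to_nonempty supSet_to_nonempty top_nonempty BooleanAlgebra.toBot BooleanAlgebra.toBoundedOrder BoundedOrder.toOrderBot CoheytingAlgebra.toBoundedOrder CompletePartialOrder.toOrderBot CompletePartialOrder.toSupSet CompleteSemilatticeInf.toInfSet CompleteSemilatticeSup.toSupSet ConditionallyCompleteLattice.toInfSet ConditionallyCompleteLattice.toSupSet ConditionallyCompleteLinearOrderBot.toOrderBot ConditionallyCompletePartialOrderInf.toInfSet ConnectedSpace.toNonempty GeneralizedBooleanAlgebra.toBot GeneralizedBooleanAlgebra.toOrderBot GeneralizedCoheytingAlgebra.toOrderBot GeneralizedHeytingAlgebra.toOrderTop HeytingAlgebra.toBoundedOrder HeytingAlgebra.toOrderBot IdemSemiring.toOrderBot IrreducibleSpace.connectedSpace IrreducibleSpace.toNonempty LinearOrderedCommMonoidWithZero.toOrderBot NormedAddTorsor.toAddTorsor' One.instNonempty PathConnectedSpace.connectedSpace Zero.instNonempty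 instIsPrincipalIdealRingOfIsSemisimpleRing isNoetherian_of_finite isNoetherian_of_subsingleton DivisionSemiring.isPrincipalIdealRing EuclideanDomain.to_principal_ideal_domain IsDedekindDomain.isPrincipalIdealRing IsDiscreteValuationRing.toIsPrincipalIdealRing IsPrincipalIdealRing.of_isNoetherianRing_of_isBezout IsSemisimpleModule.instIsNoetherianOfFinite PrincipalIdealRing.isNoetherianRing SubringClass.toNegMemClass -- iprune

set_option linter.all false

section

section

namespace Vale.Agent.P190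

open IsLocalRing TensorProduct

universe u

/-- Completeness only depends on the ideal up to powers. -/
theorem isAdicComplete_of_pow_le {R M : Type*} [CommRing R] [AddCommGroup M] [Module R M]
    (I J : Ideal R) (c : ℕ) (hIJ : I ≤ J) (hJI : J ^ c ≤ I) (h : IsAdicComplete I M) :
    IsAdicComplete J M := by
  have h1 : ∀ n, (J ^ (c * n) • (⊤ : Submodule R M)) ≤ I ^ n • (⊤ : Submodule R M) := by
    intro n
    rw [pow_mul]
    exact Submodule.smul_mono_left (Ideal.pow_right_mono hJI n)
  have h2 : ∀ n, (I ^ n • (⊤ : Submodule R M)) ≤ J ^ n • (⊤ : Submodule R M) := fun n =>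
    Submodule.smul_mono_left (Ideal.pow_right_mono hIJ n)
  refine { haus' := ?_, prec' := ?_ }
  · intro x hx
    apply h.haus'
    intro n
    exact (hx (c * n)).mono (h1 n)
  · intro f hf
    obtain ⟨L, hL⟩ := h.prec' (fun n => f ((c + 1) * n)) (by
      intro m n hmn
      refine SModEq.mono ?_ (hf (Nat.mul_le_mul_left (c + 1) hmn))
      refine le_trans ?_ (h1 m)
      apply Submodule.smul_mono_left
      exact Ideal.pow_le_pow_right (by linarith))
    refine ⟨L, fun n => ?_⟩
    have h3 : f n ≡ f ((c + 1) * n) [SMOD (J ^ n • (⊤ : Submodule R M))] :=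
      hf (by nlinarith only [])
    exact h3.trans ((hL n).mono (h2 n))

/-- A finite module over a complete Noetherian ring is complete. -/
theorem isAdicComplete_of_finite {A M : Type u} [CommRing A] [IsNoetherianRing A]
    [AddCommGroup M] [Module A M] [Module.Finite A M] (I : Ideal A) (h : IsAdicComplete I A) :
    IsAdicComplete I M := by
  rw [← AdicCompletion.of_bijective_iff]
  have h1 : Function.Bijective (AdicCompletion.of I A) := AdicCompletion.of_bijective I A
  let e1 : A ≃ₗ[A] AdicCompletion I A := LinearEquiv.ofBijective (AdicCompletion.of I A) h1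
  let e2 : M ≃ₗ[A] AdicCompletion I A ⊗[A] M :=
    (TensorProduct.lid A M).symm ≪≫ₗ TensorProduct.congr e1 (LinearEquiv.refl A M)
  have h2 := AdicCompletion.ofTensorProduct_bijective_of_finite_of_isNoetherian I M
  have h3 : ∀ x : M, AdicCompletion.of I M x = AdicCompletion.ofTensorProduct I M (e2 x) := by
    intro x
    have : e2 x = (1 : AdicCompletion I A) ⊗ₜ[A] x := by
      simp only [LinearEquiv.trans_apply, lid_symm_apply, congr_tmul, LinearEquiv.refl_apply, e2]
      congr 1
    rw [this, AdicCompletion.ofTensorProduct_tmul, one_smul]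
  have h4 : (AdicCompletion.of I M : M → AdicCompletion I M) =
      (AdicCompletion.ofTensorProduct I M) ∘ e2 := funext h3
  rw [h4]
  exact h2.comp e2.bijective

/-- A local ring that is finite over a complete Noetherian local ring is complete. -/
theorem isAdicComplete_of_finite_local {A R : Type u} [CommRing A] [IsNoetherianRing A]
    [IsLocalRing A] [CommRing R] [IsLocalRing R] [Algebra A R] [Module.Finite A R]
    (h : IsAdicComplete (maximalIdeal A) A) : IsAdicComplete (maximalIdeal R) R := by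
  have h1 : IsAdicComplete (maximalIdeal A) R := isAdicComplete_of_finite _ h
  have h2 : IsAdicComplete ((maximalIdeal A).map (algebraMap A R)) R :=
    (IsAdicComplete.map_algebraMap_iff _ _).mpr h1
  have hN : IsNoetherianRing R := IsNoetherianRing.of_finite A R
  have hint : Algebra.IsIntegral A R := Algebra.IsIntegral.of_finite A R
  have hprime : ∀ Q : Ideal R, Q.IsPrime → (maximalIdeal A).map (algebraMap A R) ≤ Q →
      maximalIdeal R ≤ Q := by
    intro Q hQ hle
    have h3 : (Q.comap (algebraMap A R)).IsMaximal := by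
      have : maximalIdeal A = Q.comap (algebraMap A R) := by
        apply (maximalIdeal.isMaximal A).eq_of_le
        · exact (Ideal.IsPrime.comap (algebraMap A R)).ne_top
        · exact Ideal.map_le_iff_le_comap.mp hle
      rw [← this]
      exact maximalIdeal.isMaximal A
    have h4 : Q.IsMaximal := Ideal.isMaximal_of_isIntegral_of_isMaximal_comap Q h3
    exact (IsLocalRing.eq_maximalIdeal h4).ge
  have hle : (maximalIdeal A).map (algebraMap A R) ≤ maximalIdeal R := by
    by_contra hcon
    have htop : (maximalIdeal A).map (algebraMap A R) = ⊤ := by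
      by_contra h5
      exact hcon (IsLocalRing.le_maximalIdeal h5)
    -- then the module is zero
    have h6 : IsHausdorff ((maximalIdeal A).map (algebraMap A R)) R := h2.toIsHausdorff
    have h7 := h6.haus' (1 : R) (by
      intro n
      rw [htop, Ideal.top_pow, Submodule.top_smul]
      exact SModEq.top)
    exact one_ne_zero h7
  have hrad : maximalIdeal R ≤ ((maximalIdeal A).map (algebraMap A R)).radical := by
    rw [Ideal.radical_eq_sInf]
    apply le_sInf
    rintro Q ⟨hQ1, hQ2⟩
    exact hprime Q hQ2 hQ1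
  obtain ⟨c, hc⟩ := Ideal.exists_pow_le_of_le_radical_of_fg hrad
    (IsNoetherian.noetherian (maximalIdeal R))
  exact isAdicComplete_of_pow_le _ _ c hle hc h2

end Vale.Agent.P190
end
end

section

section

namespace Vale.Agent.P190

open IsLocalRing RingTheory.Sequence Pointwise

universe u v

section Ischebeck

theorem mem_colon_singleton_bot {R M : Type*} [CommRing R] [AddCommGroup M] [Module R M]
    (r : R) (x : M) : r ∈ (⊥ : Submodule R M).colon {x} ↔ r • x = 0 := by
  rw [Submodule.mem_colon_singleton, Submodule.mem_bot]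

/-- A regular sequence bounds the dimension of every associated prime from below. -/
theorem length_le_dim_of_associatedPrime {R : Type u} [CommRing R] [IsNoetherianRing R]
    [IsLocalRing R] (rs : List R) :
    ∀ (M : Type v) [AddCommGroup M] [Module R M] [Module.Finite R M]
      (_ : ∀ r ∈ rs, r ∈ maximalIdeal R) (_ : IsWeaklyRegular M rs)
      (p : Ideal R) (_ : IsAssociatedPrime p M),
      ((rs.length : ℕ) : WithBot ℕ∞) ≤ ringKrullDim (R ⧸ p) := by
  induction rs with
  | nil =>
    intro M _ _ _ _ _ p hp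
    have := hp.isPrime
    simpa only [List.length_nil, CharP.cast_eq_zero, ge_iff_le] using     ringKrullDim_nonneg_of_nontrivial (R := R ⧸ p)
  | cons x rs ih =>
    intro M _ _ _ hmem hreg p hp
    have hpp := hp.isPrime
    rw [isWeaklyRegular_cons_iff] at hreg
    obtain ⟨hx, hrs⟩ := hreg
    have hxm : x ∈ maximalIdeal R := hmem x (by simp)
    obtain ⟨z0, hz0⟩ := (isAssociatedPrime_iff.mp hp).2
    have hz0' : ∀ r, r ∈ p ↔ r • z0 = 0 := by
      intro r
      rw [hz0, mem_colon_singleton_bot]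
    have hz0ne : z0 ≠ 0 := by
      rintro rfl
      apply hpp.ne_top
      rw [Ideal.eq_top_iff_one, hz0']
      simp
    have hxp : x ∉ p := by
      intro h
      rw [hz0'] at h
      exact hz0ne (hx.right_eq_zero_of_smul h)
    -- the submodule killed by `p`
    let N : Submodule R M :=
      { carrier := {z | ∀ r ∈ p, r • z = 0}
        add_mem' := fun {a b} ha hb r hr => by rw [smul_add, ha r hr, hb r hr, add_zero]
        zero_mem' := fun r _ => smul_zero r
        smul_mem' := fun c z hz r hr => by rw [smul_comm, hz r hr, smul_zero] }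
    have hzN : z0 ∈ N := fun r hr => (hz0' r).mp hr
    have hex : ∃ z ∈ N, z ∉ x • (⊤ : Submodule R M) := by
      by_contra hcon
      push Not at hcon
      have hle : N ≤ Ideal.span {x} • N := by
        intro z hz
        obtain ⟨w, -, hw⟩ := (Submodule.mem_smul_pointwise_iff_exists _ _ _).mp (hcon z hz)
        rw [Submodule.ideal_span_singleton_smul, Submodule.mem_smul_pointwise_iff_exists]
        refine ⟨w, ?_, hw⟩
        intro r hr
        apply hx.right_eq_zero_of_smul
        rw [smul_comm, hw]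
        exact hz r hr
      have hbot : N = ⊥ := by
        apply Submodule.eq_bot_of_le_smul_of_le_jacobson_bot (Ideal.span {x}) N
          (IsNoetherian.noetherian N) hle
        rw [IsLocalRing.jacobson_eq_maximalIdeal ⊥ bot_ne_top, Ideal.span_le,
          Set.singleton_subset_iff]
        exact hxm
      rw [hbot] at hzN
      exact hz0ne hzN
    obtain ⟨z, hzN', hzx⟩ := hex
    have hzbar : (Submodule.Quotient.mk z : QuotSMulTop x M) ≠ 0 := by
      rw [ne_eq, Submodule.Quotient.mk_eq_zero]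
      exact hzx
    obtain ⟨P, hP, hPle⟩ := exists_le_isAssociatedPrime_of_isNoetherianRing R
      (Submodule.Quotient.mk z : QuotSMulTop x M) hzbar
    have hpP : p ≤ P := by
      intro r hr
      apply hPle
      rw [mem_colon_singleton_bot, ← Submodule.Quotient.mk_smul, hzN' r hr]
      rfl
    have hxP : x ∈ P := by
      apply hPle
      rw [mem_colon_singleton_bot, ← Submodule.Quotient.mk_smul, Submodule.Quotient.mk_eq_zero,
        Submodule.mem_smul_pointwise_iff_exists]
      exact ⟨z, trivial, rfl⟩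
    have h1 := ih (QuotSMulTop x M) (fun r hr => hmem r (by simp [hr])) hrs P hP
    have h2 : ringKrullDim (R ⧸ P) + 1 ≤ ringKrullDim (R ⧸ p) := by
      apply ringKrullDim_succ_le_of_surjective (Ideal.Quotient.factor hpP)
        (Ideal.Quotient.factor_surjective hpP) (r := Ideal.Quotient.mk p x)
      · rw [mem_nonZeroDivisors_iff_ne_zero, ne_eq, Ideal.Quotient.eq_zero_iff_mem]
        exact hxp
      · rw [Ideal.Quotient.factor_mk, Ideal.Quotient.eq_zero_iff_mem]
        exact hxP
    refine le_trans ?_ h2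
    rw [List.length_cons]
    push_cast
    (clear * - h1; gcongr)

end Ischebeck

section ExtStep

open CategoryTheory Abelian Limits Ideal ModuleCat

/-- Dividing by a regular element lowers the length of some regular sequence by one. -/
theorem exists_regular_quotSMulTop {R : Type u} [CommRing R] [IsNoetherianRing R]
    [IsLocalRing R] (M : Type u) [AddCommGroup M] [Module R M] [Module.Finite R M] (n : ℕ)
    (h : ∃ rs : List R, rs.length = n + 1 ∧ (∀ r ∈ rs, r ∈ maximalIdeal R) ∧ IsRegular M rs)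
    (x : R) (hxm : x ∈ maximalIdeal R) (hx : IsSMulRegular M x) :
    ∃ rs : List R, rs.length = n ∧ (∀ r ∈ rs, r ∈ maximalIdeal R) ∧
      IsRegular (QuotSMulTop x M) rs := by
  obtain ⟨rs, hlen, hmem, hreg⟩ := h
  have hM : Nontrivial M := hreg.nontrivial
  have lt1 : ∀ (M' : Type u) [AddCommGroup M'] [Module R M'] [Module.Finite R M']
      [Nontrivial M'], maximalIdeal R • (⊤ : Submodule R M') < ⊤ := by
    intro M' _ _ _ _
    rw [lt_top_iff_ne_top]
    intro heq
    apply (Submodule.top_ne_ideal_smul_of_le_jacobson_annihilator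
      ((IsLocalRing.maximalIdeal_le_jacobson _) : maximalIdeal R ≤
        Ideal.jacobson (Module.annihilator R M'))) heq.symm
  have hext : ∀ i < n + 1, Subsingleton
      (Ext (ModuleCat.of R (R ⧸ maximalIdeal R)) (ModuleCat.of R M) i) := by
    rw [← hlen]
    apply subsingleton_ext_of_exists_isRegular (maximalIdeal R) (ModuleCat.of R (R ⧸ maximalIdeal R))
      (by
        change Module.support R (R ⧸ maximalIdeal R) ⊆ _
        rw [Module.support_eq_zeroLocus, annihilator_quotient])
      (ModuleCat.of R M) (lt1 M) rs hmem hreg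
  have hQ : Nontrivial (QuotSMulTop x M) := nontrivial_quotSMulTop_of_mem_maximalIdeal M hxm
  have := exists_isRegular_of_exists_subsingleton_ext (maximalIdeal R) n
    (ModuleCat.of R (QuotSMulTop x M)) (lt1 _) (ModuleCat.of R (R ⧸ maximalIdeal R))
    (by
      change Module.support R (R ⧸ maximalIdeal R) = _
      rw [Module.support_eq_zeroLocus, annihilator_quotient])
    (by
      intro i hi
      have zero1 := AddCommGrpCat.isZero_of_iff_subsingleton.mpr (hext i (by omega))
      have zero2 := AddCommGrpCat.isZero_of_iff_subsingleton.mpr (hext (i + 1) (by omega))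
      exact AddCommGrpCat.subsingleton_of_isZero <| ShortComplex.Exact.isZero_of_both_zeros
        ((Ext.covariant_sequence_exact₃' (ModuleCat.of R (R ⧸ maximalIdeal R))
          (IsSMulRegular.smulShortComplex_shortExact (M := ModuleCat.of R M) hx))
            i (i + 1) rfl)
        (zero1.eq_zero_of_src _) (zero2.eq_zero_of_tgt _))
  exact this

end ExtStep

section SOP

/-- If a finite module has a regular sequence of length `n` in the maximal ideal, then every
list of `n` elements cutting its support down to the closed point is a regular sequence. -/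
theorem regular_of_parameters {R : Type u} [CommRing R] [IsNoetherianRing R]
    [IsLocalRing R] (xs : List R) :
    ∀ (M : Type u) [AddCommGroup M] [Module R M] [Module.Finite R M]
      (_ : ∀ r ∈ xs, r ∈ maximalIdeal R)
      (_ : ∃ rs : List R, rs.length = xs.length ∧ (∀ r ∈ rs, r ∈ maximalIdeal R) ∧
        IsRegular M rs)
      (_ : ∀ q : PrimeSpectrum R, q ∈ Module.support R M → (∀ x ∈ xs, x ∈ q.asIdeal) →
        q.asIdeal = maximalIdeal R),
      IsRegular M xs := by
  induction xs with
  | nil =>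
    intro M _ _ _ _ h _
    obtain ⟨rs, hlen, -, hreg⟩ := h
    have : rs = [] := List.eq_nil_of_length_eq_zero (by simpa using hlen)
    rwa [this] at hreg
  | cons x xs ih =>
    intro M _ _ _ hmem h hsupp
    have hxm : x ∈ maximalIdeal R := hmem x (by simp)
    have hreg : IsSMulRegular M x := by
      by_contra hcon
      have h1 : x ∈ {r : R | IsSMulRegular M r}ᶜ := hcon
      rw [← biUnion_associatedPrimes_eq_compl_regular] at h1
      simp only [Set.mem_iUnion, exists_prop] at h1
      obtain ⟨p, hp, hxp⟩ := h1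
      have hpp : p.IsPrime := IsAssociatedPrime.isPrime hp
      obtain ⟨rs, hlen, hrsm, hrs⟩ := h
      have h2 := length_le_dim_of_associatedPrime rs M hrsm hrs.toIsWeaklyRegular p hp
      have hpm : p ≤ maximalIdeal R := IsLocalRing.le_maximalIdeal hpp.ne_top
      have : IsLocalRing (R ⧸ p) :=
        IsLocalRing.of_surjective' (Ideal.Quotient.mk p) Ideal.Quotient.mk_surjective
      have h3 : ringKrullDim (R ⧸ p) ≤ (xs.length : ℕ) := by
        classical
        rw [← IsLocalRing.maximalIdeal_height_eq_ringKrullDim]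
        let s : Finset (R ⧸ p) := (xs.map (Ideal.Quotient.mk p)).toFinset
        have hmin : maximalIdeal (R ⧸ p) ∈ (Ideal.span (s : Set (R ⧸ p))).minimalPrimes := by
          refine ⟨⟨inferInstance, ?_⟩, ?_⟩
          · rw [Ideal.span_le]
            intro y hy
            simp only [List.coe_toFinset, List.mem_map, Set.mem_ofPred_eq, s] at hy
            obtain ⟨x', hx', rfl⟩ := hy
            have hx'm : x' ∈ maximalIdeal R := hmem x' (by simp [hx'])
            have : maximalIdeal R ≤ Ideal.comap (Ideal.Quotient.mk p) (maximalIdeal (R ⧸ p)) :=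
              ((IsLocalRing.local_hom_TFAE (Ideal.Quotient.mk p)).out 0 3).mp
                (IsLocalHom.of_surjective _ Ideal.Quotient.mk_surjective)
            exact this hx'm
          · rintro Q ⟨hQp, hQ⟩ _
            let q : PrimeSpectrum R := ⟨Ideal.comap (Ideal.Quotient.mk p) Q, inferInstance⟩
            have hpq : p ≤ q.asIdeal := by
              intro r hr
              change Ideal.Quotient.mk p r ∈ Q
              rw [Ideal.Quotient.eq_zero_iff_mem.mpr hr]
              exact Q.zero_mem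
            have hqs : q ∈ Module.support R M := by
              have h4 : (⟨p, hpp⟩ : PrimeSpectrum R) ∈ Module.support R M := by
                rw [Module.mem_support_iff_of_finite, ← Submodule.annihilator_top]
                exact IsAssociatedPrime.annihilator_le hp
              exact Module.mem_support_mono hpq h4
            have h5 := hsupp q hqs (by
              intro y hy
              rw [List.mem_cons] at hy
              rcases hy with rfl | hy
              · exact hpq hxp
              · change Ideal.Quotient.mk p y ∈ Q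
                apply hQ
                apply Ideal.subset_span
                simp only [s, List.coe_toFinset, List.mem_map, Set.mem_ofPred_eq]
                exact ⟨y, hy, rfl⟩)
            intro y hy
            obtain ⟨y', rfl⟩ := Ideal.Quotient.mk_surjective y
            have : y' ∈ maximalIdeal R := by
              by_contra hcon2
              have hu : IsUnit y' := by
                by_contra hnu
                exact hcon2 ((IsLocalRing.mem_maximalIdeal _).mpr hnu)
              exact (IsLocalRing.mem_maximalIdeal _).mp hy (hu.map _)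
            rw [← h5] at this
            exact this
        have h6 := Ideal.height_le_card_of_mem_minimalPrimes_span_finset hmin
        have h7 : (s.card : ℕ∞) ≤ (xs.length : ℕ∞) := by
          have : s.card ≤ xs.length := by
            refine le_trans (List.toFinset_card_le _) ?_
            simp
          exact_mod_cast this
        exact_mod_cast h6.trans h7
      have h8 := h2.trans h3
      rw [hlen, List.length_cons] at h8
      have h9 : xs.length + 1 ≤ xs.length := by exact_mod_cast h8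
      omega
    have h2 := exists_regular_quotSMulTop M xs.length (by
      obtain ⟨rs, hlen, h3, h4⟩ := h
      exact ⟨rs, by simpa using hlen, h3, h4⟩) x hxm hreg
    rw [isRegular_cons_iff]
    refine ⟨hreg, ih (QuotSMulTop x M) (fun r hr => hmem r (by simp [hr])) h2 ?_⟩
    intro q hq hxs
    apply hsupp q
    · exact Module.support_subset_of_surjective _ (Submodule.mkQ_surjective _) hq
    · intro y hy
      rw [List.mem_cons] at hy
      rcases hy with rfl | hy
      · have h5 : Module.annihilator R (QuotSMulTop y M) ≤ q.asIdeal := by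
          rwa [Module.mem_support_iff_of_finite] at hq
        apply h5
        rw [Module.mem_annihilator]
        intro m
        obtain ⟨m, rfl⟩ := Submodule.mkQ_surjective _ m
        rw [← map_smul, Submodule.mkQ_apply, Submodule.Quotient.mk_eq_zero,
          Submodule.mem_smul_pointwise_iff_exists]
        exact ⟨m, trivial, rfl⟩
      · exact hxs y hy

/-- A finite module over a Noetherian local ring whose maximal ideal is generated by a regular
sequence of the module is free. -/
theorem free_of_regular_generators (n : ℕ) :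
    ∀ (A : Type u) [CommRing A] [IsNoetherianRing A] [IsLocalRing A] (xs : List A)
      (M : Type v) [AddCommGroup M] [Module A M] [Module.Finite A M]
      (_ : xs.length = n) (_ : Ideal.ofList xs = maximalIdeal A)
      (_ : IsWeaklyRegular M xs), Module.Free A M := by
  induction n with
  | zero =>
    intro A _ _ _ xs M _ _ _ hlen hmax _
    have : xs = [] := List.eq_nil_of_length_eq_zero hlen
    subst this
    have hf : IsField A := by
      rw [IsLocalRing.isField_iff_maximalIdeal_eq, ← hmax, Ideal.ofList_nil]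
    let _ := hf.toField
    infer_instance
  | succ n ih =>
    intro A _ _ _ xs M _ _ _ hlen hmax hreg
    obtain ⟨x, xs, rfl⟩ : ∃ y ys, xs = y :: ys := by
      cases xs with
      | nil => simp only [List.length_nil, Nat.right_eq_add, Nat.add_eq_zero_iff, one_ne_zero, and_false] at hlen
      | cons y ys => exact ⟨y, ys, rfl⟩
    rw [isWeaklyRegular_cons_iff'] at hreg
    have hxm : x ∈ maximalIdeal A := by
      rw [← hmax]
      exact Ideal.subset_span (by simp)
    have hne : Ideal.span {x} ≠ ⊤ := by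
      intro h
      have : (1 : A) ∈ maximalIdeal A := by
        have h1 : Ideal.span {x} ≤ maximalIdeal A := by
          rw [Ideal.span_le, Set.singleton_subset_iff]; exact hxm
        exact h1 (h ▸ Submodule.mem_top)
      exact (Ideal.ne_top_iff_one _).mp (maximalIdeal.isMaximal A).ne_top this
    have : Nontrivial (A ⧸ Ideal.span {x}) := Ideal.Quotient.nontrivial_iff.mpr hne
    have : IsLocalRing (A ⧸ Ideal.span {x}) :=
      IsLocalRing.of_surjective' (Ideal.Quotient.mk _) Ideal.Quotient.mk_surjective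
    have : Module.Finite (A ⧸ Ideal.span {x}) (QuotSMulTop x M) :=
      Module.Finite.of_restrictScalars_finite A _ _
    have hfree := ih (A ⧸ Ideal.span {x}) (xs.map (Ideal.Quotient.mk _)) (QuotSMulTop x M)
      (by simpa using hlen) (by
        have h1 : Ideal.map (Ideal.Quotient.mk (Ideal.span {x})) (maximalIdeal A) =
            maximalIdeal (A ⧸ Ideal.span {x}) := by
          have := ((IsLocalRing.local_hom_TFAE (Ideal.Quotient.mk (Ideal.span {x}))).out 0 4).mp
                (IsLocalHom.of_surjective _ Ideal.Quotient.mk_surjective)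
          rw [← this, Ideal.map_comap_of_surjective _ Ideal.Quotient.mk_surjective]
        rw [← h1, ← hmax, Ideal.map_ofList, List.map_cons, Ideal.ofList_cons]
        have : Ideal.Quotient.mk (Ideal.span {x}) x = 0 :=
          Ideal.Quotient.eq_zero_iff_mem.mpr (Ideal.mem_span_singleton_self x)
        rw [this]
        simp only [Submodule.span_zero_singleton, bot_le, sup_of_le_right]) hreg.2
    have hfp : Module.FinitePresentation A M := Module.finitePresentation_of_finite A M
    exact (Module.free_quotSMulTop_iff_free A M (by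
      rw [IsLocalRing.jacobson_eq_maximalIdeal ⊥ bot_ne_top]; exact hxm) hreg.1).mp hfree

end SOP

end Vale.Agent.P190
end
end

section

section

/-! Section 3, file S7a: auxiliary facts for the Harder-Narasimhan induction. -/

set_option autoImplicit false
set_option linter.unusedSectionVars false

open MvPolynomial Filter

namespace Vale.Agent.P190.D

/-! ### Hilbert triples -/

section Hilb

variable {k : Type} [Field k] {V₁ V₂ V₃ : Type} [AddCommGroup V₁] [Module k V₁]
  [AddCommGroup V₂] [Module k V₂] [AddCommGroup V₃] [Module k V₃]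

theorem s7_hilb_congr {E : ℤ → Submodule k V₁} {E' : ℤ → Submodule k V₂}
    (h : ∀ n, Module.finrank k (E n) = Module.finrank k (E' n)) {N e g : ℤ}
    (hE : HasHilb E N e g) : HasHilb E' N e g := by
  filter_upwards [hE] with n hn
  rw [← h n]
  exact hn

theorem s7_hilb_sub {S : ℤ → Submodule k V₁} {Q : ℤ → Submodule k V₂}
    {E : ℤ → Submodule k V₃}
    (h : ∀ n, Module.finrank k (S n) + Module.finrank k (Q n) = Module.finrank k (E n))
    {N e g N₁ e₁ g₁ : ℤ} (hE : HasHilb E N e g) (hS : HasHilb S N₁ e₁ g₁) :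
    HasHilb Q (N - N₁) (e - e₁) (g - g₁) := by
  filter_upwards [hE, hS] with n hn hn1
  have h1 : (Module.finrank k (S n) : ℚ) + Module.finrank k (Q n) = Module.finrank k (E n) := by
    exact_mod_cast h n
  rw [hn, hn1] at h1
  simp only [hp] at h1 ⊢
  push_cast
  linarith only [h1]

end Hilb

variable {k : Type} [Field k] {X : Arr k} {V : Type} [AddCommGroup V] [Module k V]
  [Module (A k) V] [Module (KK k) V] [Module X.L V] [IsScalarTower k (A k) V]
  [IsScalarTower k (KK k) V] [IsScalarTower k X.L V] [IsScalarTower (A k) (KK k) V]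
  [IsScalarTower (A k) X.L V] [IsScalarTower (KK k) X.L V]
  {V' : Type} [AddCommGroup V'] [Module k V']
  [Module (A k) V'] [Module (KK k) V'] [Module X.L V'] [IsScalarTower k (A k) V']
  [IsScalarTower k (KK k) V'] [IsScalarTower k X.L V'] [IsScalarTower (A k) (KK k) V']
  [IsScalarTower (A k) X.L V'] [IsScalarTower (KK k) X.L V']

/-! ### Denominators -/

/-- every element of the span has a multiple in the lattice -/
theorem s7_exists_mem {E : ℤ → Submodule k V} (hE : IsBLat E) {v : V} (hv : v ∈ spanK E) :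
    ∃ a : A k, a ≠ 0 ∧ ∃ n : ℤ, a • v ∈ E n := by
  unfold spanK at hv
  induction hv using Submodule.span_induction with
  | mem v hv =>
    obtain ⟨n, hn⟩ := Set.mem_iUnion.1 hv
    exact ⟨1, one_ne_zero, n, by rw [one_smul]; exact hn⟩
  | zero => exact ⟨1, one_ne_zero, 0, by rw [smul_zero]; exact zero_mem _⟩
  | add v w _ _ hv hw =>
    obtain ⟨a, ha, n, hn⟩ := hv
    obtain ⟨b, hb, m, hm⟩ := hw
    refine ⟨a * b, mul_ne_zero ha hb, max (n + b.totalDegree) (m + a.totalDegree), ?_⟩
    have h1 := hE.smul_mem (i := b.totalDegree) (a := b) (mem_Ad.2 (Or.inr le_rfl)) hn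
    have h2 := hE.smul_mem (i := a.totalDegree) (a := a) (mem_Ad.2 (Or.inr le_rfl)) hm
    rw [smul_add]
    refine add_mem ?_ ?_
    · rw [mul_comm, mul_smul]
      exact hE.mono' (le_max_left _ _) h1
    · rw [mul_smul]
      exact hE.mono' (le_max_right _ _) h2
  | smul q v _ hv =>
    obtain ⟨a, ha, n, hn⟩ := hv
    obtain ⟨⟨p, d⟩, hpd⟩ := IsLocalization.surj (nonZeroDivisors (A k)) q
    refine ⟨a * d, mul_ne_zero ha (nonZeroDivisors.ne_zero d.2), n + p.totalDegree, ?_⟩
    have h1 := hE.smul_mem (i := p.totalDegree) (a := p) (mem_Ad.2 (Or.inr le_rfl)) hn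
    have h2 : (a * (d : A k)) • (q • v) = p • (a • v) := by
      have h3 : ((d : A k)) • (q • v) = p • v := by
        rw [← algebraMap_smul (KK k) (d : A k) (q • v), smul_smul, mul_comm, hpd,
          algebraMap_smul]
      rw [mul_smul, h3, smul_smul, smul_smul, mul_comm]
    rw [h2]
    exact h1

theorem s7_span_sub {Γ : V →ₗ[X.L] V} {E : ℤ → Submodule k V} (hE : IsTLat Γ E)
    (hsp : Spans (X := X) E) (U : Submodule X.L V) :
    Submodule.span X.L (⋃ n, (subLat E U n : Set V)) = U := by
  apply le_antisymm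
  · rw [Submodule.span_le]
    intro v hv
    obtain ⟨n, hn⟩ := Set.mem_iUnion.1 hv
    exact hn.2
  · intro u hu
    have h1 : u ∈ spanK E := by
      have h2 := spanK_eq_spanL hE.toIsBLat hE.sigStable
      rw [← SetLike.mem_coe, h2, hsp]
      exact Submodule.mem_top
    obtain ⟨a, ha, n, hn⟩ := s7_exists_mem hE.toIsBLat h1
    have h3 : a • u ∈ U := by
      rw [← algebraMap_smul X.L a u]
      exact U.smul_mem _ hu
    have h4 : a • u ∈ Submodule.span X.L (⋃ n, (subLat E U n : Set V)) :=
      Submodule.subset_span (Set.mem_iUnion.2 ⟨n, hn, h3⟩)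
    have h5 : algebraMap (A k) X.L a ≠ 0 := by
      intro h
      exact ha (X.algebraMap_injective (by rw [h, map_zero]))
    have h6 := Submodule.smul_mem _ (algebraMap (A k) X.L a)⁻¹ h4
    rw [← algebraMap_smul X.L a u, smul_smul, inv_mul_cancel₀ h5, one_smul] at h6
    exact h6

/-! ### Images under linear maps -/

/-- the image lattice -/
noncomputable def mapE (f : V →ₗ[X.L] V') (E : ℤ → Submodule k V) : ℤ → Submodule k V' :=
  mapLat (f.restrictScalars (A k)) E

theorem s7_mem_mapE {f : V →ₗ[X.L] V'} {E : ℤ → Submodule k V} {n : ℤ} {w : V'} :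
    w ∈ mapE f E n ↔ ∃ v ∈ E n, f v = w := Iff.rfl

theorem s7_quoLat (E : ℤ → Submodule k V) (U : Submodule X.L V) :
    quoLat E U = mapE U.mkQ E := rfl

theorem s7_finrank {E : ℤ → Submodule k V} (hE : IsBLat E) (f : V →ₗ[X.L] V') (n : ℤ) :
    Module.finrank k (subLat E (LinearMap.ker f) n) + Module.finrank k (mapE f E n) =
      Module.finrank k (E n) :=
  finrank_inter_add_map hE (f.restrictScalars (A k)) n

theorem s7_sub_mapE (f : V →ₗ[X.L] V') (E : ℤ → Submodule k V) (U' : Submodule X.L V') :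
    subLat (mapE f E) U' = mapE f (subLat E (U'.comap f)) := by
  funext n
  ext w
  constructor
  · rintro ⟨⟨v, hv, rfl⟩, h2⟩
    exact ⟨v, ⟨hv, h2⟩, rfl⟩
  · rintro ⟨v, ⟨hv, h2⟩, rfl⟩
    exact ⟨⟨v, hv, rfl⟩, h2⟩

theorem s7_sub_sub (E : ℤ → Submodule k V) (U W : Submodule X.L V) :
    subLat (subLat E U) W = subLat E (U ⊓ W) := by
  funext n
  ext w
  exact ⟨fun h => ⟨h.1.1, h.1.2, h.2⟩, fun h => ⟨⟨h.1, h.2.1⟩, h.2.2⟩⟩

theorem s7_isBLat_sub {E : ℤ → Submodule k V} (hE : IsBLat E) (U : Submodule X.L V) :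
    IsBLat (subLat E U) := hE.inter (U.restrictScalars (A k))

theorem s7_finrank_mapE_inj {E : ℤ → Submodule k V} (hE : IsBLat E) (f : V →ₗ[X.L] V')
    {U : Submodule X.L V} (hU : Disjoint U (LinearMap.ker f)) (n : ℤ) :
    Module.finrank k (mapE f (subLat E U) n) = Module.finrank k (subLat E U n) := by
  have h := s7_finrank (s7_isBLat_sub hE U) f n
  rw [s7_sub_sub, hU.eq_bot] at h
  have h1 : subLat E (⊥ : Submodule X.L V) n = ⊥ := by
    rw [eq_bot_iff]
    intro v hv
    exact (Submodule.mem_bot X.L).1 hv.2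
  rw [h1, finrank_bot, zero_add] at h
  exact h

/-- T-structures on images -/
theorem s7_map_TLat {Γ : V →ₗ[X.L] V} {Γ' : V' →ₗ[X.L] V'} {f : V →ₗ[X.L] V'}
    {E : ℤ → Submodule k V} (hE : IsTLat Γ E) (h : ∀ n, ∀ v ∈ E n, Γ' (f v) = f (Γ v)) :
    IsTLat Γ' (mapE f E) := by
  refine { toIsBLat := hE.toIsBLat.map _, sig_mem := fun x n v hv => ?_,
           gam_mem := fun ε n v hv => ?_ }
  · obtain ⟨w, hw, rfl⟩ := hv
    exact ⟨X.σ x • w, hE.sig_mem x hw, map_smul f _ _⟩
  · obtain ⟨w, hw, rfl⟩ := hv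
    refine ⟨gam Γ ε w, hE.gam_mem ε hw, ?_⟩
    change f (gam Γ ε w) = gam Γ' ε (f w)
    unfold gam
    rw [map_smul, h n w hw]

theorem s7_map_span {f : V →ₗ[X.L] V'} {E : ℤ → Submodule k V} :
    Submodule.span X.L (⋃ n, (mapE f E n : Set V')) =
      (Submodule.span X.L (⋃ n, (E n : Set V))).map f := by
  rw [Submodule.map_span, Set.image_iUnion]
  rfl

/-! ### T-subspaces and quotients -/

/-- the lattice `E /\ U` in coordinates of the T-subspace `U` -/
theorem s7_sub_part [Module.Finite X.L V] {Γ : V →ₗ[X.L] V} {E : ℤ → Submodule k V}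
    (hΓ : IsTSp Γ) (hE : IsTLat Γ E) (hsp : Spans (X := X) E) {U : Submodule X.L V}
    (hU : IsTSub Γ U) {N₁ e₁ g₁ : ℤ} (h₁ : HasHilb (subLat E U) N₁ e₁ g₁) :
    ∃ (Γ₁ : (Fin (Module.finrank X.L U) → X.L) →ₗ[X.L] (Fin (Module.finrank X.L U) → X.L))
      (E₁ : ℤ → Submodule k (Fin (Module.finrank X.L U) → X.L)),
      IsTSp Γ₁ ∧ IsTLat Γ₁ E₁ ∧ Spans (X := X) E₁ ∧ HasHilb E₁ N₁ e₁ g₁ ∧
      ∀ U₁ : Submodule X.L (Fin (Module.finrank X.L U) → X.L), IsTSub Γ₁ U₁ →
        ∃ U' : Submodule X.L V, IsTSub Γ U' ∧ ∀ N e g : ℤ, HasHilb (subLat E₁ U₁) N e g →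
          HasHilb (subLat E U') N e g := by
  let b : U ≃ₗ[X.L] (Fin (Module.finrank X.L U) → X.L) := (Module.finBasis X.L U).equivFun
  obtain ⟨φ, hφ⟩ := LinearMap.exists_extend (b : U →ₗ[X.L] (Fin (Module.finrank X.L U) → X.L))
  have hφ' : ∀ u (hu : u ∈ U), φ u = b ⟨u, hu⟩ := fun u hu =>
    LinearMap.congr_fun hφ ⟨u, hu⟩
  let Γ₁ : (Fin (Module.finrank X.L U) → X.L) →ₗ[X.L] (Fin (Module.finrank X.L U) → X.L) :=
    b.toLinearMap ∘ₗ subΓ Γ hU ∘ₗ b.symm.toLinearMap
  have hint : ∀ u ∈ U, Γ₁ (φ u) = φ (Γ u) := by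
    intro u hu
    rw [hφ' u hu, hφ' (Γ u) (hU u hu)]
    change b (subΓ Γ hU (b.symm (b ⟨u, hu⟩))) = _
    rw [b.symm_apply_apply]
    rfl
  have hdis : Disjoint U (LinearMap.ker φ) := by
    rw [Submodule.disjoint_def]
    intro v hv hv'
    rw [LinearMap.mem_ker, hφ' v hv] at hv'
    have := (LinearEquiv.map_eq_zero_iff b).1 hv'
    exact congrArg Subtype.val this
  refine ⟨Γ₁, mapE φ (subLat E U), ?_, ?_, ?_, ?_, ?_⟩
  · intro w
    change b (subΓ Γ hU (b.symm (b (subΓ Γ hU (b.symm w))))) = _
    rw [b.symm_apply_apply]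
    have h2 : subΓ Γ hU (subΓ Γ hU (b.symm w)) = X.PI • b.symm w :=
      Subtype.ext (hΓ (b.symm w : U))
    rw [h2, map_smul, b.apply_symm_apply]
  · exact s7_map_TLat (hE.sub hU) fun n v hv => hint v hv.2
  · unfold Spans
    rw [s7_map_span, s7_span_sub hE hsp U, eq_top_iff]
    intro w _
    refine ⟨(b.symm w : U), (b.symm w).2, ?_⟩
    rw [hφ' _ (b.symm w).2]
    exact b.apply_symm_apply w
  · exact s7_hilb_congr (fun n => (s7_finrank_mapE_inj hE.toIsBLat φ hdis n).symm) h₁
  · intro U₁ hU₁
    refine ⟨U ⊓ U₁.comap φ, ?_, ?_⟩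
    · intro v hv
      refine ⟨hU v hv.1, ?_⟩
      change φ (Γ v) ∈ U₁
      rw [← hint v hv.1]
      exact hU₁ _ hv.2
    · intro N e g h
      refine s7_hilb_congr (fun n => ?_) h
      rw [s7_sub_mapE, s7_sub_sub]
      exact s7_finrank_mapE_inj hE.toIsBLat φ (hdis.mono_left inf_le_left) n

/-- the lattice `E / (E /\ U)` in coordinates -/
theorem s7_quo_part [Module.Finite X.L V] {Γ : V →ₗ[X.L] V} {E : ℤ → Submodule k V}
    (hΓ : IsTSp Γ) (hE : IsTLat Γ E) (hsp : Spans (X := X) E) {U : Submodule X.L V}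
    (hU : IsTSub Γ U) {N e g N₁ e₁ g₁ : ℤ} (h : HasHilb E N e g)
    (h₁ : HasHilb (subLat E U) N₁ e₁ g₁) :
    ∃ (Γ₂ : (Fin (Module.finrank X.L (V ⧸ U)) → X.L) →ₗ[X.L]
        (Fin (Module.finrank X.L (V ⧸ U)) → X.L))
      (E₂ : ℤ → Submodule k (Fin (Module.finrank X.L (V ⧸ U)) → X.L)),
      IsTSp Γ₂ ∧ IsTLat Γ₂ E₂ ∧ Spans (X := X) E₂ ∧ HasHilb E₂ (N - N₁) (e - e₁) (g - g₁) ∧
      ∀ U₂ : Submodule X.L (Fin (Module.finrank X.L (V ⧸ U)) → X.L), IsTSub Γ₂ U₂ →
        ∃ U' : Submodule X.L V, IsTSub Γ U' ∧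
          (∀ n, Module.finrank k (subLat E U n) + Module.finrank k (subLat E₂ U₂ n) =
            Module.finrank k (subLat E U' n)) ∧
          (∀ n, Module.finrank k (quoLat E₂ U₂ n) = Module.finrank k (quoLat E U' n)) := by
  let b : (V ⧸ U) ≃ₗ[X.L] (Fin (Module.finrank X.L (V ⧸ U)) → X.L) :=
    (Module.finBasis X.L (V ⧸ U)).equivFun
  let φ : V →ₗ[X.L] (Fin (Module.finrank X.L (V ⧸ U)) → X.L) := b.toLinearMap ∘ₗ U.mkQ
  let Γ₂ : (Fin (Module.finrank X.L (V ⧸ U)) → X.L) →ₗ[X.L]
      (Fin (Module.finrank X.L (V ⧸ U)) → X.L) :=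
    b.toLinearMap ∘ₗ quoΓ Γ hU ∘ₗ b.symm.toLinearMap
  have hsurj : Function.Surjective φ := b.surjective.comp U.mkQ_surjective
  have hker : LinearMap.ker φ = U := by
    ext v
    rw [LinearMap.mem_ker]
    change b (U.mkQ v) = 0 ↔ v ∈ U
    rw [LinearEquiv.map_eq_zero_iff, Submodule.mkQ_apply, Submodule.Quotient.mk_eq_zero]
  have hint : ∀ v, Γ₂ (φ v) = φ (Γ v) := by
    intro v
    change b (quoΓ Γ hU (b.symm (b (U.mkQ v)))) = b (U.mkQ (Γ v))
    rw [b.symm_apply_apply]
    rfl
  have hfr : ∀ n, Module.finrank k (subLat E U n) + Module.finrank k (mapE φ E n) =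
      Module.finrank k (E n) := by
    intro n
    have := s7_finrank hE.toIsBLat φ n
    rwa [hker] at this
  refine ⟨Γ₂, mapE φ E, ?_, ?_, ?_, ?_, ?_⟩
  · intro w
    obtain ⟨v, rfl⟩ := hsurj w
    rw [hint, hint, hΓ, map_smul]
  · exact s7_map_TLat hE fun n v _ => hint v
  · unfold Spans
    rw [s7_map_span, hsp, Submodule.map_top, LinearMap.range_eq_top]
    exact hsurj
  · exact s7_hilb_sub hfr h h₁
  · intro U₂ hU₂
    have hle : U ≤ U₂.comap φ := hker.ge.trans (LinearMap.ker_le_comap φ)
    have hsub : ∀ n, Module.finrank k (subLat E U n) +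
        Module.finrank k (subLat (mapE φ E) U₂ n) =
        Module.finrank k (subLat E (U₂.comap φ) n) := by
      intro n
      have h2 := s7_finrank (s7_isBLat_sub hE.toIsBLat (U₂.comap φ)) φ n
      rw [s7_sub_sub, hker, inf_eq_right.2 hle] at h2
      rw [s7_sub_mapE]
      exact h2
    refine ⟨U₂.comap φ, ?_, hsub, ?_⟩
    · intro v hv
      rw [Submodule.mem_comap, ← hint]
      exact hU₂ _ hv
    · intro n
      have h1 := hsub n
      have h2 := hfr n
      have h3 := s7_finrank (hE.toIsBLat.map (φ.restrictScalars (A k))) U₂.mkQ n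
      rw [Submodule.ker_mkQ] at h3
      have h4 := s7_finrank hE.toIsBLat (U₂.comap φ).mkQ n
      rw [Submodule.ker_mkQ] at h4
      change Module.finrank k (subLat (mapE φ E) U₂ n) + Module.finrank k (quoLat (mapE φ E) U₂ n) =
        Module.finrank k (mapE φ E n) at h3
      change Module.finrank k (subLat E (U₂.comap φ) n) +
        Module.finrank k (quoLat E (U₂.comap φ) n) = Module.finrank k (E n) at h4
      omega

/-- the hull of a lattice of maximal slope is semistable -/
theorem s7_semistable [Infinite k] {Γ : V →ₗ[X.L] V} {E : ℤ → Submodule k V}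
    (hE : IsTLat Γ E) {N₁ e₁ g₁ : ℤ} (h : HasHilb E N₁ e₁ g₁)
    (hmax : ∀ U : Submodule X.L V, IsTSub Γ U → ∀ N e g : ℤ, HasHilb (subLat E U) N e g →
      e * N₁ ≤ e₁ * N) : Semistable Γ (hull E hE.toIsBLat) := by
  intro U hU N e g w f g' h1 h2
  obtain ⟨g₂, -, h3⟩ := h.hull hE.toIsBLat
  obtain ⟨rfl, rfl, -⟩ := h1.unique h3
  have hS := s7_isBLat_sub hE.toIsBLat U
  have hS' := s7_isBLat_sub (isBLat_hull hE.toIsBLat) U
  obtain ⟨i, j, a, b, hab, ha, hb⟩ := exists_cop_of_locIn hE.toIsBLat
    (isBLat_hull hE.toIsBLat) (fun n v hv => hv)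
  obtain ⟨N', e', g₃, h4⟩ := hS.exists_hilb
  have hmem : ∀ (c : A k) (v : V), v ∈ U → c • v ∈ U := by
    intro c v hv
    rw [← algebraMap_smul X.L c v]
    exact U.smul_mem _ hv
  obtain ⟨rfl, rfl, -⟩ := hilb_eq_of_cop hS hS'
    (fun n v hv => ⟨le_hull hE.toIsBLat n hv.1, hv.2⟩) hab
    (fun n v hv => ⟨ha n v hv.1, hmem a v hv.2⟩) (fun n v hv => ⟨hb n v hv.1, hmem b v hv.2⟩)
    h4 h2
  exact hmax U hU _ _ _ h4

end Vale.Agent.P190.D
end
end

section

section

/-! Krull dimension from a regular system of parameters on a faithful module. -/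

namespace Vale.Agent.P190

open Module IsLocalRing RingTheory.Sequence

section Dim

universe u

theorem dim_eq_of_regular_parameters {R : Type u} [CommRing R] [IsNoetherianRing R]
    [IsLocalRing R] (N : Type u) [AddCommGroup N] [Module R N] [Module.Finite R N]
    (hfaith : Module.annihilator R N = ⊥) (xs : List R) (hreg : IsRegular N xs)
    (hq : ∀ q : Ideal R, q.IsPrime → (∀ x ∈ xs, x ∈ q) → q = maximalIdeal R) :
    ringKrullDim R = ((xs.length : ℕ) : WithBot ℕ∞) := by
  have h1 := Module.supportDim_add_length_eq_supportDim_of_isRegular xs hreg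
  have h2 : Module.supportDim R N = ringKrullDim R := by
    rw [Module.supportDim_eq_ringKrullDim_quotient_annihilator, hfaith]
    exact RingEquiv.ringKrullDim (RingEquiv.quotientBot R)
  have h3 : Nontrivial (N ⧸ Ideal.ofList xs • (⊤ : Submodule R N)) := by
    rw [Submodule.Quotient.nontrivial_iff]
    exact hreg.top_ne_smul.symm
  have h4 : Module.supportDim R (N ⧸ Ideal.ofList xs • (⊤ : Submodule R N)) = 0 := by
    have hne : Nonempty (Module.support R (N ⧸ Ideal.ofList xs • (⊤ : Submodule R N))) :=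
      (Module.nonempty_support_of_nontrivial).to_subtype
    have hmax : ∀ q : Module.support R (N ⧸ Ideal.ofList xs • (⊤ : Submodule R N)),
        q.1.asIdeal = maximalIdeal R := by
      rintro ⟨q, hqs⟩
      apply hq q.asIdeal q.isPrime
      intro x hx
      rw [Module.mem_support_iff_of_finite] at hqs
      apply hqs
      rw [Module.mem_annihilator]
      intro y
      obtain ⟨y, rfl⟩ := Submodule.mkQ_surjective _ y
      rw [← map_smul, Submodule.mkQ_apply, Submodule.Quotient.mk_eq_zero]
      exact Submodule.smul_mem_smul (Ideal.subset_span hx) trivial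
    have hss : Subsingleton (Module.support R (N ⧸ Ideal.ofList xs • (⊤ : Submodule R N))) := by
      constructor
      intro a b
      apply Subtype.ext
      apply PrimeSpectrum.ext
      rw [hmax a, hmax b]
    exact Order.krullDim_eq_zero
  rw [h4, zero_add, h2] at h1
  exact h1.symm

end Dim

end Vale.Agent.P190
end
end

section

section

/-! Section 4, file P4a: two abstract lemmas for the node analysis. -/

set_option autoImplicit false
set_option linter.unusedSectionVars false

open MvPolynomial Filter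

namespace Vale.Agent.P190.D

/-- 4.5a (i), regularity. `G₁² = α u`, `G₀² = β u`, `M` saturated with respect to `(α, β)`. -/
theorem node_reg {R V : Type} [CommRing R] [AddCommGroup V] [Module R V] (M : AddSubgroup V)
    (α β u : R) (hα : Function.Bijective fun v : V => α • v)
    (hβ : Function.Bijective fun v : V => β • v) (hu : Function.Bijective fun v : V => u • v)
    (G₁ G₀ : V →ₗ[R] V) (hc : ∀ v, G₁ (G₀ v) = G₀ (G₁ v))
    (h₁ : ∀ v, G₁ (G₁ v) = (α * u) • v) (h₀ : ∀ v, G₀ (G₀ v) = (β * u) • v)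
    (hM₁ : ∀ v ∈ M, G₁ v ∈ M) (hM₀ : ∀ v ∈ M, G₀ v ∈ M) (hMu : ∀ v ∈ M, u • v ∈ M)
    (hsat : ∀ v : V, α • v ∈ M → β • v ∈ M → v ∈ M) (v b c : V) (hv : v ∈ M) (hb : b ∈ M)
    (hcM : c ∈ M) (h : G₁ (G₀ v) = α • b + β • c) :
    ∃ y ∈ M, ∃ z ∈ M, u ^ 3 • v = G₁ y + G₀ z := by
  have hinj : Function.Injective G₁ := by
    intro x y hxy
    have e1 : (α * u) • x = (α * u) • y := by rw [← h₁, ← h₁, hxy]
    rw [mul_smul, mul_smul] at e1
    exact hu.1 (hα.1 e1)
  -- the element `y`
  obtain ⟨y, hy⟩ : ∃ y : V, y = u • G₀ v - G₁ b := ⟨_, rfl⟩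
  have hyM : y ∈ M := by
    rw [hy]
    exact M.sub_mem (hMu _ (hM₀ _ hv)) (hM₁ _ hb)
  have hG1y : G₁ y = (β * u) • c := by
    rw [hy, map_sub, map_smul, h, h₁, smul_add, ← mul_smul, ← mul_smul, mul_comm u α,
      mul_comm u β]
    abel
  have hαy : α • y = β • G₁ c := by
    have e1 : (α * u) • y = (β * u) • G₁ c := by
      rw [← h₁, hG1y, map_smul]
    rw [mul_comm α u, mul_comm β u, mul_smul, mul_smul] at e1
    exact hu.1 e1
  obtain ⟨z, hz⟩ := hβ.2 y
  have hz' : β • z = y := hz
  have hαz : α • z = G₁ c := by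
    have e1 : β • (α • z) = β • G₁ c := by
      rw [← mul_smul, mul_comm β α, mul_smul, hz', hαy]
    exact hβ.1 e1
  have hzM : z ∈ M := by
    refine hsat z ?_ ?_
    · rw [hαz]
      exact hM₁ _ hcM
    · rw [hz']
      exact hyM
  -- the element `x`
  obtain ⟨x, hx⟩ : ∃ x : V, x = u ^ 2 • v - G₀ z := ⟨_, rfl⟩
  have hxM : x ∈ M := by
    rw [hx]
    refine M.sub_mem ?_ (hM₀ _ hzM)
    rw [pow_two, mul_smul]
    exact hMu _ (hMu _ hv)
  have hG0x : G₀ x = G₁ (u • b) := by
    rw [hx, map_sub, map_smul, h₀, map_smul]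
    have e1 : (β * u) • z = u • (u • G₀ v - G₁ b) := by
      rw [mul_comm β u, mul_smul, hz', hy]
    rw [e1, smul_sub, ← mul_smul, pow_two]
    abel
  obtain ⟨w, hw⟩ := hα.2 (G₁ x)
  obtain ⟨x', hx'⟩ := hu.2 w
  have hx1 : (α * u) • x' = G₁ x := by
    rw [mul_smul]
    have e1 : u • x' = w := hx'
    rw [e1]
    exact hw
  have hGx' : G₁ x' = x := by
    apply hinj
    rw [h₁, hx1]
  have hG0x' : G₀ x' = u • b := by
    apply hinj
    rw [hc, hGx', hG0x]
  have huxM : u • x' ∈ M := by
    refine hsat _ ?_ ?_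
    · rw [← mul_smul, hx1]
      exact hM₁ _ hxM
    · rw [← mul_smul, ← h₀, hG0x']
      exact hM₀ _ (hMu _ hb)
  refine ⟨u • x', huxM, u • z, hMu _ hzM, ?_⟩
  rw [map_smul, hGx', map_smul, hx, smul_sub, ← mul_smul]
  have e1 : u * u ^ 2 = u ^ 3 := by ring
  rw [e1]
  abel

/-- two commuting square-zero operators `a`, `b` with `ker (ab) ≤ im a + im b` -/
theorem finrank_four {k Y : Type} [Field k] [AddCommGroup Y] [Module k Y] [Module.Finite k Y]
    (a b : Y →ₗ[k] Y) (hab : a ∘ₗ b = b ∘ₗ a) (ha : a ∘ₗ a = 0) (hb : b ∘ₗ b = 0)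
    (hker : LinearMap.ker (a ∘ₗ b) ≤ LinearMap.range a ⊔ LinearMap.range b) :
    Module.finrank k Y =
      4 * Module.finrank k (Y ⧸ (LinearMap.range a ⊔ LinearMap.range b)) := by
  obtain ⟨S, hS⟩ : ∃ S : Submodule k Y, S = LinearMap.range a ⊔ LinearMap.range b := ⟨_, rfl⟩
  rw [← hS] at hker ⊢
  have ha' : ∀ y, a (a y) = 0 := fun y => LinearMap.congr_fun ha y
  have hb' : ∀ y, b (b y) = 0 := fun y => LinearMap.congr_fun hb y
  have hab' : ∀ y, a (b y) = b (a y) := fun y => LinearMap.congr_fun hab y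
  have hSker : S = LinearMap.ker (a ∘ₗ b) := by
    refine le_antisymm ?_ hker
    rw [hS]
    refine sup_le ?_ ?_
    · rintro _ ⟨y, rfl⟩
      rw [LinearMap.mem_ker, LinearMap.comp_apply, ← hab', ha']
    · rintro _ ⟨y, rfl⟩
      rw [LinearMap.mem_ker, LinearMap.comp_apply, hb', map_zero]
  -- dimensions
  have d1 : Module.finrank k (Y ⧸ S) + Module.finrank k S = Module.finrank k Y :=
    Submodule.finrank_quotient_add_finrank S
  have d2 : Module.finrank k (LinearMap.range (a ∘ₗ b)) + Module.finrank k S =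
      Module.finrank k Y := by
    rw [hSker]
    exact LinearMap.finrank_range_add_finrank_ker (a ∘ₗ b)
  -- φ : Y × Y → Y
  have d3 := LinearMap.finrank_range_add_finrank_ker (a.coprod b)
  rw [LinearMap.range_coprod, ← hS, Module.finrank_prod] at d3
  -- ψ : S × S → Y
  have d4 := LinearMap.finrank_range_add_finrank_ker
    ((a.domRestrict S).coprod (b.domRestrict S))
  rw [Module.finrank_prod] at d4
  have hr : LinearMap.range ((a.domRestrict S).coprod (b.domRestrict S)) =
      LinearMap.range (a ∘ₗ b) := by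
    rw [LinearMap.range_coprod, LinearMap.range_domRestrict, LinearMap.range_domRestrict, hS,
      Submodule.map_sup, Submodule.map_sup, ← LinearMap.range_comp, ← LinearMap.range_comp,
      ← LinearMap.range_comp, ← LinearMap.range_comp, ha, hb, ← hab]
    simp only [LinearMap.range_zero, bot_le, sup_of_le_right, sup_of_le_left, Std.le_refl]
  rw [hr] at d4
  have hk : Module.finrank k (LinearMap.ker ((a.domRestrict S).coprod (b.domRestrict S))) =
      Module.finrank k (LinearMap.ker (a.coprod b)) := by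
    have hinj : Function.Injective (S.subtype.prodMap S.subtype) := by
      rintro ⟨x, y⟩ ⟨x', y'⟩ h
      simp only [LinearMap.prodMap_apply, Submodule.subtype_apply, Prod.mk.injEq] at h
      exact Prod.ext (Subtype.ext h.1) (Subtype.ext h.2)
    have e1 : (LinearMap.ker ((a.domRestrict S).coprod (b.domRestrict S))).map
        (S.subtype.prodMap S.subtype) = LinearMap.ker (a.coprod b) := by
      ext ⟨y₁, y₂⟩
      rw [Submodule.mem_map, LinearMap.mem_ker]
      constructor
      · rintro ⟨⟨x, y⟩, hxy, he⟩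
        rw [LinearMap.mem_ker] at hxy
        simp only [LinearMap.prodMap_apply, Submodule.subtype_apply, Prod.mk.injEq] at he
        rw [← he.1, ← he.2]
        simpa only [LinearMap.coprod_apply, LinearMap.domRestrict_apply] using hxy
      · intro h
        have h' : a y₁ + b y₂ = 0 := h
        have m1 : y₁ ∈ S := by
          rw [hSker, LinearMap.mem_ker, LinearMap.comp_apply, hab']
          have e2 := congrArg b h'
          rw [map_add, hb', add_zero, map_zero] at e2
          exact e2
        have m2 : y₂ ∈ S := by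
          rw [hSker, LinearMap.mem_ker, LinearMap.comp_apply]
          have e2 := congrArg a h'
          rw [map_add, ha', zero_add, map_zero] at e2
          exact e2
        refine ⟨(⟨y₁, m1⟩, ⟨y₂, m2⟩), ?_, rfl⟩
        rw [LinearMap.mem_ker]
        simpa only [LinearMap.coprod_apply, LinearMap.domRestrict_apply] using h'
    rw [← e1]
    exact (Submodule.equivMapOfInjective _ hinj _).finrank_eq
  omega

theorem P4a_step {k E : Type} [Field k] [Infinite k] [AddCommGroup E] [Module k E]
    {ι : Type} [Finite ι] (Z : ι → Type) [∀ i, AddCommGroup (Z i)] [∀ i, Module k (Z i)]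
    [∀ i, Module.Finite k (Z i)] (r₁ : ℕ) (hZ : ∀ i, Module.finrank k (Z i) = r₁)
    (f : ∀ i, E →ₗ[k] Z i) (hf : ∀ i, Function.Surjective (f i)) (s : ℕ) (hs : s ≤ r₁) :
    ∃ e : Fin s → E, ∀ i, LinearIndependent k (fun j => f i (e j)) := by
  induction s with
  | zero => exact ⟨Fin.elim0, fun i => linearIndependent_empty_type⟩
  | succ s ih =>
    obtain ⟨e, he⟩ := ih (by omega)
    have hx : ∃ x : E, ∀ i, x ∉ (Submodule.span k (Set.range fun j => f i (e j))).comap (f i) := by
      by_contra hcon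
      push Not at hcon
      have hcov : ⋃ i, (((Submodule.span k (Set.range fun j => f i (e j))).comap (f i) :
          Submodule k E) : Set E) = Set.univ := by
        rw [Set.eq_univ_iff_forall]
        intro x
        obtain ⟨i, hi⟩ := hcon x
        exact Set.mem_iUnion.2 ⟨i, hi⟩
      obtain ⟨i, hi⟩ := Subspace.exists_eq_top_of_iUnion_eq_univ hcov
      have h1 : Submodule.span k (Set.range fun j => f i (e j)) = ⊤ := by
        rw [eq_top_iff]
        rintro z -
        obtain ⟨x, rfl⟩ := hf i z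
        have hx : x ∈ (Submodule.span k (Set.range fun j => f i (e j))).comap (f i) := by
          rw [hi]
          exact Submodule.mem_top
        exact hx
      have h2 := finrank_span_eq_card (he i)
      rw [h1, finrank_top, hZ i, Fintype.card_fin] at h2
      omega
    obtain ⟨x, hx⟩ := hx
    refine ⟨Fin.cons x e, fun i => ?_⟩
    have e1 : (fun j => f i ((Fin.cons x e : Fin (s + 1) → E) j)) =
        (Fin.cons (f i x) (fun j => f i (e j)) : Fin (s + 1) → Z i) := by
      funext j
      refine Fin.cases ?_ (fun j => ?_) j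
      · simp
      · simp
    rw [e1, linearIndependent_finCons]
    exact ⟨he i, hx i⟩

/-- choice of vectors: finitely many surjections onto `r₁`-dimensional spaces -/
theorem exists_generic {k E : Type} [Field k] [Infinite k] [AddCommGroup E] [Module k E]
    {ι : Type} [Finite ι] (Z : ι → Type) [∀ i, AddCommGroup (Z i)] [∀ i, Module k (Z i)]
    [∀ i, Module.Finite k (Z i)] (r₁ : ℕ) (hZ : ∀ i, Module.finrank k (Z i) = r₁)
    (f : ∀ i, E →ₗ[k] Z i) (hf : ∀ i, Function.Surjective (f i)) :
    ∃ e : Fin r₁ → E, ∀ i, Submodule.span k (Set.range fun j => f i (e j)) = ⊤ := by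
  obtain ⟨e, he⟩ := P4a_step Z r₁ hZ f hf r₁ le_rfl
  refine ⟨e, fun i => ?_⟩
  exact (he i).span_eq_top_of_card_eq_finrank' (by rw [hZ i, Fintype.card_fin])

end Vale.Agent.P190.D
end
end

section

section

/-! Section 4, file P4f, auxiliary: linear algebra of quotients. -/

set_option autoImplicit false
set_option linter.unusedSectionVars false

open MvPolynomial Filter

namespace Vale.Agent.P190.D

section quot

variable {k V : Type} [Field k] [AddCommGroup V] [Module k V]

/-- the image of `M` in `V/N` is `M/(N ∩ M)` -/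
noncomputable def P4f_equiv (M N : Submodule k V) :
    (↥M ⧸ N.comap M.subtype) ≃ₗ[k] ↥(M.map N.mkQ) :=
  ((Submodule.quotEquivOfEq _ _ (by
      ext x
      simp [LinearMap.mem_ker])).trans
    (N.mkQ ∘ₗ M.subtype).quotKerEquivRange).trans
    (LinearEquiv.ofEq _ _ (by
      rw [LinearMap.range_comp, Submodule.range_subtype]))

lemma P4f_finrank (M N : Submodule k V) :
    Module.finrank k ↥(M.map N.mkQ) = Module.finrank k (↥M ⧸ N.comap M.subtype) :=
  (P4f_equiv M N).finrank_eq.symm

lemma P4f_finite_iff (M N : Submodule k V) :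
    Module.Finite k ↥(M.map N.mkQ) ↔ Module.Finite k (↥M ⧸ N.comap M.subtype) :=
  ⟨fun _ => Module.Finite.equiv (P4f_equiv M N).symm, fun _ => Module.Finite.equiv (P4f_equiv M N)⟩

/-- quotients by larger submodules are finite -/
lemma P4f_finite_mono (M N N' : Submodule k V) (h : ∀ v ∈ M, v ∈ N → v ∈ N')
    (hf : Module.Finite k ↥(M.map N.mkQ)) : Module.Finite k ↥(M.map N'.mkQ) := by
  rw [P4f_finite_iff] at hf ⊢
  have h1 : N.comap M.subtype ≤ N'.comap M.subtype := fun x hx => h _ x.2 hx
  exact Module.Finite.of_surjective ((N.comap M.subtype).mapQ (N'.comap M.subtype) LinearMap.id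
    (by rw [Submodule.comap_id]; exact h1)) (by
      intro x
      obtain ⟨y, rfl⟩ := Submodule.mkQ_surjective _ x
      exact ⟨Submodule.Quotient.mk y, rfl⟩)

/-- `finrank_four` in terms of submodules -/
theorem P4f_four (M N N' : Submodule k V) (hfin : Module.Finite k ↥(M.map N.mkQ))
    (a b : V →ₗ[k] V) (haM : ∀ v ∈ M, a v ∈ M) (haN : ∀ v ∈ M, v ∈ N → a v ∈ N)
    (hbM : ∀ v ∈ M, b v ∈ M) (hbN : ∀ v ∈ M, v ∈ N → b v ∈ N)
    (hcomm : ∀ v ∈ M, a (b v) = b (a v)) (ha2 : ∀ v ∈ M, a (a v) ∈ N)
    (hb2 : ∀ v ∈ M, b (b v) ∈ N)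
    (hker : ∀ v ∈ M, a (b v) ∈ N → ∃ x ∈ M, ∃ y ∈ M, v - (a x + b y) ∈ N)
    (hN' : ∀ v ∈ M, v ∈ N' ↔ ∃ x ∈ M, ∃ y ∈ M, v - (a x + b y) ∈ N) :
    Module.finrank k ↥(M.map N.mkQ) = 4 * Module.finrank k ↥(M.map N'.mkQ) := by
  rw [P4f_finrank, P4f_finrank]
  have hfin' := (P4f_finite_iff M N).1 hfin
  set S := N.comap M.subtype with hS
  set S' := N'.comap M.subtype with hS'
  let a₀ : ↥M →ₗ[k] ↥M := a.restrict haM
  let b₀ : ↥M →ₗ[k] ↥M := b.restrict hbM
  have ha0 : S ≤ S.comap a₀ := fun x hx => haN _ x.2 hx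
  have hb0 : S ≤ S.comap b₀ := fun x hx => hbN _ x.2 hx
  let a₁ : (↥M ⧸ S) →ₗ[k] (↥M ⧸ S) := S.mapQ S a₀ ha0
  let b₁ : (↥M ⧸ S) →ₗ[k] (↥M ⧸ S) := S.mapQ S b₀ hb0
  have ha1 : ∀ x : ↥M, a₁ (Submodule.Quotient.mk x) = Submodule.Quotient.mk (a₀ x) := fun _ => rfl
  have hb1 : ∀ x : ↥M, b₁ (Submodule.Quotient.mk x) = Submodule.Quotient.mk (b₀ x) := fun _ => rfl
  have key := finrank_four a₁ b₁ (by
      refine LinearMap.ext fun x => ?_
      obtain ⟨y, rfl⟩ := Submodule.Quotient.mk_surjective _ x
      rw [LinearMap.comp_apply, LinearMap.comp_apply, hb1, ha1, ha1, hb1]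
      congr 1
      exact Subtype.ext (hcomm _ y.2)) (by
      refine LinearMap.ext fun x => ?_
      obtain ⟨y, rfl⟩ := Submodule.Quotient.mk_surjective _ x
      rw [LinearMap.comp_apply, ha1, ha1, LinearMap.zero_apply, Submodule.Quotient.mk_eq_zero]
      exact ha2 _ y.2) (by
      refine LinearMap.ext fun x => ?_
      obtain ⟨y, rfl⟩ := Submodule.Quotient.mk_surjective _ x
      rw [LinearMap.comp_apply, hb1, hb1, LinearMap.zero_apply, Submodule.Quotient.mk_eq_zero]
      exact hb2 _ y.2) (by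
      intro x hx
      obtain ⟨v, rfl⟩ := Submodule.Quotient.mk_surjective _ x
      rw [LinearMap.mem_ker, LinearMap.comp_apply, hb1, ha1, Submodule.Quotient.mk_eq_zero] at hx
      obtain ⟨x, hx, y, hy, h⟩ := hker v.1 v.2 hx
      have e : (Submodule.Quotient.mk v : ↥M ⧸ S) =
          a₁ (Submodule.Quotient.mk ⟨x, hx⟩) + b₁ (Submodule.Quotient.mk ⟨y, hy⟩) := by
        rw [ha1, hb1, ← Submodule.Quotient.mk_add, Submodule.Quotient.eq]
        exact h
      rw [e]
      exact Submodule.add_mem_sup (LinearMap.mem_range_self _ _) (LinearMap.mem_range_self _ _))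
  rw [key]
  congr 1
  have hle : S ≤ S' := by
    intro x hx
    refine (hN' x.1 x.2).2 ⟨0, M.zero_mem, 0, M.zero_mem, ?_⟩
    rw [map_zero, map_zero, add_zero, sub_zero]
    exact hx
  have hR : LinearMap.range a₁ ⊔ LinearMap.range b₁ = S'.map S.mkQ := by
    apply le_antisymm
    · refine sup_le ?_ ?_
      · rintro _ ⟨x, rfl⟩
        obtain ⟨y, rfl⟩ := Submodule.Quotient.mk_surjective _ x
        refine ⟨a₀ y, ?_, rfl⟩
        refine (hN' _ (haM _ y.2)).2 ⟨y.1, y.2, 0, M.zero_mem, ?_⟩
        rw [map_zero, add_zero, sub_self]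
        exact N.zero_mem
      · rintro _ ⟨x, rfl⟩
        obtain ⟨y, rfl⟩ := Submodule.Quotient.mk_surjective _ x
        refine ⟨b₀ y, ?_, rfl⟩
        refine (hN' _ (hbM _ y.2)).2 ⟨0, M.zero_mem, y.1, y.2, ?_⟩
        rw [map_zero, zero_add, sub_self]
        exact N.zero_mem
    · rintro _ ⟨v, hv, rfl⟩
      obtain ⟨x, hx, y, hy, h⟩ := (hN' v.1 v.2).1 hv
      have e : (S.mkQ v : ↥M ⧸ S) =
          a₁ (Submodule.Quotient.mk ⟨x, hx⟩) + b₁ (Submodule.Quotient.mk ⟨y, hy⟩) := by
        rw [ha1, hb1, ← Submodule.Quotient.mk_add, Submodule.mkQ_apply, Submodule.Quotient.eq]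
        exact h
      rw [e]
      exact Submodule.add_mem_sup (LinearMap.mem_range_self _ _) (LinearMap.mem_range_self _ _)
  rw [hR]
  exact (Submodule.quotientQuotientEquivQuotient S S' hle).finrank_eq

/-- decomposition by orthogonal idempotents modulo `K` -/
theorem P4f_sum {ι : Type} [Fintype ι] [DecidableEq ι] (M K : Submodule k V)
    (N : ι → Submodule k V) (e : ι → V →ₗ[k] V) (heM : ∀ i, ∀ v ∈ M, e i v ∈ M)
    (heK : ∀ i, ∀ v ∈ K, e i v ∈ K) (h1 : ∀ v ∈ M, v - ∑ i, e i v ∈ K)
    (hN : ∀ i, ∀ v ∈ M, v ∈ N i ↔ e i v ∈ K) (ho : ∀ i j, i ≠ j → ∀ v ∈ M, e i (e j v) ∈ K)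
    (hfin : Module.Finite k ↥(M.map K.mkQ)) :
    (∀ i, Module.Finite k ↥(M.map (N i).mkQ)) ∧
      Module.finrank k ↥(M.map K.mkQ) = ∑ i, Module.finrank k ↥(M.map (N i).mkQ) := by
  have hfinN : ∀ i, Module.Finite k ↥(M.map (N i).mkQ) := fun i =>
    P4f_finite_mono M K (N i) (fun v hv hvK => (hN i v hv).2 (heK i v hvK)) hfin
  refine ⟨hfinN, ?_⟩
  rw [P4f_finrank]
  simp only [P4f_finrank]
  have hfinN' := fun i => (P4f_finite_iff M (N i)).1 (hfinN i)
  let Φ : ↥M →ₗ[k] ∀ i, ↥M ⧸ (N i).comap M.subtype :=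
    LinearMap.pi fun i => ((N i).comap M.subtype).mkQ
  have hid : ∀ i, ∀ v ∈ M, e i v - e i (e i v) ∈ K := by
    intro i v hv
    have h2 := heK i _ (h1 v hv)
    rw [map_sub, map_sum, ← Finset.add_sum_erase _ _ (Finset.mem_univ i)] at h2
    have h3 : ∑ j ∈ Finset.univ.erase i, e i (e j v) ∈ K :=
      Submodule.sum_mem _ fun j hj => ho i j (Finset.ne_of_mem_erase hj).symm v hv
    have h4 := K.add_mem h2 h3
    have h5 : e i v - (e i (e i v) + ∑ j ∈ Finset.univ.erase i, e i (e j v)) +
        ∑ j ∈ Finset.univ.erase i, e i (e j v) = e i v - e i (e i v) := by abel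
    rwa [h5] at h4
  have hsurj : Function.Surjective Φ := by
    intro y
    choose x hx using fun i => Submodule.Quotient.mk_surjective ((N i).comap M.subtype) (y i)
    refine ⟨∑ i, ⟨e i (x i), heM i _ (x i).2⟩, funext fun i => ?_⟩
    change Submodule.Quotient.mk (∑ i, (⟨e i (x i), heM i _ (x i).2⟩ : ↥M)) = y i
    rw [← hx i, Submodule.Quotient.eq]
    refine (hN i (M.subtype (∑ i, (⟨e i (x i), heM i _ (x i).2⟩ : ↥M) - x i))
      (SetLike.coe_mem (∑ i, (⟨e i (x i), heM i _ (x i).2⟩ : ↥M) - x i))).2 ?_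
    have e1 : e i (M.subtype (∑ i, (⟨e i (x i), heM i _ (x i).2⟩ : ↥M) - x i)) =
        (e i (e i (x i)) - e i (x i)) + ∑ j ∈ Finset.univ.erase i, e i (e j (x j)) := by
      rw [map_sub, map_sub, map_sum, map_sum, ← Finset.add_sum_erase _ _ (Finset.mem_univ i)]
      simp only [Submodule.coe_subtype]
      abel
    rw [e1]
    refine K.add_mem ?_ (Submodule.sum_mem _ fun j hj =>
      ho i j (Finset.ne_of_mem_erase hj).symm _ (x j).2)
    rw [← neg_sub]
    exact K.neg_mem (hid i _ (x i).2)
  have hker : LinearMap.ker Φ = K.comap M.subtype := by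
    ext v
    rw [LinearMap.mem_ker]
    constructor
    · intro h
      have h2 : ∀ i, e i v ∈ K := by
        intro i
        have h3 := congrFun h i
        change Submodule.Quotient.mk v = (0 : ↥M ⧸ (N i).comap M.subtype) at h3
        rw [Submodule.Quotient.mk_eq_zero] at h3
        exact (hN i v.1 v.2).1 h3
      have h3 := K.add_mem (h1 v.1 v.2) (Submodule.sum_mem _ fun i _ => h2 i :
        ∑ i, e i v ∈ K)
      rw [sub_add_cancel] at h3
      exact h3
    · intro h
      funext i
      change Submodule.Quotient.mk v = (0 : ↥M ⧸ (N i).comap M.subtype)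
      rw [Submodule.Quotient.mk_eq_zero]
      exact (hN i v.1 v.2).2 (heK i _ h)
  have h3 := (Φ.quotKerEquivOfSurjective hsurj).finrank_eq
  rw [hker, Module.finrank_pi_fintype] at h3
  exact h3

end quot

end Vale.Agent.P190.D
end
end

section

section

/-! Section 4, file P6n3: arithmetic of linear functions. -/

set_option autoImplicit false
set_option linter.unusedSectionVars false

open MvPolynomial Filter

namespace Vale.Agent.P190.D

theorem P6n3_total {I : Type} [Fintype I] [DecidableEq I] (p : ℕ) :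
    ∑ u : I → Fin p, (∑ a, ((u a : ℕ) : ℚ)) =
      (Fintype.card I : ℚ) * ((p : ℚ) - 1) * (p : ℚ) ^ (Fintype.card I) / 2 := by
  have h1 : ∑ u : I → Fin p, (∑ a, ((u a : ℕ) : ℚ)) =
      ∑ u : I → Fin p, (∑ a, (((Fin.rev (u a) : Fin p) : ℕ) : ℚ)) :=
    (Equiv.sum_comp (Equiv.piCongrRight fun _ : I => (Fin.revPerm : Equiv.Perm (Fin p)))
      (fun u : I → Fin p => (∑ a, ((u a : ℕ) : ℚ)))).symm
  have h2 : ∀ x : Fin p, (((Fin.rev x : Fin p) : ℕ) : ℚ) = (p : ℚ) - 1 - ((x : ℕ) : ℚ) := by
    intro x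
    rw [Fin.val_rev, Nat.cast_sub (by omega)]
    push_cast
    ring
  have h3 : ∑ u : I → Fin p, (∑ a, (((Fin.rev (u a) : Fin p) : ℕ) : ℚ)) =
      (Fintype.card I : ℚ) * ((p : ℚ) - 1) * (p : ℚ) ^ (Fintype.card I) -
        ∑ u : I → Fin p, (∑ a, ((u a : ℕ) : ℚ)) := by
    simp_rw [h2, Finset.sum_sub_distrib]
    simp only [Finset.sum_const, Finset.card_univ, nsmul_eq_mul, Fintype.card_pi, Fintype.card_fin, Finset.prod_const, Nat.cast_pow, mul_one, sub_left_inj]
    ring
  linarith only [h1, h3]

theorem P6n3_class {I : Type} [Fintype I] [DecidableEq I] (p : ℕ) [NeZero p]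
    (f : (I → ZMod p) → ℚ) (b : I) (hf : ∀ u c, f (u + Pi.single b c) = f u) :
    (∑ u : I → ZMod p, if ∑ a, u a = 0 then f u else 0) = (∑ u, f u) / p := by
  have hp : (p : ℚ) ≠ 0 := Nat.cast_ne_zero.mpr (NeZero.ne p)
  have h1 : ∑ u, f u = ∑ r : ZMod p, ∑ u : I → ZMod p, if ∑ a, u a = r then f u else 0 := by
    rw [Finset.sum_comm]
    refine Finset.sum_congr rfl fun u _ => ?_
    rw [Finset.sum_ite_eq Finset.univ (∑ a, u a) (fun _ => f u)]
    simp only [Finset.mem_univ, ↓reduceIte]
  have h2 : ∀ r : ZMod p, (∑ u : I → ZMod p, if ∑ a, u a = r then f u else 0) =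
      ∑ u : I → ZMod p, if ∑ a, u a = 0 then f u else 0 := by
    intro r
    rw [← Equiv.sum_comp (Equiv.addRight (Pi.single b r : I → ZMod p))
      (fun u : I → ZMod p => if ∑ a, u a = r then f u else 0)]
    refine Finset.sum_congr rfl fun u _ => ?_
    have h3 : ∑ a, (Equiv.addRight (Pi.single b r : I → ZMod p)) u a = ∑ a, u a + r := by
      simp only [Equiv.coe_addRight, Pi.add_apply, Finset.sum_add_distrib, Finset.sum_pi_single', Finset.mem_univ, ↓reduceIte]
    have h4 : (∑ a, (Equiv.addRight (Pi.single b r : I → ZMod p)) u a = r) ↔ ∑ a, u a = 0 := by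
      rw [h3]; simp only [add_eq_right]
    by_cases h0 : ∑ a, u a = 0
    · rw [if_pos h0, if_pos (h4.2 h0)]
      exact hf u r
    · rw [if_neg h0, if_neg (fun h => h0 (h4.1 h))]
  rw [h1]
  simp_rw [h2]
  simp only [Finset.sum_const, Finset.card_univ, ZMod.card, nsmul_eq_mul]
  field_simp


/-- the class of exponent vectors of total degree divisible by `p` -/
theorem P6n3_cls {I : Type} [Fintype I] [DecidableEq I] (p : ℕ) (hp : 0 < p)
    (hI : 2 ≤ Fintype.card I) (α β : ℚ) :
    (∑ u : I → Fin p, if p ∣ ∑ a, (u a : ℕ) then α + β * ∑ a, ((u a : ℕ) : ℚ) else 0) =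
      (p : ℚ) ^ (Fintype.card I) / p * (α + β * ((Fintype.card I : ℚ) * ((p : ℚ) - 1) / 2)) := by
  obtain ⟨q, rfl⟩ : ∃ q, p = q + 1 := ⟨p - 1, by omega⟩
  have hnt : Nontrivial I := Fintype.one_lt_card_iff_nontrivial.mp hI
  obtain ⟨b0, b1, hb⟩ := exists_pair_ne I
  -- pass to `ZMod`
  have e1 : (∑ u : I → Fin (q + 1), if (q + 1) ∣ ∑ a, (u a : ℕ) then
        α + β * ∑ a, ((u a : ℕ) : ℚ) else 0) =
      ∑ u : I → ZMod (q + 1), if ∑ a, u a = 0 then α + β * ∑ a, ((u a).val : ℚ) else 0 := by
    refine Fintype.sum_equiv (Equiv.refl (I → Fin (q + 1))) _ _ fun u => ?_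
    have h : ((q + 1) ∣ ∑ a, (u a : ℕ)) ↔ (∑ a, (show ZMod (q + 1) from u a) = 0) := by
      rw [← ZMod.natCast_eq_zero_iff, Nat.cast_sum]
      have : ∀ a, (((u a : ℕ) : ZMod (q + 1))) = (show ZMod (q + 1) from u a) := by
        intro a
        exact ZMod.natCast_zmod_val (n := q + 1) (u a)
      simp_rw [this]
    by_cases h0 : (q + 1) ∣ ∑ a, (u a : ℕ)
    · rw [if_pos h0]
      exact (if_pos (h.1 h0)).symm
    · rw [if_neg h0]
      exact (if_neg (fun h1 => h0 (h.2 h1))).symm
  have e2 : (∑ u : I → ZMod (q + 1), if ∑ a, u a = 0 then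
        α + β * ∑ a, ((u a).val : ℚ) else 0) =
      (∑ u : I → ZMod (q + 1), if ∑ a, u a = 0 then α else 0) +
      β * ∑ a, ∑ u : I → ZMod (q + 1), if ∑ a, u a = 0 then ((u a).val : ℚ) else 0 := by
    rw [Finset.sum_comm, Finset.mul_sum, ← Finset.sum_add_distrib]
    refine Finset.sum_congr rfl fun u _ => ?_
    by_cases h0 : ∑ a, u a = 0
    · simp only [if_pos h0]
    · simp only [if_neg h0]
      simp
  have e3 : (∑ u : I → ZMod (q + 1), if ∑ a, u a = 0 then α else 0) =
      (∑ _u : I → ZMod (q + 1), α) / ((q + 1 : ℕ) : ℚ) :=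
    P6n3_class (q + 1) (fun _ => α) b0 (fun _ _ => rfl)
  have e4 : ∀ a, (∑ u : I → ZMod (q + 1), if ∑ a, u a = 0 then ((u a).val : ℚ) else 0) =
      (∑ u : I → ZMod (q + 1), ((u a).val : ℚ)) / ((q + 1 : ℕ) : ℚ) := by
    intro a
    obtain ⟨b, hba⟩ : ∃ b : I, b ≠ a := exists_ne a
    refine P6n3_class (q + 1) (fun u => ((u a).val : ℚ)) b ?_
    intro u c
    simp only [Pi.add_apply, Pi.single_eq_of_ne hba.symm, add_zero, ZMod.natCast_val]
  have e5 : ∑ a, ∑ u : I → ZMod (q + 1), ((u a).val : ℚ) =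
      (Fintype.card I : ℚ) * (((q + 1 : ℕ) : ℚ) - 1) * ((q + 1 : ℕ) : ℚ) ^ (Fintype.card I) / 2 := by
    rw [Finset.sum_comm]
    exact P6n3_total (I := I) (q + 1)
  rw [e1, e2, e3]
  simp_rw [e4]
  rw [← Finset.sum_div, e5]
  simp only [Finset.sum_const, Finset.card_univ, Fintype.card_fun, ZMod.card, nsmul_eq_mul]
  push_cast
  ring


/-- 4.5c arithmetic: comparison of the two linear functions -/
theorem curve_arith (p m : ℕ) (hp : 2 < p) (hm : 4 ≤ m) {I J : Type} [Fintype I] [Fintype J]
    [DecidableEq I] [DecidableEq J] (hI : Fintype.card I = m) (hJ : Fintype.card J = m - 3) (C X : ℤ → ℤ) (ε φ ε' φ' : ℤ)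
    (hC : ∀ᶠ n : ℤ in atTop, C n = ε * (n + 1) + φ) (hX : ∀ᶠ n : ℤ in atTop, X n = ε' * (n + 1) + φ')
    (h : ∀ᶠ l : ℤ in atTop, ∑ u : I → Fin p, (if (p : ℤ) ∣ l - ∑ a, ((u a : ℕ) : ℤ) then
        C ((l - ∑ a, ((u a : ℕ) : ℤ)) / p) else 0) ≤
      ∑ i : J → Fin p, X (l - 2 * ∑ j, ((i j : ℕ) : ℤ))) :
    p * ε ≤ ε' ∧ (ε' = p * ε → (p : ℚ) ^ 2 * (ε * ((((m : ℚ) - 6) / 2) + 1) + φ) ≤
      ε' * ((((m : ℚ) - 6) / 2) + 1) + φ') := by
  obtain ⟨nC, hC⟩ := eventually_atTop.1 hC
  obtain ⟨nX, hX⟩ := eventually_atTop.1 hX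
  obtain ⟨nh, h⟩ := eventually_atTop.1 h
  have hp0 : (0 : ℚ) < p := by exact_mod_cast (by omega : 0 < p)
  have hpz : (0 : ℤ) < p := by exact_mod_cast (by omega : 0 < p)
  have hp1 : (1 : ℤ) ≤ p := hpz
  -- bounds on the sums
  have bI : ∀ u : I → Fin p, (0 : ℤ) ≤ ∑ a, ((u a : ℕ) : ℤ) ∧ ∑ a, ((u a : ℕ) : ℤ) ≤ m * p := by
    intro u
    constructor
    · exact Finset.sum_nonneg fun a _ => Int.natCast_nonneg _
    · calc ∑ a, ((u a : ℕ) : ℤ) ≤ ∑ _a : I, (p : ℤ) :=
            Finset.sum_le_sum fun a _ => by exact_mod_cast (u a).2.le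
        _ = m * p := by simp only [Finset.sum_const, Finset.card_univ, hI, Int.nsmul_eq_mul]
  have bJ : ∀ u : J → Fin p, (0 : ℤ) ≤ ∑ a, ((u a : ℕ) : ℤ) ∧ ∑ a, ((u a : ℕ) : ℤ) ≤ m * p := by
    intro u
    constructor
    · exact Finset.sum_nonneg fun a _ => Int.natCast_nonneg _
    · calc ∑ a, ((u a : ℕ) : ℤ) ≤ ∑ _a : J, (p : ℤ) :=
            Finset.sum_le_sum fun a _ => by exact_mod_cast (u a).2.le
        _ = (m - 3 : ℕ) * p := by simp only [Finset.sum_const, Finset.card_univ, hJ, Int.nsmul_eq_mul]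
        _ ≤ m * p := by
            have : ((m - 3 : ℕ) : ℤ) ≤ m := by exact_mod_cast Nat.sub_le m 3
            exact mul_le_mul_of_nonneg_right this hpz.le
  set K : ℚ := (p : ℚ) ^ (m - 3) with hK
  have hKpos : 0 < K := pow_pos hp0 _
  have hpm : (p : ℚ) ^ m = K * p ^ 3 := by
    rw [hK, ← pow_add]
    congr 1
    omega
  -- the inequality of linear functions
  have key : ∀ t : ℤ, |nC| + |nX| + |nh| + m + 2 * m * p + 1 ≤ t →
      (p : ℚ) ^ 2 * (ε * (t + 1) + φ) - ε * m * (p - 1) * p / 2 ≤
        ε' * (p * t + 1) + φ' - ε' * ((m : ℚ) - 3) * (p - 1) := by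
    intro t ht
    have a1 := neg_abs_le nC
    have a1' := le_abs_self nC
    have a2 := neg_abs_le nX
    have a2' := le_abs_self nX
    have a3 := neg_abs_le nh
    have a3' := le_abs_self nh
    have hmp : (0 : ℤ) ≤ m * p := by positivity
    have ht0 : 0 ≤ t := by
      have : (0 : ℤ) ≤ m := Int.natCast_nonneg m
      linarith only [ht, a1, a1', a2, a2', a3, a3', hmp]
    have hpt : t ≤ p * t := le_mul_of_one_le_left ht0 hp1
    have hm0 : (0 : ℤ) ≤ m := Int.natCast_nonneg m
    have hh := h (p * t) (by linarith only [hpt, hmp, a3', a2', a2, a1', a1, ht])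
    -- left side
    have hL : ((∑ u : I → Fin p, (if (p : ℤ) ∣ p * t - ∑ a, ((u a : ℕ) : ℤ) then
        C ((p * t - ∑ a, ((u a : ℕ) : ℤ)) / p) else 0) : ℤ) : ℚ) =
        K * ((p : ℚ) ^ 2 * (ε * (t + 1) + φ) - ε * m * (p - 1) * p / 2) := by
      have e : ((∑ u : I → Fin p, (if (p : ℤ) ∣ p * t - ∑ a, ((u a : ℕ) : ℤ) then
          C ((p * t - ∑ a, ((u a : ℕ) : ℤ)) / p) else 0) : ℤ) : ℚ) =
          ∑ u : I → Fin p, (if p ∣ ∑ a, (u a : ℕ) then
            ((ε : ℚ) * (t + 1) + φ) + (-(ε : ℚ) / p) * ∑ a, ((u a : ℕ) : ℚ) else 0) := by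
        rw [Int.cast_sum]
        refine Finset.sum_congr rfl fun u _ => ?_
        have hd : ((p : ℤ) ∣ p * t - ∑ a, ((u a : ℕ) : ℤ)) ↔ p ∣ ∑ a, (u a : ℕ) := by
          rw [dvd_sub_right (Dvd.intro t rfl)]
          rw [← Nat.cast_sum, Int.natCast_dvd_natCast]
        by_cases h0 : p ∣ ∑ a, (u a : ℕ)
        · rw [if_pos h0, if_pos (hd.2 h0)]
          obtain ⟨s, hs⟩ := h0
          have hs' : ∑ a, ((u a : ℕ) : ℤ) = p * s := by
            rw [← Nat.cast_sum, hs]; push_cast; ring
          have hs'' : ∑ a, ((u a : ℕ) : ℚ) = p * s := by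
            rw [← Nat.cast_sum, hs]; push_cast; ring
          have hb := (bI u).2
          rw [hs'] at hb
          have hsm : (s : ℤ) ≤ m := by
            by_contra hcon
            push Not at hcon
            have h7 := mul_le_mul_of_nonneg_left (show (m : ℤ) + 1 ≤ s from hcon) hpz.le
            linarith only [h7, hb, hpz]
          have hdiv : (p * t - (p : ℤ) * s) / p = t - s := by
            rw [← mul_sub]
            exact Int.mul_ediv_cancel_left _ hpz.ne'
          rw [hs', hdiv, hC (t - s) (by linarith only [ht, a1', a2, a2', a3, a3', hmp, hsm]), hs'']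
          push_cast
          field_simp
          ring
        · rw [if_neg h0, if_neg (fun h1 => h0 (hd.1 h1))]
          simp
      rw [e, P6n3_cls p (by (clear * - hp; omega)) (by (clear * - hm hI; omega)), hI, hpm]
      field_simp
      ring
    have hR : ((∑ i : J → Fin p, X (p * t - 2 * ∑ j, ((i j : ℕ) : ℤ)) : ℤ) : ℚ) =
        K * (ε' * (p * t + 1) + φ' - ε' * ((m : ℚ) - 3) * (p - 1)) := by
      have e : ((∑ i : J → Fin p, X (p * t - 2 * ∑ j, ((i j : ℕ) : ℤ)) : ℤ) : ℚ) =
          ∑ i : J → Fin p, (((ε' : ℚ) * (p * t + 1) + φ') - 2 * ε' * ∑ j, ((i j : ℕ) : ℚ)) := by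
        rw [Int.cast_sum]
        refine Finset.sum_congr rfl fun u _ => ?_
        have hb := (bJ u).2
        rw [hX _ (by linarith only [ht, a1, a1', a2', a3, a3', hpt, hb])]
        push_cast
        ring
      rw [e, Finset.sum_sub_distrib, ← Finset.mul_sum, P6n3_total, hJ]
      have h3 : ((m - 3 : ℕ) : ℚ) = (m : ℚ) - 3 := by
        rw [Nat.cast_sub (by (clear * - hm hI; omega))]; norm_num
      rw [h3]
      simp only [Finset.sum_const, Finset.card_univ, Fintype.card_pi, Fintype.card_fin, Finset.prod_const, hJ, smul_add, nsmul_eq_mul, Nat.cast_pow]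
      ring
    have hq : ((∑ u : I → Fin p, (if (p : ℤ) ∣ p * t - ∑ a, ((u a : ℕ) : ℤ) then
        C ((p * t - ∑ a, ((u a : ℕ) : ℤ)) / p) else 0) : ℤ) : ℚ) ≤
        ((∑ i : J → Fin p, X (p * t - 2 * ∑ j, ((i j : ℕ) : ℤ)) : ℤ) : ℚ) := by
      exact_mod_cast hh
    rw [hL, hR] at hq
    exact le_of_mul_le_mul_left hq hKpos
  have hpε : (p : ℤ) * ε ≤ ε' := by
    by_contra hcon
    push Not at hcon
    have hcon' : (ε' : ℚ) + 1 ≤ p * ε := by exact_mod_cast hcon
    -- choose t large
    obtain ⟨t, ht⟩ : ∃ t : ℤ, |nC| + |nX| + |nh| + m + 2 * m * p + 1 ≤ t ∧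
        (|(p : ℚ) ^ 2 * (ε + φ) - ε * m * (p - 1) * p / 2| +
          |ε' + φ' - ε' * ((m : ℚ) - 3) * (p - 1)| + 1 : ℚ) ≤ t := by
      obtain ⟨t1, ht1⟩ := exists_nat_ge (|(p : ℚ) ^ 2 * (ε + φ) - ε * m * (p - 1) * p / 2| +
          |ε' + φ' - ε' * ((m : ℚ) - 3) * (p - 1)| + 1 : ℚ)
      refine ⟨max (|nC| + |nX| + |nh| + m + 2 * m * p + 1) t1, le_max_left _ _, ht1.trans ?_⟩
      have : (t1 : ℤ) ≤ max (|nC| + |nX| + |nh| + m + 2 * m * p + 1) t1 := le_max_right _ _
      exact_mod_cast this
    have hk := key t ht.1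
    have ht2 := ht.2
    have ht0 : (0 : ℚ) ≤ t := by
      linarith only [ht, abs_nonneg ((p : ℚ) ^ 2 * (ε + φ) - ε * m * (p - 1) * p / 2), abs_nonneg (ε' + φ' - ε' * ((m : ℚ) - 3) * (p - 1) : ℚ)]
    have b1 := neg_abs_le ((p : ℚ) ^ 2 * (ε + φ) - ε * m * (p - 1) * p / 2)
    have b2 := le_abs_self (ε' + φ' - ε' * ((m : ℚ) - 3) * (p - 1) : ℚ)
    have hpq1 : (1 : ℚ) ≤ p := by exact_mod_cast hp1
    have b3 : (p : ℚ) * t * (ε' + 1) ≤ p * t * (p * ε) :=
      mul_le_mul_of_nonneg_left hcon' (by (clear * - hp ht0; positivity))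
    have b4 : (t : ℚ) ≤ p * t := le_mul_of_one_le_left ht0 hpq1
    linarith only [hk, b1, b2, b3, b4, ht2]
  refine ⟨hpε, fun he => ?_⟩
  have heq : (ε' : ℚ) = p * ε := by exact_mod_cast he
  have hk := key (|nC| + |nX| + |nh| + m + 2 * m * p + 1) le_rfl
  rw [heq] at hk ⊢
  linarith only [hk]

end Vale.Agent.P190.D
end
end

section

section

/-! Section 6, file Q2: the ring. -/

set_option autoImplicit false
set_option linter.unusedSectionVars false

open MvPolynomial Filter

namespace Vale.Agent.P190.D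

variable {K : Type} [Field K]

theorem r2_field {Ω S : Type} [Field Ω] [Fintype S] (P Q V : S → Ω)
    (hPQ : ∀ t, P t * Q t = V t ^ 2) (hP : ∀ t, P t ≠ 0) {γ : Ω} (hγ : γ ^ 2 = ∏ t, P t)
    (ε ε' : S → Bool) :
    ((∏ t, if ε t then P t else V t) / (∏ t, P t) * γ) *
      ((∏ t, if ε' t then P t else V t) / (∏ t, P t) * γ) =
    ∏ t, if ε t = ε' t then (if ε t then P t else Q t) else V t := by
  have h1 : ∏ t, (if ε t = ε' t then (if ε t then P t else Q t) else V t) =
      ∏ t, ((if ε t then P t else V t) * (if ε' t then P t else V t) / P t) := by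
    refine Finset.prod_congr rfl fun t _ => ?_
    have h2 := hP t
    have h3 := hPQ t
    rw [eq_div_iff h2]
    cases ε t <;> cases ε' t <;> simp <;> first | ring1 | linear_combination h3
  have hPi : ∏ t, P t ≠ 0 := Finset.prod_ne_zero_iff.2 fun t _ => hP t
  rw [h1, Finset.prod_div_distrib, Finset.prod_mul_distrib]
  generalize (∏ t, if ε t then P t else V t) = a
  generalize (∏ t, if ε' t then P t else V t) = b
  rw [show a / (∏ t, P t) * γ * (b / (∏ t, P t) * γ) = a * b / (∏ t, P t) / (∏ t, P t) * γ ^ 2 by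
    ring, hγ]
  field_simp

/-- the quadratic form of a line in the power series ring -/
noncomputable def r2_Q (X : Arr K) (x : X.I) : Bh K :=
  ∑ i, (MvPowerSeries.C (X.l x i) : Bh K) * MvPowerSeries.X i ^ 2

theorem r2_Q_ne (X : Arr K) (x : X.I) (hx : X.l x ≠ 0) : r2_Q X x ≠ 0 := by
  classical
  intro h
  apply hx
  funext i
  have h1 : MvPowerSeries.coeff (Finsupp.single i 2) (r2_Q X x) = X.l x i := by
    unfold r2_Q
    rw [map_sum, Finset.sum_eq_single i]
    · rw [MvPowerSeries.coeff_C_mul, MvPowerSeries.coeff_X_pow, if_pos rfl, mul_one]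
    · intro j _ hj
      rw [MvPowerSeries.coeff_C_mul, MvPowerSeries.coeff_X_pow, if_neg, mul_zero]
      intro h2
      have h3 := DFunLike.congr_fun h2 j
      rw [Finsupp.single_eq_same, Finsupp.single_apply, if_neg (Ne.symm hj)] at h3
      omega
    · intro h2
      exact absurd (Finset.mem_univ i) h2
  rw [h, map_zero] at h1
  rw [← h1]
  rfl

theorem r2_Q_b (X : Arr K) (i : Fin 3) : r2_Q X (X.b i) = MvPowerSeries.X i ^ 2 := by
  classical
  unfold r2_Q
  rw [Finset.sum_eq_single i]
  · rw [X.l_b, Pi.single_eq_same, map_one, one_mul]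
  · intro j _ hj
    rw [X.l_b, Pi.single_eq_of_ne hj, map_zero, zero_mul]
  · intro h2
    exact absurd (Finset.mem_univ i) h2

theorem r2_rel (X : Arr K) (t : X.S) :
    MvPowerSeries.C (X.δ t) ^ 2 * r2_Q X (X.d t) - MvPowerSeries.C (X.η t) ^ 2 * r2_Q X (X.h t) =
      MvPowerSeries.C (X.ν t) ^ 2 * r2_Q X (X.v t) := by
  unfold r2_Q
  rw [Finset.mul_sum, Finset.mul_sum, Finset.mul_sum, ← Finset.sum_sub_distrib]
  refine Finset.sum_congr rfl fun i _ => ?_
  have h := congrFun (X.rel t) i
  simp only [Pi.sub_apply, Pi.smul_apply, smul_eq_mul] at h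
  have h' := congrArg (MvPowerSeries.C (σ := Fin 3)) h
  simp only [map_sub, map_mul, map_pow] at h'
  linear_combination MvPowerSeries.X i ^ 2 * h'

/-- R2: the ring `R`, a module-finite extension domain of the power series ring -/
theorem exists_ring (X : Arr K) : ∃ (R : Type) (_ : CommRing R) (_ : IsDomain R)
    (_ : Algebra (Bh K) R) (D : RData X R), Module.Finite (Bh K) R ∧
      Function.Injective (algebraMap (Bh K) R) ∧
      Algebra.adjoin (Bh K) (Set.range D.s ∪ Set.range D.G) = ⊤ := by
  classical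
  let Ω : Type := AlgebraicClosure (FractionRing (Bh K))
  let : Field Ω := inferInstanceAs (Field (AlgebraicClosure (FractionRing (Bh K))))
  let : Algebra (Bh K) Ω :=
    inferInstanceAs (Algebra (Bh K) (AlgebraicClosure (FractionRing (Bh K))))
  have : IsAlgClosed Ω :=
    inferInstanceAs (IsAlgClosed (AlgebraicClosure (FractionRing (Bh K))))
  have hinj : Function.Injective (algebraMap (Bh K) Ω) := by
    have h1 : (algebraMap (Bh K) Ω) = (algebraMap (FractionRing (Bh K))
        (AlgebraicClosure (FractionRing (Bh K)))).comp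
        (algebraMap (Bh K) (FractionRing (Bh K))) := by
      exact IsScalarTower.algebraMap_eq _ _ _
    rw [h1]
    exact (algebraMap (FractionRing (Bh K))
      (AlgebraicClosure (FractionRing (Bh K)))).injective.comp (IsFractionRing.injective _ _)
  have hs : ∀ x, ∃ a : Ω, a ^ 2 = algebraMap (Bh K) Ω (r2_Q X x) ∧
      ∀ i, x = X.b i → a = algebraMap (Bh K) Ω (MvPowerSeries.X i) := by
    intro x
    by_cases hx : ∃ i, x = X.b i
    · obtain ⟨i, rfl⟩ := hx
      refine ⟨algebraMap (Bh K) Ω (MvPowerSeries.X i), ?_, ?_⟩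
      · rw [r2_Q_b, map_pow]
      · intro j hj
        rw [X.b_inj hj]
    · obtain ⟨a, ha⟩ := IsAlgClosed.exists_pow_nat_eq (algebraMap (Bh K) Ω (r2_Q X x))
        (n := 2) (by norm_num)
      exact ⟨a, ha, fun i hi => absurd ⟨i, hi⟩ hx⟩
  choose s hs1 hs2 using hs
  let c : K → Ω := fun a => algebraMap (Bh K) Ω (MvPowerSeries.C a)
  let P : X.S → Ω := fun t => c (X.δ t) * s (X.d t) + c (X.η t) * s (X.h t)
  let Q : X.S → Ω := fun t => c (X.δ t) * s (X.d t) - c (X.η t) * s (X.h t)
  let V : X.S → Ω := fun t => c (X.ν t) * s (X.v t)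
  have hPQ : ∀ t, P t * Q t = V t ^ 2 := by
    intro t
    have h1 := congrArg (algebraMap (Bh K) Ω) (r2_rel X t)
    simp only [map_sub, map_mul, map_pow, ← hs1] at h1
    simp only [P, Q, V, c]
    linear_combination h1
  have hV : ∀ t, V t ^ 2 ≠ 0 := by
    intro t
    have h1 : V t ^ 2 = algebraMap (Bh K) Ω (MvPowerSeries.C (X.ν t) ^ 2 * r2_Q X (X.v t)) := by
      rw [map_mul, map_pow, ← hs1, ← mul_pow]
    rw [h1]
    intro h2
    have h3 := hinj (h2.trans (map_zero _).symm)
    rcases mul_eq_zero.1 h3 with h4 | h4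
    · have h5 := pow_eq_zero_iff (two_ne_zero) |>.1 h4
      have h6 : X.ν t = 0 := by
        have := congrArg MvPowerSeries.constantCoeff h5
        rwa [MvPowerSeries.constantCoeff_C, map_zero] at this
      exact X.ν_ne t h6
    · exact r2_Q_ne X _ (X.l_ne_zero _) h4
  have hP : ∀ t, P t ≠ 0 := by
    intro t h
    apply hV t
    rw [← hPQ t, h, zero_mul]
  obtain ⟨γ, hγ⟩ := IsAlgClosed.exists_pow_nat_eq (∏ t, P t) (n := 2) (by norm_num)
  let G : (X.S → Bool) → Ω := fun ε => (∏ t, if ε t then P t else V t) / (∏ t, P t) * γ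
  have hGG : ∀ ε ε', G ε * G ε' = ∏ t, if ε t = ε' t then (if ε t then P t else Q t) else V t :=
    fun ε ε' => r2_field P Q V hPQ hP hγ ε ε'
  let gens : Set Ω := Set.range s ∪ Set.range G
  let R := Algebra.adjoin (Bh K) gens
  have hsR : ∀ x, s x ∈ R := fun x => Algebra.subset_adjoin (Or.inl ⟨x, rfl⟩)
  have hGR : ∀ ε, G ε ∈ R := fun ε => Algebra.subset_adjoin (Or.inr ⟨ε, rfl⟩)
  have his : ∀ x, IsIntegral (Bh K) (s x) := by
    intro x
    apply IsIntegral.of_pow (n := 2) (by norm_num)
    rw [hs1]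
    exact isIntegral_algebraMap
  have hic : ∀ a, IsIntegral (Bh K) (c a) := fun a => isIntegral_algebraMap
  have hiP : ∀ t, IsIntegral (Bh K) (P t) := fun t =>
    ((hic _).mul (his _)).add ((hic _).mul (his _))
  have hiQ : ∀ t, IsIntegral (Bh K) (Q t) := fun t =>
    ((hic _).mul (his _)).sub ((hic _).mul (his _))
  have hiG : ∀ ε, IsIntegral (Bh K) (G ε) := by
    intro ε
    apply IsIntegral.of_pow (n := 2) (by norm_num)
    rw [sq, hGG]
    refine IsIntegral.prod _ fun t _ => ?_
    rw [if_pos rfl]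
    split_ifs
    · exact hiP t
    · exact hiQ t
  have hgen : ∀ x ∈ gens, IsIntegral (Bh K) x := by
    rintro _ (⟨x, rfl⟩ | ⟨ε, rfl⟩)
    · exact his x
    · exact hiG ε
  have hfin : gens.Finite := (Set.finite_range s).union (Set.finite_range G)
  have hvc : ∀ a : K, R.val (algebraMap (Bh K) R (MvPowerSeries.C a)) = c a := fun a => rfl
  have hval : Function.Injective R.val := Subtype.val_injective
  let D : RData X R :=
    { s := fun x => ⟨s x, hsR x⟩
      G := fun ε => ⟨G ε, hGR ε⟩
      s_b := fun i => Subtype.ext (hs2 _ i rfl)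
      s_sq := fun x => Subtype.ext (hs1 x)
      pi_G := fun ε ε' => by
        apply hval
        rw [map_mul, map_mul, map_prod, map_prod]
        simp only [apply_ite R.val, map_add, map_mul, hvc]
        change (∏ t, if ε t then P t else V t) *
          ((∏ t, if ε' t then P t else V t) / (∏ t, P t) * γ) =
          (∏ t, if ε' t then P t else V t) * ((∏ t, if ε t then P t else V t) / (∏ t, P t) * γ)
        ring
      G_G := fun ε ε' => by
        apply hval
        rw [map_mul, map_prod]
        simp only [apply_ite R.val, map_add, map_mul, hvc, map_sub]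
        exact hGG ε ε' }
  refine ⟨R, inferInstance, inferInstance, inferInstance, D,
    Algebra.finite_adjoin_of_finite_of_isIntegral hfin hgen, ?_, ?_⟩
  · intro a b hab
    exact hinj (congrArg Subtype.val hab)
  · have h1 : Set.range D.s ∪ Set.range D.G = ((↑) : R → Ω) ⁻¹' gens := by
      ext x
      constructor
      · rintro (⟨y, rfl⟩ | ⟨ε, rfl⟩)
        · exact Or.inl ⟨y, rfl⟩
        · exact Or.inr ⟨ε, rfl⟩
      · rintro (⟨y, hy⟩ | ⟨ε, hy⟩)
        · exact Or.inl ⟨y, Subtype.ext hy⟩
        · exact Or.inr ⟨ε, Subtype.ext hy⟩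
    rw [h1]
    exact Algebra.adjoin_adjoin_coe_preimage

end Vale.Agent.P190.D
end
end

section

section

/-! File N1: finite local extensions of a complete regular local ring; small Cohen-Macaulay
modules over them are free over the regular ring. -/

set_option autoImplicit false
set_option linter.unusedSectionVars false

namespace Vale.Agent.P190.D

open IsLocalRing RingTheory.Sequence

/-- `xs` is a regular system of parameters of the local ring `B`. -/
structure IsPar (B : Type) [CommRing B] [IsLocalRing B] (xs : List B) : Prop where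
  reg : IsWeaklyRegular B xs
  gen : Ideal.ofList xs = maximalIdeal B

variable {B : Type} [CommRing B] [IsLocalRing B] {xs : List B}

section

variable [IsNoetherianRing B] {R : Type} [CommRing R] [IsLocalRing R] [Algebra B R]
  [Module.Finite B R]

theorem n1_eq_maximalIdeal (h : IsPar B xs) (q : Ideal R) (hqp : q.IsPrime)
    (hx : ∀ x ∈ xs.map (algebraMap B R), x ∈ q) : q = maximalIdeal R := by
  have : Algebra.IsIntegral B R := Algebra.IsIntegral.of_finite _ _
  have h1 : maximalIdeal B ≤ q.comap (algebraMap B R) := by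
    rw [← h.gen]
    unfold Ideal.ofList
    rw [Ideal.span_le]
    intro x hx'
    exact hx _ (List.mem_map_of_mem hx')
  have h2 : (q.comap (algebraMap B R)).IsMaximal := by
    have h3 := (maximalIdeal.isMaximal B).eq_of_le
      (Ideal.IsPrime.comap (algebraMap B R)).ne_top h1
    rw [← h3]
    exact maximalIdeal.isMaximal _
  exact IsLocalRing.eq_maximalIdeal (Ideal.isMaximal_of_isIntegral_of_isMaximal_comap q h2)

theorem n1_mem_maximalIdeal (h : IsPar B xs) :
    ∀ x ∈ xs.map (algebraMap B R), x ∈ maximalIdeal R := by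
  have hint : Algebra.IsIntegral B R := Algebra.IsIntegral.of_finite _ _
  intro x hx
  obtain ⟨y, hy, rfl⟩ := List.mem_map.mp hx
  have h1 : (maximalIdeal R).comap (algebraMap B R) = maximalIdeal B := by
    apply IsLocalRing.eq_maximalIdeal
    exact Ideal.isMaximal_comap_of_isIntegral_of_isMaximal (maximalIdeal R)
  have h2 : y ∈ maximalIdeal B := by
    rw [← h.gen]
    exact Ideal.subset_span hy
  rw [← h1] at h2
  exact h2

end

theorem n1_ringKrullDim_B [IsNoetherianRing B] (h : IsPar B xs) :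
    ringKrullDim B = (xs.length : ℕ) := by
  refine dim_eq_of_regular_parameters (R := B) B ?_ xs ?_ ?_
  · rw [eq_bot_iff]
    intro r hr
    rw [Module.mem_annihilator] at hr
    have := hr (1 : B)
    rw [smul_eq_mul, mul_one] at this
    exact this
  · apply IsRegular.of_isWeaklyRegular_of_mem_maximalIdeal B _ h.reg
    intro r hr
    rw [← h.gen]
    exact Ideal.subset_span hr
  · intro q hq hx
    symm
    apply (maximalIdeal.isMaximal B).eq_of_le hq.ne_top
    rw [← h.gen]
    unfold Ideal.ofList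
    rw [Ideal.span_le]
    exact hx

variable [IsNoetherianRing B] {R : Type} [CommRing R] [IsDomain R] [IsLocalRing R] [Algebra B R]
  [Module.Finite B R]

/-- the dimension of a finite extension -/
theorem n1_ringKrullDim (h : IsPar B xs) (hinj : Function.Injective (algebraMap B R)) :
    ringKrullDim R = (xs.length : ℕ) := by
  have hN : IsNoetherianRing R := IsNoetherianRing.of_finite B R
  have hint : Algebra.IsIntegral B R := Algebra.IsIntegral.of_finite _ _
  apply le_antisymm
  · classical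
    rw [← IsLocalRing.maximalIdeal_height_eq_ringKrullDim]
    let s : Finset R := (xs.map (algebraMap B R)).toFinset
    have hmin : maximalIdeal R ∈ (Ideal.span (s : Set R)).minimalPrimes := by
      refine ⟨⟨inferInstance, ?_⟩, ?_⟩
      · rw [Ideal.span_le]
        intro y hy
        simp only [s, List.coe_toFinset, Set.mem_ofPred_eq] at hy
        exact n1_mem_maximalIdeal h y hy
      · rintro Q ⟨hQp, hQ⟩ _
        rw [n1_eq_maximalIdeal h Q hQp (by
          intro x hx
          apply hQ
          apply Ideal.subset_span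
          simp only [s, List.coe_toFinset, Set.mem_ofPred_eq]
          exact hx)]
    have h6 := Ideal.height_le_card_of_mem_minimalPrimes_span_finset hmin
    have h7 : (s.card : ℕ∞) ≤ (xs.length : ℕ∞) := by
      have : s.card ≤ xs.length := by
        refine le_trans (List.toFinset_card_le _) ?_
        rw [List.length_map]
      exact_mod_cast this
    exact WithBot.coe_le_coe.mpr (h6.trans h7)
  · rw [← n1_ringKrullDim_B h]
    unfold ringKrullDim Order.krullDim
    apply iSup_le
    intro l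
    have hP : (RingHom.ker (algebraMap B R)) ≤ (RelSeries.head l).asIdeal := by
      rw [(RingHom.injective_iff_ker_eq_bot _).mp hinj]
      exact bot_le
    obtain ⟨P, hPp, hPc⟩ := Ideal.exists_ideal_over_prime_of_isIntegral_of_isDomain
      (RelSeries.head l).asIdeal hP
    have : P.LiesOver (RelSeries.head l).asIdeal := ⟨hPc.symm⟩
    obtain ⟨L, hL, -, -⟩ := Ideal.exists_ltSeries_of_hasGoingUp l P
    rw [← hL]
    exact le_iSup (fun p : LTSeries (PrimeSpectrum R) => ((p.length : ℕ) : WithBot ℕ∞)) L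

/-- A small Cohen-Macaulay module over `R` is finite free over the regular ring `B`. -/
theorem n1_free_of_isSmallCM (h : IsPar B xs) (hinj : Function.Injective (algebraMap B R))
    (M : Type) [AddCommGroup M] [Module R M] [Module B M] [IsScalarTower B R M]
    (hM : IsSmallCM R M) : Module.Finite B M ∧ Module.Free B M := by
  have hN : IsNoetherianRing R := IsNoetherianRing.of_finite B R
  obtain ⟨hfin, rs, hrsm, hrs, hlen⟩ := hM
  have hfM : Module.Finite B M := Module.Finite.trans R M
  refine ⟨hfM, ?_⟩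
  have h1 : IsRegular M (xs.map (algebraMap B R)) := by
    apply regular_of_parameters _ M (n1_mem_maximalIdeal h)
    · refine ⟨rs, ?_, hrsm, hrs⟩
      rw [n1_ringKrullDim h hinj] at hlen
      rw [List.length_map]
      exact_mod_cast hlen
    · intro q _ hq
      exact n1_eq_maximalIdeal h q.asIdeal q.isPrime hq
  have h2 : IsWeaklyRegular M xs := by
    rw [← isWeaklyRegular_map_algebraMap_iff R M]
    exact h1.toIsWeaklyRegular
  exact free_of_regular_generators _ B xs M rfl h.gen h2

end Vale.Agent.P190.D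
end
end

section

section

/-! File N4: base change along a retraction. -/

set_option autoImplicit false
set_option linter.unusedSectionVars false

namespace Vale.Agent.P190.D

open IsLocalRing RingTheory.Sequence TensorProduct

theorem n4_noCM {A B S R : Type} [CommRing A] [Nontrivial A] [CommRing B] [IsLocalRing B]
    [IsNoetherianRing B] {xs : List B} (hpar : IsPar B xs)
    (θ : A →+* B) (π : B →+* A) (hπ : ∀ a, π (θ a) = a)
    [CommRing S] [Algebra A S] [CommRing R] [IsDomain R] [IsLocalRing R] [Algebra B R]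
    [Module.Finite B R] (hinj : Function.Injective (algebraMap B R))
    (ψ : S →+* R) (hψ : ∀ a, ψ (algebraMap A S a) = algebraMap B R (θ a))
    (hno : ∀ (M : Type) [AddCommGroup M] [Module S M] [Module A M] [IsScalarTower A S M]
      [Module.Free A M] [Module.Finite A M] [Nontrivial M], False)
    (M : Type) [AddCommGroup M] [Module R M] : ¬ IsSmallCM R M := by
  intro hM
  let _ : Module B M := Module.compHom M (algebraMap B R)
  have hBR : ∀ (b : B) (x : M), b • x = algebraMap B R b • x := fun b x => rfl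
  have : IsScalarTower B R M := ⟨fun a b x => by rw [Algebra.smul_def, mul_smul]; rfl⟩
  obtain ⟨h1, h2⟩ := n1_free_of_isSmallCM hpar hinj M hM
  have hnt : Nontrivial M := by
    obtain ⟨-, rs, -, hrs, -⟩ := hM
    exact hrs.nontrivial
  let _ : Algebra B A := π.toAlgebra
  have hπ' : ∀ b : B, algebraMap B A b = π b := fun b => rfl
  let f : S →+* Module.End A (A ⊗[B] M) :=
    ((Module.End.baseChangeHom B A M).toRingHom.comp
      (Algebra.lsmul B B M : R →ₐ[B] Module.End B M).toRingHom).comp ψ
  have hf : ∀ (s : S) (a : A) (x : M), f s (a ⊗ₜ[B] x) = a ⊗ₜ[B] (ψ s • x) := fun s a x => rfl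
  let _ : Module S (A ⊗[B] M) := Module.compHom _ f
  have hS : ∀ (s : S) (x : A ⊗[B] M), s • x = f s x := fun s x => rfl
  have hA : ∀ (a : A) (x : A ⊗[B] M), f (algebraMap A S a) x = a • x := by
    intro a x
    induction x with
    | zero => rw [map_zero, smul_zero]
    | tmul c m =>
      rw [hf, hψ, ← hBR, ← TensorProduct.smul_tmul, Algebra.smul_def, hπ', hπ,
        TensorProduct.smul_tmul', smul_eq_mul]
    | add x y hx hy => rw [map_add, smul_add, hx, hy]
  have : IsScalarTower A S (A ⊗[B] M) := ⟨fun a s x => by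
    rw [Algebra.smul_def, hS, hS, map_mul, Module.End.mul_apply, hA]⟩
  have : Nontrivial (A ⊗[B] M) := by
    let b := Module.Free.chooseBasis B M
    obtain ⟨i⟩ := b.index_nonempty
    exact ⟨⟨(b.baseChange A) i, 0, (b.baseChange A).ne_zero i⟩⟩
  exact hno (A ⊗[B] M)

end Vale.Agent.P190.D
end
end

section

section

/-! Section 4, file P4f, auxiliary: the abstract node analysis. -/

set_option autoImplicit false
set_option linter.unusedSectionVars false

open MvPolynomial Filter

namespace Vale.Agent.P190.D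

variable {k R V : Type} [Field k] [CommRing R] [Algebra k R] [AddCommGroup V] [Module k V]
  [Module R V] [IsScalarTower k R V]

/-- multiplication by `g` as a `k`-linear map -/
def P4f_mul (g : R) : V →ₗ[k] V := (g • (LinearMap.id : V →ₗ[R] V)).restrictScalars k

lemma P4f_mul_apply (g : R) (v : V) : P4f_mul (k := k) g v = g • v := rfl

/-- the data at a node -/
structure P4fD (M K : Submodule k V) (α β u e u' τ : R) (a b : V →ₗ[R] V) : Prop where
  KM : K ≤ M
  αM : ∀ v ∈ M, α • v ∈ K
  βM : ∀ v ∈ M, β • v ∈ K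
  hK : ∀ v ∈ K, ∃ x ∈ M, ∃ y ∈ M, v = α • x + β • y
  α0 : Function.Bijective fun v : V => α • v
  β0 : Function.Bijective fun v : V => β • v
  u0 : Function.Bijective fun v : V => u • v
  uM : ∀ v ∈ M, u • v ∈ M
  u'M : ∀ v ∈ M, u' • v ∈ M
  eM : ∀ v ∈ M, e • v ∈ M
  τM : ∀ v ∈ M, τ • v ∈ M
  ee : ∀ v ∈ M, (e * e - e) • v ∈ K
  uu : ∀ v ∈ M, ((u * u' - 1) * e) • v ∈ K
  aM : ∀ v ∈ M, a v ∈ M
  bM : ∀ v ∈ M, b v ∈ M
  aa : ∀ v, a (a v) = (α * u) • v
  bb : ∀ v, b (b v) = (β * u) • v
  ab : ∀ v, a (b v) = (τ * u) • v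
  ba : ∀ v, b (a v) = (τ * u) • v
  sat : ∀ v, α • v ∈ M → β • v ∈ M → v ∈ M

namespace P4fD

variable {M K : Submodule k V} {α β u e u' τ : R} {a b : V →ₗ[R] V}

lemma stK (D : P4fD M K α β u e u' τ a b) {g : R} (hg : ∀ v ∈ M, g • v ∈ M) (v : V)
    (hv : v ∈ K) : g • v ∈ K := by
  obtain ⟨x, hx, y, hy, rfl⟩ := D.hK v hv
  rw [smul_add, smul_comm g α, smul_comm g β]
  exact K.add_mem (D.αM _ (hg _ hx)) (D.βM _ (hg _ hy))

lemma opK (D : P4fD M K α β u e u' τ a b) {g : V →ₗ[R] V} (hg : ∀ v ∈ M, g v ∈ M) (v : V)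
    (hv : v ∈ K) : g v ∈ K := by
  obtain ⟨x, hx, y, hy, rfl⟩ := D.hK v hv
  rw [map_add, map_smul, map_smul]
  exact K.add_mem (D.αM _ (hg _ hx)) (D.βM _ (hg _ hy))

lemma ker (D : P4fD M K α β u e u' τ a b) (v : V) (hv : v ∈ M) (h : e • a (b v) ∈ K) :
    ∃ x ∈ M, ∃ y ∈ M, e • (v - (a x + b y)) ∈ K := by
  have h' : a (b (e • v)) ∈ K := by
    rw [map_smul, map_smul]; exact h
  obtain ⟨x, hx, y, hy, hxy⟩ := D.hK _ h'
  obtain ⟨y₁, hy₁, z₁, hz₁, hyz⟩ := node_reg M.toAddSubgroup α β u D.α0 D.β0 D.u0 a b (fun v => by rw [D.ab, D.ba]) D.aa D.bb D.aM D.bM D.uM D.sat (e • v) x y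
    (D.eM _ hv) hx hy hxy
  have hu3 : ∀ w ∈ M, u' ^ 3 • w ∈ M := fun w hw => by
    rw [show u' ^ 3 = u' * (u' * u') by ring, mul_smul, mul_smul]
    exact D.u'M _ (D.u'M _ (D.u'M _ hw))
  refine ⟨u' ^ 3 • y₁, hu3 _ hy₁, u' ^ 3 • z₁, hu3 _ hz₁, ?_⟩
  rw [map_smul, map_smul, ← smul_add, ← hyz]
  have e1 : e • (v - u' ^ 3 • u ^ 3 • e • v) =
      -((e * e - e) • v) - ((u * u' - 1) * e) • (((u * u') * (u * u') + u * u' + 1) * e) • v := by
    rw [smul_sub]
    simp only [smul_smul]
    rw [← sub_smul, ← neg_smul, ← sub_smul]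
    congr 1
    ring
  rw [e1]
  refine K.sub_mem (K.neg_mem (D.ee _ hv)) (D.uu _ ?_)
  have hw := D.eM _ hv
  have huu : ∀ w ∈ M, (u * u') • w ∈ M := fun w hw => by
    rw [mul_smul]; exact D.uM _ (D.u'M _ hw)
  rw [mul_smul, add_smul, add_smul, one_smul, mul_smul (u * u')]
  exact M.add_mem (M.add_mem (huu _ (huu _ hw)) (huu _ hw)) hw

/-- the submodule `aM + bM + N_e` -/
def C (M K : Submodule k V) (e : R) (a b : V →ₗ[R] V) : Submodule k V where
  carrier := {v | ∃ x ∈ M, ∃ y ∈ M, e • (v - (a x + b y)) ∈ K}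
  zero_mem' := ⟨0, M.zero_mem, 0, M.zero_mem, by simp⟩
  add_mem' := by
    rintro v w ⟨x, hx, y, hy, h⟩ ⟨x', hx', y', hy', h'⟩
    refine ⟨x + x', M.add_mem hx hx', y + y', M.add_mem hy hy', ?_⟩
    have := K.add_mem h h'
    rw [← smul_add] at this
    convert this using 2
    rw [map_add, map_add]
    abel
  smul_mem' := by
    rintro c v ⟨x, hx, y, hy, h⟩
    refine ⟨c • x, M.smul_mem _ hx, c • y, M.smul_mem _ hy, ?_⟩
    have := K.smul_mem c h
    rw [← algebraMap_smul R c, smul_comm] at this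
    convert this using 2
    rw [← algebraMap_smul R c v, ← algebraMap_smul R c x, ← algebraMap_smul R c y, map_smul,
      map_smul, smul_sub, smul_add]

lemma mem_C {v : V} : v ∈ C M K e a b ↔ ∃ x ∈ M, ∃ y ∈ M, e • (v - (a x + b y)) ∈ K := Iff.rfl

lemma C_smul {g : R} (hg : ∀ v ∈ M, (g * e) • v ∈ K) (v : V)
    (hv : v ∈ M) : g • v ∈ C M K e a b := by
  refine ⟨0, M.zero_mem, 0, M.zero_mem, ?_⟩
  rw [map_zero, map_zero, add_zero, sub_zero, smul_smul, mul_comm]
  exact hg v hv

lemma C_tau (D : P4fD M K α β u e u' τ a b) (v : V) (hv : v ∈ M) : τ • v ∈ C M K e a b := by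
  refine ⟨b (u' • v), D.bM _ (D.u'M _ hv), 0, M.zero_mem, ?_⟩
  rw [D.ab, map_zero, add_zero]
  have e1 : e • (τ • v - (τ * u) • u' • v) = -(((u * u' - 1) * e) • τ • v) := by
    simp only [smul_smul]
    rw [← sub_smul, smul_smul, ← neg_smul]
    congr 1
    ring
  rw [e1]
  exact K.neg_mem (D.uu _ (D.τM _ hv))

lemma C_left (D : P4fD M K α β u e u' τ a b) {g : R} {γ : V →ₗ[R] V}
    (hγ : ∀ v ∈ M, γ v ∈ M) (hg : ∀ v ∈ M, g • v ∈ M) (h : ∀ v, u • γ v = g • a v) (v : V)
    (hv : v ∈ M) : γ v ∈ C M K e a b := by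
  refine ⟨g • u' • v, hg _ (D.u'M _ hv), 0, M.zero_mem, ?_⟩
  have e1 : e • (γ v - (a (g • u' • v) + b 0)) = -(((u * u' - 1) * e) • γ v) := by
    rw [map_zero, add_zero, map_smul, map_smul, smul_comm g u', ← h]
    rw [smul_sub]
    simp only [smul_smul]
    rw [← sub_smul, ← neg_smul]
    congr 1
    ring
  rw [e1]
  exact K.neg_mem (D.uu _ (hγ _ hv))

lemma C_right (D : P4fD M K α β u e u' τ a b) {g : R} {γ : V →ₗ[R] V}
    (hγ : ∀ v ∈ M, γ v ∈ M) (hg : ∀ v ∈ M, g • v ∈ M) (h : ∀ v, u • γ v = g • b v) (v : V)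
    (hv : v ∈ M) : γ v ∈ C M K e a b := by
  refine ⟨0, M.zero_mem, g • u' • v, hg _ (D.u'M _ hv), ?_⟩
  have e1 : e • (γ v - (a 0 + b (g • u' • v))) = -(((u * u' - 1) * e) • γ v) := by
    rw [map_zero, zero_add, map_smul, map_smul, smul_comm g u', ← h]
    rw [smul_sub]
    simp only [smul_smul]
    rw [← sub_smul, ← neg_smul]
    congr 1
    ring
  rw [e1]
  exact K.neg_mem (D.uu _ (hγ _ hv))

/-- `C ∩ M ≤ Kx` -/
lemma C_le (D : P4fD M K α β u e u' τ a b) {Kx : Submodule k V} (h1 : K ≤ Kx)
    (ha : ∀ v ∈ M, a v ∈ Kx) (hb : ∀ v ∈ M, b v ∈ Kx) (he : ∀ v ∈ M, (e - 1) • v ∈ Kx)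
    (v : V) (hv : v ∈ M) (h : v ∈ C M K e a b) : v ∈ Kx := by
  obtain ⟨x, hx, y, hy, hxy⟩ := h
  have e1 : v = a x + b y + (e • (v - (a x + b y)) - (e - 1) • (v - (a x + b y))) := by
    rw [← sub_smul, sub_sub_cancel, one_smul]
    abel
  rw [e1]
  exact Kx.add_mem (Kx.add_mem (ha _ hx) (hb _ hy)) (Kx.sub_mem (h1 hxy)
    (he _ (M.sub_mem hv (M.add_mem (D.aM _ hx) (D.bM _ hy)))))

/-- 4.5a (i) at one node -/
theorem finrank (D : P4fD M K α β u e u' τ a b) {Kx : Submodule k V} (h1 : K ≤ Kx)
    (ha : ∀ v ∈ M, a v ∈ Kx) (hb : ∀ v ∈ M, b v ∈ Kx) (he : ∀ v ∈ M, (e - 1) • v ∈ Kx)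
    (hKx : Kx ≤ C M K e a b)
    (hfin : Module.Finite k ↥(M.map K.mkQ)) :
    Module.finrank k ↥(M.map (K.comap (P4f_mul e)).mkQ) =
      4 * Module.finrank k ↥(M.map Kx.mkQ) := by
  have hfN : Module.Finite k ↥(M.map (K.comap (P4f_mul e)).mkQ) :=
    P4f_finite_mono M K _ (fun v _ hvK => D.stK D.eM v hvK) hfin
  refine P4f_four M _ Kx hfN (a.restrictScalars k) (b.restrictScalars k) D.aM ?_ D.bM ?_ ?_ ?_ ?_
    ?_ ?_
  · intro v _ h
    change e • v ∈ K at h
    change e • a v ∈ K
    rw [← map_smul]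
    exact D.opK D.aM _ h
  · intro v _ h
    change e • v ∈ K at h
    change e • b v ∈ K
    rw [← map_smul]
    exact D.opK D.bM _ h
  · intro v _
    change a (b v) = b (a v)
    rw [D.ab, D.ba]
  · intro v hv
    change e • a (a v) ∈ K
    rw [D.aa, mul_smul]
    exact D.stK D.eM _ (D.αM _ (D.uM _ hv))
  · intro v hv
    change e • b (b v) ∈ K
    rw [D.bb, mul_smul]
    exact D.stK D.eM _ (D.βM _ (D.uM _ hv))
  · intro v hv h
    exact D.ker v hv h
  · intro v hv
    exact ⟨fun h => hKx h, fun h => D.C_le h1 ha hb he v hv h⟩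

/-- generation at one node -/
theorem gen (D : P4fD M K α β u e u' τ a b) {Kx W : Submodule k V} (hKx : Kx ≤ C M K e a b)
    (hWa : ∀ w ∈ W, a w ∈ W) (hWb : ∀ w ∈ W, b w ∈ W) (hWe : ∀ w ∈ W, e • w ∈ W)
    (h : M ≤ W ⊔ Kx) (v : V) (hv : v ∈ M) : e • v ∈ W ⊔ K := by
  have A : ∀ m ∈ M, ∃ w ∈ W, ∃ x ∈ M, ∃ y ∈ M, e • (m - (w + (a x + b y))) ∈ K := by
    intro m hm
    obtain ⟨w, hw, κ, hκ, rfl⟩ := Submodule.mem_sup.1 (h hm)
    obtain ⟨x, hx, y, hy, hxy⟩ := hKx hκ
    refine ⟨w, hw, x, hx, y, hy, ?_⟩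
    convert hxy using 2
    abel
  have eK : ∀ g : V →ₗ[R] V, (∀ v ∈ M, g v ∈ M) → ∀ n, e • n ∈ K → e • g n ∈ K := by
    intro g hg n hn
    rw [← map_smul]
    exact D.opK hg _ hn
  have hab : ∀ v, b (a v) = a (b v) := fun v => by rw [D.ab, D.ba]
  -- terms `a (b y)`
  have S1 : ∀ y ∈ M, e • a (b y) ∈ W ⊔ K := by
    intro y hy
    obtain ⟨w, hw, x₁, hx₁, y₁, hy₁, hn⟩ := A y hy
    have e1 : a (b y) = a (b w) + (b ((α * u) • x₁) + a ((β * u) • y₁)) +
        a (b (y - (w + (a x₁ + b y₁)))) := by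
      rw [← D.aa, ← D.bb, hab (a x₁)]
      simp only [map_sub, map_add]
      abel
    rw [e1, smul_add, smul_add, smul_add]
    refine Submodule.add_mem _ (Submodule.add_mem _ (Submodule.mem_sup_left
      (hWe _ (hWa _ (hWb _ hw)))) (Submodule.mem_sup_right (K.add_mem ?_ ?_)))
      (Submodule.mem_sup_right (eK a D.aM _ (eK b D.bM _ hn)))
    · rw [mul_smul, map_smul]
      exact D.stK D.eM _ (D.αM _ (D.bM _ (D.uM _ hx₁)))
    · rw [mul_smul, map_smul]
      exact D.stK D.eM _ (D.βM _ (D.aM _ (D.uM _ hy₁)))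
  have S2 : ∀ x ∈ M, e • a x ∈ W ⊔ K := by
    intro x hx
    obtain ⟨w, hw, x₁, hx₁, y₁, hy₁, hn⟩ := A x hx
    have e1 : a x = a w + (α * u) • x₁ + a (b y₁) + a (x - (w + (a x₁ + b y₁))) := by
      rw [← D.aa]
      simp only [map_sub, map_add]
      abel
    rw [e1, smul_add, smul_add, smul_add]
    refine Submodule.add_mem _ (Submodule.add_mem _ (Submodule.add_mem _ (Submodule.mem_sup_left
      (hWe _ (hWa _ hw))) (Submodule.mem_sup_right ?_)) (S1 _ hy₁))
      (Submodule.mem_sup_right (eK a D.aM _ hn))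
    rw [mul_smul]
    exact D.stK D.eM _ (D.αM _ (D.uM _ hx₁))
  have S3 : ∀ x ∈ M, e • b x ∈ W ⊔ K := by
    intro x hx
    obtain ⟨w, hw, x₁, hx₁, y₁, hy₁, hn⟩ := A x hx
    have e1 : b x = b w + (β * u) • y₁ + a (b x₁) + b (x - (w + (a x₁ + b y₁))) := by
      rw [← D.bb, ← hab]
      simp only [map_sub, map_add]
      abel
    rw [e1, smul_add, smul_add, smul_add]
    refine Submodule.add_mem _ (Submodule.add_mem _ (Submodule.add_mem _ (Submodule.mem_sup_left
      (hWe _ (hWb _ hw))) (Submodule.mem_sup_right ?_)) (S1 _ hx₁))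
      (Submodule.mem_sup_right (eK b D.bM _ hn))
    rw [mul_smul]
    exact D.stK D.eM _ (D.βM _ (D.uM _ hy₁))
  obtain ⟨w, hw, x, hx, y, hy, hn⟩ := A v hv
  have e1 : e • v = e • w + (e • a x + e • b y) + e • (v - (w + (a x + b y))) := by
    rw [← smul_add, ← smul_add, ← smul_add]
    congr 1
    abel
  rw [e1]
  exact Submodule.add_mem _ (Submodule.add_mem _ (Submodule.mem_sup_left (hWe _ hw))
    (Submodule.add_mem _ (S2 _ hx) (S3 _ hy))) (Submodule.mem_sup_right hn)

end P4fD

end Vale.Agent.P190.D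
end
end

section

section

/-! Section 5, file U1: the ultraproduct of fields, limits of polynomials. -/

set_option autoImplicit false
set_option linter.unusedSectionVars false

open MvPolynomial Filter

namespace Vale.Agent.P190.D

/-- The ultraproduct of a sequence of fields. -/
def UIdl (U : Ultrafilter ℕ) (k : ℕ → Type) [∀ i, Field (k i)] : Ideal (∀ i, k i) where
  carrier := {f | ∀ᶠ i in (U : Filter ℕ), f i = 0}
  add_mem' := fun {a b} ha hb => by
    filter_upwards [ha, hb] with i h1 h2
    simp [h1, h2]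
  zero_mem' := by simp
  smul_mem' := fun c x hx => by
    filter_upwards [hx] with i h
    simp [h]

/-- The ultraproduct of a sequence of fields. -/
def UK (U : Ultrafilter ℕ) (k : ℕ → Type) [∀ i, Field (k i)] : Type := (∀ i, k i) ⧸ UIdl U k

noncomputable instance (U : Ultrafilter ℕ) (k : ℕ → Type) [∀ i, Field (k i)] :
    CommRing (UK U k) := inferInstanceAs (CommRing ((∀ i, k i) ⧸ UIdl U k))

theorem UK_isField (U : Ultrafilter ℕ) (k : ℕ → Type) [∀ i, Field (k i)] : IsField (UK U k) := by
  refine ⟨⟨0, 1, ?_⟩, mul_comm, ?_⟩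
  · intro h
    have h1 : (Ideal.Quotient.mk (UIdl U k) 1) = Ideal.Quotient.mk (UIdl U k) 0 := h.symm
    rw [Ideal.Quotient.eq] at h1
    have h2 : ∀ᶠ i in (U : Filter ℕ), ((1 : ∀ i, k i) - 0) i = 0 := h1
    obtain ⟨i, hi⟩ := h2.exists
    simp at hi
  · intro a ha
    obtain ⟨f, rfl⟩ := Ideal.Quotient.mk_surjective (I := UIdl U k) a
    refine ⟨Ideal.Quotient.mk (UIdl U k) (fun i => (f i)⁻¹), ?_⟩
    have h1 : ¬ ∀ᶠ i in (U : Filter ℕ), f i = 0 := by
      intro h
      exact ha (Ideal.Quotient.eq_zero_iff_mem.2 h)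
    have h2 : ∀ᶠ i in (U : Filter ℕ), ¬ f i = 0 := Ultrafilter.eventually_not.2 h1
    have h3 : Ideal.Quotient.mk (UIdl U k) (f * fun i => (f i)⁻¹) =
        Ideal.Quotient.mk (UIdl U k) 1 := by
      rw [Ideal.Quotient.eq]
      change ∀ᶠ i in (U : Filter ℕ), ((f * fun i => (f i)⁻¹) - 1) i = 0
      filter_upwards [h2] with i hi
      simp [hi]
    exact h3

noncomputable instance (U : Ultrafilter ℕ) (k : ℕ → Type) [∀ i, Field (k i)] :
    Field (UK U k) := IsField.toField (UK_isField U k)

section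

variable {U : Ultrafilter ℕ} {k : ℕ → Type} [∀ i, Field (k i)]

/-- the limit of a sequence of scalars -/
noncomputable def ulim (U : Ultrafilter ℕ) (k : ℕ → Type) [∀ i, Field (k i)] :
    (∀ i, k i) →+* UK U k := Ideal.Quotient.mk (UIdl U k)

theorem ulim_eq {x y : ∀ i, k i} :
    ulim U k x = ulim U k y ↔ ∀ᶠ i in (U : Filter ℕ), x i = y i := by
  have h : ulim U k x = ulim U k y ↔ x - y ∈ UIdl U k := Ideal.Quotient.eq
  rw [h]
  change (∀ᶠ i in (U : Filter ℕ), (x - y) i = 0) ↔ _
  simp only [Pi.sub_apply, sub_eq_zero]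

theorem ulim_surjective : Function.Surjective (ulim U k) := Ideal.Quotient.mk_surjective

theorem UK_infinite [∀ i, Infinite (k i)] : Infinite (UK U k) := by
  refine Infinite.of_injective (fun j : ℕ => ulim U k fun i => Infinite.natEmbedding (k i) j) ?_
  intro j j' h
  obtain ⟨i, hi⟩ := (ulim_eq.1 h).exists
  exact (Infinite.natEmbedding (k i)).injective hi

theorem ulim_eq_zero {x : ∀ i, k i} : ulim U k x = 0 ↔ ∀ᶠ i in (U : Filter ℕ), x i = 0 := by
  rw [← map_zero (ulim U k), ulim_eq]
  rfl

/-- membership in `Ad` through coefficients -/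
theorem mem_Ad_iff_coeff {K : Type} [Field K] {a : A K} {n : ℤ} :
    a ∈ Ad K n ↔ ∀ m : Fin 2 →₀ ℕ, n < (m.degree : ℤ) → coeff m a = 0 := by
  rw [mem_Ad_coeff]
  constructor
  · intro h m hm
    by_contra h1
    have := h m h1
    omega
  · intro h m hm
    by_contra h1
    exact hm (h m (by omega))

/-- the exponents of degree at most `n` -/
noncomputable def expo (n : ℤ) : Finset (Fin 2 →₀ ℕ) :=
  (Finsupp.finite_of_degree_le (σ := Fin 2) n.toNat).toFinset.filter fun m => (m.degree : ℤ) ≤ n

theorem mem_expo {n : ℤ} {m : Fin 2 →₀ ℕ} : m ∈ expo n ↔ (m.degree : ℤ) ≤ n := by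
  unfold expo
  rw [Finset.mem_filter, Set.Finite.mem_toFinset]
  simp only [Set.mem_ofPred_eq]
  constructor
  · exact fun h => h.2
  · intro h
    exact ⟨by omega, h⟩

/-- `a` is the limit of the sequence `f` of polynomials (of bounded degree) -/
def PLim (U : Ultrafilter ℕ) (f : ∀ i, A (k i)) (a : A (UK U k)) : Prop :=
  (∃ d : ℤ, ∀ᶠ i in (U : Filter ℕ), f i ∈ Ad (k i) d) ∧
    ∀ m : Fin 2 →₀ ℕ, coeff m a = ulim U k (fun i => coeff m (f i))

theorem PLim.exists_seq (a : A (UK U k)) : ∃ f : ∀ i, A (k i), PLim U f a ∧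
    ∀ n : ℤ, a ∈ Ad (UK U k) n → ∀ i, f i ∈ Ad (k i) n := by
  classical
  choose c hc using fun m : Fin 2 →₀ ℕ => ulim_surjective (U := U) (k := k) (coeff m a)
  have hco : ∀ i m, coeff m (∑ m ∈ a.support, monomial m (c m i) : A (k i)) =
      if m ∈ a.support then c m i else 0 := by
    intro i m
    rw [coeff_sum]
    simp only [coeff_monomial]
    rw [Finset.sum_ite_eq']
  have hmem : ∀ n : ℤ, a ∈ Ad (UK U k) n → ∀ i,
      (∑ m ∈ a.support, monomial m (c m i) : A (k i)) ∈ Ad (k i) n := by
    intro n hn i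
    rw [mem_Ad_iff_coeff] at hn ⊢
    intro m hm
    rw [hco, if_neg]
    rw [mem_support_iff, not_not]
    exact hn m hm
  refine ⟨fun i => ∑ m ∈ a.support, monomial m (c m i), ⟨⟨a.totalDegree, ?_⟩, ?_⟩, hmem⟩
  · exact Filter.Eventually.of_forall
      (hmem _ (mem_Ad.2 (Or.inr le_rfl)))
  · intro m
    by_cases hm : m ∈ a.support
    · rw [← hc m]
      congr 1
      funext i
      rw [hco, if_pos hm]
    · rw [notMem_support_iff.1 hm]
      symm
      rw [ulim_eq_zero]
      refine Filter.Eventually.of_forall fun i => ?_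
      rw [hco, if_neg hm]

theorem PLim.exists_lim {f : ∀ i, A (k i)} {d : ℤ}
    (h : ∀ᶠ i in (U : Filter ℕ), f i ∈ Ad (k i) d) : ∃ a, PLim U f a ∧ a ∈ Ad (UK U k) d := by
  classical
  have hco : ∀ m, coeff m (∑ m ∈ expo d, monomial m (ulim U k fun i => coeff m (f i)) :
      A (UK U k)) = if m ∈ expo d then (ulim U k fun i => coeff m (f i)) else 0 := by
    intro m
    rw [coeff_sum]
    simp only [coeff_monomial]
    rw [Finset.sum_ite_eq']
  refine ⟨∑ m ∈ expo d, monomial m (ulim U k fun i => coeff m (f i)), ⟨⟨d, h⟩, ?_⟩, ?_⟩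
  · intro m
    rw [hco]
    split_ifs with hm
    · rfl
    · symm
      rw [ulim_eq_zero]
      filter_upwards [h] with i hi
      rw [mem_expo, not_le] at hm
      exact mem_Ad_iff_coeff.1 hi m hm
  · rw [mem_Ad_iff_coeff]
    intro m hm
    rw [hco, if_neg]
    rw [mem_expo]
    omega

theorem PLim.eq_iff {f g : ∀ i, A (k i)} {a b : A (UK U k)} (ha : PLim U f a)
    (hb : PLim U g b) : a = b ↔ ∀ᶠ i in (U : Filter ℕ), f i = g i := by
  constructor
  · rintro rfl
    obtain ⟨⟨d, hd⟩, ha⟩ := ha
    obtain ⟨⟨d', hd'⟩, hb⟩ := hb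
    have h1 : ∀ᶠ i in (U : Filter ℕ), ∀ m ∈ expo (max d d'), coeff m (f i) = coeff m (g i) := by
      rw [Filter.eventually_all_finset]
      intro m _
      exact ulim_eq.1 ((ha m).symm.trans (hb m))
    filter_upwards [hd, hd', h1] with i h2 h3 h4
    ext m
    by_cases hm : m ∈ expo (max d d')
    · exact h4 m hm
    · rw [mem_expo, not_le, max_lt_iff] at hm
      rw [mem_Ad_iff_coeff.1 h2 m hm.1, mem_Ad_iff_coeff.1 h3 m hm.2]
  · intro h
    ext m
    rw [ha.2 m, hb.2 m, ulim_eq]
    filter_upwards [h] with i hi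
    rw [hi]

theorem PLim.mem_Ad_iff {f : ∀ i, A (k i)} {a : A (UK U k)} (ha : PLim U f a) (n : ℤ) :
    a ∈ Ad (UK U k) n ↔ ∀ᶠ i in (U : Filter ℕ), f i ∈ Ad (k i) n := by
  constructor
  · intro h
    obtain ⟨g, hg, hg'⟩ := PLim.exists_seq a
    filter_upwards [(ha.eq_iff hg).1 rfl] with i hi
    rw [hi]
    exact hg' n h i
  · intro h
    obtain ⟨b, hb, hb'⟩ := PLim.exists_lim h
    rwa [(ha.eq_iff hb).2 (Filter.Eventually.of_forall fun _ => rfl)]

theorem PLim.congr {f g : ∀ i, A (k i)} {a : A (UK U k)} (ha : PLim U f a)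
    (h : ∀ᶠ i in (U : Filter ℕ), f i = g i) : PLim U g a := by
  obtain ⟨⟨d, hd⟩, ha⟩ := ha
  refine ⟨⟨d, ?_⟩, ?_⟩
  · filter_upwards [hd, h] with i h1 h2
    rwa [← h2]
  · intro m
    rw [ha m, ulim_eq]
    filter_upwards [h] with i h2
    rw [h2]

theorem PLim.zero : PLim U (fun i => (0 : A (k i))) 0 := by
  refine ⟨⟨0, Filter.Eventually.of_forall fun _ => Submodule.zero_mem _⟩, ?_⟩
  intro m
  rw [coeff_zero]
  symm
  rw [ulim_eq_zero]
  exact Filter.Eventually.of_forall fun i => by rw [coeff_zero]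

theorem PLim.monomial (e : Fin 2 →₀ ℕ) (x : ∀ i, k i) :
    PLim U (fun i => (MvPolynomial.monomial e (x i) : A (k i)))
      (MvPolynomial.monomial e (ulim U k x)) := by
  classical
  refine ⟨⟨e.degree, Filter.Eventually.of_forall fun i => ?_⟩, ?_⟩
  · rw [mem_Ad_iff_coeff]
    intro m hm
    rw [coeff_monomial, if_neg]
    rintro rfl
    exact lt_irrefl _ hm
  · intro m
    rw [coeff_monomial]
    split_ifs with h
    · congr 1
      funext i
      rw [coeff_monomial, if_pos h]
    · symm
      rw [ulim_eq_zero]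
      exact Filter.Eventually.of_forall fun i => by rw [coeff_monomial, if_neg h]

theorem PLim.const (x : ∀ i, k i) :
    PLim U (fun i => (C (x i) : A (k i))) (C (ulim U k x)) := PLim.monomial 0 x

theorem PLim.X (j : Fin 2) : PLim U (fun i => (X j : A (k i))) (X j) := by
  have h := PLim.monomial (U := U) (k := k) (Finsupp.single j 1) 1
  rw [map_one] at h
  exact h

theorem PLim.one : PLim U (fun i => (1 : A (k i))) 1 := by
  have h := PLim.const (U := U) (k := k) 1
  rw [map_one, C_1] at h
  exact h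

theorem PLim.add {f g : ∀ i, A (k i)} {a b : A (UK U k)} (ha : PLim U f a)
    (hb : PLim U g b) : PLim U (fun i => f i + g i) (a + b) := by
  obtain ⟨⟨d, hd⟩, ha⟩ := ha
  obtain ⟨⟨d', hd'⟩, hb⟩ := hb
  refine ⟨⟨max d d', ?_⟩, ?_⟩
  · filter_upwards [hd, hd'] with i h1 h2
    exact Submodule.add_mem _ (Ad_mono (le_max_left _ _) h1) (Ad_mono (le_max_right _ _) h2)
  · intro m
    rw [coeff_add, ha m, hb m, ← map_add]
    congr 1

theorem PLim.mul {f g : ∀ i, A (k i)} {a b : A (UK U k)} (ha : PLim U f a)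
    (hb : PLim U g b) : PLim U (fun i => f i * g i) (a * b) := by
  classical
  obtain ⟨⟨d, hd⟩, ha⟩ := ha
  obtain ⟨⟨d', hd'⟩, hb⟩ := hb
  refine ⟨⟨d + d', ?_⟩, ?_⟩
  · filter_upwards [hd, hd'] with i h1 h2
    exact Ad_mul h1 h2
  · intro m
    rw [coeff_mul]
    simp only [ha, hb, ← map_mul]
    rw [← map_sum]
    congr 1
    funext i
    rw [coeff_mul, Finset.sum_apply]
    rfl

theorem PLim.neg {f : ∀ i, A (k i)} {a : A (UK U k)} (ha : PLim U f a) :
    PLim U (fun i => - f i) (-a) := by
  obtain ⟨⟨d, hd⟩, ha⟩ := ha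
  refine ⟨⟨d, ?_⟩, ?_⟩
  · filter_upwards [hd] with i h1
    exact Submodule.neg_mem _ h1
  · intro m
    rw [coeff_neg, ha m, ← map_neg]
    congr 1

theorem PLim.sub {f g : ∀ i, A (k i)} {a b : A (UK U k)} (ha : PLim U f a)
    (hb : PLim U g b) : PLim U (fun i => f i - g i) (a - b) := by
  simp only [sub_eq_add_neg]
  exact ha.add hb.neg

theorem PLim.pow {f : ∀ i, A (k i)} {a : A (UK U k)} (ha : PLim U f a) (n : ℕ) :
    PLim U (fun i => f i ^ n) (a ^ n) := by
  induction n with
  | zero =>
    simp only [pow_zero]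
    exact PLim.one
  | succ n ih =>
    simp only [pow_succ]
    exact ih.mul ha

theorem PLim.smul {x : ∀ i, k i} {f : ∀ i, A (k i)} {a : A (UK U k)} (ha : PLim U f a) :
    PLim U (fun i => x i • f i) (ulim U k x • a) := by
  simp only [smul_eq_C_mul]
  exact (PLim.const x).mul ha

theorem PLim.sum {ι : Type} (s : Finset ι) {f : ∀ i, ι → A (k i)} {a : ι → A (UK U k)}
    (ha : ∀ j ∈ s, PLim U (fun i => f i j) (a j)) :
    PLim U (fun i => ∑ j ∈ s, f i j) (∑ j ∈ s, a j) := by
  classical
  induction s using Finset.induction_on with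
  | empty =>
    simp only [Finset.sum_empty]
    exact PLim.zero
  | insert j s hj ih =>
    simp only [Finset.sum_insert hj]
    exact (ha j (Finset.mem_insert_self j s)).add
      (ih fun i hi => ha i (Finset.mem_insert_of_mem hi))

theorem PLim.eq_zero_iff {f : ∀ i, A (k i)} {a : A (UK U k)} (ha : PLim U f a) :
    a = 0 ↔ ∀ᶠ i in (U : Filter ℕ), f i = 0 := ha.eq_iff PLim.zero

theorem PLim.ne_zero {f : ∀ i, A (k i)} {a : A (UK U k)} (ha : PLim U f a) (h : a ≠ 0) :
    ∀ᶠ i in (U : Filter ℕ), f i ≠ 0 :=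
  Ultrafilter.eventually_not.2 fun h1 => h (ha.eq_zero_iff.2 h1)

/-- limits of matrices of polynomials -/
def MLim (U : Ultrafilter ℕ) {ι κ : Type} (F : ∀ i, Matrix ι κ (A (k i)))
    (M : Matrix ι κ (A (UK U k))) : Prop := ∀ a b, PLim U (fun i => F i a b) (M a b)

theorem MLim.exists_seq {ι κ : Type} (M : Matrix ι κ (A (UK U k))) :
    ∃ F : ∀ i, Matrix ι κ (A (k i)), MLim U F M ∧
      ∀ (n : ℤ) (a : ι) (b : κ), M a b ∈ Ad (UK U k) n → ∀ i, F i a b ∈ Ad (k i) n := by
  choose f hf hf' using fun x : ι × κ => PLim.exists_seq (M x.1 x.2)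
  exact ⟨fun i a b => f (a, b) i, fun a b => hf (a, b), fun n a b h i => hf' (a, b) n h i⟩

theorem MLim.eq_iff {ι κ : Type} [Finite ι] [Finite κ] {F G : ∀ i, Matrix ι κ (A (k i))}
    {M N : Matrix ι κ (A (UK U k))} (hM : MLim U F M) (hN : MLim U G N) :
    M = N ↔ ∀ᶠ i in (U : Filter ℕ), F i = G i := by
  constructor
  · intro h
    have h1 : ∀ᶠ i in (U : Filter ℕ), ∀ a, ∀ b, F i a b = G i a b := by
      rw [Filter.eventually_all]
      intro a
      rw [Filter.eventually_all]
      intro b
      exact ((hM a b).eq_iff (hN a b)).1 (by rw [h])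
    filter_upwards [h1] with i hi
    ext1 a b
    exact hi a b
  · intro h
    ext1 a b
    rw [(hM a b).eq_iff (hN a b)]
    filter_upwards [h] with i hi
    rw [hi]

theorem MLim.add {ι κ : Type} {F G : ∀ i, Matrix ι κ (A (k i))}
    {M N : Matrix ι κ (A (UK U k))} (hM : MLim U F M) (hN : MLim U G N) :
    MLim U (fun i => F i + G i) (M + N) := fun a b => (hM a b).add (hN a b)

theorem MLim.mul {ι κ μ : Type} [Fintype κ] {F : ∀ i, Matrix ι κ (A (k i))}
    {G : ∀ i, Matrix κ μ (A (k i))} {M : Matrix ι κ (A (UK U k))} {N : Matrix κ μ (A (UK U k))}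
    (hM : MLim U F M) (hN : MLim U G N) : MLim U (fun i => F i * G i) (M * N) := by
  intro a b
  simp only [Matrix.mul_apply]
  exact PLim.sum _ fun j _ => (hM a j).mul (hN j b)

theorem MLim.one {ι : Type} [DecidableEq ι] :
    MLim U (fun i => (1 : Matrix ι ι (A (k i)))) 1 := by
  intro a b
  simp only [Matrix.one_apply]
  split_ifs with h
  · exact PLim.one
  · exact PLim.zero

theorem MLim.smul {ι κ : Type} {f : ∀ i, A (k i)} {a : A (UK U k)} (ha : PLim U f a)
    {F : ∀ i, Matrix ι κ (A (k i))} {M : Matrix ι κ (A (UK U k))} (hM : MLim U F M) :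
    MLim U (fun i => f i • F i) (a • M) := fun x y => ha.mul (hM x y)

theorem MLim.listProd {ι α : Type} [Fintype ι] [DecidableEq ι] (L : List α)
    {F : ∀ i, α → Matrix ι ι (A (k i))} {M : α → Matrix ι ι (A (UK U k))}
    (h : ∀ x, MLim U (fun i => F i x) (M x)) :
    MLim U (fun i => (L.map (F i)).prod) ((L.map M).prod) := by
  induction L with
  | nil =>
    simp only [List.map_nil, List.prod_nil]
    exact MLim.one
  | cons x L ih =>
    simp only [List.map_cons, List.prod_cons]
    exact (h x).mul ih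

end

end Vale.Agent.P190.D
end
end

section

section

/-! File N3: an integrally closed finite extension of `B` receiving a given finite extension of a
subring of `B`. -/

set_option autoImplicit false
set_option linter.unusedSectionVars false

namespace Vale.Agent.P190.D

theorem n3_exists {A B S : Type} [CommRing A] [IsDomain A] [CommRing B] [IsDomain B]
    [IsIntegrallyClosed B] [IsNoetherianRing B] [CharZero B] (θ : A →+* B)
    (hθ : Function.Injective θ) [CommRing S] [IsDomain S] [Algebra A S] [Module.Finite A S]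
    (hinj : Function.Injective (algebraMap A S)) :
    ∃ (R : Type) (_ : CommRing R) (_ : IsDomain R) (_ : Algebra B R) (ψ : S →+* R),
      Module.Finite B R ∧ IsIntegrallyClosed R ∧ Function.Injective (algebraMap B R) ∧
      ∀ a, ψ (algebraMap A S a) = algebraMap B R (θ a) := by
  classical
  let F : Type := FractionRing B
  let Ω : Type := AlgebraicClosure F
  let _ : Field Ω := inferInstanceAs (Field (AlgebraicClosure F))
  let _ : Algebra F Ω := inferInstanceAs (Algebra F (AlgebraicClosure F))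
  let _ : Algebra B Ω := inferInstanceAs (Algebra B (AlgebraicClosure F))
  have hst : IsScalarTower B F Ω := inferInstanceAs (IsScalarTower B F (AlgebraicClosure F))
  have hac : IsAlgClosed Ω := inferInstanceAs (IsAlgClosed (AlgebraicClosure F))
  have hBΩ : Function.Injective (algebraMap B Ω) := by
    rw [IsScalarTower.algebraMap_eq B F Ω]
    exact (algebraMap F Ω).injective.comp (IsFractionRing.injective B F)
  have hF0 : CharZero F := charZero_of_injective_algebraMap (IsFractionRing.injective B F)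
  let _ : Algebra A Ω := ((algebraMap B Ω).comp θ).toAlgebra
  have hAΩ : ∀ a, algebraMap A Ω a = algebraMap B Ω (θ a) := fun a => rfl
  have hAinj : Function.Injective (algebraMap A Ω) := hBΩ.comp hθ
  have ht1 : Module.IsTorsionFree A S := Module.isTorsionFree_iff_algebraMap_injective.2 hinj
  have ht2 : Module.IsTorsionFree A Ω := Module.isTorsionFree_iff_algebraMap_injective.2 hAinj
  have halg : Algebra.IsIntegral A S := Algebra.IsIntegral.of_finite A S
  have halg2 : Algebra.IsAlgebraic A S := inferInstance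
  let φ : S →ₐ[A] Ω := IsAlgClosed.lift
  obtain ⟨s, hs⟩ := Module.Finite.fg_top (R := A) (M := S)
  let L : IntermediateField F Ω := IntermediateField.adjoin F (φ '' (s : Set S))
  have hφint : ∀ x, IsIntegral B (φ x) := by
    intro x
    have h1 : IsIntegral A (φ x) := (halg.isIntegral x).map φ
    obtain ⟨p, hp, hp2⟩ := h1
    refine ⟨p.map θ, hp.map θ, ?_⟩
    rw [Polynomial.eval₂_map]
    exact hp2
  have hfd : FiniteDimensional F L := by
    refine IntermediateField.finiteDimensional_adjoin ?_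
    rintro _ ⟨x, -, rfl⟩
    exact (hφint x).tower_top
  have hL : ∀ x, φ x ∈ L := by
    intro x
    have hx : x ∈ Submodule.span A (s : Set S) := by rw [hs]; trivial
    induction hx using Submodule.span_induction with
    | mem y hy => exact IntermediateField.subset_adjoin F _ ⟨y, hy, rfl⟩
    | zero => rw [map_zero]; exact L.zero_mem
    | add y z _ _ hy hz => rw [map_add]; exact L.add_mem hy hz
    | smul a y _ hy =>
      rw [map_smul, Algebra.smul_def, hAΩ, IsScalarTower.algebraMap_apply B F Ω]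
      exact L.mul_mem (L.algebraMap_mem _) hy
  have hsep : Algebra.IsSeparable F L := inferInstance
  let R : Type := integralClosure B L
  let _ : CommRing R := inferInstanceAs (CommRing (integralClosure B L))
  let _ : Algebra B R := inferInstanceAs (Algebra B (integralClosure B L))
  have hdom : IsDomain R := inferInstanceAs (IsDomain (integralClosure B L))
  have hfin : Module.Finite B R := IsIntegralClosure.finite B F L (integralClosure B L)
  have hic : IsIntegrallyClosed R := integralClosure.isIntegrallyClosedOfFiniteExtension F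
  let ψ : S →+* R :=
    { toFun := fun x => ⟨⟨φ x, hL x⟩, by
        have h0 : IsScalarTower B L Ω := IsScalarTower.of_algebraMap_eq fun b => rfl
        have h1 : IsIntegral B (algebraMap L Ω (⟨φ x, hL x⟩ : L)) := hφint x
        exact (isIntegral_algebraMap_iff (algebraMap L Ω).injective).1 h1⟩
      map_zero' := by apply Subtype.ext; apply Subtype.ext; exact map_zero φ
      map_one' := by apply Subtype.ext; apply Subtype.ext; exact map_one φ
      map_add' := fun x y => by apply Subtype.ext; apply Subtype.ext; exact map_add φ x y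
      map_mul' := fun x y => by apply Subtype.ext; apply Subtype.ext; exact map_mul φ x y }
  refine ⟨R, inferInstance, hdom, inferInstance, ψ, hfin, hic, ?_, ?_⟩
  · intro x y hxy
    apply hBΩ
    have h1 := congrArg (fun z : integralClosure B L => ((z : L) : Ω)) hxy
    exact h1
  · intro a
    apply Subtype.ext
    apply Subtype.ext
    change φ (algebraMap A S a) = _
    rw [AlgHom.commutes, hAΩ]
    rfl

end Vale.Agent.P190.D
end
end

section

section

/-! Section 4, file P6n1: a graded Hilbert basis theorem. -/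

set_option autoImplicit false
set_option linter.unusedSectionVars false

open MvPolynomial Filter

namespace Vale.Agent.P190.D

/-! auxiliary: finitely supported sequences as a module over the polynomial ring, the variables
acting by a shift -/

section P6n1aux

variable {k ι W : Type} [Field k] [AddCommGroup W] [Module k W]
    [Module (MvPolynomial ι k) W] [IsScalarTower k (MvPolynomial ι k) W]

/-- the shifting algebra map -/
noncomputable def P6n1_toPoly (k ι : Type) [Field k] :
    MvPolynomial ι k →ₐ[k] Polynomial (MvPolynomial ι k) :=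
  MvPolynomial.aeval fun i => Polynomial.monomial 1 (X i)

/-- sequences with finite support -/
def P6n1_S (k ι W : Type) [Field k] [AddCommGroup W] [Module (MvPolynomial ι k) W] : Type :=
  PolynomialModule (MvPolynomial ι k) W

noncomputable instance P6n1_acg : AddCommGroup (P6n1_S k ι W) :=
  inferInstanceAs (AddCommGroup (PolynomialModule (MvPolynomial ι k) W))

noncomputable instance P6n1_mod : Module (MvPolynomial ι k) (P6n1_S k ι W) :=
  Module.compHom (PolynomialModule (MvPolynomial ι k) W) (P6n1_toPoly k ι).toRingHom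

/-- coefficient -/
noncomputable def P6n1_co (f : P6n1_S k ι W) (j : ℕ) : W :=
  PolynomialModule.coeff (show PolynomialModule (MvPolynomial ι k) W from f) j

/-- monomial -/
noncomputable def P6n1_mono (j : ℕ) (v : W) : P6n1_S k ι W :=
  PolynomialModule.single (MvPolynomial ι k) j v

theorem P6n1_co_add (f g : P6n1_S k ι W) (j : ℕ) :
    P6n1_co (f + g) j = P6n1_co f j + P6n1_co g j := rfl

theorem P6n1_co_zero (j : ℕ) : P6n1_co (0 : P6n1_S k ι W) j = 0 := rfl

theorem P6n1_co_C (c : k) (f : P6n1_S k ι W) (j : ℕ) :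
    P6n1_co ((C c : MvPolynomial ι k) • f) j = c • P6n1_co f j := by
  have e : (C c : MvPolynomial ι k) • f =
      (Polynomial.monomial 0 (C c : MvPolynomial ι k) •
        (show PolynomialModule (MvPolynomial ι k) W from f) :
        PolynomialModule (MvPolynomial ι k) W) := by
    change (P6n1_toPoly k ι (C c)) • (show PolynomialModule (MvPolynomial ι k) W from f) = _
    rw [P6n1_toPoly, MvPolynomial.aeval_C]
    rfl
  rw [e]
  change PolynomialModule.coeff _ j = _
  rw [PolynomialModule.monomial_smul_apply]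
  simp only [Nat.zero_le, Nat.sub_zero, if_true]
  change (C c : MvPolynomial ι k) • P6n1_co f j = _
  rw [← algebraMap_eq, algebraMap_smul]

theorem P6n1_co_X (i : ι) (f : P6n1_S k ι W) (j : ℕ) :
    P6n1_co ((X i : MvPolynomial ι k) • f) j =
      if 1 ≤ j then (X i : MvPolynomial ι k) • P6n1_co f (j - 1) else 0 := by
  have e : (X i : MvPolynomial ι k) • f =
      (Polynomial.monomial 1 (X i : MvPolynomial ι k) •
        (show PolynomialModule (MvPolynomial ι k) W from f) :
        PolynomialModule (MvPolynomial ι k) W) := by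
    change (P6n1_toPoly k ι (X i)) • (show PolynomialModule (MvPolynomial ι k) W from f) = _
    rw [P6n1_toPoly, MvPolynomial.aeval_X]
  rw [e]
  change PolynomialModule.coeff _ j = _
  rw [PolynomialModule.monomial_smul_apply]
  rfl

theorem P6n1_co_mono (j : ℕ) (v : W) (i : ℕ) :
    P6n1_co (P6n1_mono j v : P6n1_S k ι W) i = if j = i then v else 0 := by
  change PolynomialModule.coeff (PolynomialModule.single (MvPolynomial ι k) j v) i = _
  rw [PolynomialModule.coeff_single, Finsupp.single_apply]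

theorem P6n1_ext {f g : P6n1_S k ι W} (h : ∀ j, P6n1_co f j = P6n1_co g j) : f = g := by
  apply PolynomialModule.ext
  ext j
  exact h j

theorem P6n1_X_smul_mono (i : ι) (j : ℕ) (v : W) :
    (X i : MvPolynomial ι k) • (P6n1_mono j v : P6n1_S k ι W) =
      P6n1_mono (j + 1) ((X i : MvPolynomial ι k) • v) := by
  apply P6n1_ext
  intro l
  rw [P6n1_co_X, P6n1_co_mono, P6n1_co_mono]
  rcases l with _ | l
  · simp only [nonpos_iff_eq_zero, one_ne_zero, ↓reduceIte, Nat.add_eq_zero_iff, and_false]
  · simp only [le_add_iff_nonneg_left, zero_le, ↓reduceIte, add_tsub_cancel_right, smul_ite, smul_zero, Nat.add_right_cancel_iff]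

theorem P6n1_C_smul_mono (c : k) (j : ℕ) (v : W) :
    (C c : MvPolynomial ι k) • (P6n1_mono j v : P6n1_S k ι W) = P6n1_mono j (c • v) := by
  apply P6n1_ext
  intro l
  rw [P6n1_co_C, P6n1_co_mono, P6n1_co_mono]
  split_ifs <;> simp only [smul_zero]

theorem P6n1_mono_add (j : ℕ) (v w : W) :
    (P6n1_mono j (v + w) : P6n1_S k ι W) = P6n1_mono j v + P6n1_mono j w := by
  apply P6n1_ext
  intro l
  rw [P6n1_co_add, P6n1_co_mono, P6n1_co_mono, P6n1_co_mono]
  split_ifs <;> simp

theorem P6n1_mono_zero (j : ℕ) : (P6n1_mono j (0 : W) : P6n1_S k ι W) = 0 := by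
  apply P6n1_ext
  intro l
  rw [P6n1_co_zero, P6n1_co_mono]
  split_ifs <;> simp

/-- submodule defined by a sequence -/
noncomputable def P6n1_seq (F : ℕ → Submodule k W)
    (hF : ∀ j (i : ι), ∀ v ∈ F j, (X i : MvPolynomial ι k) • v ∈ F (j + 1)) :
    Submodule (MvPolynomial ι k) (P6n1_S k ι W) where
  carrier := {f | ∀ j, P6n1_co f j ∈ F j}
  add_mem' hf hg j := by rw [P6n1_co_add]; exact add_mem (hf j) (hg j)
  zero_mem' j := by rw [P6n1_co_zero]; exact zero_mem _
  smul_mem' b := by
    induction b using MvPolynomial.induction_on with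
    | C c =>
      intro f hf j
      rw [P6n1_co_C]; exact Submodule.smul_mem _ _ (hf j)
    | add p q hp hq =>
      intro f hf j
      rw [add_smul, P6n1_co_add]
      exact add_mem (hp hf j) (hq hf j)
    | mul_X p i hp =>
      intro f hf
      rw [mul_smul]
      apply hp
      intro j
      rw [P6n1_co_X]
      split_ifs with hj
      · obtain ⟨l, rfl⟩ : ∃ l, j = l + 1 := ⟨j - 1, by omega⟩
        exact hF l i _ (hf l)
      · exact zero_mem _

theorem P6n1_mono_mem_of_span {P : Submodule (MvPolynomial ι k) (P6n1_S k ι W)} {j : ℕ} {s : Set W}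
    (hs : ∀ v ∈ s, (P6n1_mono j v : P6n1_S k ι W) ∈ P) {v : W} (hv : v ∈ Submodule.span k s) :
    (P6n1_mono j v : P6n1_S k ι W) ∈ P := by
  induction hv using Submodule.span_induction with
  | mem x hx => exact hs x hx
  | zero => rw [P6n1_mono_zero]; exact zero_mem _
  | add x y _ _ hx hy => rw [P6n1_mono_add]; exact add_mem hx hy
  | smul c x _ hx => rw [← P6n1_C_smul_mono]; exact Submodule.smul_mem _ _ hx

theorem P6n1_noeth [Finite ι] {F : ℕ → Submodule k W}
    (hF : ∀ j (i : ι), ∀ v ∈ F j, (X i : MvPolynomial ι k) • v ∈ F (j + 1))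
    (hfin : ∀ j, Module.Finite k (F j)) (D : ℕ)
    (hfg : ∀ j ≥ D, F (j + 1) ≤ Submodule.span k
      {w | ∃ a : ι, ∃ v ∈ F j, w = (X a : MvPolynomial ι k) • v}) :
    IsNoetherian (MvPolynomial ι k) (P6n1_seq F hF) := by
  refine isNoetherian_of_fg_of_noetherian _ ?_
  have h1 : ∀ j, ∃ s : Set W, s.Finite ∧ Submodule.span k s = F j := fun j =>
    Submodule.fg_def.1 (Module.Finite.iff_fg.1 (hfin j))
  choose s hs1 hs2 using h1
  refine Submodule.fg_def.2 ⟨⋃ j ∈ Finset.range (D + 1), (P6n1_mono j : W → P6n1_S k ι W) '' s j,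
    Set.Finite.biUnion (Finset.finite_toSet _) fun j _ => (hs1 j).image _, ?_⟩
  apply le_antisymm
  · rw [Submodule.span_le]
    intro f hf
    simp only [Set.mem_iUnion] at hf
    obtain ⟨j, hj, v, hv, rfl⟩ := hf
    intro l
    rw [P6n1_co_mono]
    split_ifs with h
    · subst h
      rw [← hs2]; exact Submodule.subset_span hv
    · exact zero_mem _
  · set P := Submodule.span (MvPolynomial ι k)
      (⋃ j ∈ Finset.range (D + 1), (P6n1_mono j : W → P6n1_S k ι W) '' s j) with hP
    have hmono : ∀ j, ∀ v ∈ F j, (P6n1_mono j v : P6n1_S k ι W) ∈ P := by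
      intro j
      induction j with
      | zero =>
        intro v hv
        rw [← hs2] at hv
        refine P6n1_mono_mem_of_span (fun v hv => Submodule.subset_span ?_) hv
        simp only [Set.mem_iUnion]
        exact ⟨0, by simp only [Finset.mem_range, lt_add_iff_pos_left, Order.lt_add_one_iff, zero_le], v, hv, rfl⟩
      | succ j ih =>
        intro v hv
        by_cases hj : j + 1 ≤ D
        · rw [← hs2] at hv
          refine P6n1_mono_mem_of_span (fun v hv => Submodule.subset_span ?_) hv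
          simp only [Set.mem_iUnion]
          exact ⟨j + 1, by simp only [Finset.mem_range, Order.lt_add_one_iff, Order.add_one_le_iff]; omega, v, hv, rfl⟩
        · refine P6n1_mono_mem_of_span ?_ (hfg j (by omega) hv)
          rintro _ ⟨a, w, hw, rfl⟩
          rw [← P6n1_X_smul_mono]
          exact Submodule.smul_mem _ _ (ih w hw)
    intro f hf
    have hdec : ∀ g : PolynomialModule (MvPolynomial ι k) W, (∀ j, g.coeff j ∈ F j) →
        (g : P6n1_S k ι W) ∈ P := by
      intro g hg
      have e : g = ∑ j ∈ g.coeff.support,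
          PolynomialModule.single (MvPolynomial ι k) j (g.coeff j) := by
        apply PolynomialModule.coeff_injective
        rw [PolynomialModule.coeff_sum]
        simp only [PolynomialModule.coeff_single]
        exact (Finsupp.sum_single g.coeff).symm
      rw [e]
      exact Submodule.sum_mem P (fun j _ => hmono j _ (hg j))
    exact hdec f hf

theorem P6n1_of_le [Finite ι] {F S : ℕ → Submodule k W}
    (hF : ∀ j (i : ι), ∀ v ∈ F j, (X i : MvPolynomial ι k) • v ∈ F (j + 1))
    (hfin : ∀ j, Module.Finite k (F j)) (D : ℕ)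
    (hfg : ∀ j ≥ D, F (j + 1) ≤ Submodule.span k
      {w | ∃ a : ι, ∃ v ∈ F j, w = (X a : MvPolynomial ι k) • v})
    (hSF : ∀ j, S j ≤ F j)
    (hS : ∀ j (i : ι), ∀ v ∈ S j, (X i : MvPolynomial ι k) • v ∈ S (j + 1)) :
    ∃ D', ∀ j ≥ D', S (j + 1) ≤ Submodule.span k
      {w | ∃ a : ι, ∃ v ∈ S j, w = (X a : MvPolynomial ι k) • v} := by
  have hN := P6n1_noeth hF hfin D hfg
  set E := P6n1_seq F hF with hE
  let P : ℕ → Submodule (MvPolynomial ι k) (P6n1_S k ι W) := fun n =>
    Submodule.span _ {f | ∃ j ≤ n, ∃ v ∈ S j, f = P6n1_mono j v}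
  have hPmono : Monotone fun n => (P n).comap E.subtype := by
    intro n m hnm
    refine Submodule.comap_mono (Submodule.span_mono ?_)
    rintro f ⟨j, hj, v, hv, rfl⟩
    exact ⟨j, hj.trans hnm, v, hv, rfl⟩
  obtain ⟨D', hD'⟩ := monotone_stabilizes_iff_noetherian.2 hN
    ⟨fun n => (P n).comap E.subtype, hPmono⟩
  refine ⟨D', fun n hn v hv => ?_⟩
  have h1 : (P6n1_mono (n + 1) v : P6n1_S k ι W) ∈ P (n + 1) :=
    Submodule.subset_span ⟨n + 1, le_rfl, v, hv, rfl⟩
  have h2 : (P6n1_mono (n + 1) v : P6n1_S k ι W) ∈ E := by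
    intro l
    rw [P6n1_co_mono]
    split_ifs with h
    · subst h; exact hSF _ hv
    · exact zero_mem _
  have h3 : (⟨_, h2⟩ : E) ∈ (P D').comap E.subtype := by
    have := hD' (n + 1) (by omega)
    change (P D').comap E.subtype = (P (n + 1)).comap E.subtype at this
    rw [this]; exact h1
  have h4 : (P6n1_mono (n + 1) v : P6n1_S k ι W) ∈ P D' := h3
  let G : ℕ → Submodule k W := fun j => if j ≤ n then S j else if j = n + 1 then
    Submodule.span k {w | ∃ a : ι, ∃ v ∈ S n, w = (X a : MvPolynomial ι k) • v} else ⊤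
  have hG : ∀ j (i : ι), ∀ v ∈ G j, (X i : MvPolynomial ι k) • v ∈ G (j + 1) := by
    intro j i v hv
    by_cases h1 : j + 1 ≤ n
    · simp only [G, h1, show j ≤ n by omega, if_true] at hv ⊢
      exact hS j i v hv
    · by_cases h2 : j = n
      · subst h2
        simp only [G, le_refl, if_true, show ¬ (j + 1 ≤ j) by omega, if_false] at hv ⊢
        exact Submodule.subset_span ⟨_, v, hv, rfl⟩
      · simp only [G, show ¬ (j + 1 ≤ n) by omega, show ¬ (j + 1 = n + 1) by omega, if_false]
        trivial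
  have h5 : P D' ≤ P6n1_seq G hG := by
    refine Submodule.span_le.2 ?_
    rintro _ ⟨j, hj, w, hw, rfl⟩
    intro l
    rw [P6n1_co_mono]
    split_ifs with h
    · subst h
      simp only [G, show j ≤ n by omega, if_true]
      exact hw
    · exact zero_mem _
  have h6 := h5 h4 (n + 1)
  rw [P6n1_co_mono] at h6
  simpa [G] using h6

end P6n1aux

/-- Graded Hilbert basis theorem. `E n` (`n ≥ n₀`) is a family of finite dimensional subspaces of
a `k[X_a]`-module, generated in bounded degrees; every stable subfamily is generated in bounded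
degrees. -/
theorem graded_noeth {k ι W : Type} [Field k] [Finite ι] [AddCommGroup W] [Module k W]
    [Module (MvPolynomial ι k) W] [IsScalarTower k (MvPolynomial ι k) W]
    (E N : ℤ → Submodule k W) (hfin : ∀ n, Module.Finite k (E n))
    (hE : ∀ (a : ι) (n : ℤ), ∀ v ∈ E n, (MvPolynomial.X a : MvPolynomial ι k) • v ∈ E (n + 1))
    (n₀ n₁ : ℤ) (hbdd : ∀ n < n₀, E n = ⊥)
    (hgen : ∀ n ≥ n₁, E (n + 1) ≤ Submodule.span k
      {w | ∃ a : ι, ∃ v ∈ E n, w = (MvPolynomial.X a : MvPolynomial ι k) • v})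
    (hle : ∀ n, N n ≤ E n)
    (hN : ∀ (a : ι) (n : ℤ), ∀ v ∈ N n, (MvPolynomial.X a : MvPolynomial ι k) • v ∈ N (n + 1)) :
    ∃ n₂ : ℤ, ∀ n ≥ n₂, N (n + 1) ≤ Submodule.span k
      {w | ∃ a : ι, ∃ v ∈ N n, w = (MvPolynomial.X a : MvPolynomial ι k) • v} := by
  obtain ⟨D, hD⟩ := P6n1_of_le (F := fun j : ℕ => E (n₀ + j)) (S := fun j : ℕ => N (n₀ + j))
    (by
      intro j i v hv
      have := hE i _ v hv
      rwa [add_assoc] at this)
    (fun j => hfin _) (n₁ - n₀).toNat (by
      intro j hj
      have := hgen (n₀ + j) (by omega)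
      rwa [add_assoc] at this) (fun j => hle _) (by
      intro j i v hv
      have := hN i _ v hv
      rwa [add_assoc] at this)
  refine ⟨n₀ + D, fun n hn => ?_⟩
  obtain ⟨j, rfl⟩ : ∃ j : ℕ, n = n₀ + j := ⟨(n - n₀).toNat, by omega⟩
  have := hD j (by omega)
  rw [add_assoc]
  exact this

end Vale.Agent.P190.D
end
end

section

section

/-! Section 1, file B7: line restriction. -/

set_option autoImplicit false
set_option linter.unusedSectionVars false

open MvPolynomial Filter

namespace Vale.Agent.P190.D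

variable {k : Type} [Field k] {V : Type} [AddCommGroup V] [Module k V] [Module (A k) V]
  [Module (KK k) V] [IsScalarTower k (A k) V] [IsScalarTower (A k) (KK k) V]
  {V' : Type} [AddCommGroup V'] [Module k V'] [Module (A k) V'] [Module (KK k) V']
  [IsScalarTower k (A k) V'] [IsScalarTower (A k) (KK k) V']

section B7

omit [Module (KK k) V] [IsScalarTower (A k) (KK k) V]

/-- combinations with homogeneous coefficients -/
noncomputable def hL {ι : Type} [Fintype ι] (v : ι → V) (d : ι → ℤ) (n : ℤ) :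
    (∀ i, Ah k (n - d i)) →ₗ[k] V where
  toFun a := ∑ i, (a i : A k) • v i
  map_add' a b := by
    simp [add_smul, Finset.sum_add_distrib]
  map_smul' c a := by
    simp [Finset.smul_sum, smul_assoc]

/-- the space of combinations with homogeneous coefficients -/
noncomputable def hGen {ι : Type} [Fintype ι] (v : ι → V) (d : ι → ℤ) (n : ℤ) :
    Submodule k V := LinearMap.range (hL (k := k) v d n)

theorem mem_hGen {ι : Type} [Fintype ι] {v : ι → V} {d : ι → ℤ} {n : ℤ} {x : V} :
    x ∈ hGen (k := k) v d n ↔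
      ∃ a : ι → A k, (∀ i, a i ∈ Ah k (n - d i)) ∧ x = ∑ i, a i • v i := by
  constructor
  · rintro ⟨a, rfl⟩
    exact ⟨fun i => a i, fun i => (a i).2, rfl⟩
  · rintro ⟨a, ha, rfl⟩
    exact ⟨fun i => ⟨a i, ha i⟩, rfl⟩

/-- independence modulo lower degree -/
def HIndep (E : ℤ → Submodule k V) {ι : Type} [Fintype ι] (v : ι → V) (d : ι → ℤ) : Prop :=
  ∀ (m : ℤ) (a : ι → A k), (∀ i, a i ∈ Ah k (m - d i)) → ∑ i, a i • v i ∈ E (m - 1) →
    ∀ i, a i = 0

theorem hGen_le {E : ℤ → Submodule k V} (hE : IsBLat E) {ι : Type} [Fintype ι] {v : ι → V}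
    {d : ι → ℤ} (hv : ∀ i, v i ∈ E (d i)) (n : ℤ) : hGen (k := k) v d n ≤ E n := by
  intro x hx
  rw [mem_hGen] at hx
  obtain ⟨a, ha, rfl⟩ := hx
  refine sum_mem fun i _ => ?_
  have := hE.smul_mem (Ah_le_Ad _ (ha i)) (hv i)
  rwa [add_sub_cancel] at this

theorem finrank_hGen {E : ℤ → Submodule k V} {ι : Type} [Fintype ι] {v : ι → V}
    {d : ι → ℤ} (hi : HIndep E v d) (n : ℤ) :
    Module.finrank k (hGen (k := k) v d n) = ∑ i, Module.finrank k (Ah k (n - d i)) := by
  have hinj : Function.Injective (hL (k := k) v d n) := by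
    rw [← LinearMap.ker_eq_bot, eq_bot_iff]
    intro a ha
    rw [LinearMap.mem_ker] at ha
    have h1 : ∑ i, (a i : A k) • v i ∈ E (n - 1) := by
      have : ∑ i, (a i : A k) • v i = 0 := ha
      rw [this]; exact zero_mem _
    have h2 := hi n (fun i => a i) (fun i => (a i).2) h1
    rw [Submodule.mem_bot]
    funext i
    exact Subtype.ext (h2 i)
  rw [hGen, LinearMap.finrank_range_of_inj hinj, Module.finrank_pi_fintype]

theorem hGen_inf {E : ℤ → Submodule k V} {ι : Type} [Fintype ι] {v : ι → V}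
    {d : ι → ℤ} (hi : HIndep E v d) (n : ℤ) : hGen (k := k) v d n ⊓ E (n - 1) = ⊥ := by
  rw [eq_bot_iff]
  rintro x ⟨h1, h2⟩
  rw [SetLike.mem_coe, mem_hGen] at h1
  obtain ⟨a, ha, rfl⟩ := h1
  have h3 := hi n a ha h2
  rw [Submodule.mem_bot]
  refine Finset.sum_eq_zero fun i _ => ?_
  rw [h3 i, zero_smul]

/-- `hGen` plus the lower degree part -/
noncomputable def HG (E : ℤ → Submodule k V) {ι : Type} [Fintype ι] (v : ι → V) (d : ι → ℤ)
    (n : ℤ) : Submodule k V := hGen (k := k) v d n ⊔ E (n - 1)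

instance hGen_fin {ι : Type} [Fintype ι] (v : ι → V) (d : ι → ℤ) (n : ℤ) :
    Module.Finite k (hGen (k := k) v d n) := by
  unfold hGen; infer_instance

theorem finrank_HG {E : ℤ → Submodule k V} (hE : IsBLat E) {ι : Type} [Fintype ι] {v : ι → V}
    {d : ι → ℤ} (hi : HIndep E v d) (n : ℤ) :
    (Module.finrank k (HG E v d n) : ℤ) =
      ∑ i, max 0 (n - d i + 1) + Module.finrank k (E (n - 1)) := by
  have := hE.fin (n - 1)
  have h := Submodule.finrank_sup_add_finrank_inf_eq (hGen (k := k) v d n) (E (n - 1))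
  rw [hGen_inf hi, finrank_bot, add_zero, finrank_hGen hi] at h
  unfold HG
  rw [h]
  push_cast
  congr 1
  exact Finset.sum_congr rfl fun i _ => finrank_Ah _

theorem HG_le {E : ℤ → Submodule k V} (hE : IsBLat E) {ι : Type} [Fintype ι] {v : ι → V}
    {d : ι → ℤ} (hv : ∀ i, v i ∈ E (d i)) (n : ℤ) : HG E v d n ≤ E n :=
  sup_le (hGen_le hE hv n) (hE.mono' (by omega))

theorem HG_smul {E : ℤ → Submodule k V} (hE : IsBLat E) {ι : Type} [Fintype ι] {v : ι → V}
    {d : ι → ℤ} (hv : ∀ i, v i ∈ E (d i)) {m q : ℤ} {p : A k} (hp : p ∈ Ad k q) {y : V}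
    (hy : y ∈ HG E v d m) : p • y ∈ HG E v d (m + q) := by
  rw [Ad_eq_sup, Submodule.mem_sup] at hp
  obtain ⟨ph, hph, pl, hpl, rfl⟩ := hp
  unfold HG at hy
  rw [Submodule.mem_sup] at hy
  obtain ⟨w, hw, r, hr, rfl⟩ := hy
  have hwE := hGen_le hE hv m hw
  rw [mem_hGen] at hw
  obtain ⟨a, ha, rfl⟩ := hw
  have h1 : ph • (∑ i, a i • v i) ∈ hGen (k := k) v d (m + q) := by
    rw [mem_hGen]
    refine ⟨fun i => ph * a i, fun i => ?_, ?_⟩
    · have := Ah_mul hph (ha i)
      rwa [show q + (m - d i) = m + q - d i by ring] at this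
    · rw [Finset.smul_sum]
      exact Finset.sum_congr rfl fun i _ => by rw [mul_smul]
  have h2 : pl • (∑ i, a i • v i) ∈ E (m + q - 1) := by
    have := hE.smul_mem hpl hwE
    rwa [show m + (q - 1) = m + q - 1 by ring] at this
  have h3 : (ph + pl) • r ∈ E (m + q - 1) := by
    have : ph + pl ∈ Ad k q := by
      rw [Ad_eq_sup]
      exact Submodule.add_mem_sup hph hpl
    have := hE.smul_mem this hr
    rwa [show m - 1 + q = m + q - 1 by ring] at this
  unfold HG
  rw [smul_add, add_smul, add_assoc]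
  exact Submodule.add_mem_sup h1 (add_mem h2 h3)

end B7

theorem smul_injective' {b : A k} (hb : b ≠ 0) : Function.Injective (fun x : V => b • x) := by
  intro x y hxy
  have h1 : b • (x - y) = 0 := by rw [smul_sub]; exact sub_eq_zero.2 hxy
  rw [← algebraMap_smul (KK k) b (x - y)] at h1
  have h2 : algebraMap (A k) (KK k) b ≠ 0 := by
    rw [Ne, IsFractionRing.to_map_eq_zero_iff]; exact hb
  exact sub_eq_zero.1 ((smul_eq_zero.1 h1).resolve_left h2)

/-- multiplication by a polynomial -/
noncomputable def mulL (b : A k) : V →ₗ[k] V where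
  toFun x := b • x
  map_add' := smul_add b
  map_smul' c x := by
    rw [RingHom.id_apply, ← algebraMap_smul (A k) c x, ← algebraMap_smul (A k) c (b • x),
      smul_smul, smul_smul, mul_comm]

theorem finrank_map_mulL {b : A k} (hb : b ≠ 0) (S : Submodule k V) [Module.Finite k S] :
    Module.finrank k (S.map (mulL b)) = Module.finrank k S :=
  LinearEquiv.finrank_eq (Submodule.equivMapOfInjective (mulL b) (smul_injective' hb) S).symm

variable [Infinite k]

/-- homogeneous forms act injectively on the graded pieces of an S2 lattice -/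
theorem lower_of_smul {E : ℤ → Submodule k V} (h2 : IsS2 E) {i n : ℤ} {c : A k}
    (hc : c ∈ Ah k i) (hc0 : c ≠ 0) {v : V} (hv : v ∈ E n) (h : c • v ∈ E (n + i - 1)) :
    v ∈ E (n - 1) := by
  obtain ⟨hi, hdeg⟩ := Ah_nonneg hc hc0
  have hcop : CopForm (k := k) 1 i.toNat 1 c := by
    refine ⟨?_, ?_, one_ne_zero, hc0, fun π hπ h => hπ.not_dvd_one h.1, Or.inr ?_⟩
    · exact mem_Ad.2 (Or.inr (by simp only [totalDegree_one, CharP.cast_eq_zero, Nat.cast_one, zero_le_one]))
    · have := Ah_le_Ad _ hc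
      rwa [Int.toNat_of_nonneg hi]
    · omega
  refine h2.of_cop hcop (v := v) (n := n - 1) ?_ ?_
  · rw [one_smul]
    simpa only [Nat.cast_one, sub_add_cancel] using hv
  · rw [Int.toNat_of_nonneg hi, show n - 1 + i = n + i - 1 by ring]
    exact h

/-- the number of independent elements is at most the rank -/
theorem card_le_of_hIndep {E : ℤ → Submodule k V} (hE : IsBLat E) {ι : Type} [Fintype ι]
    {v : ι → V} {d : ι → ℤ} (hv : ∀ i, v i ∈ E (d i)) (hi : HIndep E v d) {N e g : ℤ}
    (hh : HasHilb E N e g) :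
    (Fintype.card ι : ℤ) ≤ N ∧ ((Fintype.card ι : ℤ) = N → 0 ≤ e + ∑ i, d i) := by
  obtain ⟨M, hM⟩ := eventually_atTop.1 hh
  have key : ∀ n : ℤ, M + 1 ≤ n → (∀ i, 0 ≤ n - d i + 1) →
      (Fintype.card ι : ℤ) * (n + 1) - ∑ i, d i ≤ N * (n + 1) + e := by
    intro n hn hd
    have := hE.fin n
    have h1 := finrank_HG hE hi n
    have h2 : Module.finrank k (HG E v d n) ≤ Module.finrank k (E n) :=
      Submodule.finrank_mono (HG_le hE hv n)
    have h3 := hM n (by omega)
    have h4 := hM (n - 1) (by (clear v d hv hi N e g hh hM hd h1 h2 h3; omega))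
    have h5 : ∑ i, max 0 (n - d i + 1) = (Fintype.card ι : ℤ) * (n + 1) - ∑ i, d i := by
      have : ∀ i, max 0 (n - d i + 1) = (n + 1) - d i := fun i => by
        rw [max_eq_right (hd i)]; ring
      simp only [this, Finset.sum_sub_distrib, Finset.sum_const, Finset.card_univ, nsmul_eq_mul]
    rw [h5] at h1
    have h6 : ((Module.finrank k (E n) : ℤ) : ℚ) - ((Module.finrank k (E (n - 1)) : ℤ) : ℚ) =
        ((N * (n + 1) + e : ℤ) : ℚ) := by
      push_cast
      rw [h3, h4]
      unfold hp
      push_cast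
      ring
    have h7 : (Module.finrank k (E n) : ℤ) - Module.finrank k (E (n - 1)) = N * (n + 1) + e := by
      exact_mod_cast h6
    (clear hv hi hh M hM hn hd; omega)
  obtain ⟨M', hM'⟩ : ∃ M' : ℤ, ∀ n : ℤ, M' ≤ n → ∀ i, 0 ≤ n - d i + 1 := by
    refine ⟨∑ i, |d i|, fun n hn i => ?_⟩
    have h1 : |d i| ≤ ∑ i, |d i| :=
      Finset.single_le_sum (f := fun i => |d i|) (fun j _ => abs_nonneg _) (Finset.mem_univ i)
    have h2 := le_abs_self (d i)
    omega
  constructor
  · by_contra hcon
    push Not at hcon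
    have h1 := key (max (M + 1) (max M' (max 0 (e + ∑ i, d i)))) (le_max_left _ _)
      (hM' _ ((le_max_left _ _).trans (le_max_right _ _)))
    set n := max (M + 1) (max M' (max 0 (e + ∑ i, d i))) with hn
    have h2 : e + ∑ i, d i ≤ n :=
      (le_max_right _ _).trans ((le_max_right _ _).trans (le_max_right _ _))
    have h3 : 0 ≤ n := (le_max_left _ _).trans ((le_max_right _ _).trans (le_max_right _ _))
    nlinarith only [hcon, h1, h2, h3]
  · intro hN
    have h1 := key (max (M + 1) M') (le_max_left _ _) (hM' _ (le_max_right _ _))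
    rw [hN] at h1
    linarith

/-- dependence on a maximal family -/
theorem exists_mul_of_not_hIndep {E : ℤ → Submodule k V} {s : ℕ}
    {v : Fin s → V} {d : Fin s → ℤ} (hi : HIndep E v d) {w : V} {c : ℤ}
    (hn : ¬ HIndep E (Fin.cons w v : Fin (s + 1) → V) (Fin.cons c d : Fin (s + 1) → ℤ)) :
    ∃ (β : ℕ) (b : A k), b ∈ Ah k β ∧ b ≠ 0 ∧ b • w ∈ HG E v d (c + β) := by
  unfold HIndep at hn
  push Not at hn
  obtain ⟨m, a, ha, hsum, i, hi0⟩ := hn
  rw [Fin.sum_univ_succ] at hsum
  simp only [Fin.cons_zero, Fin.cons_succ] at hsum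
  have ha0 := ha 0
  simp only [Fin.cons_zero] at ha0
  have has : ∀ j : Fin s, a j.succ ∈ Ah k (m - d j) := fun j => by
    have := ha j.succ
    simpa only [Fin.cons_succ] using this
  have hne : a 0 ≠ 0 := by
    intro h0
    rw [h0, zero_smul, zero_add] at hsum
    have h1 := hi m (fun j => a j.succ) has hsum
    rcases Fin.eq_zero_or_eq_succ i with rfl | ⟨j, rfl⟩
    · exact hi0 h0
    · exact hi0 (h1 j)
  obtain ⟨hm, -⟩ := Ah_nonneg ha0 hne
  refine ⟨(m - c).toNat, a 0, ?_, hne, ?_⟩
  · rwa [Int.toNat_of_nonneg hm]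
  · rw [Int.toNat_of_nonneg hm, show c + (m - c) = m by ring]
    have e1 : a 0 • w = (∑ j, (-(a j.succ)) • v j) + (a 0 • w + ∑ j, a j.succ • v j) := by
      simp only [neg_smul, Finset.sum_neg_distrib]
      abel
    rw [e1]
    refine Submodule.add_mem_sup ?_ hsum
    rw [mem_hGen]
    exact ⟨fun j => -(a j.succ), fun j => neg_mem (has j), rfl⟩

theorem Ah_prod {ι : Type} (s : Finset ι) (b : ι → A k) (β : ι → ℕ)
    (h : ∀ j ∈ s, b j ∈ Ah k (β j)) : ∏ j ∈ s, b j ∈ Ah k ((∑ j ∈ s, β j : ℕ) : ℤ) := by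
  classical
  induction s using Finset.induction_on with
  | empty => simpa only [Finset.sum_empty, CharP.cast_eq_zero, Finset.prod_empty] using one_mem_Ah (k := k)
  | insert a t ha ih =>
    rw [Finset.prod_insert ha, Finset.sum_insert ha]
    push_cast
    have h1 := Ah_mul (h a (Finset.mem_insert_self _ _))
      (ih fun j hj => h j (Finset.mem_insert_of_mem hj))
    push_cast at h1
    exact h1

/-- a common multiplier for a finitely generated lattice -/
theorem exists_common_mul {E : ℤ → Submodule k V} (hE : IsBLat E) {s : ℕ}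
    {v : Fin s → V} {d : Fin s → ℤ} (hv : ∀ i, v i ∈ E (d i)) {l : ℕ} (u : Fin l → V)
    (c : Fin l → ℤ)
    (h : ∀ j, ∃ (β : ℕ) (b : A k), b ∈ Ah k β ∧ b ≠ 0 ∧ b • u j ∈ HG E v d (c j + β)) :
    ∃ (β : ℕ) (b : A k), b ∈ Ah k β ∧ b ≠ 0 ∧
      ∀ n, ∀ x ∈ genLat (k := k) u c n, b • x ∈ HG E v d (n + β) := by
  classical
  choose β b hb hb0 hbu using h
  refine ⟨∑ j, β j, ∏ j, b j, Ah_prod _ b β fun j _ => hb j,
    Finset.prod_ne_zero_iff.2 fun j _ => hb0 j, fun n x hx => ?_⟩
  rw [mem_genLat] at hx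
  obtain ⟨a, ha, rfl⟩ := hx
  rw [Finset.smul_sum]
  refine sum_mem fun j _ => ?_
  have e1 : (∏ i, b i) • a j • u j = (a j * ∏ i ∈ Finset.univ.erase j, b i) • (b j • u j) := by
    rw [smul_smul, smul_smul, ← Finset.mul_prod_erase Finset.univ b (Finset.mem_univ j)]
    congr 1
    ring
  rw [e1]
  have h1 := Ah_prod (Finset.univ.erase j) b β fun i _ => hb i
  have h2 := Ad_mul (ha j) (Ah_le_Ad _ h1)
  have h3 := HG_smul hE hv h2 (hbu j)
  have h4 : (∑ i, β i) = β j + ∑ i ∈ Finset.univ.erase j, β i :=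
    (Finset.add_sum_erase Finset.univ β (Finset.mem_univ j)).symm
  rw [h4]
  push_cast at h3 ⊢
  rwa [show c j + (β j : ℤ) + (n - c j + ∑ i ∈ Finset.univ.erase j, (β i : ℤ)) =
    n + (β j + ∑ i ∈ Finset.univ.erase j, (β i : ℤ)) by ring] at h3

/-- enough independent elements -/
theorem rank_le_card {E F : ℤ → Submodule k V} (hE : IsBLat E) (h2 : IsS2 E)
    (hle : ∀ n, F n ≤ E n) {s : ℕ} {v : Fin s → V} {d : Fin s → ℤ} (hi : HIndep E v d)
    {N e g g' : ℤ} (hh : HasHilb E N e g) (hh' : HasHilb F N e g')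
    (h : ∃ (β : ℕ) (b : A k), b ∈ Ah k β ∧ b ≠ 0 ∧ ∀ n, ∀ x ∈ F n, b • x ∈ HG E v d (n + β)) :
    N ≤ s := by
  obtain ⟨β, b, hb, hb0, hmul⟩ := h
  obtain ⟨M, hM⟩ := eventually_atTop.1 (hh.and hh')
  have key : ∀ n : ℤ, M + 1 ≤ n → (∀ i, 0 ≤ n + β - d i + 1) →
      N * (n + 1) + e + g' - g ≤ (s : ℤ) * (n + 1) + s * β - ∑ i, d i := by
    intro n hn hd
    have f1 := hE.fin n
    have f2 := hE.fin (n + β - 1)
    have f3 := hE.fin (n - 1)
    have f4 : Module.Finite k (F n) := Submodule.finiteDimensional_of_le (hle n)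
    have f5 := hE.fin (n + β)
    have f6 : Module.Finite k (HG E v d (n + β)) := by unfold HG; infer_instance
    have h1 := finrank_HG hE hi (n + β)
    have h5 : ∑ i, max 0 (n + β - d i + 1) = (s : ℤ) * (n + 1) + s * β - ∑ i, d i := by
      have : ∀ i, max 0 (n + β - d i + 1) = (n + 1 + β) - d i := fun i => by
        rw [max_eq_right (hd i)]; ring
      simp only [this, Finset.sum_sub_distrib, Finset.sum_const, Finset.card_univ, nsmul_eq_mul,
        Fintype.card_fin]
      ring
    rw [h5] at h1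
    have h6 := Submodule.finrank_sup_add_finrank_inf_eq ((F n).map (mulL b)) (E (n + β - 1))
    rw [finrank_map_mulL hb0] at h6
    have h7 : Module.finrank k ((F n).map (mulL b) ⊔ E (n + β - 1) : Submodule k V) ≤
        Module.finrank k (HG E v d (n + β)) := by
      apply Submodule.finrank_mono
      refine sup_le ?_ le_sup_right
      rintro _ ⟨x, hx, rfl⟩
      exact hmul n x hx
    have h8 : Module.finrank k ((F n).map (mulL b) ⊓ E (n + β - 1) : Submodule k V) ≤
        Module.finrank k (E (n - 1)) := by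
      rw [← finrank_map_mulL hb0 (E (n - 1))]
      apply Submodule.finrank_mono
      rintro _ ⟨⟨x, hx, rfl⟩, hx2⟩
      exact ⟨x, lower_of_smul h2 hb hb0 (hle n hx) hx2, rfl⟩
    obtain ⟨-, h9⟩ := hM n (by (clear h2 hi N e g g' hh hh' b hb hb0 hmul hM hd h1 h5 h6 h7 h8; omega))
    obtain ⟨h10, -⟩ := hM (n - 1) (by (clear h2 hi N e g g' hh hh' b hb hb0 hmul hM hd h1 h5 h6 h7 h8 h9; omega))
    have h11 : ((Module.finrank k (F n) : ℤ) : ℚ) - ((Module.finrank k (E (n - 1)) : ℤ) : ℚ) =
        ((N * (n + 1) + e + g' - g : ℤ) : ℚ) := by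
      push_cast
      rw [h9, h10]
      unfold hp
      push_cast
      ring
    have h12 : (Module.finrank k (F n) : ℤ) - Module.finrank k (E (n - 1)) =
        N * (n + 1) + e + g' - g := by
      exact_mod_cast h11
    (clear hi hh hh' M hM hn hd; omega)
  by_contra hcon
  push Not at hcon
  obtain ⟨M', hM'⟩ : ∃ M' : ℤ, ∀ n : ℤ, M' ≤ n → ∀ i, 0 ≤ n + β - d i + 1 := by
    refine ⟨∑ i, |d i|, fun n hn i => ?_⟩
    have h1 : |d i| ≤ ∑ i, |d i| :=
      Finset.single_le_sum (f := fun i => |d i|) (fun j _ => abs_nonneg _) (Finset.mem_univ i)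
    have h2 := le_abs_self (d i)
    omega
  have h1 := key (max (M + 1) (max M' (max 0 ((s : ℤ) * β - ∑ i, d i - e - g' + g))))
    (le_max_left _ _) (hM' _ ((le_max_left _ _).trans (le_max_right _ _)))
  set n := max (M + 1) (max M' (max 0 ((s : ℤ) * β - ∑ i, d i - e - g' + g))) with hn
  have h2 : (s : ℤ) * β - ∑ i, d i - e - g' + g ≤ n :=
    (le_max_right _ _).trans ((le_max_right _ _).trans (le_max_right _ _))
  have h3 : 0 ≤ n := (le_max_left _ _).trans ((le_max_right _ _).trans (le_max_right _ _))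
  nlinarith only [hcon, h1, h2, h3]

/-- multiplication by a suitable linear form is injective modulo `HG` -/
theorem HG_of_smul {E : ℤ → Submodule k V} (hE : IsBLat E) (h2 : IsS2 E) {s : ℕ}
    {v : Fin s → V} {d : Fin s → ℤ} (hv : ∀ i, v i ∈ E (d i)) (hi : HIndep E v d)
    {β : ℕ} {b : A k} (hb : b ∈ Ah k β)
    (hmul : ∀ n, ∀ x ∈ E n, b • x ∈ HG E v d (n + β)) {t : k} (ht : eval ![1, t] b ≠ 0)
    {n : ℤ} {x : V} (hx : x ∈ E n) (h : (X 1 - C t * X 0 : A k) • x ∈ HG E v d (n + 1)) :
    x ∈ HG E v d n := by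
  set ℓ : A k := X 1 - C t * X 0 with hℓ
  have hℓ1 : ℓ ∈ Ah k 1 := X1_mem t
  have hℓ0 : ℓ ≠ 0 := X1_ne t
  have hℓe : eval ![1, t] ℓ = 0 := by simp [hℓ]
  clear_value ℓ
  unfold HG at h
  rw [Submodule.mem_sup] at h
  obtain ⟨w, hw, r, hr, hwr⟩ := h
  rw [mem_hGen] at hw
  obtain ⟨a, ha, rfl⟩ := hw
  have hbx := hmul n x hx
  unfold HG at hbx
  rw [Submodule.mem_sup] at hbx
  obtain ⟨w', hw', r', hr', hwr'⟩ := hbx
  rw [mem_hGen] at hw'
  obtain ⟨a', ha', rfl⟩ := hw'
  rw [add_sub_cancel_right] at hr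
  -- compare the two expressions of `b ℓ x`
  have e1 : ∑ i, (b * a i - ℓ * a' i) • v i = ℓ • r' - b • r := by
    have e2 : ∑ i, (b * a i - ℓ * a' i) • v i = b • (∑ i, a i • v i) - ℓ • (∑ i, a' i • v i) := by
      rw [Finset.smul_sum, Finset.smul_sum, ← Finset.sum_sub_distrib]
      refine Finset.sum_congr rfl fun i _ => ?_
      rw [sub_smul, mul_smul, mul_smul]
    rw [e2]
    have e3 : ∑ i, a i • v i = ℓ • x - r := eq_sub_of_add_eq hwr
    have e4 : ∑ i, a' i • v i = b • x - r' := eq_sub_of_add_eq hwr'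
    rw [e3, e4, smul_sub, smul_sub, smul_smul, smul_smul, mul_comm b ℓ]
    abel
  have hcoef : ∀ i, b * a i - ℓ * a' i ∈ Ah k (n + β + 1 - d i) := by
    intro i
    refine sub_mem ?_ ?_
    · have := Ah_mul hb (ha i)
      rwa [show (β : ℤ) + (n + 1 - d i) = n + β + 1 - d i by ring] at this
    · have := Ah_mul hℓ1 (ha' i)
      rwa [show (1 : ℤ) + (n + β - d i) = n + β + 1 - d i by ring] at this
  have hmem : ∑ i, (b * a i - ℓ * a' i) • v i ∈ E (n + β + 1 - 1) := by
    rw [e1]
    refine sub_mem ?_ ?_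
    · have := hE.smul_mem (Ah_le_Ad _ hℓ1) hr'
      rwa [show n + β - 1 + 1 = n + β + 1 - 1 by ring] at this
    · have := hE.smul_mem (Ah_le_Ad _ hb) hr
      rwa [show n + (β : ℤ) = n + β + 1 - 1 by ring] at this
  have hz := hi (n + β + 1) _ hcoef hmem
  have hdiv : ∀ i, ∃ h' ∈ Ah k (n - d i), a i = ℓ * h' := by
    intro i
    have h0 : eval ![1, t] (a i) = 0 := by
      have := congrArg (eval ![1, t]) (hz i)
      rw [map_sub, map_mul, map_mul, hℓe, zero_mul, sub_zero, map_zero] at this
      exact (mul_eq_zero.1 this).resolve_left ht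
    obtain ⟨h', hh', he⟩ := Ah_dvd (ha i) h0
    refine ⟨h', ?_, ?_⟩
    · rwa [show n + 1 - d i - 1 = n - d i by ring] at hh'
    · rw [he, hℓ]
  choose h' hh' he using hdiv
  have e5 : ℓ • (x - ∑ i, h' i • v i) = r := by
    rw [smul_sub, Finset.smul_sum]
    have : ∑ i, ℓ • h' i • v i = ∑ i, a i • v i :=
      Finset.sum_congr rfl fun i _ => by rw [he i, mul_smul]
    rw [this, ← hwr]
    abel
  have hW : ∑ i, h' i • v i ∈ hGen (k := k) v d n := mem_hGen.2 ⟨h', hh', rfl⟩
  have h6 : x - ∑ i, h' i • v i ∈ E n := sub_mem hx (hGen_le hE hv n hW)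
  have h7 : x - ∑ i, h' i • v i ∈ E (n - 1) := by
    refine lower_of_smul h2 hℓ1 hℓ0 h6 ?_
    rw [e5, add_sub_cancel_right]
    exact hr
  have e6 : x = ∑ i, h' i • v i + (x - ∑ i, h' i • v i) := by abel
  rw [e6]
  exact Submodule.add_mem_sup hW h7

/-- 1.7 line restriction: the bound. -/
theorem line_bound {E F : ℤ → Submodule k V} (hE : IsBLat E) (h2 : IsS2 E)
    (hF : IsBLat F) (hle : ∀ n, F n ≤ E n) {D : ℤ} (hD : GenIn F D) {N e g g' : ℤ}
    (hh : HasHilb E N e g) (hh' : HasHilb F N e g') (n : ℤ) :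
    0 ≤ e + N * D ∧ (Module.finrank k (E n) : ℤ) - Module.finrank k (E (n - 1)) ≤
      N * max 0 (n + e + (N - 1) * D + 1) + (e + N * D) := by
  obtain ⟨l, u, c, huF, hcD, hgen⟩ := hF.exists_gen' hD
  have huE : ∀ j, u j ∈ E (c j) := fun j => hle _ (huF j)
  -- a maximal independent family of generators
  obtain ⟨s, ⟨f, hf⟩, hmax⟩ : ∃ s : ℕ, (∃ f : Fin s → Fin l, HIndep E (u ∘ f) (c ∘ f)) ∧
      ¬ ∃ f : Fin (s + 1) → Fin l, HIndep E (u ∘ f) (c ∘ f) := by
    by_contra hcon
    push Not at hcon
    have hall : ∀ s : ℕ, ∃ f : Fin s → Fin l, HIndep E (u ∘ f) (c ∘ f) := by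
      intro s
      induction s with
      | zero => exact ⟨Fin.elim0, fun m a _ _ i => i.elim0⟩
      | succ s ih =>
        obtain ⟨f, hf⟩ := ih
        exact hcon s ⟨f, hf⟩
    obtain ⟨f, hf⟩ := hall (N.toNat + 1)
    have := (card_le_of_hIndep hE (fun i => huE (f i)) hf hh).1
    rw [Fintype.card_fin] at this
    push_cast at this
    omega
  set v := u ∘ f with hvdef
  set d := c ∘ f with hddef
  have hvE : ∀ i, v i ∈ E (d i) := fun i => huE (f i)
  have hdD : ∀ i, d i ≤ D := fun i => hcD (f i)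
  obtain ⟨hsN, hs0⟩ := card_le_of_hIndep hE hvE hf hh
  rw [Fintype.card_fin] at hsN hs0
  have hNs : N ≤ s := by
    refine rank_le_card hE h2 hle hf hh hh' ?_
    have := exists_common_mul hE hvE u c (fun j => by
      refine exists_mul_of_not_hIndep hf fun hcon => hmax ⟨Fin.cons j f, ?_⟩
      have e1 : u ∘ (Fin.cons j f : Fin (s + 1) → Fin l) = Fin.cons (u j) v := by
        funext i
        refine Fin.cases ?_ (fun i => ?_) i <;> simp [hvdef]
      have e2 : c ∘ (Fin.cons j f : Fin (s + 1) → Fin l) = Fin.cons (c j) d := by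
        funext i
        refine Fin.cases ?_ (fun i => ?_) i <;> simp [hddef]
      rw [e1, e2]
      exact hcon)
    obtain ⟨β, b, hb, hb0, hm⟩ := this
    refine ⟨β, b, hb, hb0, fun n x hx => hm n x ?_⟩
    rwa [← hgen]
  have hsN' : (s : ℤ) = N := le_antisymm hsN hNs
  have hsum := hs0 hsN'
  have hsumD : ∑ i, d i ≤ N * D := by
    calc ∑ i, d i ≤ ∑ _i : Fin s, D := Finset.sum_le_sum fun i _ => hdD i
      _ = N * D := by rw [Finset.sum_const, Finset.card_univ, Fintype.card_fin, nsmul_eq_mul,
        hsN']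
  have hfirst : 0 ≤ e + N * D := by linarith only [hsum, hsumD]
  refine ⟨hfirst, ?_⟩
  -- a common multiplier for `E`
  obtain ⟨l', u', c', hu', hgen'⟩ := hE.exists_gen
  obtain ⟨β, b, hb, hb0, hm⟩ := exists_common_mul hE hvE u' c' (fun j => by
    refine exists_mul_of_not_hIndep hf fun hcon => ?_
    have hmem : ∀ i, (Fin.cons (u' j) v : Fin (s + 1) → V) i ∈
        E ((Fin.cons (c' j) d : Fin (s + 1) → ℤ) i) := by
      intro i
      refine Fin.cases ?_ (fun i => ?_) i
      · simpa using hu' j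
      · simpa using hvE i
    have := (card_le_of_hIndep hE hmem hcon hh).1
    rw [Fintype.card_fin] at this
    push_cast at this
    omega)
  have hm' : ∀ n, ∀ x ∈ E n, b • x ∈ HG E v d (n + β) := fun n x hx => hm n x (by rwa [← hgen'])
  obtain ⟨t, ht⟩ := exists_eval_ne hb hb0
  -- monotonicity
  have hmono : ∀ n : ℤ, (Module.finrank k (E n) : ℤ) - Module.finrank k (HG E v d n) ≤
      Module.finrank k (E (n + 1)) - Module.finrank k (HG E v d (n + 1)) := by
    intro n
    have f1 := hE.fin n
    have f2 := hE.fin (n + 1)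
    have f3 := hE.fin (n - 1)
    have f4 : Module.Finite k (HG E v d n) :=
      Submodule.finiteDimensional_of_le (HG_le hE hvE n)
    have f5 : Module.Finite k (HG E v d (n + 1)) :=
      Submodule.finiteDimensional_of_le (HG_le hE hvE (n + 1))
    have h6 := Submodule.finrank_sup_add_finrank_inf_eq
      ((E n).map (mulL (X 1 - C t * X 0 : A k))) (HG E v d (n + 1))
    rw [finrank_map_mulL (X1_ne t)] at h6
    have h7 : Module.finrank k ((E n).map (mulL (X 1 - C t * X 0 : A k)) ⊔
        HG E v d (n + 1) : Submodule k V) ≤ Module.finrank k (E (n + 1)) := by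
      apply Submodule.finrank_mono
      refine sup_le ?_ (HG_le hE hvE (n + 1))
      rintro _ ⟨x, hx, rfl⟩
      exact hE.smul_mem (Ah_le_Ad _ (X1_mem t)) hx
    have h8 : Module.finrank k ((E n).map (mulL (X 1 - C t * X 0 : A k)) ⊓
        HG E v d (n + 1) : Submodule k V) ≤ Module.finrank k (HG E v d n) := by
      rw [← finrank_map_mulL (X1_ne t) (HG E v d n)]
      apply Submodule.finrank_mono
      rintro _ ⟨⟨x, hx, rfl⟩, hx2⟩
      exact ⟨x, HG_of_smul hE h2 hvE hf hb hm' ht hx hx2, rfl⟩
    omega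
  -- the limit
  obtain ⟨M, hM⟩ := eventually_atTop.1 hh
  have hlim : ∀ n : ℤ, (Module.finrank k (E n) : ℤ) - Module.finrank k (HG E v d n) ≤
      e + ∑ i, d i := by
    intro n
    obtain ⟨δ, hδ⟩ : ∃ δ : ℤ → ℤ, ∀ n, δ n =
      (Module.finrank k (E n) : ℤ) - Module.finrank k (HG E v d n) := ⟨_, fun _ => rfl⟩
    have hmono' : ∀ n, δ n ≤ δ (n + 1) := fun n => by rw [hδ, hδ]; exact hmono n
    have hstep : ∀ j : ℕ, δ n ≤ δ (n + j) := by
      intro j
      induction j with
      | zero => rw [Nat.cast_zero, add_zero]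
      | succ j ih =>
        have e1 : n + ((j + 1 : ℕ) : ℤ) = n + j + 1 := by push_cast; ring
        rw [e1]
        exact ih.trans (hmono' _)
    rw [← hδ]
    set j : ℕ := (max (M + 1) (∑ i, |d i|) - n).toNat with hj
    have hj1 : M + 1 ≤ n + j := by
      have := le_max_left (M + 1) (∑ i, |d i|)
      omega
    have hj2 : ∑ i, |d i| ≤ n + j := by
      have := le_max_right (M + 1) (∑ i, |d i|)
      omega
    refine (hstep j).trans (le_of_eq ?_)
    rw [hδ]
    set n' : ℤ := n + j with hn'
    have h1 := finrank_HG hE hf n'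
    have h3 := hM n' (by omega)
    have h4 := hM (n' - 1) (by omega)
    have h5 : ∑ i, max 0 (n' - d i + 1) = N * (n' + 1) - ∑ i, d i := by
      have : ∀ i, max 0 (n' - d i + 1) = (n' + 1) - d i := fun i => by
        have h1 : |d i| ≤ ∑ i, |d i| :=
          Finset.single_le_sum (f := fun i => |d i|) (fun j _ => abs_nonneg _) (Finset.mem_univ i)
        have h2 := le_abs_self (d i)
        rw [max_eq_right (by omega)]; ring
      simp only [this, Finset.sum_sub_distrib, Finset.sum_const, Finset.card_univ, Fintype.card_fin, nsmul_eq_mul, hsN']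
    rw [h5] at h1
    have h6 : ((Module.finrank k (E n') : ℤ) : ℚ) - ((Module.finrank k (E (n' - 1)) : ℤ) : ℚ) =
        ((N * (n' + 1) + e : ℤ) : ℚ) := by
      push_cast
      rw [h3, h4]
      unfold hp
      push_cast
      ring
    have h7 : (Module.finrank k (E n') : ℤ) - Module.finrank k (E (n' - 1)) =
        N * (n' + 1) + e := by
      exact_mod_cast h6
    rw [h1]
    linarith only [h7]
  have h1 := hlim n
  rw [finrank_HG hE hf n] at h1
  have hdlow : ∀ i, -e - (N - 1) * D ≤ d i := by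
    intro i
    have h3 : ∑ j, d j = d i + ∑ j ∈ Finset.univ.erase i, d j :=
      (Finset.add_sum_erase Finset.univ d (Finset.mem_univ i)).symm
    have h4 : ∑ j ∈ Finset.univ.erase i, d j ≤ (N - 1) * D := by
      calc ∑ j ∈ Finset.univ.erase i, d j ≤ ∑ _j ∈ Finset.univ.erase i, D :=
            Finset.sum_le_sum fun i _ => hdD i
        _ = (N - 1) * D := by
            rw [Finset.sum_const, Finset.card_erase_of_mem (Finset.mem_univ i), Finset.card_univ,
              Fintype.card_fin, nsmul_eq_mul]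
            have : 0 < s := i.pos
            push_cast [Nat.cast_sub (show 1 ≤ s from this)]
            rw [hsN']
    linarith only [hsum, h3, h4]
  have h5 : ∑ i, max 0 (n - d i + 1) ≤ N * max 0 (n + e + (N - 1) * D + 1) := by
    calc ∑ i, max 0 (n - d i + 1) ≤ ∑ _i : Fin s, max 0 (n + e + (N - 1) * D + 1) := by
          refine Finset.sum_le_sum fun i _ => max_le_max le_rfl ?_
          have := hdlow i
          linarith only [this]
      _ = _ := by rw [Finset.sum_const, Finset.card_univ, Fintype.card_fin, nsmul_eq_mul, hsN']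
  linarith

end Vale.Agent.P190.D
end
end

section

section

/-! Section 5, file U5a: sharp line restriction bound. -/

set_option autoImplicit false
set_option linter.unusedSectionVars false

open MvPolynomial Filter

namespace Vale.Agent.P190.D

variable {k : Type} [Field k] [Infinite k] {V : Type} [AddCommGroup V] [Module k V]
  [Module (A k) V] [Module (KK k) V] [IsScalarTower k (A k) V] [IsScalarTower (A k) (KK k) V]

/-- U5a: sharp form of `line_bound` above the generation degree -/
theorem line_bound_sharp {E F : ℤ → Submodule k V} (hE : IsBLat E) (h2 : IsS2 E)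
    (hF : IsBLat F) (hle : ∀ n, F n ≤ E n) {D : ℤ} (hD : GenIn F D) {N e g g' : ℤ}
    (hh : HasHilb E N e g) (hh' : HasHilb F N e g') {n : ℤ} (hn : D ≤ n + 1) :
    (Module.finrank k (E n) : ℤ) - Module.finrank k (E (n - 1)) ≤ N * (n + 1) + e := by
  obtain ⟨l, u, c, huF, hcD, hgen⟩ := hF.exists_gen' hD
  have huE : ∀ j, u j ∈ E (c j) := fun j => hle _ (huF j)
  -- a maximal independent family of generators
  obtain ⟨s, ⟨f, hf⟩, hmax⟩ : ∃ s : ℕ, (∃ f : Fin s → Fin l, HIndep E (u ∘ f) (c ∘ f)) ∧
      ¬ ∃ f : Fin (s + 1) → Fin l, HIndep E (u ∘ f) (c ∘ f) := by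
    by_contra hcon
    push Not at hcon
    have hall : ∀ s : ℕ, ∃ f : Fin s → Fin l, HIndep E (u ∘ f) (c ∘ f) := by
      intro s
      induction s with
      | zero => exact ⟨Fin.elim0, fun m a _ _ i => i.elim0⟩
      | succ s ih =>
        obtain ⟨f, hf⟩ := ih
        exact hcon s ⟨f, hf⟩
    obtain ⟨f, hf⟩ := hall (N.toNat + 1)
    have := (card_le_of_hIndep hE (fun i => huE (f i)) hf hh).1
    rw [Fintype.card_fin] at this
    push_cast at this
    omega
  set v := u ∘ f with hvdef
  set d := c ∘ f with hddef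
  have hvE : ∀ i, v i ∈ E (d i) := fun i => huE (f i)
  have hdD : ∀ i, d i ≤ D := fun i => hcD (f i)
  obtain ⟨hsN, hs0⟩ := card_le_of_hIndep hE hvE hf hh
  rw [Fintype.card_fin] at hsN hs0
  have hNs : N ≤ s := by
    refine rank_le_card hE h2 hle hf hh hh' ?_
    have := exists_common_mul hE hvE u c (fun j => by
      refine exists_mul_of_not_hIndep hf fun hcon => hmax ⟨Fin.cons j f, ?_⟩
      have e1 : u ∘ (Fin.cons j f : Fin (s + 1) → Fin l) = Fin.cons (u j) v := by
        funext i
        refine Fin.cases ?_ (fun i => ?_) i <;> simp [hvdef]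
      have e2 : c ∘ (Fin.cons j f : Fin (s + 1) → Fin l) = Fin.cons (c j) d := by
        funext i
        refine Fin.cases ?_ (fun i => ?_) i <;> simp [hddef]
      rw [e1, e2]
      exact hcon)
    obtain ⟨β, b, hb, hb0, hm⟩ := this
    refine ⟨β, b, hb, hb0, fun n x hx => hm n x ?_⟩
    rwa [← hgen]
  have hsN' : (s : ℤ) = N := le_antisymm hsN hNs
  -- a common multiplier for `E`
  obtain ⟨l', u', c', hu', hgen'⟩ := hE.exists_gen
  obtain ⟨β, b, hb, hb0, hm⟩ := exists_common_mul hE hvE u' c' (fun j => by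
    refine exists_mul_of_not_hIndep hf fun hcon => ?_
    have hmem : ∀ i, (Fin.cons (u' j) v : Fin (s + 1) → V) i ∈
        E ((Fin.cons (c' j) d : Fin (s + 1) → ℤ) i) := by
      intro i
      refine Fin.cases ?_ (fun i => ?_) i
      · simpa using hu' j
      · simpa using hvE i
    have := (card_le_of_hIndep hE hmem hcon hh).1
    rw [Fintype.card_fin] at this
    push_cast at this
    omega)
  have hm' : ∀ n, ∀ x ∈ E n, b • x ∈ HG E v d (n + β) := fun n x hx => hm n x (by rwa [← hgen'])
  obtain ⟨t, ht⟩ := exists_eval_ne hb hb0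
  -- monotonicity
  have hmono : ∀ n : ℤ, (Module.finrank k (E n) : ℤ) - Module.finrank k (HG E v d n) ≤
      Module.finrank k (E (n + 1)) - Module.finrank k (HG E v d (n + 1)) := by
    intro n
    have f1 := hE.fin n
    have f2 := hE.fin (n + 1)
    have f3 := hE.fin (n - 1)
    have f4 : Module.Finite k (HG E v d n) :=
      Submodule.finiteDimensional_of_le (HG_le hE hvE n)
    have f5 : Module.Finite k (HG E v d (n + 1)) :=
      Submodule.finiteDimensional_of_le (HG_le hE hvE (n + 1))
    have h6 := Submodule.finrank_sup_add_finrank_inf_eq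
      ((E n).map (mulL (X 1 - C t * X 0 : A k))) (HG E v d (n + 1))
    rw [finrank_map_mulL (X1_ne t)] at h6
    have h7 : Module.finrank k ((E n).map (mulL (X 1 - C t * X 0 : A k)) ⊔
        HG E v d (n + 1) : Submodule k V) ≤ Module.finrank k (E (n + 1)) := by
      apply Submodule.finrank_mono
      refine sup_le ?_ (HG_le hE hvE (n + 1))
      rintro _ ⟨x, hx, rfl⟩
      exact hE.smul_mem (Ah_le_Ad _ (X1_mem t)) hx
    have h8 : Module.finrank k ((E n).map (mulL (X 1 - C t * X 0 : A k)) ⊓
        HG E v d (n + 1) : Submodule k V) ≤ Module.finrank k (HG E v d n) := by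
      rw [← finrank_map_mulL (X1_ne t) (HG E v d n)]
      apply Submodule.finrank_mono
      rintro _ ⟨⟨x, hx, rfl⟩, hx2⟩
      exact ⟨x, HG_of_smul hE h2 hvE hf hb hm' ht hx hx2, rfl⟩
    omega
  -- the limit
  obtain ⟨M, hM⟩ := eventually_atTop.1 hh
  have hlim : ∀ n : ℤ, (Module.finrank k (E n) : ℤ) - Module.finrank k (HG E v d n) ≤
      e + ∑ i, d i := by
    intro n
    obtain ⟨δ, hδ⟩ : ∃ δ : ℤ → ℤ, ∀ n, δ n =
      (Module.finrank k (E n) : ℤ) - Module.finrank k (HG E v d n) := ⟨_, fun _ => rfl⟩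
    have hmono' : ∀ n, δ n ≤ δ (n + 1) := fun n => by rw [hδ, hδ]; exact hmono n
    have hstep : ∀ j : ℕ, δ n ≤ δ (n + j) := by
      intro j
      induction j with
      | zero => rw [Nat.cast_zero, add_zero]
      | succ j ih =>
        have e1 : n + ((j + 1 : ℕ) : ℤ) = n + j + 1 := by push_cast; ring
        rw [e1]
        exact ih.trans (hmono' _)
    rw [← hδ]
    set j : ℕ := (max (M + 1) (∑ i, |d i|) - n).toNat with hj
    have hj1 : M + 1 ≤ n + j := by
      have := le_max_left (M + 1) (∑ i, |d i|)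
      omega
    have hj2 : ∑ i, |d i| ≤ n + j := by
      have := le_max_right (M + 1) (∑ i, |d i|)
      omega
    refine (hstep j).trans (le_of_eq ?_)
    rw [hδ]
    set n' : ℤ := n + j with hn'
    have h1 := finrank_HG hE hf n'
    have h3 := hM n' (by omega)
    have h4 := hM (n' - 1) (by omega)
    have h5 : ∑ i, max 0 (n' - d i + 1) = N * (n' + 1) - ∑ i, d i := by
      have : ∀ i, max 0 (n' - d i + 1) = (n' + 1) - d i := fun i => by
        have h1 : |d i| ≤ ∑ i, |d i| :=
          Finset.single_le_sum (f := fun i => |d i|) (fun j _ => abs_nonneg _) (Finset.mem_univ i)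
        have h2 := le_abs_self (d i)
        rw [max_eq_right (by omega)]; ring
      simp only [this, Finset.sum_sub_distrib, Finset.sum_const, Finset.card_univ, nsmul_eq_mul,
        Fintype.card_fin, hsN']
    rw [h5] at h1
    have h6 : ((Module.finrank k (E n') : ℤ) : ℚ) - ((Module.finrank k (E (n' - 1)) : ℤ) : ℚ) =
        ((N * (n' + 1) + e : ℤ) : ℚ) := by
      push_cast
      rw [h3, h4]
      unfold hp
      push_cast
      ring
    have h7 : (Module.finrank k (E n') : ℤ) - Module.finrank k (E (n' - 1)) =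
        N * (n' + 1) + e := by
      exact_mod_cast h6
    rw [h1]
    linarith only [h7]
  have h1 := hlim n
  rw [finrank_HG hE hf n] at h1
  have h5 : ∑ i, max 0 (n - d i + 1) = N * (n + 1) - ∑ i, d i := by
    have : ∀ i, max 0 (n - d i + 1) = (n + 1) - d i := fun i => by
      have h2 := hdD i
      rw [max_eq_right (by omega)]; ring
    simp only [this, Finset.sum_sub_distrib, Finset.sum_const, Finset.card_univ, nsmul_eq_mul,
      Fintype.card_fin, hsN']
  rw [h5] at h1
  linarith only [h1]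

end Vale.Agent.P190.D
end
end

section

section

/-! Section 5, file U5b: start of a lattice and slopes of sublattices. -/

set_option autoImplicit false
set_option linter.unusedSectionVars false

open MvPolynomial Filter

namespace Vale.Agent.P190.D

variable {k : Type} [Field k] [Infinite k] {V : Type} [AddCommGroup V] [Module k V]
  [Module (A k) V] [Module (KK k) V] [IsScalarTower k (A k) V] [IsScalarTower (A k) (KK k) V]

section aux

variable {V' : Type} [AddCommGroup V'] [Module k V']
  [Module (A k) V'] [Module (KK k) V'] [IsScalarTower k (A k) V'] [IsScalarTower (A k) (KK k) V']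

theorem u5b_genIn_map (f : V →ₗ[A k] V') {E : ℤ → Submodule k V} {D : ℤ} (hD : GenIn E D) :
    GenIn (mapLat f E) D := by
  intro n hn
  rintro _ ⟨u, hu, rfl⟩
  have h1 := hD n hn hu
  show (f.restrictScalars k) u ∈ _
  clear hu
  induction h1 using Submodule.span_induction with
  | mem w hw =>
    obtain ⟨a, ha, v, hv, rfl⟩ := hw
    exact Submodule.subset_span ⟨a, ha, f v, ⟨v, hv, rfl⟩, map_smul f a v⟩
  | zero => rw [map_zero]; exact zero_mem _
  | add v w _ _ hv hw => rw [map_add]; exact add_mem hv hw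
  | smul c v _ hv => rw [map_smul]; exact Submodule.smul_mem _ _ hv

theorem u5b_slope {E F : ℤ → Submodule k V} (hE : IsBLat E) (hF : IsBLat F)
    (hle : ∀ n, F n ≤ E n) {D : ℤ} (hD : GenIn F D)
    {N e g g' : ℤ} (h : HasHilb E N e g) (h' : HasHilb F N e g') : 0 ≤ N ∧ 0 ≤ e + N * D := by
  obtain ⟨g₁, _, h₁⟩ := HasHilb.hull hE h
  exact ⟨h.nonneg, (line_bound (isBLat_hull hE) (isS2_hull hE) hF
    (fun n => (hle n).trans (le_hull hE n)) hD h₁ h' 0).1⟩

theorem u5b_ker (W : Submodule (KK k) V) :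
    LinearMap.ker (W.mkQ.restrictScalars (A k)) = W.restrictScalars (A k) := by
  ext x
  rw [LinearMap.mem_ker, Submodule.restrictScalars_mem, LinearMap.restrictScalars_apply,
    Submodule.mkQ_apply, Submodule.Quotient.mk_eq_zero]

end aux

/-- U5c: rank and slope of sublattices -/
theorem sub_slope {E : ℤ → Submodule k V} (hE : IsBLat E) {D : ℤ} (hD : GenIn E D) {N e g : ℤ}
    (h : HasHilb E N e g) (W : Submodule (KK k) V) {w f g' : ℤ}
    (hW : HasHilb (interLat E (W.restrictScalars (A k))) w f g') :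
    w ≤ N ∧ f ≤ e + (N - w) * D := by
  have : IsScalarTower k (KK k) V := b4_tower
  let φ : V →ₗ[A k] (V ⧸ W) := W.mkQ.restrictScalars (A k)
  have hker : LinearMap.ker φ = W.restrictScalars (A k) := u5b_ker W
  obtain ⟨N₂, e₂, g₂, h₂⟩ := (hE.map φ).exists_hilb
  rw [← hker] at hW
  obtain ⟨hN, he, hg⟩ := HasHilb.add hE φ h hW h₂
  obtain ⟨h3, h4⟩ := u5b_slope (hE.map φ) (hE.map φ) (fun _ => le_rfl) (u5b_genIn_map φ hD) h₂ h₂
  have h5 : N - w = N₂ := by omega
  rw [h5]
  constructor
  · omega
  · omega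

theorem u5b_indep {x : V} (hx : x ≠ 0) : LinearIndependent (A k) (fun _ : Fin 1 => x) := by
  have h1 : LinearIndependent (KK k) (fun _ : Fin 1 => x) := by
    rw [linearIndependent_unique_iff]
    exact hx
  refine h1.restrict_scalars ?_
  intro a b hab
  simp only [Algebra.smul_def, mul_one] at hab
  exact FaithfulSMul.algebraMap_injective _ _ hab

theorem u5b_hilb {x : V} (hx : x ≠ 0) (n : ℤ) :
    ∃ g : ℤ, HasHilb (genLat (k := k) (fun _ : Fin 1 => x) (fun _ : Fin 1 => n)) 1 (-n) g := by
  obtain ⟨q, hq⟩ := Int.even_mul_pred_self n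
  refine ⟨q, ?_⟩
  filter_upwards [eventually_ge_atTop (n - 2)] with m hm
  rw [finrank_genLat (u5b_indep hx)]
  rw [Finset.sum_const, Finset.card_univ, Fintype.card_fin, one_smul, finrank_Ad (by (clear * - hm; omega))]
  have hq' : (n : ℚ) * (n - 1) = q + q := by exact_mod_cast hq
  unfold hp
  push_cast
  linear_combination (1 / 2 : ℚ) * hq'

/-- U5b: the first nonzero degree -/
theorem start_bound {E F : ℤ → Submodule k V} (hE : IsBLat E) (h2 : IsS2 E)
    (hF : IsBLat F) (hle : ∀ n, F n ≤ E n) {D : ℤ} (hD : GenIn F D) {N e g g' : ℤ}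
    (hh : HasHilb E N e g) (hh' : HasHilb F N e g') {n : ℤ} (hn : n < -e - (N - 1) * D) :
    E n = ⊥ := by
  rw [Submodule.eq_bot_iff]
  by_contra hne
  push Not at hne
  obtain ⟨x, hx, hx0⟩ := hne
  have : IsScalarTower k (KK k) V := b4_tower
  let W : Submodule (KK k) V := Submodule.span (KK k) {x}
  let φ : V →ₗ[A k] (V ⧸ W) := W.mkQ.restrictScalars (A k)
  have hker : LinearMap.ker φ = W.restrictScalars (A k) := u5b_ker W
  obtain ⟨N₁, e₁, g₁, h₁⟩ := (hE.inter (LinearMap.ker φ)).exists_hilb
  obtain ⟨N₂, e₂, g₂, h₂⟩ := (hE.map φ).exists_hilb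
  obtain ⟨hN, he, hg⟩ := HasHilb.add hE φ hh h₁ h₂
  have hxL : x ∈ interLat E (LinearMap.ker φ) n := by
    refine ⟨hx, ?_⟩
    show x ∈ LinearMap.ker φ
    rw [hker]
    exact Submodule.mem_span_singleton_self x
  have hN1 : N₁ = 1 := by
    rw [HasHilb.N_eq (hE.inter _) h₁]
    have hs : spanK (interLat E (LinearMap.ker φ)) = W := by
      apply le_antisymm
      · refine Submodule.span_le.2 ?_
        intro y hy
        obtain ⟨m, hm⟩ := Set.mem_iUnion.1 hy
        have h3 : y ∈ LinearMap.ker φ := hm.2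
        rw [hker] at h3
        exact h3
      · refine Submodule.span_le.2 ?_
        rintro _ rfl
        exact b4_mem_spanK hxL
    rw [hs, finrank_span_singleton hx0]
    rfl
  obtain ⟨g₃, h₃⟩ := u5b_hilb (k := k) hx0 n
  have he1 : -n ≤ e₁ := by
    rw [hN1] at h₁
    exact (HasHilb.mono (hE.inter (LinearMap.ker φ))
      (genLat_le (hE.inter (LinearMap.ker φ)) (fun _ => hxL)) h₃ h₁).1
  obtain ⟨N₄, e₄, g₄, h₄⟩ := (hF.map φ).exists_hilb
  have hmle : ∀ m, mapLat φ F m ≤ mapLat φ E m := fun m => Submodule.map_mono (hle m)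
  have hb := hp_bounded (α := N₂ - N₄) (β := e₂ - e₄) (γ := g₂ - g₄) (B := g - g') (by
    filter_upwards [hh, hh', h₂, h₄] with m a1 a2 a3 a4
    have b1 := finrank_inter_add_map hE φ m
    have b2 := finrank_inter_add_map hF φ m
    have := (hE.inter (LinearMap.ker φ)).fin m
    have := (hE.map φ).fin m
    have b3 : Module.finrank k (interLat F (LinearMap.ker φ) m) ≤
        Module.finrank k (interLat E (LinearMap.ker φ) m) :=
      Submodule.finrank_mono (inf_le_inf_right _ (hle m))
    have b4 : Module.finrank k (mapLat φ F m) ≤ Module.finrank k (mapLat φ E m) :=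
      Submodule.finrank_mono (hmle m)
    have c1 : (Module.finrank k (interLat E (LinearMap.ker φ) m) : ℚ) +
      Module.finrank k (mapLat φ E m) = Module.finrank k (E m) := by exact_mod_cast b1
    have c2 : (Module.finrank k (interLat F (LinearMap.ker φ) m) : ℚ) +
      Module.finrank k (mapLat φ F m) = Module.finrank k (F m) := by exact_mod_cast b2
    have c3 : (Module.finrank k (interLat F (LinearMap.ker φ) m) : ℚ) ≤
        Module.finrank k (interLat E (LinearMap.ker φ) m) := by exact_mod_cast b3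
    have c4 : (Module.finrank k (mapLat φ F m) : ℚ) ≤ Module.finrank k (mapLat φ E m) := by
      exact_mod_cast b4
    have d : hp (N₂ - N₄) (e₂ - e₄) (g₂ - g₄) m =
        Module.finrank k (mapLat φ E m) - Module.finrank k (mapLat φ F m) := by
      rw [a3, a4]
      unfold hp
      push_cast
      ring
    have d' : (g : ℚ) - g' = Module.finrank k (E m) - Module.finrank k (F m) := by
      rw [a1, a2]
      unfold hp
      ring
    rw [d]
    push_cast
    rw [d']
    constructor <;> linarith)
  obtain ⟨q1, q2, _⟩ := hb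
  have q3 : N₄ = N₂ := by omega
  have q4 : e₄ = e₂ := by omega
  rw [q3, q4] at h₄
  obtain ⟨h5, h6⟩ := u5b_slope (hE.map φ) (hF.map φ) hmle (u5b_genIn_map φ hD) h₂ h₄
  have q5 : N - 1 = N₂ := by omega
  rw [q5] at hn
  omega

end Vale.Agent.P190.D
end
end

section

section

/-! Section 5, file U5: uniform bounds for sublattices. -/

set_option autoImplicit false
set_option linter.unusedSectionVars false

open MvPolynomial Filter

namespace Vale.Agent.P190.D

section

variable {k : Type} [Field k] {V : Type} [AddCommGroup V] [Module k V]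
  [Module (A k) V] [IsScalarTower k (A k) V]
  {V' : Type} [AddCommGroup V'] [Module k V'] [Module (A k) V'] [IsScalarTower k (A k) V']

theorem u5_genIn_map {E : ℤ → Submodule k V} {D : ℤ} (hD : GenIn E D) (f : V →ₗ[A k] V') :
    GenIn (mapLat f E) D := by
  intro n hn
  rintro _ ⟨v, hv, rfl⟩
  have h1 := Submodule.mem_map_of_mem (f := (f.restrictScalars k)) (hD n hn hv)
  rw [Submodule.map_span] at h1
  refine Submodule.span_mono ?_ h1
  rintro _ ⟨_, ⟨a, ha, w, hw, rfl⟩, rfl⟩
  exact ⟨a, ha, f w, ⟨w, hw, rfl⟩, by simp only [LinearMap.coe_restrictScalars, map_smul]⟩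

end

/-- the starting degree -/
def u5_j (N e D : ℤ) : ℤ := -e - (N - 1) * D

/-- a degree above all relevant ones -/
def u5_D (N e D n₁ : ℤ) : ℤ := max (max D n₁) (u5_j N e D)

/-- bound of the jumps -/
def u5_b (N e D : ℤ) (j : ℤ) : ℤ := N * max 0 (j + e + (N - 1) * D + 1) + (e + N * D)

/-- bound of the dimension in degree `u5_D` -/
def u5_B (N e D n₁ : ℤ) : ℤ :=
  (u5_D N e D n₁ - u5_j N e D + 1) * u5_b N e D (u5_D N e D n₁)

theorem u5_b_mono {N e D : ℤ} (hN : 0 ≤ N) {i j : ℤ} (h : i ≤ j) :
    u5_b N e D i ≤ u5_b N e D j := by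
  unfold u5_b
  have : max 0 (i + e + (N - 1) * D + 1) ≤ max 0 (j + e + (N - 1) * D + 1) :=
    max_le_max le_rfl (by omega)
  have := mul_le_mul_of_nonneg_left this hN
  omega

theorem u5_low (d : ℤ → ℤ) (N e D T : ℤ) (hN : 0 ≤ N)
    (hd : ∀ n, d n - d (n - 1) ≤ u5_b N e D n)
    (h0 : d (u5_j N e D - 1) = 0) (m : ℕ) (hm : u5_j N e D - 1 + m ≤ T) :
    d (u5_j N e D - 1 + m) ≤ m * u5_b N e D T := by
  induction m with
  | zero => simp [h0]
  | succ m ih =>
    push_cast at hm ⊢
    have h1 := ih (by omega)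
    have h2 := hd (u5_j N e D - 1 + (m + 1))
    have h3 : u5_j N e D - 1 + ((m : ℤ) + 1) - 1 = u5_j N e D - 1 + m := by ring
    rw [h3] at h2
    have h4 := u5_b_mono (D := D) (e := e) hN hm
    have h5 : ((m : ℤ) + 1) * u5_b N e D T = m * u5_b N e D T + u5_b N e D T := by ring
    rw [h5]
    linarith only [h1, h2, h4]

theorem u5_high (d : ℤ → ℤ) (N e D T : ℤ) (B : ℤ) (hDT : D ≤ T)
    (hd : ∀ n, D ≤ n + 1 → d n - d (n - 1) ≤ N * (n + 1) + e)
    (h0 : d T ≤ B) (m : ℕ) :
    (d (T + m) : ℚ) ≤ B + hp N e 0 (T + m : ℤ) - hp N e 0 T := by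
  induction m with
  | zero =>
    have : (d T : ℚ) ≤ B := by exact_mod_cast h0
    simpa only [CharP.cast_eq_zero, add_zero, add_sub_cancel_right, Int.cast_le, ge_iff_le] using this
  | succ m ih =>
    have h2 := hd (T + (m + 1)) (by omega)
    have h3 : T + ((m : ℤ) + 1) - 1 = T + m := by ring
    rw [h3] at h2
    have h4 : (d (T + (m + 1)) : ℚ) - d (T + m) ≤ N * ((T + (m + 1) : ℤ) + 1) + e := by
      exact_mod_cast h2
    have h5 : hp N e 0 ((T + (m + 1) : ℤ) : ℚ) - hp N e 0 ((T + m : ℤ) : ℚ) =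
        N * ((T + (m + 1) : ℤ) + 1) + e := by
      simp only [hp]
      push_cast
      ring
    push_cast at *
    linarith only [ih, h4, h5]

section

variable {k : Type} [Field k] [Infinite k] {V : Type} [AddCommGroup V] [Module k V]
  [Module (A k) V] [Module (KK k) V] [IsScalarTower k (A k) V] [IsScalarTower (A k) (KK k) V]

/-- dimension bound for a lattice generated in degrees `≤ D` -/
theorem u5_finrank_le {Q : ℤ → Submodule k V} (hQ : IsBLat Q) {D : ℤ} (hD : GenIn Q D)
    {N e g : ℤ} (h : HasHilb Q N e g) (n₁ : ℤ) {n : ℤ} (hn : u5_D N e D n₁ ≤ n) :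
    (Module.finrank k (Q n) : ℚ) ≤
      u5_B N e D n₁ + hp N e 0 n - hp N e 0 (u5_D N e D n₁) := by
  obtain ⟨g', -, hg'⟩ := h.hull hQ
  have hN := h.nonneg
  have hle := le_hull hQ
  have hB := isBLat_hull hQ
  have hS := isS2_hull hQ
  have h1 : ∀ m : ℤ, (Module.finrank k (hull Q hQ m) : ℤ) - Module.finrank k (hull Q hQ (m - 1)) ≤
      u5_b N e D m := fun m => (line_bound hB hS hQ hle hD hg' h m).2
  have h2 : ∀ m : ℤ, D ≤ m + 1 → (Module.finrank k (hull Q hQ m) : ℤ) -
      Module.finrank k (hull Q hQ (m - 1)) ≤ N * (m + 1) + e :=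
    fun m hm => line_bound_sharp hB hS hQ hle hD hg' h hm
  have h3 : (Module.finrank k (hull Q hQ (u5_j N e D - 1)) : ℤ) = 0 := by
    have : hull Q hQ (u5_j N e D - 1) = ⊥ :=
      start_bound hB hS hQ hle hD hg' h (by unfold u5_j; omega)
    rw [this]
    simp only [finrank_bot, CharP.cast_eq_zero]
  have hDj : u5_j N e D ≤ u5_D N e D n₁ := le_max_right _ _
  have hDD : D ≤ u5_D N e D n₁ := (le_max_left _ _).trans (le_max_left _ _)
  obtain ⟨m, hm⟩ : ∃ m : ℕ, u5_D N e D n₁ = u5_j N e D - 1 + m :=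
    ⟨(u5_D N e D n₁ - u5_j N e D + 1).toNat, by omega⟩
  have h4 := u5_low (fun m => (Module.finrank k (hull Q hQ m) : ℤ)) N e D (u5_D N e D n₁) hN h1 h3
    m hm.ge
  rw [← hm] at h4
  have h5 : (m : ℤ) = u5_D N e D n₁ - u5_j N e D + 1 := by (clear hD g h n hn g' hg' hN hle hB hS h1 h2 h3 hDj hDD h4; omega)
  rw [h5] at h4
  obtain ⟨p, hp⟩ : ∃ p : ℕ, n = u5_D N e D n₁ + p := ⟨(n - u5_D N e D n₁).toNat, by (clear hD g h g' hg' hN hle hB hS h1 h2 h3 hDj hDD h4 h5; omega)⟩
  have h6 := u5_high (fun m => (Module.finrank k (hull Q hQ m) : ℤ)) N e D (u5_D N e D n₁)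
    (u5_B N e D n₁) hDD h2 h4 p
  rw [← hp] at h6
  refine le_trans ?_ h6
  have := hB.fin n
  have h7 : Module.finrank k (Q n) ≤ Module.finrank k (hull Q hQ n) :=
    Submodule.finrank_mono (hle n)
  exact_mod_cast h7

end

/-- U5: uniform lower bound for the dimensions of sublattices -/
theorem sub_uniform (N e g n₁ D w f : ℤ) : ∃ n₂ g₀ : ℤ, ∀ (k : Type) [Field k] [Infinite k]
    (V : Type) [AddCommGroup V] [Module k V] [Module (A k) V] [Module (KK k) V]
    [IsScalarTower k (A k) V] [IsScalarTower (A k) (KK k) V] (E : ℤ → Submodule k V)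
    (W : Submodule (KK k) V), IsBLat E →
    (∀ n ≥ n₁, (Module.finrank k (E n) : ℚ) = hp N e g n) → GenIn E D →
    ∀ g' : ℤ, HasHilb (interLat E (W.restrictScalars (A k))) w f g' →
    ∀ n ≥ n₂, hp w f g₀ n ≤ Module.finrank k (interLat E (W.restrictScalars (A k)) n) := by
  refine ⟨u5_D (N - w) (e - f) D n₁, g - u5_B (N - w) (e - f) D n₁ +
    ⌊hp (N - w) (e - f) 0 (u5_D (N - w) (e - f) D n₁)⌋, ?_⟩
  intro k _ _ V _ _ _ _ _ _ E W hE hdim hD g' hW n hn
  obtain ⟨W', hW'⟩ := W.exists_isCompl
  obtain ⟨p, hp0⟩ : ∃ p : V →ₗ[KK k] V, LinearMap.ker p = W :=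
    ⟨W'.subtype ∘ₗ (Submodule.projectionOnto W' W hW'.symm), by
      rw [LinearMap.ker_comp, Submodule.ker_subtype, Submodule.comap_bot,
        Submodule.ker_projectionOnto]⟩
  have hker : LinearMap.ker (p.restrictScalars (A k)) = W.restrictScalars (A k) := by
    rw [LinearMap.ker_restrictScalars, hp0]
  have hE2 : HasHilb E N e g := by
    rw [HasHilb, Filter.eventually_atTop]
    exact ⟨n₁, hdim⟩
  have hQ := hE.map (p.restrictScalars (A k))
  obtain ⟨N₂, e₂, g₂, h₂⟩ := hQ.exists_hilb
  have hW2 := hW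
  rw [← hker] at hW2
  obtain ⟨rfl, rfl, rfl⟩ := hE2.add hE _ hW2 h₂
  have h3 := u5_finrank_le hQ (u5_genIn_map hD _) h₂ n₁ (n := n) (by
    have ha : w + N₂ - w = N₂ := by ring
    have hb : f + e₂ - f = e₂ := by ring
    rw [ha, hb] at hn
    exact hn)
  have h4 := finrank_inter_add_map hE (p.restrictScalars (A k)) n
  rw [hker] at h4
  have h5 : (Module.finrank k (interLat E (W.restrictScalars (A k)) n) : ℚ) +
      Module.finrank k (mapLat (p.restrictScalars (A k)) E n) = Module.finrank k (E n) := by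
    exact_mod_cast h4
  have hn1 : n₁ ≤ n := ((le_max_right _ _).trans (le_max_left _ _)).trans hn
  rw [hdim n hn1] at h5
  have e1 : w + N₂ - w = N₂ := by ring
  have e2 : f + e₂ - f = e₂ := by ring
  rw [e1, e2]
  have h6 := Int.floor_le (hp N₂ e₂ 0 (u5_D N₂ e₂ D n₁))
  simp only [hp] at h3 h5 h6 ⊢
  push_cast at h3 h5 h6 ⊢
  (clear hE hD hW W' hW' hp0 hker hQ h₂ hW2 hn hdim hE2 h4 hn1 e1 e2; linarith)

end Vale.Agent.P190.D
end
end

section

section

/-! Section 4, file P3: Cartier descent (pure linear algebra). -/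

set_option autoImplicit false
set_option linter.unusedSectionVars false

open MvPolynomial Filter

namespace Vale.Agent.P190.D

open Classical in
/-- Every vector of a subspace is a combination of vectors of minimal support. -/
theorem P3_mem_span {k L : Type} [Field k] [Field L] [Algebra k L] (p : ℕ) {ι : Type}
    (D : ι → Derivation k L L) (hD : ∀ f : L, (∀ i, D i f = 0) → ∃ g, f = g ^ p) {r : ℕ}
    (U : Submodule L (Fin r → L)) (hU : ∀ i, ∀ v ∈ U, (fun j => D i (v j)) ∈ U) :
    ∀ (n : ℕ) (u : Fin r → L), u ∈ U → (Finset.univ.filter fun j => u j ≠ 0).card ≤ n →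
      u ∈ Submodule.span L {w | w ∈ U ∧ ∃ v : Fin r → L, w = fun j => v j ^ p} := by
  intro n
  induction n with
  | zero =>
    intro u _ hcard
    have : u = 0 := by
      funext j
      by_contra hj
      have hmem : j ∈ Finset.univ.filter fun j => u j ≠ 0 := by
        simpa only [ne_eq, Finset.mem_filter, Finset.mem_univ, true_and, Pi.zero_apply] using hj
      have := Finset.card_pos.2 ⟨j, hmem⟩
      omega
    rw [this]
    exact Submodule.zero_mem _
  | succ n ih =>
    intro u hu hcard
    by_cases hu0 : u = 0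
    · rw [hu0]
      exact Submodule.zero_mem _
    -- a nonzero vector of minimal support
    have hex : ∃ m : ℕ, ∃ w : Fin r → L, w ∈ U ∧ w ≠ 0 ∧ (∀ j, u j = 0 → w j = 0) ∧
        (Finset.univ.filter fun j => w j ≠ 0).card = m :=
      ⟨_, u, hu, hu0, fun _ h => h, rfl⟩
    obtain ⟨w, hwU, hw0, hwsupp, hwcard⟩ := Nat.find_spec hex
    have hmin : ∀ w' : Fin r → L, w' ∈ U → (∀ j, u j = 0 → w' j = 0) →
        (Finset.univ.filter fun j => w' j ≠ 0).card
          < (Finset.univ.filter fun j => w j ≠ 0).card → w' = 0 := by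
      intro w' hw'U hw's hlt
      by_contra hne
      rw [hwcard] at hlt
      exact Nat.find_min hex hlt ⟨w', hw'U, hne, hw's, rfl⟩
    obtain ⟨j, hj⟩ : ∃ j, w j ≠ 0 := by
      by_contra h
      push Not at h
      exact hw0 (funext h)
    set w' : Fin r → L := (w j)⁻¹ • w with hw'
    have hw'U : w' ∈ U := U.smul_mem _ hwU
    have hw'j : w' j = 1 := by
      rw [hw', Pi.smul_apply, smul_eq_mul, inv_mul_cancel₀ hj]
    have hw's : ∀ l, w l = 0 → w' l = 0 := by
      intro l hl
      rw [hw', Pi.smul_apply, hl, smul_zero]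
    have hconst : ∀ i, (fun l => D i (w' l)) = 0 := by
      intro i
      apply hmin _ (hU i w' hw'U)
      · intro l hl
        rw [hw's l (hwsupp l hl), map_zero]
      · apply Finset.card_lt_card
        rw [Finset.ssubset_iff_of_subset]
        · refine ⟨j, by simpa only [ne_eq, Finset.mem_filter, Finset.mem_univ, true_and] using hj, ?_⟩
          simp only [ne_eq, Finset.mem_filter, Finset.mem_univ, hw'j, Derivation.map_one_eq_zero, not_true_eq_false, and_false, not_false_eq_true]
        · intro l hl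
          simp only [Finset.mem_filter, Finset.mem_univ, true_and] at hl ⊢
          intro hl0
          exact hl (by rw [hw's l hl0, map_zero])
    have hpow : ∀ l, ∃ g, w' l = g ^ p := fun l =>
      hD _ fun i => congrFun (hconst i) l
    choose g hg using hpow
    have hw'W : w' ∈ Submodule.span L {w | w ∈ U ∧ ∃ v : Fin r → L, w = fun j => v j ^ p} :=
      Submodule.subset_span ⟨hw'U, g, funext hg⟩
    have hrest : u - u j • w' ∈
        Submodule.span L {w | w ∈ U ∧ ∃ v : Fin r → L, w = fun j => v j ^ p} := by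
      apply ih _ (U.sub_mem hu (U.smul_mem _ hw'U))
      have huj : u j ≠ 0 := fun h => hj (hwsupp j h)
      have hlt : (Finset.univ.filter fun l => (u - u j • w') l ≠ 0).card
          < (Finset.univ.filter fun l => u l ≠ 0).card := by
        apply Finset.card_lt_card
        rw [Finset.ssubset_iff_of_subset]
        · refine ⟨j, by simpa only [ne_eq, Finset.mem_filter, Finset.mem_univ, true_and] using huj, ?_⟩
          simp only [Pi.sub_apply, Pi.smul_apply, smul_eq_mul, ne_eq, Finset.mem_filter, Finset.mem_univ, hw'j, mul_one, sub_self, not_true_eq_false, and_false, not_false_eq_true]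
        · intro l hl
          simp only [Finset.mem_filter, Finset.mem_univ, true_and] at hl ⊢
          intro hl0
          exact hl (by
            rw [Pi.sub_apply, Pi.smul_apply, hl0, hw's l (hwsupp l hl0), smul_zero, sub_zero])
      omega
    have : u = (u - u j • w') + u j • w' := by abel
    rw [this]
    exact Submodule.add_mem _ hrest (Submodule.smul_mem _ _ hw'W)

/-- Cartier descent: a subspace of `L^r` stable under a family of derivations whose common
constants are `p`-th powers is spanned by vectors of `p`-th powers. -/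
theorem cartier {k L : Type} [Field k] [Field L] [Algebra k L] (p : ℕ) {ι : Type}
    (D : ι → Derivation k L L) (hD : ∀ f : L, (∀ i, D i f = 0) → ∃ g, f = g ^ p) {r : ℕ}
    (U : Submodule L (Fin r → L)) (hU : ∀ i, ∀ v ∈ U, (fun j => D i (v j)) ∈ U) :
    U = Submodule.span L {w | w ∈ U ∧ ∃ v : Fin r → L, w = fun j => v j ^ p} := by
  apply le_antisymm
  · intro u hu
    exact P3_mem_span p D hD U hU _ u hu le_rfl
  · rw [Submodule.span_le]
    intro w hw
    exact hw.1

variable {k : Type} [Field k] [IsAlgClosed k] {X : Arr k} (p : ℕ) [Fact p.Prime] [CharP k p]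

/-- for a T-subspace `U'` of `(V', Γ')` stable under the derivations, `U = {v | Fr v ∈ U'}` is a
T-subspace and `U'` is the kernel of the twist of any map with kernel `U` -/
theorem cartier_T (D : Fin 2 → Derivation k X.L X.L)
    (hD : ∀ f : X.L, (∀ i, D i f = 0) → ∃ g, f = g ^ p) {r : ℕ}
    {Γ : (Fin r → X.L) →ₗ[X.L] (Fin r → X.L)} (hΓ : IsTSp Γ) (U' : Submodule X.L (Fin r → X.L))
    (hU' : IsTSub (frG p Γ) U') (hst : ∀ i, ∀ v ∈ U', (fun j => D i (v j)) ∈ U') :
    ∃ U : Submodule X.L (Fin r → X.L), IsTSub Γ U ∧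
      U' = Submodule.span X.L (frV p '' (U : Set (Fin r → X.L))) := by
  have hp0 : p ≠ 0 := (Fact.out : p.Prime).ne_zero
  have hPI : X.PI ≠ 0 := X.PI_ne_zero
  refine ⟨{ carrier := {v | frV p v ∈ U'}
            add_mem' := ?_
            zero_mem' := ?_
            smul_mem' := ?_ }, ?_, ?_⟩
  · intro a b ha hb
    change frV p (a + b) ∈ U'
    rw [frV_add]
    exact U'.add_mem ha hb
  · change frV p (0 : Fin r → X.L) ∈ U'
    have : frV p (0 : Fin r → X.L) = 0 := by
      funext i
      simp [frV, hp0]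
    rw [this]
    exact U'.zero_mem
  · intro c v hv
    change frV p (c • v) ∈ U'
    rw [frV_smul]
    exact U'.smul_mem _ hv
  · intro v hv
    change frV p (Γ v) ∈ U'
    have h1 := hU' _ (show frV p v ∈ U' from hv)
    rw [frG_frV] at h1
    have h2 := U'.smul_mem (X.PI ^ ((p - 1) / 2)) h1
    rwa [smul_smul, mul_inv_cancel₀ (pow_ne_zero _ hPI), one_smul] at h2
  · refine (cartier p D hD U' hst).trans ?_
    congr 1
    ext w
    constructor
    · rintro ⟨hw, v, rfl⟩
      exact ⟨v, hw, rfl⟩
    · rintro ⟨v, hv, rfl⟩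
      exact ⟨hv, v, rfl⟩

end Vale.Agent.P190.D
end
end

section

section

/-! File N2: a domain that is finite over a complete Noetherian local ring is local. -/

set_option autoImplicit false
set_option linter.unusedSectionVars false

namespace Vale.Agent.P190.D

open IsLocalRing

theorem n2_idem {R : Type} [CommRing R] (I : Ideal R) [IsArtinianRing (R ⧸ I)] (a : R) :
    ∃ (n : ℕ) (y : R), a ^ (n + 1) * (a * y) ^ (n + 1) - a ^ (n + 1) ∈ I ∧
      (a * y) ^ (n + 1) * (a * y) ^ (n + 1) - (a * y) ^ (n + 1) ∈ I := by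
  obtain ⟨n, y, hy⟩ := IsArtinian.exists_pow_succ_smul_dvd (Ideal.Quotient.mk I a) (1 : R ⧸ I)
  obtain ⟨y, rfl⟩ := Ideal.Quotient.mk_surjective y
  rw [smul_eq_mul, smul_eq_mul, mul_one] at hy
  have h1 : ∀ k, (Ideal.Quotient.mk I a) ^ (n + 1) * ((Ideal.Quotient.mk I a) *
      (Ideal.Quotient.mk I y)) ^ k = (Ideal.Quotient.mk I a) ^ (n + 1) := by
    intro k
    induction k with
    | zero => rw [pow_zero, mul_one]
    | succ k ih =>
      rw [pow_succ (Ideal.Quotient.mk I a * Ideal.Quotient.mk I y) k, ← mul_assoc, ih]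
      have e : (Ideal.Quotient.mk I a) ^ (n + 1) * (Ideal.Quotient.mk I a *
          Ideal.Quotient.mk I y) = Ideal.Quotient.mk I a * (Ideal.Quotient.mk I a ^ n.succ *
          Ideal.Quotient.mk I y) := by
        rw [Nat.succ_eq_add_one]; ring
      rw [e, hy]
      ring
  refine ⟨n, y, ?_, ?_⟩
  · rw [← Ideal.Quotient.eq, map_mul, map_pow, map_pow, map_mul]
    exact h1 _
  · rw [← Ideal.Quotient.eq, map_mul, map_pow, map_mul]
    have h2 := h1 (n + 1)
    calc (Ideal.Quotient.mk I a * Ideal.Quotient.mk I y) ^ (n + 1) *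
          (Ideal.Quotient.mk I a * Ideal.Quotient.mk I y) ^ (n + 1) =
          (Ideal.Quotient.mk I a ^ (n + 1) * (Ideal.Quotient.mk I a *
            Ideal.Quotient.mk I y) ^ (n + 1)) * Ideal.Quotient.mk I y ^ (n + 1) := by ring
      _ = _ := by rw [h2, ← mul_pow]

theorem n2_lift {R : Type} [CommRing R] (I : Ideal R) [hH : HenselianRing R I] (e : R)
    (h2 : e * e - e ∈ I) : ∃ x : R, x ^ 2 - x = 0 ∧ x - e ∈ I := by
  have h3 : (Polynomial.X ^ 2 - Polynomial.X : Polynomial R).derivative.eval e = 2 * e - 1 := by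
    simp only [Polynomial.derivative_sub, Polynomial.derivative_X_pow_succ, Nat.cast_one, map_add, map_one, pow_one, Polynomial.derivative_X, Polynomial.eval_sub, Polynomial.eval_mul, Polynomial.eval_add, Polynomial.eval_one, Polynomial.eval_X, sub_left_inj]
    ring
  obtain ⟨x, hx, hxe⟩ := hH.is_henselian (Polynomial.X ^ 2 - Polynomial.X)
    (Polynomial.monic_X_pow_sub (n := 2) (by
      exact lt_of_le_of_lt Polynomial.degree_X_le (by norm_num))) e
    (by
      rw [Polynomial.eval_sub, Polynomial.eval_pow, Polynomial.eval_X, pow_two]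
      exact h2)
    (by
      rw [h3]
      refine IsUnit.of_mul_eq_one (Ideal.Quotient.mk I (2 * e - 1)) ?_
      rw [← map_mul, ← map_one (Ideal.Quotient.mk I), Ideal.Quotient.eq]
      have : (2 * e - 1) * (2 * e - 1) - 1 = 4 * (e * e - e) := by ring
      rw [this]
      exact I.mul_mem_left _ h2)
  refine ⟨x, ?_, hxe⟩
  rw [Polynomial.IsRoot.def, Polynomial.eval_sub, Polynomial.eval_pow, Polynomial.eval_X] at hx
  exact hx

theorem n2_isLocalRing_aux {R : Type} [CommRing R] [IsDomain R] (I : Ideal R)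
    (hI : IsAdicComplete I R) [IsArtinianRing (R ⧸ I)] : IsLocalRing R := by
  have hH : HenselianRing R I := IsAdicComplete.henselianRing R I
  have hjac : ∀ Q : Ideal R, Q.IsMaximal → I ≤ Q := fun Q hQ =>
    le_trans hH.jac (sInf_le ⟨bot_le, hQ⟩)
  apply IsLocalRing.of_isUnit_or_isUnit_one_sub_self
  intro a
  by_contra hcon
  push Not at hcon
  obtain ⟨Q1, hQ1, ha1⟩ := exists_max_ideal_of_mem_nonunits hcon.1
  obtain ⟨Q2, hQ2, ha2⟩ := exists_max_ideal_of_mem_nonunits hcon.2
  have ha2' : a ∉ Q2 := by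
    intro h
    apply hQ2.ne_top
    rw [Ideal.eq_top_iff_one]
    have := Q2.add_mem h ha2
    rwa [add_sub_cancel] at this
  obtain ⟨n, y, h1, h2⟩ := n2_idem I a
  set e : R := (a * y) ^ (n + 1) with he
  have he1 : e ∈ Q1 := by
    rw [he]
    exact Ideal.pow_mem_of_mem _ (Q1.mul_mem_right _ ha1) _ (Nat.succ_pos n)
  have he2 : e ∉ Q2 := by
    intro h
    apply ha2'
    have h3 : a ^ (n + 1) ∈ Q2 := by
      have h4 := Q2.sub_mem (Q2.mul_mem_left (a ^ (n + 1)) h) (hjac Q2 hQ2 h1)
      rwa [sub_sub_cancel] at h4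
    exact hQ2.isPrime.mem_of_pow_mem _ h3
  obtain ⟨x, hx, hxe⟩ := n2_lift I e h2
  have hx2 : x * (x - 1) = 0 := by
    linear_combination hx
  rcases mul_eq_zero.1 hx2 with h | h
  · apply he2
    rw [h, zero_sub] at hxe
    have := (hjac Q2 hQ2) hxe
    rwa [neg_mem_iff] at this
  · apply hQ1.ne_top
    rw [Ideal.eq_top_iff_one]
    have h3 := Q1.add_mem (hjac Q1 hQ1 hxe) he1
    rw [sub_add_cancel, sub_eq_zero.1 h] at h3
    exact h3

/-- A domain that is finite over a complete Noetherian local ring is local. -/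
theorem n2_isLocalRing {B R : Type} [CommRing B] [IsLocalRing B] [IsNoetherianRing B]
    (hB : IsAdicComplete (maximalIdeal B) B) [CommRing R] [IsDomain R] [Algebra B R]
    [Module.Finite B R] : IsLocalRing R := by
  have h1 : IsAdicComplete (maximalIdeal B) R := isAdicComplete_of_finite _ hB
  have h2 : IsAdicComplete ((maximalIdeal B).map (algebraMap B R)) R :=
    (IsAdicComplete.map_algebraMap_iff _ _).mpr h1
  let _ : Field (B ⧸ maximalIdeal B) := Ideal.Quotient.field _
  have h3 : Module.Finite (B ⧸ maximalIdeal B) (R ⧸ (maximalIdeal B).map (algebraMap B R)) :=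
    Module.Finite.of_restrictScalars_finite B _ _
  have h4 : IsArtinianRing (R ⧸ (maximalIdeal B).map (algebraMap B R)) :=
    IsArtinianRing.of_finite (B ⧸ maximalIdeal B) _
  exact n2_isLocalRing_aux _ h2

end Vale.Agent.P190.D
end
end
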