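import Vale.Agent.P190.MathlibUsed
import Vale.Agent.P190.Bdl.B1
import Vale.Agent.P190.Bdl.B2
import Vale.Agent.P190.Bdl.B4
import Vale.Agent.P190.Bdl.B3
attribute [-instance] IdemCommSemiring.toIdemSemiring KleeneAlgebra.toIdemSemiring IdemSemiring.toSemiring RingCat.instRingObjForgetRingHomCarrier LinearOrderedAddCommGroupWithTop.instLinearOrderedAddCommMonoidWithTop DenselyNormedField.toNontriviallyNormedField RCLike.toDenselyNormedField DenselyNormedField.toNormedField NontriviallyNormedField.toNormedField LinearOrderedAddCommGroupWithTop.toAddCommMonoid LinearOrderedAddCommMonoidWithTop.toAddCommMonoid NormedField.toField NormedField.toNormedDivisionRing instCoeTOfCoeDep NormedDivisionRing.toDivisionRing NormedField.toNormedCommRing NormedDivisionRing.toNormedRing NormedCommRing.toSeminormedCommRing NormedRing.toSeminormedRing SeminormedCommRing.toSeminormedRing Field.toEuclideanDomain EuclideanDomain.toCommRing NormedCommRing.toCommRing SeminormedCommRing.toCommRing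 NormedRing.toRing SeminormedRing.toRing NonUnitalNormedCommRing.toNonUnitalNormedRing NormedCommRing.toNonUnitalNormedCommRing NormedRing.toNonUnitalNormedRing NonUnitalNormedCommRing.toNonUnitalSeminormedCommRing NonUnitalNormedRing.toNonUnitalSeminormedRing NonUnitalSeminormedCommRing.toNonUnitalSeminormedRing SeminormedCommRing.toNonUnitalSeminormedCommRing SeminormedRing.toNonUnitalSeminormedRing NonAssocCommRing.toNonAssocCommSemiring CommSemiring.toNonAssocCommSemiring NonAssocCommSemiring.toNonAssocSemiring NonAssocRing.toNonAssocSemiring CommRing.toAddCommGroupWithOne AddCommGroupWithOne.toAddCommMonoidWithOne NonUnitalCommRing.toNonUnitalRing NonUnitalNormedCommRing.toNonUnitalCommRing NonUnitalNormedRing.toNonUnitalRing NonUnitalSeminormedCommRing.toNonUnitalCommRing NonUnitalSeminormedRing.toNonUnitalRing Ring.toNonUnitalRing NonAssocCommRing.toNonUnitalNonAssocCommRing NonUnitalRing.toNonUnitalNonAssocRing CommSemiring.toNonUnitalCommSemiring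 NonUnitalRing.toNonUnitalSemiring NonAssocCommSemiring.toNonUnitalNonAssocCommSemiring NonUnitalCommSemiring.toNonUnitalNonAssocCommSemiring NonUnitalNonAssocCommSemiring.toNonUnitalNonAssocSemiring LieRing.toAddCommGroup instCoeTC instCoeTCOfCoe instCoeHTC instCoeHTCT Pi.addGroupWithOne Pi.seminormedAddCommGroup AbsoluteValue.funLike BoxIntegral.Box.instMembershipForallReal ContinuousAddMonoidHom.instCoeOutOfAddMonoidHomClassOfContinuousMapClass ContinuousMonoidHom.instCoeOutOfMonoidHomClassOfContinuousMapClass HomeomorphClass.instCoeOutHomeomorph IsometryClass.instCoeOutIsometryEquiv OrderDual.instPow_1 CompleteAtomicBooleanAlgebra.toCompleteBooleanAlgebra CompleteAtomicBooleanAlgebra.toCompletelyDistribLattice CompleteBooleanAlgebra.toCompleteDistribLattice CompleteLinearOrder.toCompletelyDistribLattice CompletelyDistribLattice.toCompleteDistribLattice CompleteDistribLattice.toCoframe CompleteDistribLattice.toFrame CompleteBooleanAlgebra.toCompleteLattice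 CompleteLinearOrder.toCompleteLattice CompletelyDistribLattice.toCompleteLattice Order.Coframe.toCompleteLattice Order.Frame.toCompleteLattice ChainCompletePartialOrder.instOfCompleteLattice ChainCompletePartialOrder.instOmegaCompletePartialOrder ChainCompletePartialOrder.toPartialOrder CompletePartialOrder.toOmegaCompletePartialOrder CompletePartialOrder.toPartialOrder OmegaCompletePartialOrder.toPartialOrder MonCat.monoidObj LinearOrderedCommGroupWithZero.toLinearOrderedCommMonoidWithZero CompleteLinearOrder.toConditionallyCompleteLinearOrderBot Algebra.Generators.instIsScalarTowerRing Pi.preorder MulSemiringAction.toDistribMulAction Std.DTreeMap.Raw.instInsertSigma NormedCommGroup.toNormedGroup FractionRing.instIsScalarTower FractionRing.isScalarTower_liftAlgebra TopologicalSpace.Compacts.instSetLike CompleteLinearOrder.toLinearOrder ConditionallyCompleteLinearOrder.toLinearOrder LinearOrderedAddCommGroupWithTop.toLinearOrder LinearOrderedAddCommMonoidWithTop.toLinearOrder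 LinearOrderedCommMonoidWithZero.toLinearOrder CategoryTheory.Limits.Concrete.instUniqueToTypeTerminal Pi.distribSMul' NormedCommGroup.toSeminormedCommGroup NormedGroup.toSeminormedGroup SeminormedCommGroup.toSeminormedGroup Vector.instHMul NonUnitalNormedRing.toNormedAddCommGroup instNonUnitalAlgHomClassOfNonUnitalAlgEquivClass LieAlgebra.toModule NormedSpace.toModule Array.instDecidableForallForallMemOfDecidablePred Finset.decidableDforallFinset Multiset.decidableDforallMultiset Option.decidableForallMem Vector.instDecidableForallForallMemOfDecidablePred LinearOrderedAddCommGroupWithTop.toSubNegMonoid AddMonCat.addMonoidObj CompleteBooleanAlgebra.toBooleanAlgebra AddOpposite.instAddZero NormedCommGroup.toCommGroup SeminormedCommGroup.toCommGroup CommGroup.toGroup NormedGroup.toGroup SeminormedGroup.toGroup BooleanAlgebra.toBiheytingAlgebra CompleteDistribLattice.toBiheytingAlgebra CompleteLinearOrder.toBiheytingAlgebra CompletelyDistribLattice.toBiheytingAlgebra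 instRingHomSurjectiveForallEvalRingHom NonUnitalSeminormedRing.toSeminormedAddCommGroup NormedAddCommGroup.toSeminormedAddCommGroup Std.Time.WallTime.instHAddOffset_1 AbsoluteValue.mulHomClass AddGrpCat.str Torsor.toMulAction GradedMonoid.GradeZero.mulAction BiheytingAlgebra.toCoheytingAlgebra BiheytingAlgebra.toHeytingAlgebra BooleanAlgebra.toGeneralizedBooleanAlgebra Order.Coframe.toCoheytingAlgebra Order.Frame.toHeytingAlgebra instSubsingleton Pi.mulZeroClass IsEmpty.instSubsingleton CoheytingAlgebra.toGeneralizedCoheytingAlgebra GeneralizedBooleanAlgebra.toGeneralizedCoheytingAlgebra HeytingAlgebra.toGeneralizedHeytingAlgebra Std.DTreeMap.Raw.instSingletonSigma OrderDual.instDivisionRing instConditionallyCompletePartialOrderSup CompleteLattice.toCompleteSemilatticeInf ConditionallyCompletePartialOrder.toConditionallyCompletePartialOrderInf instFiniteProp BooleanAlgebra.toDistribLattice CompleteLattice.toPartialOrder' CompleteSemilatticeInf.toPartialOrder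 CompleteSemilatticeSup.toPartialOrder ConditionallyCompletePartialOrderInf.toPartialOrder GeneralizedBooleanAlgebra.toDistribLattice GeneralizedCoheytingAlgebra.toDistribLattice GeneralizedCoheytingAlgebra.toLattice GeneralizedHeytingAlgebra.toDistribLattice GeneralizedHeytingAlgebra.toLattice LinearOrder.toLattice Order.Coframe.toDistribLattice Order.Frame.toDistribLattice instCoeOutOfCoeFun OrderDual.instDivisionSemiring Pi.mulZeroOneClass Invertible.toNeZero Nat.AtLeastTwo.toNeZero LinOrd.str instCoeHTCTOfCoeTailOfCoeHTC instCoeTailIntOfIntCast instCoeTailNatOfNatCast instCoeTailRatOfRatCast LinearMapClass.instCoeToLinearMap NNRatCast.toCoeTail NonUnitalStarRingHomClass.instCoeHeadNonUnitalStarRingHom SemilinearMapClass.instCoeToSemilinearMap StarAlgEquivClass.instCoeHead StarRingEquivClass.instCoeHead coePNatNat Nat.Primes.coeNat Nat.Primes.coePNat AlgEquivClass.toAlgHomClass FractionRing.instIsScalarTower_1 NormedAddCommGroup.toNormedAddGroup ValuationClass.toMonoidWithZeroHomClass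 Int.decidableLELE Int.decidableLELT Int.decidableLTLE Int.decidableLTLT List.instDecidableMemOfLawfulBEq CommMonCat.str AbsoluteValue.zeroHomClass instMonadLiftT instMonadLiftTOfMonadLift LinearOrderedCommGroupWithZero.toCommGroupWithZero NumberField.instFiniteDimensional CategoryTheory.instFinCategoryOfFintypeOfIsThin SetLike.instFintype Unique.fintype CategoryTheory.FinCategory.fintypeObj AddMonoidAlgebra.distribMulAction NormedAddGroup.toSeminormedAddGroup SeminormedAddCommGroup.toSeminormedAddGroup NonUnitalNormedRing.toMetricSpace NormedAddCommGroup.toMetricSpace NormedAddGroup.toMetricSpace NormedCommGroup.toMetricSpace NormedDivisionRing.toMetricSpace NormedField.toMetricSpace NormedGroup.toMetricSpace NormedRing.toMetricSpace TopologicalSpace.UpgradedIsCompletelyMetrizableSpace.toMetricSpace MulSemiringActionSemiHomClass.toDistribMulActionSemiHomClass MulOpposite.instMulOne LinearOrderedCommMonoidWithZero.toCommMonoidWithZero AddHom.addHomClass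 EMetricSpace.toPseudoEMetricSpace MetricSpace.toEMetricSpace MetricSpace.toPseudoMetricSpace NonUnitalSeminormedRing.toPseudoMetricSpace PseudoEMetricSpace.toUniformSpace PseudoMetricSpace.toPseudoEMetricSpace PseudoMetricSpace.toUniformSpace SeminormedAddCommGroup.toPseudoMetricSpace SeminormedAddGroup.toPseudoMetricSpace SeminormedCommGroup.toPseudoMetricSpace SeminormedGroup.toPseudoMetricSpace SeminormedRing.toPseudoMetricSpace UniformSpace.toTopologicalSpace UpgradedStandardBorel.toTopologicalSpace Valued.toUniformSpace WithIdeal.instTopologicalSpace WithIdeal.instUniformSpace TopologicalSpace.UpgradedIsCompletelyPseudoMetrizableSpace.toPseudoMetricSpace Pi.semigroup instMulActionSemiHomClassMulActionHom Pi.instSemilatticeSup ContinuousSemilinearEquivClass.continuousSemilinearMapClass ContinuousSemilinearMapClass.toSemilinearMapClass RingHomClass.toLinearMapClassNNRat RingHomClass.toLinearMapClassRat SemilinearIsometryClass.toContinuousSemilinearMapClass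 SemilinearIsometryClass.toSemilinearMapClass Std.Time.WallTime.instHSubDuration_1 Ideal.Quotient.normedCommRing Ideal.Quotient.semiNormedCommRing FloorSemiring.instCharZero IsStrictOrderedRing.toCharZero NumberField.to_charZero RCLike.charZero_rclike AlgHomClass.linearMapClass NonUnitalAlgHomClass.instSemilinearMapClassOfNonUnitalAlgSemiHomClassToMonoidHomRingHom instDistribSMul Ideal.Quotient.commRing OrderAddMonoidHom.instAddMonoidHomClass NormedAlgebra.toAlgebra Ideal.Quotient.instRingQuotient LinearOrder.toDecidableEq RCLike.toDecidableEq Std.Time.Duration.instHMulInt_1 Pi.partialOrder instPosMulMonoWithZeroOfMulLeftMono Std.LinearOrderPackage.toLinearPreorderPackage Std.LinearPreorderPackage.toPreorderPackage DivisionSemiring.toNNRatCast IsStrictOrderedRing.noZeroDivisors NormedAddCommGroup.toAddCommGroup SeminormedAddCommGroup.toAddCommGroup Std.LinearOrderPackage.toPartialOrderPackage Std.PartialOrderPackage.toPreorderPackage MonoidWithZero.toSemigroupWithZero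 SemigroupWithZero.toMulZeroClass ENormedAddCommMonoid.toESeminormedAddCommMonoid NormedAddCommGroup.toENormedAddCommMonoid instBEqOfDecidableEq Int.instLawfulBEq Std.PreorderPackage.toBEq instIsDedekindDomainOfIsDomainOfIsDedekindRing IsDedekindDomainDvr.isDedekindDomain instIsNoetherianRingOfIsArtinianRing isNoetherian_of_finite isNoetherian_of_isNoetherianRing_of_finite isNoetherian_of_subsingleton IsDedekindDomainDvr.toIsNoetherian IsDedekindRing.toIsNoetherian IsRegularLocalRing.toIsNoetherian IsSemisimpleModule.instIsNoetherianOfFinite IsSimpleModule.instIsNoetherian PrincipalIdealRing.isNoetherianRing Pi.normedAddCommGroup AddCancelCommMonoid.toAddCommMonoid ESeminormedAddCommMonoid.toAddCommMonoid NormedAddGroup.toAddGroup SeminormedAddGroup.toAddGroup Pi.instBotForall AddCancelCommMonoid.toAddCancelMonoid AddCancelMonoid.toAddLeftCancelMonoid AddLeftCancelMonoid.toAddMonoid AddRightCancelMonoid.toAddMonoid ENormedAddCommMonoid.toENormedAddMonoid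 ENormedAddMonoid.toESeminormedAddMonoid ESeminormedAddCommMonoid.toESeminormedAddMonoid ESeminormedAddMonoid.toAddMonoid LinearOrderedAddCommGroupWithTop.toSubtractionMonoid NormedAddGroup.toENormedAddMonoid Pi.instTopForall NonUnitalAlgHomClass.toNonUnitalRingHomClass RingEquivClass.toNonUnitalRingHomClass decidableEq_of_subsingleton ComplexShape.instDecidableRelRelUp LinearMap.IsScalarTower.compatibleSMul' Pi.commMagma instFiniteOfFinitePresentation instFinitePresentation Algebra.instFiniteOfIsQuadraticExtension FiniteDimensional.finiteDimensional_self Module.instFiniteDimensionalOfIsReflexive Algebra.IsFiniteSplit.instFinitePresentation Module.Finite.of_finite Module.Finite.self Module.FinitePresentation.of_subsingleton RingHom.Finite.instFinite IdemSemiring.toCanonicallyOrderedAdd Std.Time.Duration.instHMulInt instNonemptyOfMonad Pi.instMaxForall_mathlib MvPolynomial.instIsScalarTower Fin.completeLinearOrder Ideal.instIdemCommSemiring instSMulZeroClass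 Ideal.Quotient.commSemiring Ideal.Quotient.semiring Pi.instCompleteLattice Pi.normedCommutativeRing IsDedekindDomain.isDedekindDomainDvr Pi.normedRing SemilinearIsometryEquivClass.toSemilinearIsometryClass MulCharClass.toMonoidHomClass MulDistribMulActionSemiHomClass.toMonoidHomClass MonoidWithZero.toMulActionWithZero instIsDomain Pi.nonUnitalNormedCommRing Pi.nonUnitalNormedRing Pi.smulZeroClass' Group.toDivisionMonoid Ideal.Quotient.isScalarTower IsDedekindDomain.toIsDedekindRing Pi.seminormedCommRing Monoid.End.instMonoidHomClass ENormedCommMonoid.toESeminormedCommMonoid NormedCommGroup.toENormedCommMonoid NoMaxOrder.infinite NoMinOrder.infinite Pi.seminormedRing Set.instNoZeroDivisors ClosedSubmodule.instAddSubmonoidClass MulEquivClass.toMonoidWithZeroHomClass MulRingSeminormClass.toMonoidWithZeroHomClass LinearOrderedCommMonoidWithZero.toPosMulStrictMono instIsDomainCyclotomicRing Pi.instLattice instIsSimpleModule Field.isDomain instIsEmptyForallOfNonempty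 Pi.isOrderedRing Pi.nonUnitalSeminormedCommRing Pi.nonUnitalSeminormedRing OneHom.oneHomClass Field.instIsLocalRing IsDiscreteValuationRing.toIsLocalRing ValuationRing.isLocalRing Fin.instBiheytingAlgebra CancelCommMonoid.toCancelMonoid CancelCommMonoid.toCommMonoid CancelCommMonoid.toLeftCancelMonoid CancelMonoid.toLeftCancelMonoid CancelMonoid.toRightCancelMonoid CommGroup.toCancelCommMonoid CommGroup.toCommMonoid CommRing.toGrindCommRing CommSemiring.toGrindCommSemiring ENormedCommMonoid.toENormedMonoid ENormedMonoid.toESeminormedMonoid ESeminormedCommMonoid.toCommMonoid ESeminormedCommMonoid.toESeminormedMonoid ESeminormedMonoid.toMonoid Field.toGrindField Group.toCancelMonoid LeftCancelMonoid.toMonoid NormedGroup.toENormedMonoid RightCancelMonoid.toMonoid Ring.toGrindRing Semiring.toGrindSemiring GradedMonoid.GradeZero.commMonoid GradedMonoid.GradeZero.monoid SubfieldClass.toNormedField ConvexCone.instAddMemClass Pi.instSemilatticeInf Finite.of_subsingleton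 SetLike.instFinite Function.infinite_of_right Matrix.instIntCastOfZero Matrix.instNatCastOfZero Matrix.SpecialLinearGroup.hasCoeToMatrix Matrix.UnitaryGroup.coeMatrix instMulPosMonoWithZeroOfMulRightMono Algebra.Generators.instRing IsSemisimpleRing.isSemisimpleModule of_isDiscreteValuationRing ValuationRing.of_field DivisionRing.isDomain EuclideanDomain.instIsDomain IsDedekindDomain.toIsDomain IsStrictOrderedRing.isDomain SubringClass.toNormedCommRing Pi.instInv Ideal.instHasQuotient Ideal.instHasQuotient_1 Matrix.instAddCommGroupWithOne Matrix.instAddCommMonoidWithOne Matrix.instAddGroupWithOne Matrix.instAddMonoidWithOne Matrix.instNonAssocRing Matrix.instRing Ideal.Quotient.instCoeQuotient MulSemiringActionSemiHomClass.toRingHomClass Pi.monoidWithZero instIsLeftCancelAddOfAddLeftReflectLE Set.instAddRightMono instUniqueAddUnitsOfSubsingleton CanonicallyOrderedCommMonoid.toUniqueAddUnits SubalgebraClass.normedRing SubfieldClass.toSubringClass SubringClass.toNormedRing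 Algebra.IsFiniteSplit.instOfIsSepClosedOfEssFiniteTypeOfFormallyEtale AlgHom.instRingHomCompTripleComp instNontrivialCarrierObjModuleCatOfFullOfFaithful Pi.instMinForall_mathlib sierpinskiSpace CommMonoid.toCommSemigroup CommSemigroup.toCommMagma CommSemigroup.toSemigroup LeftCancelMonoid.toLeftCancelSemigroup LeftCancelSemigroup.toSemigroup NonUnitalCommSemiring.toCommSemigroup RightCancelMonoid.toRightCancelSemigroup RightCancelSemigroup.toSemigroup GradedMonoid.GradeZero.mul MonomialOrder.orderBot AddMonoid.FG.to_moduleFinite_nat instIsSemisimpleModuleOfIsSimpleModule LocalizedModule.instIsScalarTower Set.instAddLeftMono ValuationRing.instOfIsLocalRingOfIsBezout Fin.instCoheytingAlgebra Fin.instHeytingAlgebra MulSemiringAction.toMulDistribMulAction AddSubgroupClass.normedAddCommGroup NonUnitalSubalgebraClass.nonUnitalNormedRing SubfieldClass.toField SubringClass.toSeminormedCommRing Algebra.IsFiniteSplit.instFree CommRing.Pic.instFreeOfSubsingleton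 MonomialOrder.isOrderedAddMonoid_syn Pi.instOrderTop instOmegaCompletePartialOrderForall Pi.conditionallyCompleteLattice Pi.instBiheytingAlgebra Pi.instBooleanAlgebra Pi.instCoframe Pi.instCoheytingAlgebra Pi.instCompleteAtomicBooleanAlgebra Pi.instCompleteBooleanAlgebra Pi.instCompleteDistribLattice Pi.instCompletelyDistribLattice Pi.instDistribLattice Pi.instFrame Pi.instGeneralizedBooleanAlgebra Pi.instGeneralizedCoheytingAlgebra Pi.instGeneralizedHeytingAlgebra Pi.instHeytingAlgebra Pi.instIdemCommSemiringForall Pi.instIdemSemiring Pi.instKleeneAlgebraForall Pi.instSubsingleton Pi.unique NumberField.RingOfIntegers.instIsScalarTower instInfiniteOfUncountable instNontrivialOfCharZero Denumerable.instInfinite DivisionRing.toNontrivial EuclideanDomain.toNontrivial Infinite.instNontrivial IsDomain.toNontrivial IsOrderedRing.toIsStrictOrderedRing IsSimpleAddGroup.toNontrivial IsSimpleGroup.toNontrivial IsSimpleOrder.toNontrivial IsSimpleRing.instNontrivial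 IsStrictOrderedRing.toNontrivial LinearOrderedAddCommGroupWithTop.toNontrivial NontriviallyNormedField.infinite Pi.divisionCommMonoid Submodule.Quotient.normedAddCommGroup Pi.normedCommGroup instIsFractionRing NonUnitalSubringClass.toNonUnitalSubsemiringClass SubringClass.toSubsemiringClass SubsemiringClass.nonUnitalSubsemiringClass Pi.instIsRightCancelAdd IsSepClosed.of_isAlgClosed AddMonoidAlgebra.instUnique IsOrderedCancelAddMonoid.toIsCancelAdd ValuationRing.instIsBezout bot_nonempty infSet_to_nonempty instInhabitedOfMonad supSet_to_nonempty top_nonempty AddTorsor.nonempty ConnectedSpace.toNonempty IrreducibleSpace.toNonempty Nontrivial.to_nonempty One.instNonempty Torsor.nonempty Zero.instNonempty CategoryTheory.IsConnected.is_nonempty Submodule.Quotient.seminormedAddCommGroup RingHomInvPair.triples RingHomInvPair.triples₂ NonUnitalSubringClass.addSubgroupClass SubalgebraClass.seminormedRing SubringClass.addSubgroupClass SubringClass.toSeminormedRing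 SubringClass.toCommRing SetLike.GradeZero.instCommRing instFinitePresentationForall isNoetherian_pi isNoetherian_pi' FiniteDimensional.finiteDimensional_pi Module.Finite.pi Module.FinitePresentation.pi Module.instIsReflexiveOfFiniteOfProjective Module.IsReflexive.of_finite_of_free IsSepClosed.isAlgClosed_of_perfectField instIsPrincipalIdealRingOfIsSemisimpleRing instIsSemisimpleRingOfSubsingleton DivisionSemiring.isPrincipalIdealRing EuclideanDomain.to_principal_ideal_domain IsDedekindDomain.isPrincipalIdealRing IsDiscreteValuationRing.toIsPrincipalIdealRing IsPrincipalIdealRing.of_isNoetherianRing_of_isBezout instFloorRingInt AlgebraicClosure.instGroupWithZero ValuationRing.toPreValuationRing Subsingleton.to_isCancelMulZero Pi.normedAddGroup Pi.normedGroup Pi.divisionMonoid AddSubgroupClass.toAddSubmonoidClass AddSubmonoidWithOneClass.toAddSubmonoidClass NonUnitalSubsemiringClass.toAddSubmonoidClass SubgroupClass.normedCommGroup SubgroupClass.toSubmonoidClass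 SubringClass.nonUnitalSubringClass SubsemiringClass.toAddSubmonoidClass SubsemiringClass.toSubmonoidClass Algebra.IsQuadraticExtension.toFree Module.Free.self Pi.supSet GrpCat.str Pi.distribMulAction MvPolynomial.instCharZero OrderDual.addRightStrictMono instSMulCommClassOfIsScalarTower MvPolynomial.instIsDomainOfIsCancelAdd AddCommGroup.toGrindIntModule AddCommMonoid.toGrindNatModule AddGroup.instAddTorsor BooleanAlgebra.toBot BooleanAlgebra.toBoundedOrder BooleanAlgebra.toTop CategoryTheory.isConnected_of_nonempty_and_subsingleton CoheytingAlgebra.toBoundedOrder CoheytingAlgebra.toOrderTop CompletePartialOrder.toOrderBot CompleteSemilatticeInf.toInfSet ConditionallyCompleteLattice.toInfSet ConditionallyCompleteLattice.toSupSet ConditionallyCompleteLinearOrderBot.toOrderBot ConditionallyCompletePartialOrderInf.toInfSet GeneralizedBooleanAlgebra.toBot GeneralizedBooleanAlgebra.toOrderBot GeneralizedCoheytingAlgebra.toOrderBot GeneralizedHeytingAlgebra.toOrderTop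 Group.instTorsor HeytingAlgebra.toBoundedOrder HeytingAlgebra.toOrderBot IdemSemiring.toOrderBot IrreducibleSpace.connectedSpace LinearOrderedAddCommGroupWithTop.toOrderTop LinearOrderedAddCommMonoidWithTop.toOrderTop LinearOrderedCommMonoidWithZero.toOrderBot MulZeroClass.negZeroClass NormedAddTorsor.toAddTorsor NormedAddTorsor.toAddTorsor' One.ofOfNat1 PathConnectedSpace.connectedSpace Preorder.smallCategory SeminormedAddCommGroup.toNormedAddTorsor CategoryTheory.Groupoid.toCategory CategoryTheory.StrictBicategory.category AddSubgroupClass.seminormedAddCommGroup NonUnitalSubalgebraClass.nonUnitalSeminormedRing SubfieldClass.toDivisionRing SubringClass.toRing SetLike.GradeZero.instRing WithTop.instLocallyFiniteOrder -- iprune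

set_option linter.all false

section

section

/-! Section 4, file P7a: derivations act on the Frobenius pullback. -/

set_option autoImplicit false
set_option linter.unusedSectionVars false

open MvPolynomial Filter

namespace Vale.Agent.P190.D

variable {k : Type} [Field k] [IsAlgClosed k] {X : Arr k} (p : ℕ) [Fact p.Prime] [CharP k p]
  {r : ℕ} {Γ : (Fin r → X.L) →ₗ[X.L] (Fin r → X.L)} {E : ℤ → Submodule k (Fin r → X.L)}

theorem P7a_D_pow (D : Derivation k X.L X.L) (x : X.L) : D (x ^ p) = 0 := by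
  have := charP_L p X
  rw [Derivation.leibniz_pow, ← Nat.cast_smul_eq_nsmul X.L, CharP.cast_eq_zero, zero_smul]

theorem P7a_D_smul (D : Derivation k X.L X.L) (f : X.L) (v : Fin r → X.L) :
    (fun i => D ((f • v) i)) = f • (fun i => D (v i)) + D f • v := by
  funext i
  simp only [Pi.smul_apply, smul_eq_mul, Pi.add_apply, Derivation.leibniz]
  rw [mul_comm (v i)]

theorem P7a_D_frV (D : Derivation k X.L X.L) (v : Fin r → X.L) :
    (fun i => D (frV p v i)) = 0 := by
  funext i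
  exact P7a_D_pow p D (v i)

theorem P7a_PE (D : Derivation k X.L X.L) (δ : ℤ)
    (hD : ∀ (n : ℤ) (f : X.L), f ∈ X.T0 n → D f ∈ X.T0 (n + δ)) {n : ℤ} {v : Fin r → X.L}
    (hv : v ∈ PE p E n) : (fun i => D (v i)) ∈ PE p E (n + δ) := by
  unfold PE at hv
  induction hv using Submodule.span_induction with
  | mem v hv =>
    obtain ⟨j, f, w, hf, hw, rfl⟩ := hv
    rw [P7a_D_smul, P7a_D_frV, smul_zero, zero_add]
    refine mem_PE p (n := j) ?_ hw
    have := hD _ _ hf
    rwa [show n - p * j + δ = n + δ - p * j by ring] at this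
  | zero =>
    have : (fun i => D ((0 : Fin r → X.L) i)) = 0 := by
      funext i
      simp
    rw [this]
    exact zero_mem _
  | add x y _ _ hx hy =>
    have : (fun i => D ((x + y) i)) = (fun i => D (x i)) + (fun i => D (y i)) := by
      funext i
      simp only [Pi.add_apply, map_add]
    rw [this]
    exact add_mem hx hy
  | smul c x _ hx =>
    have : (fun i => D ((c • x) i)) = c • (fun i => D (x i)) := by
      funext i
      simp only [Pi.smul_apply, Derivation.map_smul]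
    rw [this]
    exact Submodule.smul_mem _ _ hx

/-- the key computation -/
theorem P7a_key (hE : IsBLat E) (hs : SigStable X E) (D : Derivation k X.L X.L) (δ : ℤ)
    (hD : ∀ (n : ℤ) (f : X.L), f ∈ X.T0 n → D f ∈ X.T0 (n + δ)) {n i : ℤ} {v : Fin r → X.L}
    {c : A k} (hc : c ∈ Ad k i) (hv : c • v ∈ PE p E (n + i)) :
    c ^ 2 • (fun j => D (v j)) ∈ PE p E (n + δ + 2 * i) := by
  have h1 := P7a_PE p D δ hD hv
  have h2 : (fun j => D ((c • v) j)) =
      c • (fun j => D (v j)) + D (algebraMap (A k) X.L c) • v := by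
    rw [← algebraMap_smul X.L c v, P7a_D_smul, algebraMap_smul]
  have h3 : c ^ 2 • (fun j => D (v j)) =
      c • (fun j => D ((c • v) j)) - D (algebraMap (A k) X.L c) • (c • v) := by
    rw [h2, smul_add, smul_smul, smul_comm_AL, sq]
    abel
  rw [h3]
  have hB := isBLat_PE p hE hs
  have hsP := sigStable_PE p hE hs
  refine sub_mem ?_ ?_
  · have := hB.smul_mem hc h1
    rwa [show n + i + δ + i = n + δ + 2 * i by ring] at this
  · have := hsP.T0_smul hB (hD _ _ (X.algebraMap_mem_T0 hc)) hv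
    rwa [show n + i + (i + δ) = n + δ + 2 * i by ring] at this

/-- a derivation of degree `δ` on `T₀` acts on the Frobenius pullback with degree `δ` -/
theorem deriv_GG (hE : IsBLat E) (hs : SigStable X E) (D : Derivation k X.L X.L) (δ : ℤ)
    (hD : ∀ (n : ℤ) (f : X.L), f ∈ X.T0 n → D f ∈ X.T0 (n + δ)) {n : ℤ} {v : Fin r → X.L}
    (hv : v ∈ GG p hE hs n) : (fun i => D (v i)) ∈ GG p hE hs (n + δ) := by
  obtain ⟨h1, c, hc0, h2⟩ := hv
  refine ⟨fun π hπ => ?_, c ^ 2, pow_ne_zero 2 hc0, ?_⟩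
  · obtain ⟨i, c, hc, hcπ, h5⟩ := h1 π hπ
    refine ⟨2 * i, c ^ 2, ?_, fun h => hcπ (hπ.prime.dvd_of_dvd_pow h), ?_⟩
    · have := Ad_mul hc hc
      rwa [← sq, ← two_mul] at this
    · exact P7a_key p hE hs D δ hD hc h5
  · rw [P1_totalDegree_pow hc0 2]
    push_cast
    exact P7a_key p hE hs D δ hD (mem_Ad.2 (Or.inr le_rfl)) h2

theorem P7a_D_tw (D : Derivation k X.L X.L) (f : (Fin r → X.L) →ₗ[X.L] (Fin r → X.L))
    (v : Fin r → X.L) : (fun i => D (tw p f v i)) = tw p f (fun i => D (v i)) := by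
  funext i
  simp only [tw, Matrix.toLin'_apply, Matrix.mulVec, dotProduct, Matrix.map_apply]
  rw [map_sum]
  refine Finset.sum_congr rfl fun j _ => ?_
  rw [Derivation.leibniz, P7a_D_pow, smul_zero, add_zero, smul_eq_mul]

theorem P7a_D_frG (D : Derivation k X.L X.L) (Γ : (Fin r → X.L) →ₗ[X.L] (Fin r → X.L)) :
    ∃ s : X.L, ∀ v : Fin r → X.L,
      (fun i => D (frG p Γ v i)) = frG p Γ (fun i => D (v i)) + s • frG p Γ v := by
  have h0 : X.PI ^ ((p - 1) / 2) ≠ 0 := pow_ne_zero _ X.PI_ne_zero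
  refine ⟨D (X.PI ^ ((p - 1) / 2))⁻¹ * X.PI ^ ((p - 1) / 2), fun v => ?_⟩
  rw [frG_eq_tw, LinearMap.smul_apply, LinearMap.smul_apply, P7a_D_smul, P7a_D_tw, smul_smul,
    mul_assoc, mul_inv_cancel₀ h0, mul_one]

/-- for a T-subspace `U'`, the part of `U'` mapped into `U'` by `D`, and `U' + D U'`, are
T-subspaces -/
theorem deriv_sub (D : Derivation k X.L X.L) {U' : Submodule X.L (Fin r → X.L)}
    (hU' : IsTSub (frG p Γ) U') : ∃ U₁ U₂ : Submodule X.L (Fin r → X.L),
      IsTSub (frG p Γ) U₁ ∧ IsTSub (frG p Γ) U₂ ∧ U₁ ≤ U' ∧ U' ≤ U₂ ∧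
      (∀ v ∈ U', (fun i => D (v i)) ∈ U₂) ∧
      (∀ v ∈ U', (fun i => D (v i)) ∈ U' → v ∈ U₁) ∧
      Module.finrank X.L U' - Module.finrank X.L U₁ =
        Module.finrank X.L U₂ - Module.finrank X.L U' := by
  obtain ⟨s, hs⟩ := P7a_D_frG p D Γ
  let φ : U' →ₗ[X.L] ((Fin r → X.L) ⧸ U') :=
    { toFun := fun v => U'.mkQ (fun i => D (v.1 i))
      map_add' := fun v w => by
        rw [← map_add]
        congr 1
        funext i
        simp only [Submodule.coe_add, Pi.add_apply, map_add]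
      map_smul' := fun c v => by
        rw [RingHom.id_apply, ← map_smul]
        have h1 : (fun i => D ((c • v : U').1 i)) = c • (fun i => D (v.1 i)) + D c • v.1 :=
          P7a_D_smul D c v.1
        rw [h1, map_add]
        have h2 : U'.mkQ (D c • v.1) = 0 := by
          rw [Submodule.mkQ_apply, Submodule.Quotient.mk_eq_zero]
          exact U'.smul_mem _ v.2
        rw [h2, add_zero] }
  have hφ : ∀ v : U', φ v = U'.mkQ (fun i => D (v.1 i)) := fun v => rfl
  have hmem1 : ∀ v, v ∈ (LinearMap.ker φ).map U'.subtype ↔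
      v ∈ U' ∧ (fun i => D (v i)) ∈ U' := by
    intro v
    constructor
    · rintro ⟨w, hw, rfl⟩
      refine ⟨w.2, ?_⟩
      have h1 : φ w = 0 := hw
      rw [hφ, Submodule.mkQ_apply, Submodule.Quotient.mk_eq_zero] at h1
      exact h1
    · rintro ⟨h1, h2⟩
      refine ⟨⟨v, h1⟩, ?_, rfl⟩
      change φ ⟨v, h1⟩ = 0
      rw [hφ, Submodule.mkQ_apply, Submodule.Quotient.mk_eq_zero]
      exact h2
  have hmem2 : ∀ w, w ∈ (LinearMap.range φ).comap U'.mkQ ↔
      ∃ v ∈ U', w - (fun i => D (v i)) ∈ U' := by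
    intro w
    constructor
    · rintro ⟨v, hv⟩
      refine ⟨v.1, v.2, ?_⟩
      rw [hφ] at hv
      have h1 : U'.mkQ (w - (fun i => D (v.1 i))) = 0 := by
        rw [map_sub, hv, sub_self]
      rwa [Submodule.mkQ_apply, Submodule.Quotient.mk_eq_zero] at h1
    · rintro ⟨v, hv, h1⟩
      refine ⟨⟨v, hv⟩, ?_⟩
      rw [hφ]
      have h2 : U'.mkQ (w - (fun i => D (v i))) = 0 := by
        rw [Submodule.mkQ_apply, Submodule.Quotient.mk_eq_zero]
        exact h1
      rw [map_sub, sub_eq_zero] at h2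
      exact h2.symm
  refine ⟨(LinearMap.ker φ).map U'.subtype, (LinearMap.range φ).comap U'.mkQ, ?_, ?_, ?_, ?_,
    ?_, ?_, ?_⟩
  · intro v hv
    rw [hmem1] at hv ⊢
    refine ⟨hU' v hv.1, ?_⟩
    rw [hs]
    exact add_mem (hU' _ hv.2) (U'.smul_mem _ (hU' v hv.1))
  · intro w hw
    rw [hmem2] at hw ⊢
    obtain ⟨v, hv, h1⟩ := hw
    refine ⟨frG p Γ v, hU' v hv, ?_⟩
    rw [hs, ← sub_sub, ← map_sub]
    exact sub_mem (hU' _ h1) (U'.smul_mem _ (hU' v hv))
  · intro v hv
    exact ((hmem1 v).1 hv).1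
  · intro v hv
    rw [hmem2]
    refine ⟨0, zero_mem _, ?_⟩
    have : (fun i => D ((0 : Fin r → X.L) i)) = 0 := by
      funext i
      simp only [Pi.zero_apply, map_zero]
    rw [this, sub_zero]
    exact hv
  · intro v hv
    rw [hmem2]
    exact ⟨v, hv, by rw [sub_self]; exact zero_mem _⟩
  · intro v hv h1
    exact (hmem1 v).2 ⟨hv, h1⟩
  · have h1 : Module.finrank X.L ((LinearMap.ker φ).map U'.subtype) =
        Module.finrank X.L (LinearMap.ker φ) :=
      Submodule.finrank_map_subtype_eq U' (LinearMap.ker φ)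
    have h2 := LinearMap.finrank_range_add_finrank_ker φ
    have hle : U' ≤ (LinearMap.range φ).comap U'.mkQ := by
      intro v hv
      rw [Submodule.mem_comap]
      have : U'.mkQ v = 0 := by
        rw [Submodule.mkQ_apply, Submodule.Quotient.mk_eq_zero]
        exact hv
      rw [this]
      exact zero_mem _
    have h3 := LinearMap.finrank_range_add_finrank_ker
      (U'.mkQ.domRestrict ((LinearMap.range φ).comap U'.mkQ))
    have h4 : LinearMap.range (U'.mkQ.domRestrict ((LinearMap.range φ).comap U'.mkQ)) =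
        LinearMap.range φ := by
      rw [LinearMap.range_domRestrict, Submodule.map_comap_eq_of_surjective U'.mkQ_surjective]
    have h5 : Module.finrank X.L
        (LinearMap.ker (U'.mkQ.domRestrict ((LinearMap.range φ).comap U'.mkQ))) =
        Module.finrank X.L U' := by
      have : LinearMap.ker (U'.mkQ.domRestrict ((LinearMap.range φ).comap U'.mkQ)) =
          U'.comap ((LinearMap.range φ).comap U'.mkQ).subtype := by
        ext v
        simp only [LinearMap.mem_ker, LinearMap.domRestrict_apply, Submodule.mkQ_apply, Submodule.Quotient.mk_eq_zero, Submodule.mem_comap, Submodule.subtype_apply]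
      rw [this]
      exact (Submodule.comapSubtypeEquivOfLe hle).finrank_eq
    rw [h4, h5] at h3
    omega

end Vale.Agent.P190.D
end
end

section

section

/-! Section 4, auxiliary file for P4g. -/

set_option autoImplicit false
set_option linter.unusedSectionVars false

open MvPolynomial Filter

namespace Vale.Agent.P190.D

variable {k : Type} [Field k] {X : Arr k}

/-- there is a line not through the triple point -/
theorem P4g_exists_not_tri [IsAlgClosed k] (X : Arr k) (t : X.S) : ∃ b₀, b₀ ∉ X.tri t := by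
  by_contra hall
  push Not at hall
  have h01 : X.b 0 ≠ X.b 1 := fun h => absurd (X.b_inj h) (by decide)
  have h02 : X.b 0 ≠ X.b 2 := fun h => absurd (X.b_inj h) (by decide)
  have h12 : X.b 1 ≠ X.b 2 := fun h => absurd (X.b_inj h) (by decide)
  have hrel := X.rel t
  have e0 := congrFun hrel 0
  have e1 := congrFun hrel 1
  have e2 := congrFun hrel 2
  have hδ := X.δ_ne t
  have h0 := hall (X.b 0)
  have h1 := hall (X.b 1)
  have h2 := hall (X.b 2)
  simp only [Arr.tri, Set.mem_insert_iff, Set.mem_singleton_iff] at h0 h1 h2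
  rcases h0 with h0 | h0 | h0 <;> rcases h1 with h1 | h1 | h1 <;>
    rcases h2 with h2 | h2 | h2 <;>
    first
      | exact absurd (h0.trans h1.symm) h01
      | exact absurd (h0.trans h2.symm) h02
      | exact absurd (h1.trans h2.symm) h12
      | (rw [← h0, ← h1, ← h2] at e0 e1 e2
         simp [X.l_b] at e0 e1 e2
         first | exact hδ e0 | exact hδ e1 | exact hδ e2)

/-- every form is a combination of three independent ones -/
theorem P4g_comb [IsAlgClosed k] (X : Arr k) {t : X.S} {b₀ : X.I} (hb : b₀ ∉ X.tri t) (x : X.I) :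
    ∃ c₀ c₁ c₂ : k, X.l x = c₀ • X.l b₀ + c₁ • X.l (X.h t) + c₂ • X.l (X.d t) := by
  have hbh : b₀ ≠ X.h t := by
    rintro rfl
    exact hb (by simp only [Arr.tri, Set.mem_insert_iff, Set.mem_singleton_iff, true_or, or_true])
  have hbd : b₀ ≠ X.d t := by
    rintro rfl
    exact hb (by simp [Arr.tri])
  have hli : LinearIndependent k ![X.l b₀, X.l (X.h t), X.l (X.d t)] := by
    rcases X.indep b₀ (X.h t) (X.d t) hbh hbd (X.hd t) with h | ⟨t', ht'⟩
    · exact h
    · exfalso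
      have h1 : X.h t ∈ ({X.v t', X.h t', X.d t'} : Set X.I) := by
        rw [← ht']; simp
      have h2 : X.d t ∈ ({X.v t', X.h t', X.d t'} : Set X.I) := by
        rw [← ht']; simp
      have h3 := X.share t t' (X.h t) (X.d t) (X.hd t) (by simp) (by simp) h1 h2
      subst h3
      apply hb
      rw [Arr.tri, ← ht']
      simp
  have hspan : Submodule.span k (Set.range ![X.l b₀, X.l (X.h t), X.l (X.d t)]) = ⊤ := by
    apply hli.span_eq_top_of_card_eq_finrank
    simp only [Nat.succ_eq_add_one, zero_add, Nat.reduceAdd, Fintype.card_fin, Module.finrank_fintype_fun_eq_card]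
  have hx : X.l x ∈ Submodule.span k (Set.range ![X.l b₀, X.l (X.h t), X.l (X.d t)]) := by
    rw [hspan]; trivial
  rw [Submodule.mem_span_range_iff_exists_fun] at hx
  obtain ⟨c, hc⟩ := hx
  refine ⟨c 0, c 1, c 2, ?_⟩
  rw [← hc, Fin.sum_univ_three]
  simp only [Fin.isValue, Nat.succ_eq_add_one, Nat.reduceAdd, Matrix.cons_val_zero, Matrix.cons_val_one, Matrix.cons_val]

theorem P4g_sq [IsAlgClosed k] (X : Arr k) {t : X.S} {b₀ : X.I} (hb : b₀ ∉ X.tri t) (x : X.I) :
    ∃ c₀ c₁ c₂ : k, X.σ x ^ 2 = c₀ • X.σ b₀ ^ 2 + c₁ • X.σ (X.h t) ^ 2 +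
      c₂ • X.σ (X.d t) ^ 2 := by
  obtain ⟨c₀, c₁, c₂, h⟩ := P4g_comb X hb x
  refine ⟨c₀, c₁, c₂, ?_⟩
  rw [X.σ_sq, X.σ_sq, X.σ_sq, X.σ_sq]
  have hq : X.q x = c₀ • X.q b₀ + c₁ • X.q (X.h t) + c₂ • X.q (X.d t) := by
    simp only [Arr.q, h, Pi.add_apply, Pi.smul_apply, smul_eq_mul, map_add, map_mul, smul_eq_C_mul]
    ring
  rw [hq, map_add, map_add]
  congr 1
  · congr 1
    · rw [← algebraMap_smul (A k) c₀ (X.q b₀), smul_eq_mul, map_mul,
        ← IsScalarTower.algebraMap_apply k (A k) X.L, ← smul_eq_mul, algebraMap_smul]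
    · rw [← algebraMap_smul (A k) c₁ (X.q _), smul_eq_mul, map_mul,
        ← IsScalarTower.algebraMap_apply k (A k) X.L, ← smul_eq_mul, algebraMap_smul]
  · rw [← algebraMap_smul (A k) c₂ (X.q _), smul_eq_mul, map_mul,
      ← IsScalarTower.algebraMap_apply k (A k) X.L, ← smul_eq_mul, algebraMap_smul]

section three

variable [IsAlgClosed k] {r : ℕ} {E : ℤ → Submodule k (Fin r → X.L)}

theorem P4g_lin3 (i : Fin 3) (v : Fin r → X.L) : lin3 k i • v = X.σ (X.b i) • v := by
  fin_cases i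
  · change (lin3 k 0) • v = X.σ (X.b 0) • v
    rw [X.σ_base0]
    simp only [lin3, Fin.isValue, Matrix.cons_val_zero, one_smul]
  · change (lin3 k 1) • v = X.σ (X.b 1) • v
    rw [X.σ_base1, algebraMap_smul]
    simp [lin3]
  · change (lin3 k 2) • v = X.σ (X.b 2) • v
    rw [X.σ_base2, algebraMap_smul]
    simp [lin3]

theorem P4g_ind (hE : IsBLat E) : ∃ n₁ : ℤ, ∀ n ≥ n₁, ∀ T : Submodule k (Fin r → X.L),
    (∀ i : Fin 3, ∀ v ∈ E n, X.σ (X.b i) • v ∈ T) → E (n + 1) ≤ T := by
  obtain ⟨n₁, hn₁⟩ := hE.fg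
  refine ⟨n₁, fun n hn T hT => (hn₁ n hn).trans (Submodule.span_le.2 ?_)⟩
  rintro w ⟨a, ha, v, hv, rfl⟩
  have h1 := mem_span_lin3 ha
  clear ha
  rw [SetLike.mem_coe]
  induction h1 using Submodule.span_induction with
  | mem a ha =>
    obtain ⟨i, rfl⟩ := ha
    rw [P4g_lin3]
    exact hT i v hv
  | zero => rw [zero_smul]; exact zero_mem _
  | add a b _ _ ha hb => rw [add_smul]; exact add_mem ha hb
  | smul c a _ ha => rw [smul_assoc]; exact T.smul_mem c ha

/-- the span of `σ_{b₀} E_n`, `σ_h E_n`, `σ_d E_n` -/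
noncomputable def P4g_S (E : ℤ → Submodule k (Fin r → X.L)) (b₀ : X.I) (t : X.S) (n : ℤ) :
    Submodule k (Fin r → X.L) :=
  (E n).map (mulLL (X.σ b₀)) ⊔ (E n).map (mulLL (X.σ (X.h t))) ⊔
    (E n).map (mulLL (X.σ (X.d t)))

theorem P4g_mem_S {b₀ : X.I} {t : X.S} {n : ℤ} {v : Fin r → X.L} : v ∈ P4g_S E b₀ t n ↔
    ∃ a ∈ E n, ∃ b ∈ E n, ∃ c ∈ E n,
      v = X.σ b₀ • a + X.σ (X.h t) • b + X.σ (X.d t) • c := by
  unfold P4g_S
  constructor
  · intro h
    obtain ⟨x, hx, z, ⟨c, hc, rfl⟩, rfl⟩ := Submodule.mem_sup.1 h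
    obtain ⟨x, ⟨a, ha, rfl⟩, y, ⟨b, hb, rfl⟩, rfl⟩ := Submodule.mem_sup.1 hx
    exact ⟨a, ha, b, hb, c, hc, by simp only [mulLL_apply]⟩
  · rintro ⟨a, ha, b, hb, c, hc, rfl⟩
    refine Submodule.add_mem_sup (Submodule.add_mem_sup ?_ ?_) ?_
    · exact ⟨a, ha, mulLL_apply _ _⟩
    · exact ⟨b, hb, mulLL_apply _ _⟩
    · exact ⟨c, hc, mulLL_apply _ _⟩

theorem P4g_sq_mem (hs : SigStable X E) {b₀ : X.I} {t : X.S} (hb : b₀ ∉ X.tri t) (x : X.I)
    {n : ℤ} {v : Fin r → X.L} (hv : v ∈ E n) : X.σ x • X.σ x • v ∈ P4g_S E b₀ t (n + 1) := by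
  obtain ⟨c₀, c₁, c₂, h⟩ := P4g_sq X hb x
  refine P4g_mem_S.2 ⟨c₀ • X.σ b₀ • v, Submodule.smul_mem _ _ (hs b₀ hv),
    c₁ • X.σ (X.h t) • v, Submodule.smul_mem _ _ (hs _ hv),
    c₂ • X.σ (X.d t) • v, Submodule.smul_mem _ _ (hs _ hv), ?_⟩
  rw [smul_smul, ← sq, h, add_smul, add_smul]
  congr 1
  · congr 1
    · rw [smul_assoc, sq, mul_smul, smul_comm_kL]
    · rw [smul_assoc, sq, mul_smul, smul_comm_kL]
  · rw [smul_assoc, sq, mul_smul, smul_comm_kL]

theorem P4g_three (hE : IsBLat E) (hs : SigStable X E) {b₀ : X.I} {t : X.S}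
    (hb : b₀ ∉ X.tri t) : ∃ n₁ : ℤ, ∀ n ≥ n₁, E (n + 1) ≤ P4g_S E b₀ t n := by
  obtain ⟨n₁, hn₁⟩ := P4g_ind hE
  have key : ∀ n ≥ n₁, E (n + 1 + 1 + 1 + 1) ≤ P4g_S E b₀ t (n + 1 + 1 + 1) := by
    intro n hn
    set T := P4g_S E b₀ t (n + 1 + 1 + 1) with hT
    have hcases : ∀ i1 i2 i3 i4 : Fin 3,
        i1 = i2 ∨ i1 = i3 ∨ i1 = i4 ∨ i2 = i3 ∨ i2 = i4 ∨ i3 = i4 := by decide
    have h4 : ∀ i1 i2 i3 i4 : Fin 3, ∀ v ∈ E n,
        X.σ (X.b i1) • X.σ (X.b i2) • X.σ (X.b i3) • X.σ (X.b i4) • v ∈ T := by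
      have hpair : ∀ x y z : X.I, ∀ v ∈ E n, X.σ x • X.σ x • X.σ y • X.σ z • v ∈ T := by
        intro x y z v hv
        exact P4g_sq_mem hs hb x (hs y (hs z hv))
      intro i1 i2 i3 i4 v hv
      rcases hcases i1 i2 i3 i4 with h | h | h | h | h | h
      · subst h; exact hpair _ _ _ v hv
      · subst h
        have := hpair (X.b i1) (X.b i2) (X.b i4) v hv
        simp only [smul_smul] at this ⊢
        convert this using 2; ring
      · subst h
        have := hpair (X.b i1) (X.b i2) (X.b i3) v hv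
        simp only [smul_smul] at this ⊢
        convert this using 2; ring
      · subst h
        have := hpair (X.b i2) (X.b i1) (X.b i4) v hv
        simp only [smul_smul] at this ⊢
        convert this using 2; ring
      · subst h
        have := hpair (X.b i2) (X.b i1) (X.b i3) v hv
        simp only [smul_smul] at this ⊢
        convert this using 2; ring
      · subst h
        have := hpair (X.b i3) (X.b i1) (X.b i2) v hv
        simp only [smul_smul] at this ⊢
        convert this using 2; ring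
    refine hn₁ _ (by omega) T fun i1 v hv => ?_
    have h3 : E (n + 1 + 1 + 1) ≤ T.comap (mulLL (X.σ (X.b i1))) := by
      refine hn₁ _ (by omega) _ fun i2 v hv => ?_
      have h2 : E (n + 1 + 1) ≤
          (T.comap (mulLL (X.σ (X.b i1)))).comap (mulLL (X.σ (X.b i2))) := by
        refine hn₁ _ (by omega) _ fun i3 v hv => ?_
        have h1 : E (n + 1) ≤
            ((T.comap (mulLL (X.σ (X.b i1)))).comap (mulLL (X.σ (X.b i2)))).comap
              (mulLL (X.σ (X.b i3))) := by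
          refine hn₁ _ (by omega) _ fun i4 v hv => ?_
          simp only [Submodule.mem_comap, mulLL_apply]
          exact h4 i1 i2 i3 i4 v hv
        have := h1 hv
        simp only [Submodule.mem_comap, mulLL_apply] at this ⊢
        exact this
      have := h2 hv
      simp only [Submodule.mem_comap, mulLL_apply] at this ⊢
      exact this
    have := h3 hv
    simp only [Submodule.mem_comap, mulLL_apply] at this ⊢
    exact this
  refine ⟨n₁ + 3, fun n hn => ?_⟩
  have := key (n - 3) (by omega)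
  rwa [show n - 3 + 1 + 1 + 1 = n by ring] at this

end three

section graded

variable [IsAlgClosed k] {r : ℕ} {E W : ℤ → Submodule k (Fin r → X.L)}

theorem P4g_up (hs : SigStable X E) {b₀ : X.I} {v : Fin r → X.L} {a j : ℤ} (h : a ≤ j)
    (hv : X.σ b₀ ^ a • v ∈ E a) : X.σ b₀ ^ j • v ∈ E j := by
  obtain ⟨q, rfl⟩ : ∃ q : ℕ, j = a + q := ⟨(j - a).toNat, by omega⟩
  have h1 := hs.pow_smul b₀ q hv
  rwa [smul_smul, ← zpow_natCast, ← zpow_add₀ (X.σ_ne_zero b₀), add_comm (q : ℤ) a] at h1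

/-- the graded space `W_n + σ_h E_{n-1} + σ_d E_{n-1}` -/
noncomputable def P4g_R (W E : ℤ → Submodule k (Fin r → X.L)) (t : X.S) (n : ℤ) :
    Submodule k (Fin r → X.L) :=
  W n ⊔ ((E (n - 1)).map (mulLL (X.σ (X.h t))) ⊔ (E (n - 1)).map (mulLL (X.σ (X.d t))))

theorem P4g_mem_R {t : X.S} {n : ℤ} {v : Fin r → X.L} : v ∈ P4g_R W E t n ↔
    ∃ a ∈ W n, ∃ b ∈ E (n - 1), ∃ c ∈ E (n - 1),
      v = a + X.σ (X.h t) • b + X.σ (X.d t) • c := by
  unfold P4g_R
  constructor
  · intro h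
    obtain ⟨a, ha, z, hz, rfl⟩ := Submodule.mem_sup.1 h
    obtain ⟨x, ⟨b, hb, rfl⟩, y, ⟨c, hc, rfl⟩, rfl⟩ := Submodule.mem_sup.1 hz
    exact ⟨a, ha, b, hb, c, hc, by simp only [mulLL_apply, add_assoc]⟩
  · rintro ⟨a, ha, b, hb, c, hc, rfl⟩
    rw [add_assoc]
    refine Submodule.add_mem_sup ha (Submodule.add_mem_sup ?_ ?_)
    · exact ⟨b, hb, mulLL_apply _ _⟩
    · exact ⟨c, hc, mulLL_apply _ _⟩

theorem P4g_R_sig (hs : SigStable X E) (hw : SigStable X W) {t : X.S} (x : X.I) {n : ℤ}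
    {v : Fin r → X.L} (hv : v ∈ P4g_R W E t n) : X.σ x • v ∈ P4g_R W E t (n + 1) := by
  obtain ⟨a, ha, b, hb, c, hc, rfl⟩ := P4g_mem_R.1 hv
  refine P4g_mem_R.2 ⟨X.σ x • a, hw x ha, X.σ x • b, ?_, X.σ x • c, ?_, ?_⟩
  · have := hs x hb
    rwa [sub_add_cancel, ← add_sub_cancel_right n 1] at this
  · have := hs x hc
    rwa [sub_add_cancel, ← add_sub_cancel_right n 1] at this
  · rw [smul_add, smul_add, smul_comm (X.σ x) (X.σ (X.h t)), smul_comm (X.σ x) (X.σ (X.d t))]

theorem P4g_graded (hE : IsBLat E) (hs : SigStable X E) (hW : IsBLat W) (hw : SigStable X W)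
    {b₀ : X.I} {t : X.S} (hb : b₀ ∉ X.tri t)
    (hM : affM E b₀ ≤ affM W b₀ ⊔ Knode E b₀ t) :
    ∃ n₀ : ℤ, ∀ n ≥ n₀, ∀ v ∈ E n, ∃ a ∈ W n, ∃ b ∈ E (n - 1), ∃ c ∈ E (n - 1),
      v = a + X.σ (X.h t) • b + X.σ (X.d t) • c := by
  have hσ := X.σ_ne_zero b₀
  -- step (i)
  have h1 : ∀ (n : ℤ), ∀ v ∈ E n, ∃ q₀ : ℕ, ∀ q : ℕ, q₀ ≤ q →
      X.σ b₀ ^ q • v ∈ P4g_R W E t (n + q) := by
    intro n v hv
    have hv' : X.σ b₀ ^ (-n) • v ∈ affM E b₀ := by
      refine (mem_affM hE hs).2 ⟨n, ?_⟩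
      rwa [smul_smul, ← zpow_add₀ hσ, add_neg_cancel, zpow_zero, one_smul]
    obtain ⟨w, hw', κ, hκ, hwκ⟩ := Submodule.mem_sup.1 (hM hv')
    obtain ⟨x, ⟨m₁, hm₁, rfl⟩, y, ⟨m₂, hm₂, rfl⟩, hxy⟩ := Submodule.mem_sup.1 hκ
    rw [mulLL_apply, mulLL_apply] at hxy
    obtain ⟨a, ha⟩ := (mem_affM hW hw).1 hw'
    obtain ⟨b, hb'⟩ := (mem_affM hE hs).1 hm₁
    obtain ⟨c, hc⟩ := (mem_affM hE hs).1 hm₂
    refine ⟨(max (a - n) (max (b + 1 - n) (c + 1 - n))).toNat, fun q hq => ?_⟩
    have hq1 : a ≤ n + q := by omega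
    have hq2 : b ≤ n + q - 1 := by (clear * - hq hq1; omega)
    have hq3 : c ≤ n + q - 1 := by omega
    refine P4g_mem_R.2 ⟨X.σ b₀ ^ (n + q : ℤ) • w, P4g_up hw hq1 ha,
      X.σ b₀ ^ (n + q - 1 : ℤ) • m₁, P4g_up hs hq2 hb',
      X.σ b₀ ^ (n + q - 1 : ℤ) • m₂, P4g_up hs hq3 hc, ?_⟩
    have e1 : X.σ b₀ ^ q • v = X.σ b₀ ^ (n + q : ℤ) • (X.σ b₀ ^ (-n) • v) := by
      rw [smul_smul, ← zpow_add₀ hσ, ← zpow_natCast]
      congr 2
      ring
    rw [e1, ← hwκ, ← hxy, smul_add, smul_add, ← add_assoc]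
    congr 1
    · congr 1
      rw [smul_smul, smul_smul, tau]
      congr 1
      rw [zpow_sub_one₀ hσ]
      field_simp
    · rw [smul_smul, smul_smul, tau]
      congr 1
      rw [zpow_sub_one₀ hσ]
      (clear * - hσ; field_simp)
  -- step (ii)
  obtain ⟨n₂, hn₂⟩ := P4g_three hE hs hb
  have h2 : ∃ Q : ℕ, ∀ q : ℕ, Q ≤ q → ∀ v ∈ E n₂, X.σ b₀ ^ q • v ∈ P4g_R W E t (n₂ + q) := by
    have hfin := hE.fin n₂
    obtain ⟨S, hS⟩ := Module.Finite.iff_fg.1 hfin
    have hSE : ∀ v ∈ S, v ∈ E n₂ := fun v hv => by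
      rw [← hS]; exact Submodule.subset_span hv
    choose! q₀ hq₀ using h1 n₂
    refine ⟨S.sup q₀, fun q hq v hv => ?_⟩
    rw [← hS] at hv
    induction hv using Submodule.span_induction with
    | mem v hv => exact hq₀ v (hSE v hv) q ((Finset.le_sup hv).trans hq)
    | zero => rw [smul_zero]; exact zero_mem _
    | add a b _ _ ha hb => rw [smul_add]; exact add_mem ha hb
    | smul c a _ ha =>
      rw [← smul_comm_kL]
      exact Submodule.smul_mem _ c ha
  obtain ⟨Q, hQ⟩ := h2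
  -- step (iii)
  have h3 : ∀ q : ℕ, ∀ v ∈ E (n₂ + q), ∃ ρ ∈ P4g_R W E t (n₂ + q), ∃ e ∈ E n₂,
      v = ρ + X.σ b₀ ^ q • e := by
    intro q
    induction q with
    | zero =>
      intro v hv
      refine ⟨0, zero_mem _, v, by simpa using hv, by simp⟩
    | succ q ih =>
      intro v hv
      push_cast at hv ⊢
      rw [← add_assoc] at hv ⊢
      obtain ⟨a, ha, b, hb', c, hc, rfl⟩ := P4g_mem_S.1 (hn₂ (n₂ + q) (by omega) hv)
      obtain ⟨ρ, hρ, e, he, rfl⟩ := ih a ha
      refine ⟨X.σ b₀ • ρ + (0 + X.σ (X.h t) • b + X.σ (X.d t) • c),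
        add_mem (P4g_R_sig hs hw b₀ hρ) (P4g_mem_R.2 ⟨0, zero_mem _, b, ?_, c, ?_, rfl⟩),
        e, he, ?_⟩
      · rwa [add_sub_cancel_right]
      · rwa [add_sub_cancel_right]
      · rw [smul_add, pow_succ', mul_smul]
        abel
  refine ⟨n₂ + Q, fun n hn v hv => ?_⟩
  obtain ⟨q, rfl⟩ : ∃ q : ℕ, n = n₂ + q := ⟨(n - n₂).toNat, by omega⟩
  obtain ⟨ρ, hρ, e, he, rfl⟩ := h3 q v hv
  exact P4g_mem_R.1 (add_mem hρ (hQ q (by omega) e he))

end graded

end Vale.Agent.P190.D
end
end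

section

section

/-! Section 3, file S7: Harder-Narasimhan induction. -/

set_option autoImplicit false
set_option linter.unusedSectionVars false

open MvPolynomial Filter

namespace Vale.Agent.P190.D

/-- the Hilbert triple of the zero lattice -/
theorem s7_hilb_bot {k : Type} [Field k] {V : Type} [AddCommGroup V] [Module k V]
    [Module (A k) V] [IsScalarTower k (A k) V] {E : ℤ → Submodule k V} (h0 : ∀ n, E n = ⊥) {N e g : ℤ} (h : HasHilb E N e g) :
    N = 0 ∧ e = 0 ∧ g = 0 := by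
  refine h.unique ?_
  refine Filter.Eventually.of_forall fun n => ?_
  rw [h0 n, finrank_bot]
  simp only [CharP.cast_eq_zero, hp, Int.cast_zero, zero_mul, add_zero]

/-- SECTION 3.5 -/
theorem no_window {k : Type} [Field k] [Infinite k] (X : Arr k)
    (H : ∀ (r : ℕ) (Γ : (Fin r → X.L) →ₗ[X.L] (Fin r → X.L)) (E : ℤ → Submodule k (Fin r → X.L)),
      0 < r → IsTSp Γ → IsTLat Γ E → IsS2 E → Spans (X := X) E →
      ∀ N e g : ℤ, HasHilb E N e g → -N ≤ e → e ≤ 0 → Semistable Γ E → g < 0)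
    (r : ℕ) (Γ : (Fin r → X.L) →ₗ[X.L] (Fin r → X.L)) (E : ℤ → Submodule k (Fin r → X.L))
    (hr : 0 < r) (hΓ : IsTSp Γ) (hE : IsTLat Γ E) (hsp : Spans (X := X) E)
    (hw : Window Γ E) (N e g : ℤ) (hh : HasHilb E N e g) : g < 0 := by
  induction r using Nat.strong_induction_on generalizing N e g with
  | _ r ih =>
  have hB := hE.toIsBLat
  -- ranks of subspaces
  have hle : ∀ (U : Submodule X.L (Fin r → X.L)) (N' e' g' : ℤ), HasHilb (subLat E U) N' e' g' →
      HasHilb (quoLat E U) (N - N') (e - e') (g - g') := by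
    intro U N' e' g' h
    refine s7_hilb_sub (fun n => ?_) hh h
    have := s7_finrank hB U.mkQ n
    rwa [Submodule.ker_mkQ] at this
  have hpos : ∀ (U : Submodule X.L (Fin r → X.L)) (N' e' g' : ℤ), U ≠ ⊥ →
      HasHilb (subLat E U) N' e' g' → 0 < N' := by
    intro U N' e' g' hU h
    refine lt_of_le_of_ne h.nonneg fun h0 => hU ?_
    subst h0
    have h1 := (HasHilb.eq_bot (s7_isBLat_sub hB U) h).1
    have h2 := s7_span_sub hE hsp U
    rw [← h2, Submodule.span_eq_bot]
    intro v hv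
    obtain ⟨n, hn⟩ := Set.mem_iUnion.1 hv
    rw [h1 n] at hn
    exact (Submodule.mem_bot k).1 hn
  have hNle : ∀ (U : Submodule X.L (Fin r → X.L)) (N' e' g' : ℤ),
      HasHilb (subLat E U) N' e' g' → N' ≤ N := by
    intro U N' e' g' h
    have := (hle U N' e' g' h).nonneg
    omega
  have hsubtop : subLat E (⊤ : Submodule X.L (Fin r → X.L)) = E := by
    funext n
    ext v
    exact ⟨fun h => h.1, fun h => ⟨h, trivial⟩⟩
  have htop : HasHilb (subLat E (⊤ : Submodule X.L (Fin r → X.L))) N e g := by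
    rw [hsubtop]
    exact hh
  have hsubbot : ∀ n, subLat E (⊥ : Submodule X.L (Fin r → X.L)) n = ⊥ := by
    intro n
    rw [eq_bot_iff]
    intro v hv
    exact (Submodule.mem_bot X.L).1 hv.2
  have hbot : HasHilb (subLat E (⊥ : Submodule X.L (Fin r → X.L))) 0 0 0 := by
    refine Filter.Eventually.of_forall fun n => ?_
    rw [hsubbot n, finrank_bot]
    simp [hp]
  have : Nonempty (Fin r) := ⟨⟨0, hr⟩⟩
  have : Nontrivial X.L := X.isField_L.nontrivial
  have htb : (⊤ : Submodule X.L (Fin r → X.L)) ≠ ⊥ := top_ne_bot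
  have hN : 0 < N := hpos ⊤ N e g htb htop
  -- a subspace of maximal slope
  obtain ⟨C, hC⟩ := hB.exists_slope_bound
  set M : ℤ := (N.toNat.factorial : ℤ) with hM
  have hM0 : 0 < M := by
    rw [hM]
    exact_mod_cast Nat.factorial_pos _
  have hdvd : ∀ N' : ℤ, 0 < N' → N' ≤ N → N' ∣ M := by
    intro N' h1 h2
    rw [hM]
    have h3 : N'.toNat ∣ N.toNat.factorial := Nat.dvd_factorial (by omega) (by omega)
    have h4 : ((N'.toNat : ℕ) : ℤ) = N' := by omega
    rw [← h4]
    exact_mod_cast h3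
  obtain ⟨z, ⟨U, hU, hU0, N₁, e₁, g₁, hh₁, hz⟩, hzmax⟩ := Int.exists_greatest_of_bdd
    (P := fun z : ℤ => ∃ U : Submodule X.L (Fin r → X.L), IsTSub Γ U ∧ U ≠ ⊥ ∧
      ∃ N₁ e₁ g₁ : ℤ, HasHilb (subLat E U) N₁ e₁ g₁ ∧ z * N₁ = M * e₁)
    ⟨M * C, by
      rintro z ⟨U, hU, hU0, N₁, e₁, g₁, h1, h2⟩
      have h3 := hC _ (s7_isBLat_sub hB U) (fun n v hv => hv.1) _ _ _ h1
      have h4 := hpos U _ _ _ hU0 h1
      have h5 : z * N₁ ≤ (M * C) * N₁ := by
        rw [h2, mul_assoc]
        exact mul_le_mul_of_nonneg_left h3 hM0.le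
      exact le_of_mul_le_mul_right h5 h4⟩
    (by
      obtain ⟨c, hc⟩ := hdvd N hN le_rfl
      exact ⟨c * e, ⊤, fun v _ => trivial, htb, N, e, g, htop, by rw [hc]; ring⟩)
  have hN₁ := hpos U _ _ _ hU0 hh₁
  have hmax : ∀ U' : Submodule X.L (Fin r → X.L), IsTSub Γ U' → ∀ N' e' g' : ℤ,
      HasHilb (subLat E U') N' e' g' → e' * N₁ ≤ e₁ * N' := by
    intro U' hU' N' e' g' h'
    rcases eq_or_ne U' ⊥ with rfl | hne
    · obtain ⟨rfl, rfl, -⟩ := s7_hilb_bot hsubbot h'
      simp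
    · have h1 := hpos U' _ _ _ hne h'
      obtain ⟨c, hc⟩ := hdvd N' h1 (hNle U' _ _ _ h')
      have h2 := hzmax (c * e') ⟨U', hU', hne, N', e', g', h', by rw [hc]; ring⟩
      have h3 : M * (e' * N₁) ≤ M * (e₁ * N') := by
        have h4 : c * e' * (N' * N₁) ≤ z * (N' * N₁) :=
          mul_le_mul_of_nonneg_right h2 (mul_pos h1 hN₁).le
        calc M * (e' * N₁) = c * e' * (N' * N₁) := by rw [hc]; ring
          _ ≤ z * (N' * N₁) := h4
          _ = (z * N₁) * N' := by ring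
          _ = M * (e₁ * N') := by rw [hz]; ring
      exact le_of_mul_le_mul_left h3 hM0
  -- the slope is between -1 and 0
  have he₁ : e₁ ≤ 0 := (hw U hU N₁ e₁ g₁).1 hh₁
  have heN : -N ≤ e := by
    have h1 := hle ⊥ 0 0 0 hbot
    rw [sub_zero, sub_zero, sub_zero] at h1
    refine (hw ⊥ ?_ N e g).2 h1
    intro v hv
    rw [(Submodule.mem_bot X.L).1 hv, map_zero]
    exact zero_mem _
  have he₁' : -N₁ ≤ e₁ := by
    have h1 := hmax ⊤ (fun v _ => trivial) N e g htop
    (by_contra nlg; linarith only [nlg, mul_nonneg (sub_nonneg.2 heN) (le_of_lt (sub_pos.2 hN₁)), mul_pos (sub_pos.2 (not_le.1 nlg)) (sub_pos.2 hN), h1, heN, hN])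
  -- the subspace
  have hg₁ : g₁ < 0 := by
    obtain ⟨Γ₁, E₁, hΓ₁, hE₁, hsp₁, hh₁', hsub⟩ := s7_sub_part hΓ hE hsp hU hh₁
    obtain ⟨g₂, hg₂, hh₂⟩ := hh₁'.hull hE₁.toIsBLat
    have hr₁ : 0 < Module.finrank X.L U := by
      have : Nontrivial U := (Submodule.nontrivial_iff_ne_bot).2 hU0
      exact Module.finrank_pos
    have hss := s7_semistable hE₁ hh₁' (fun U₁ hU₁ N' e' g' h' => by
      obtain ⟨U', hU', h2⟩ := hsub U₁ hU₁
      exact hmax U' hU' N' e' g' (h2 N' e' g' h'))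
    have hsp₂ : Spans (X := X) (hull E₁ hE₁.toIsBLat) := by
      unfold Spans at hsp₁ ⊢
      rw [eq_top_iff, ← hsp₁]
      refine Submodule.span_mono (Set.iUnion_mono fun n => ?_)
      exact le_hull hE₁.toIsBLat n
    have := H _ Γ₁ (hull E₁ hE₁.toIsBLat) hr₁ hΓ₁ hE₁.hull (isS2_hull hE₁.toIsBLat) hsp₂
      N₁ e₁ g₂ hh₂ he₁' he₁ hss
    omega
  -- the quotient
  rcases eq_or_ne U ⊤ with rfl | hUt
  · obtain ⟨-, -, rfl⟩ := hh₁.unique htop
    exact hg₁
  · obtain ⟨Γ₂, E₂, hΓ₂, hE₂, hsp₂, hh₂, hsub⟩ := s7_quo_part hΓ hE hsp hU hh hh₁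
    have hfr := Submodule.finrank_quotient_add_finrank U
    rw [Module.finrank_fin_fun] at hfr
    have hr₁ : 0 < Module.finrank X.L U := by
      have : Nontrivial U := (Submodule.nontrivial_iff_ne_bot).2 hU0
      exact Module.finrank_pos
    have hr₂ : 0 < Module.finrank X.L ((Fin r → X.L) ⧸ U) := by
      have : Nontrivial ((Fin r → X.L) ⧸ U) := Submodule.Quotient.nontrivial_iff.2 hUt
      exact Module.finrank_pos
    have hw₂ : Window Γ₂ E₂ := by
      intro U₂ hU₂ N' e' g'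
      obtain ⟨U', hU', h1, h2⟩ := hsub U₂ hU₂
      refine ⟨fun h => ?_, fun h => ?_⟩
      · have h3 : HasHilb (subLat E U') (N₁ + N') (e₁ + e') (g₁ + g') := by
          obtain ⟨a, b, c, h4⟩ := (s7_isBLat_sub hB U').exists_hilb
          have h5 := s7_hilb_sub h1 h4 hh₁
          obtain ⟨h6, h7, h8⟩ := h5.unique h
          have h9 : a = N₁ + N' := by omega
          have h10 : b = e₁ + e' := by omega
          have h11 : c = g₁ + g' := by omega
          rw [h9, h10, h11] at h4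
          exact h4
        have h4 := hmax U' hU' _ _ _ h3
        have h5 := h.nonneg
        by_contra h6
        push Not at h6
        have h7 : 0 < e' * N₁ := mul_pos h6 hN₁
        have h8 : e₁ * N' ≤ 0 := mul_nonpos_of_nonpos_of_nonneg he₁ h5
        linarith only [h8, h7, h4]
      · exact (hw U' hU' N' e' g').2 (s7_hilb_congr h2 h)
    have := ih _ (by omega) Γ₂ E₂ hr₂ hΓ₂ hE₂ hsp₂ hw₂ _ _ _ hh₂
    omega

end Vale.Agent.P190.D
end
end

section

section

/-! Section 6, file Q1: the arrangement of 17 lines. -/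

set_option autoImplicit false
set_option linter.unusedSectionVars false

open MvPolynomial Filter

namespace Vale.Agent.P190.D

/-- the index condition of a triple point `i < j < 24 - i - j ≤ 16` -/
def r1P (t : Fin 17 × Fin 17) : Prop :=
  t.1.val < t.2.val ∧ t.1.val + 2 * t.2.val < 24 ∧ 8 ≤ t.1.val + t.2.val

instance r1P_dec : DecidablePred r1P := fun t =>
  inferInstanceAs (Decidable (t.1.val < t.2.val ∧ t.1.val + 2 * t.2.val < 24 ∧
    8 ≤ t.1.val + t.2.val))

/-- the triple points -/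
abbrev r1S : Type := {t : Fin 17 × Fin 17 // r1P t}

/-- the third line through a triple point -/
def r1v (t : r1S) : Fin 17 := ⟨24 - t.1.1.val - t.1.2.val, by
  obtain ⟨h1, h2, h3⟩ := t.2
  omega⟩

/-- the parameter of a line -/
def r1a (i : Fin 17) : ℤ := (i.val : ℤ) - 8

/-- the coordinates of a line -/
def r1L (i : Fin 17) (j : Fin 3) : ℤ :=
  if j = 0 then (6 - 7 * r1a i + r1a i * r1a i * r1a i) / 6
  else if j = 1 then (4 * r1a i - r1a i * r1a i * r1a i) / 3
  else (r1a i * r1a i * r1a i - r1a i) / 6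

/-- the three base lines -/
def r1b (i : Fin 3) : Fin 17 := ⟨8 + i.val, by omega⟩

theorem r1L_b : ∀ i j : Fin 3, r1L (r1b i) j = if j = i then 1 else 0 := by
  decide +kernel

theorem r1_rel : ∀ t : r1S, ∀ j : Fin 3,
    (r1a t.1.2 - r1a (r1v t)) * r1L t.1.1 j - (r1a t.1.1 - r1a (r1v t)) * r1L t.1.2 j =
      (r1a t.1.2 - r1a t.1.1) * r1L (r1v t) j := by
  (clear * -; decide +kernel)

theorem r1_det : ∀ x y z : Fin 17, x ≠ y → x ≠ z → y ≠ z → x.val + y.val + z.val ≠ 24 →
    r1L x 0 * r1L y 1 * r1L z 2 - r1L x 0 * r1L y 2 * r1L z 1 - r1L x 1 * r1L y 0 * r1L z 2 +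
      r1L x 1 * r1L y 2 * r1L z 0 + r1L x 2 * r1L y 0 * r1L z 1 -
      r1L x 2 * r1L y 1 * r1L z 0 ≠ 0 := by
  decide +kernel

theorem r1_cover : ∀ x : Fin 17, ∃ t : r1S, x = r1v t ∨ x = t.1.2 ∨ x = t.1.1 := by
  (clear * -; decide +kernel)

theorem r1_card : Fintype.card r1S = 32 := by
  (clear * -; decide +kernel)

theorem r1_sorted (x y z : Fin 17) (hxy : x < y) (hyz : y < z)
    (h : x.val + y.val + z.val = 24) :
    ∃ t : r1S, ({x, y, z} : Set (Fin 17)) = {r1v t, t.1.2, t.1.1} := by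
  have h1 : x.val < y.val := hxy
  have h2 : y.val < z.val := hyz
  refine ⟨⟨(x, y), h1, ?_, ?_⟩, ?_⟩
  · change x.val + 2 * y.val < 24
    omega
  · change 8 ≤ x.val + y.val
    have := z.isLt
    omega
  · have hz : r1v ⟨(x, y), h1, by change x.val + 2 * y.val < 24; omega, by
        change 8 ≤ x.val + y.val; have := z.isLt; omega⟩ = z := by
      apply Fin.ext
      change 24 - x.val - y.val = z.val
      omega
    rw [hz]
    ext w
    simp only [Set.mem_insert_iff, Set.mem_singleton_iff]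
    (clear * -; tauto)

theorem r1_triple (x y z : Fin 17) (hxy : x ≠ y) (hxz : x ≠ z) (hyz : y ≠ z)
    (h : x.val + y.val + z.val = 24) :
    ∃ t : r1S, ({x, y, z} : Set (Fin 17)) = {r1v t, t.1.2, t.1.1} := by
  have e1 : ({y, x, z} : Set (Fin 17)) = {x, y, z} := Set.insert_comm _ _ _
  have e2 : ({x, z, y} : Set (Fin 17)) = {x, y, z} := by rw [Set.pair_comm z y]
  have e3 : ({z, x, y} : Set (Fin 17)) = {x, y, z} := by rw [Set.insert_comm z x, e2]
  have e4 : ({y, z, x} : Set (Fin 17)) = {x, y, z} := by rw [Set.pair_comm z x, e1]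
  have e5 : ({z, y, x} : Set (Fin 17)) = {x, y, z} := by rw [Set.pair_comm y x, e3]
  rcases lt_or_gt_of_ne hxy with h1 | h1 <;> rcases lt_or_gt_of_ne hxz with h2 | h2 <;>
    rcases lt_or_gt_of_ne hyz with h3 | h3
  · exact r1_sorted x y z h1 h3 h
  · rw [← e2]; exact r1_sorted x z y h2 h3 (by omega)
  · exact absurd (h1.trans h3) (lt_asymm h2)
  · rw [← e3]; exact r1_sorted z x y h2 h1 (by omega)
  · rw [← e1]; exact r1_sorted y x z h1 h2 (by omega)
  · exact absurd (h3.trans h1) (lt_asymm h2)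
  · rw [← e4]; exact r1_sorted y z x h3 h2 (by omega)
  · rw [← e5]; exact r1_sorted z y x h3 h1 (by omega)

theorem r1_share (t t' : r1S) (x y : Fin 17) (hxy : x ≠ y)
    (h1 : x ∈ ({r1v t, t.1.2, t.1.1} : Set (Fin 17)))
    (h2 : y ∈ ({r1v t, t.1.2, t.1.1} : Set (Fin 17)))
    (h3 : x ∈ ({r1v t', t'.1.2, t'.1.1} : Set (Fin 17)))
    (h4 : y ∈ ({r1v t', t'.1.2, t'.1.1} : Set (Fin 17))) : t = t' := by
  obtain ⟨⟨a, b⟩, p1, p2, p3⟩ := t
  obtain ⟨⟨a', b'⟩, q1, q2, q3⟩ := t'
  change a.val < b.val at p1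
  change a.val + 2 * b.val < 24 at p2
  change 8 ≤ a.val + b.val at p3
  change a'.val < b'.val at q1
  change a'.val + 2 * b'.val < 24 at q2
  change 8 ≤ a'.val + b'.val at q3
  have hxy' : x.val ≠ y.val := fun h => hxy (Fin.ext h)
  simp only [Set.mem_insert_iff, Set.mem_singleton_iff, Fin.ext_iff, r1v] at h1 h2 h3 h4
  have e1 : a.val = a'.val ∧ b.val = b'.val := by
    omega
  apply Subtype.ext
  exact Prod.ext (Fin.ext e1.1) (Fin.ext e1.2)

/-- the arrangement of the 17 lines `X + a Y + a ^ 3 Z`, `|a| ≤ 8` -/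
theorem exists_arr (K : Type) [Field K] [CharZero K] (hsq : ∀ x : K, ∃ y : K, y ^ 2 = x) :
    Nonempty (Arr K) := by
  classical
  choose r hr using hsq
  have hpos1 : ∀ t : r1S, r1a t.1.2 - r1a (r1v t) ≠ 0 := by
    rintro ⟨⟨a, b⟩, p1, p2, p3⟩
    change a.val < b.val at p1
    change a.val + 2 * b.val < 24 at p2
    change 8 ≤ a.val + b.val at p3
    simp only [r1a, r1v]
    omega
  have hpos2 : ∀ t : r1S, r1a t.1.1 - r1a (r1v t) ≠ 0 := by
    rintro ⟨⟨a, b⟩, p1, p2, p3⟩
    change a.val < b.val at p1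
    change a.val + 2 * b.val < 24 at p2
    change 8 ≤ a.val + b.val at p3
    simp only [r1a, r1v]
    omega
  have hpos3 : ∀ t : r1S, r1a t.1.2 - r1a t.1.1 ≠ 0 := by
    rintro ⟨⟨a, b⟩, p1, p2, p3⟩
    change a.val < b.val at p1
    simp only [r1a]
    omega
  have hrne : ∀ n : ℤ, n ≠ 0 → r (n : K) ≠ 0 := by
    intro n hn h
    have h1 := hr (n : K)
    rw [h, zero_pow two_ne_zero] at h1
    exact hn (Int.cast_eq_zero.1 h1.symm)
  refine ⟨{
    I := Fin 17
    b := r1b
    b_inj := ?_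
    l := fun i j => ((r1L i j : ℤ) : K)
    l_b := ?_
    S := r1S
    v := r1v
    h := fun t => t.1.2
    d := fun t => t.1.1
    δ := fun t => r ((r1a t.1.2 - r1a (r1v t) : ℤ) : K)
    η := fun t => r ((r1a t.1.1 - r1a (r1v t) : ℤ) : K)
    ν := fun t => r ((r1a t.1.2 - r1a t.1.1 : ℤ) : K)
    δ_ne := fun t => hrne _ (hpos1 t)
    η_ne := fun t => hrne _ (hpos2 t)
    ν_ne := fun t => hrne _ (hpos3 t)
    rel := ?_
    vh := ?_
    vd := ?_
    hd := ?_
    indep := ?_
    share := ?_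
    cover := ?_
    even := ?_
    two_ne := two_ne_zero
    rho := ?_ }⟩
  · intro i j h
    have h1 : (r1b i).val = (r1b j).val := congrArg Fin.val h
    simp only [r1b] at h1
    apply Fin.ext
    omega
  · intro i
    funext j
    rw [r1L_b]
    by_cases h : j = i
    · subst h; simp
    · simp [h]
  · intro t
    funext j
    simp only [Pi.sub_apply, Pi.smul_apply, smul_eq_mul]
    rw [hr, hr, hr]
    exact_mod_cast r1_rel t j
  · rintro ⟨⟨a, b⟩, p1, p2, p3⟩ h
    change a.val < b.val at p1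
    change a.val + 2 * b.val < 24 at p2
    have := congrArg Fin.val h
    simp only [r1v] at this
    omega
  · rintro ⟨⟨a, b⟩, p1, p2, p3⟩ h
    change a.val < b.val at p1
    change a.val + 2 * b.val < 24 at p2
    have := congrArg Fin.val h
    simp only [r1v] at this
    omega
  · rintro ⟨⟨a, b⟩, p1, p2, p3⟩ h
    change a.val < b.val at p1
    have := congrArg Fin.val h
    simp only at this
    omega
  · intro x y z hxy hxz hyz
    by_cases h : x.val + y.val + z.val = 24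
    · exact Or.inr (r1_triple x y z hxy hxz hyz h)
    · left
      have h1 := r1_det x y z hxy hxz hyz h
      have h2 : (Matrix.of ![fun j => ((r1L x j : ℤ) : K), fun j => ((r1L y j : ℤ) : K),
          fun j => ((r1L z j : ℤ) : K)]).det ≠ 0 := by
        rw [Matrix.det_fin_three]
        simp only [Matrix.of_apply, Matrix.cons_val_zero, Matrix.cons_val_one,
          Matrix.cons_val_two, Matrix.head_cons, Matrix.tail_cons]
        exact_mod_cast h1
      exact Matrix.linearIndependent_rows_of_det_ne_zero h2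
  · exact r1_share
  · intro x
    obtain ⟨t, ht⟩ := r1_cover x
    exact ⟨t, by simpa only [Set.mem_insert_iff, Set.mem_singleton_iff] using ht⟩
  · rw [show @Fintype.card r1S _ = 32 from r1_card]
    exact ⟨16, rfl⟩
  · rw [show @Fintype.card r1S _ = 32 from r1_card]
    simp

end Vale.Agent.P190.D
end
end

section

section

/-! Section 4, file P8b: dual vanishing. -/

set_option autoImplicit false
set_option linter.unusedSectionVars false

open MvPolynomial Filter

namespace Vale.Agent.P190.D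

variable {k : Type} [Field k] [IsAlgClosed k] {X : Arr k}
  {r : ℕ} {Γ : (Fin r → X.L) →ₗ[X.L] (Fin r → X.L)} {G : ℤ → Submodule k (Fin r → X.L)}

/-- a `KK`-linear form vanishing on all `σ^S w` vanishes on `L w` -/
theorem P8b_vanish (f : (Fin r → X.L) →ₗ[KK k] KK k) (w : Fin r → X.L)
    (h : ∀ s : Finset X.J, f (X.mon s • w) = 0) (l : X.L) : f (l • w) = 0 := by
  have h2 : l ∈ Submodule.span (KK k) (Set.range X.mon) := by
    rw [X.mon_span]
    exact Submodule.mem_top
  induction h2 using Submodule.span_induction with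
  | mem l hl =>
    obtain ⟨s, rfl⟩ := hl
    exact h s
  | zero => rw [zero_smul, map_zero]
  | add l l' _ _ hl hl' => rw [add_smul, map_add, hl, hl', add_zero]
  | smul c l _ hl => rw [smul_assoc, map_smul, hl, smul_zero]

/-- the T-subspace on which the form `f` vanishes identically -/
def P8bU (Γ : (Fin r → X.L) →ₗ[X.L] (Fin r → X.L)) (f : (Fin r → X.L) →ₗ[KK k] KK k) :
    Submodule X.L (Fin r → X.L) where
  carrier := {v | ∀ l : X.L, f (l • v) = 0 ∧ f (l • Γ v) = 0}
  add_mem' := fun {v w} hv hw l => by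
    rw [map_add, smul_add, smul_add, map_add, map_add, (hv l).1, (hv l).2, (hw l).1, (hw l).2,
      add_zero]
    exact ⟨rfl, rfl⟩
  zero_mem' := fun l => by
    rw [map_zero, smul_zero, map_zero]
    exact ⟨rfl, rfl⟩
  smul_mem' := fun c v hv l => by
    rw [map_smul Γ c v, smul_smul, smul_smul]
    exact hv (l * c)

theorem P8b_memU {f : (Fin r → X.L) →ₗ[KK k] KK k} {v : Fin r → X.L} :
    v ∈ P8bU Γ f ↔ ∀ l : X.L, f (l • v) = 0 ∧ f (l • Γ v) = 0 := Iff.rfl

/-- the map `v ↦ (f (σ^S v), f (σ^S Γ v))` -/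
noncomputable def P8bPsi (Γ : (Fin r → X.L) →ₗ[X.L] (Fin r → X.L))
    (f : (Fin r → X.L) →ₗ[KK k] KK k) :
    (Fin r → X.L) →ₗ[A k] (Finset X.J ⊕ Finset X.J → KK k) where
  toFun := fun v i => Sum.elim (fun s => f (X.mon s • v)) (fun s => f (X.mon s • Γ v)) i
  map_add' := fun v w => by
    funext i
    rcases i with s | s
    · simp only [Sum.elim_inl, Pi.add_apply, smul_add, map_add]
    · simp only [Sum.elim_inr, Pi.add_apply, smul_add, map_add]
  map_smul' := fun c v => by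
    funext i
    rcases i with s | s
    · simp only [Sum.elim_inl, Pi.smul_apply, RingHom.id_apply]
      rw [← smul_comm_AL, LinearMap.map_smul_of_tower]
    · simp only [Sum.elim_inr, Pi.smul_apply, RingHom.id_apply]
      rw [map_smul_A, ← smul_comm_AL, LinearMap.map_smul_of_tower]

theorem P8b_ker (f : (Fin r → X.L) →ₗ[KK k] KK k) (v : Fin r → X.L) :
    v ∈ LinearMap.ker (P8bPsi Γ f) ↔ v ∈ P8bU Γ f := by
  rw [LinearMap.mem_ker, P8b_memU]
  constructor
  · intro h l
    exact ⟨P8b_vanish f v (fun s => congrFun h (Sum.inl s)) l,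
      P8b_vanish f (Γ v) (fun s => congrFun h (Sum.inr s)) l⟩
  · intro h
    funext i
    rcases i with s | s
    · exact (h (X.mon s)).1
    · exact (h (X.mon s)).2

theorem P8b_gam (v : Fin r → X.L) : gam Γ (fun _ => true) v = Γ v := by
  have h1 : X.pie (fun _ => true) = X.PI := by
    unfold Arr.pie Arr.PI
    simp only [↓reduceIte]
  unfold gam
  rw [h1, div_self X.PI_ne_zero, one_smul]

/-- 4.7 dual vanishing: if all T-quotients have slopes at least `μ` then the dual vanishes -/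
theorem dual_vanish (hr : 0 < r) (hΓ : IsTSp Γ) (hG : IsTLat Γ G) (hsp : SpansL (X := X) G)
    {N e g : ℤ} (hh : HasHilb G N e g)
    (μ : ℚ) (hμ : ∀ U : Submodule X.L (Fin r → X.L), IsTSub Γ U → ∀ w f g : ℤ,
      HasHilb (subLat G U) w f g → μ * (N - w) ≤ (e : ℚ) - f) (n : ℤ)
    (hn : (n : ℚ) < μ - X.m - X.w) : dualLat G n = ⊥ := by
  rw [eq_bot_iff]
  intro f hf
  rw [Submodule.mem_bot]
  by_contra hf0
  rw [mem_dualLat] at hf
  have hU : IsTSub Γ (P8bU Γ f) := by
    intro v hv l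
    rw [P8b_memU] at hv
    refine ⟨(hv l).2, ?_⟩
    rw [hΓ v, smul_smul]
    exact (hv _).1
  have hB := hG.toIsBLat
  obtain ⟨N1, e1, g1, h1⟩ := (hB.inter (LinearMap.ker (P8bPsi Γ f))).exists_hilb
  obtain ⟨N2, e2, g2, h2⟩ := (hB.map (P8bPsi Γ f)).exists_hilb
  obtain ⟨a1, a2, a3⟩ := hh.add hB (P8bPsi Γ f) h1 h2
  have hsub : HasHilb (subLat G (P8bU Γ f)) N1 e1 g1 := by
    have h3 : subLat G (P8bU Γ f) = interLat G (LinearMap.ker (P8bPsi Γ f)) := by
      funext n
      ext v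
      exact and_congr_right (fun _ => (P8b_ker f v).symm)
    rw [h3]
    exact h1
  have hmu := hμ _ hU N1 e1 g1 hsub
  have hcard : ∀ s : Finset X.J, (s.card : ℤ) ≤ X.m := by
    intro s
    have h3 := Finset.card_le_univ s
    have h4 := X.card_J
    omega
  have he2 : e2 ≤ (n + X.m + X.w) * N2 := by
    refine HasHilb.e_nonpos (hB.map (P8bPsi Γ f)) (n + X.m + X.w) ?_ h2
    rintro l _ ⟨v, hv, rfl⟩ i
    rcases i with s | s
    · have h3 : X.mon s • v ∈ G (l + s.card) :=
        SigStable.T0_smul hB hG.sigStable (X.mon_mem s) hv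
      obtain ⟨a, ha, hfa⟩ := hf _ _ h3
      refine ⟨a, Ad_mono ?_ ha, hfa⟩
      have := hcard s
      omega
    · have h5 : Γ v ∈ G (l + X.w) := by
        have := hG.gam_mem (fun _ => true) hv
        rwa [P8b_gam] at this
      have h3 : X.mon s • Γ v ∈ G (l + X.w + s.card) :=
        SigStable.T0_smul hB hG.sigStable (X.mon_mem s) h5
      obtain ⟨a, ha, hfa⟩ := hf _ _ h3
      refine ⟨a, Ad_mono ?_ ha, hfa⟩
      have := hcard s
      omega
  have hN2 : 1 ≤ N2 := by
    by_contra hlt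
    have h3 : 0 ≤ N2 := h2.nonneg
    have h4 : N2 = 0 := by omega
    subst h4
    obtain ⟨hbot, _⟩ := HasHilb.eq_bot (hB.map (P8bPsi Γ f)) h2
    apply hf0
    have h5 : Submodule.span X.L (⋃ n, (G n : Set (Fin r → X.L))) ≤ P8bU Γ f := by
      rw [Submodule.span_le]
      intro v hv
      obtain ⟨j, hj⟩ := Set.mem_iUnion.1 hv
      refine (P8b_ker f v).1 ?_
      rw [LinearMap.mem_ker]
      have h6 : P8bPsi Γ f v ∈ mapLat (P8bPsi Γ f) G j := ⟨v, hj, rfl⟩
      rw [hbot j, Submodule.mem_bot] at h6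
      exact h6
    refine LinearMap.ext fun v => ?_
    have h7 : v ∈ P8bU Γ f := h5 (by
      have h8 : Submodule.span X.L (⋃ n, (G n : Set (Fin r → X.L))) = ⊤ := hsp
      rw [h8]
      exact Submodule.mem_top)
    have h9 := (h7 1).1
    rwa [one_smul] at h9
  have q1 : (N : ℚ) - N1 = N2 := by rw [a1]; push_cast; ring
  have q2 : (e : ℚ) - e1 = e2 := by rw [a2]; push_cast; ring
  rw [q1, q2] at hmu
  have q3 : (e2 : ℚ) ≤ (n + X.m + X.w) * N2 := by exact_mod_cast he2
  have q4 : (0 : ℚ) < N2 := by exact_mod_cast (show (0 : ℤ) < N2 by omega)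
  have q5 := mul_pos (show (0 : ℚ) < μ - (n + X.m + X.w) by linarith only [hn]) q4
  linarith only [q5, q3, hmu]

end Vale.Agent.P190.D
end
end

section

section

/-! Section 4, file P8c: the bound for `P_G`. -/

set_option autoImplicit false
set_option linter.unusedSectionVars false

open MvPolynomial Filter

namespace Vale.Agent.P190.D

/-- there are at least four lines -/
theorem P8c_four_le {k : Type} [Field k] (X : Arr k) : 4 ≤ X.m := by
  classical
  by_contra hcon
  have h3 : 3 ≤ Fintype.card X.I := by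
    have := Fintype.card_le_of_injective X.b X.b_inj
    simpa only [ge_iff_le, Fintype.card_fin] using this
  have hm : Fintype.card X.I = 3 := by
    have : X.m = Fintype.card X.I := rfl
    omega
  have hrho := X.rho
  have heven := X.even
  have h2 : 1 < Fintype.card X.S := by
    obtain ⟨c, hc⟩ := heven
    omega
  obtain ⟨t, t', htt⟩ := Fintype.one_lt_card_iff.1 h2
  have huniv : ∀ t : X.S, ({X.v t, X.h t, X.d t} : Finset X.I) = Finset.univ := by
    intro t
    apply Finset.eq_univ_of_card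
    rw [hm, Finset.card_eq_three]
    exact ⟨_, _, _, X.vh t, X.vd t, X.hd t, rfl⟩
  have hmem : ∀ (t : X.S) (x : X.I), x ∈ ({X.v t, X.h t, X.d t} : Set X.I) := by
    intro t x
    have : x ∈ ({X.v t, X.h t, X.d t} : Finset X.I) := by
      rw [huniv]; exact Finset.mem_univ x
    simpa using this
  exact htt (X.share t t' _ _ (X.vh t) (hmem _ _) (hmem _ _) (hmem _ _) (hmem _ _))

/-- monotonicity of the rank -/
theorem P8c_rank_le {k : Type} [Field k] {V : Type} [AddCommGroup V] [Module k V]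
    [Module (A k) V] {E E' : ℤ → Submodule k V} (hE' : IsBLat E') (hle : ∀ n, E n ≤ E' n)
    {N e g N' e' g' : ℤ} (h : HasHilb E N e g) (h' : HasHilb E' N' e' g') : N ≤ N' := by
  by_contra hlt
  obtain ⟨m, hm⟩ := eventually_atTop.1 (h.and h')
  obtain ⟨n, hn, hlt2⟩ := hp_lt_zero_of_neg (N := N' - N) (e := e' - e) (g := g' - g)
    (by omega) m
  obtain ⟨h1, h2⟩ := hm n hn
  have := hE'.fin n
  have h3 : (Module.finrank k (E n) : ℚ) ≤ Module.finrank k (E' n) := by
    exact_mod_cast Submodule.finrank_mono (hle n)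
  rw [h1, h2] at h3
  simp only [hp] at h3 hlt2
  push_cast at hlt2
  linarith only [hlt2, h3]

variable {k : Type} [Field k] [IsAlgClosed k] {X : Arr k}
  {r : ℕ} {Γ : (Fin r → X.L) →ₗ[X.L] (Fin r → X.L)} {G : ℤ → Submodule k (Fin r → X.L)}

/-- 4.7: the bound `P_G(n) ≤ C p` in a general form: `G` is the hull of a lattice generated in
degrees `≤ D` and satisfies the conclusion of the gap lemma -/
theorem hp_bound (hr : 0 < r) (hΓ : IsTSp Γ) (hG : IsTLat Γ G) (h2 : IsS2 G)
    (hsp : SpansL (X := X) G) {F : ℤ → Submodule k (Fin r → X.L)} (hF : IsBLat F)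
    (hle : ∀ n, F n ≤ G n) {D : ℤ} (hD : GenIn F D) {N e g g' : ℤ} (hh : HasHilb G N e g)
    (hh' : HasHilb F N e g') (Δ : ℤ) (hΔ : Δ = (X.m - 4) * N)
    (hgap : ∀ U : Submodule X.L (Fin r → X.L), IsTSub Γ U → ∀ w f g : ℤ,
      HasHilb (subLat G U) w f g → f * N ≤ e * w + (X.m - 4) * w * (N - w) * N) :
    ∃ n : ℤ, hp N e g n ≤ (2 * Δ + 2 * X.m + 2 * X.w + 6) *
      (N * (N * |(D : ℚ) + e / N| + Δ + X.m + X.w + 6) + N * |(D : ℚ) + e / N|) := by
  have hN1 := rank_eq hG.toIsBLat hG.sigStable hsp hh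
  rw [Module.finrank_fin_fun] at hN1
  have hN : 0 < N := by
    rw [hN1]
    have : (0 : ℤ) < r := by exact_mod_cast hr
    positivity
  have hm := P8c_four_le X
  have hNQ : (0 : ℚ) < N := by exact_mod_cast hN
  have hN1Q : (1 : ℚ) ≤ N := by exact_mod_cast hN
  have hmQ : (0 : ℚ) ≤ (X.m : ℚ) - 4 := by
    have : (4 : ℚ) ≤ X.m := by exact_mod_cast hm
    linarith only [this]
  have hΔQ : (Δ : ℚ) = ((X.m : ℚ) - 4) * N := by rw [hΔ]; push_cast; ring
  have hΔ0 : (0 : ℚ) ≤ Δ := by rw [hΔQ]; (clear * - hmQ hN; positivity)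
  have hw0 : (0 : ℚ) ≤ X.w := Nat.cast_nonneg _
  have hm0 : (0 : ℚ) ≤ X.m := Nat.cast_nonneg _
  have heN : ((e : ℚ) / N) * N = e := by (clear * - hN; field_simp)
  -- slopes of subobjects
  have hsub : ∀ U : Submodule X.L (Fin r → X.L), IsTSub Γ U → ∀ w f g : ℤ,
      HasHilb (subLat G U) w f g → (0 : ℚ) ≤ w ∧ (w : ℚ) ≤ N ∧
        (f : ℚ) ≤ ((e : ℚ) / N) * w + ((X.m : ℚ) - 4) * w * (N - w) := by
    intro U hU w f g hw
    have h1 := hw.nonneg
    have h2 : w ≤ N := P8c_rank_le hG.toIsBLat (fun n => inf_le_left) hw hh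
    have h3 := hgap U hU w f g hw
    refine ⟨by exact_mod_cast h1, by exact_mod_cast h2, ?_⟩
    have h3' : (f : ℚ) * N ≤ e * w + ((X.m : ℚ) - 4) * w * (N - w) * N := by exact_mod_cast h3
    have h4 : ((e : ℚ) / N) * w + ((X.m : ℚ) - 4) * w * (N - w) =
        (e * w + ((X.m : ℚ) - 4) * w * (N - w) * N) / N := by (clear * - hN; field_simp)
    rw [h4, le_div_iff₀ hNQ]
    exact h3'
  have hlow : ∀ l : ℤ, (l : ℚ) < -((e : ℚ) / N) - Δ - X.m - X.w → G l = ⊥ := by
    intro l hl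
    refine low_vanish hr hΓ hG hsp ((e : ℚ) / N + Δ) ?_ l (by linarith only [hl])
    intro U hU w f g hw
    obtain ⟨h1, h2, h3⟩ := hsub U hU w f g hw
    have h4 : ((X.m : ℚ) - 4) * w * (N - w) ≤ Δ * w := by
      rw [hΔQ]
      have : 0 ≤ ((X.m : ℚ) - 4) * w * w := by (clear * - hmQ h1; positivity)
      nlinarith only [this]
    linarith only [h4, h3]
  have hdual : ∀ l : ℤ, (l : ℚ) < (e : ℚ) / N - Δ - X.m - X.w → dualLat G l = ⊥ := by
    intro l hl
    refine dual_vanish hr hΓ hG hsp hh ((e : ℚ) / N - Δ) ?_ l hl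
    intro U hU w f g hw
    obtain ⟨h1, h2, h3⟩ := hsub U hU w f g hw
    have h5 : (0 : ℚ) ≤ (N : ℚ) - w := by linarith only [h2]
    have h4 : ((X.m : ℚ) - 4) * w * (N - w) ≤ Δ * (N - w) := by
      rw [hΔQ]
      exact mul_le_mul_of_nonneg_right (mul_le_mul_of_nonneg_left h2 hmQ) h5
    have h6 : ((e : ℚ) / N) * (N - w) = e - ((e : ℚ) / N) * w := by
      rw [mul_sub, heN]
    have h7 : ((e : ℚ) / N - Δ) * (N - w) = ((e : ℚ) / N) * (N - w) - Δ * (N - w) := by ring
    rw [h7, h6]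
    linarith only [h4, h3]
  have hspan : spanK G = ⊤ := by
    apply SetLike.coe_injective
    rw [spanK_eq_spanL hG.toIsBLat hG.sigStable, hsp]
    rfl
  set c : ℤ := ⌈-((e : ℚ) / N)⌉ with hc
  have hc1 : -((e : ℚ) / N) ≤ c := Int.le_ceil _
  have hc2 : (c : ℚ) < -((e : ℚ) / N) + 1 := Int.ceil_lt_add_one _
  set B : ℚ := N * (N * |(D : ℚ) + e / N| + Δ + X.m + X.w + 6) + N * |(D : ℚ) + e / N| with hB
  have hB0 : 0 ≤ B := by (clear * - hN hΔ0 hm; positivity)
  have ha1 : (D : ℚ) + e / N ≤ |(D : ℚ) + e / N| := le_abs_self _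
  have ha0 : 0 ≤ |(D : ℚ) + e / N| := abs_nonneg _
  -- one step
  have hstep : ∀ l : ℤ, l ≤ c + Δ + X.m + X.w →
      (Module.finrank k (G l) : ℚ) ≤ Module.finrank k (G (l - 1)) + B := by
    intro l hl
    have h3 := (line_bound hG.toIsBLat h2 hF hle hD hh hh' l).2
    have h3' : (Module.finrank k (G l) : ℚ) - Module.finrank k (G (l - 1)) ≤
        N * max 0 ((l : ℚ) + e + (N - 1) * D + 1) + (e + N * D) := by exact_mod_cast h3
    have hlQ : (l : ℚ) ≤ c + Δ + X.m + X.w := by exact_mod_cast hl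
    have h4 : (e : ℚ) + N * D = N * ((D : ℚ) + e / N) := by
      rw [mul_add, mul_div_cancel₀ _ hNQ.ne']; ring
    have h5 : (e : ℚ) + N * D ≤ N * |(D : ℚ) + e / N| := by
      rw [h4]; exact mul_le_mul_of_nonneg_left ha1 hNQ.le
    have h6 : (l : ℚ) + e + (N - 1) * D + 1 ≤ N * |(D : ℚ) + e / N| + Δ + X.m + X.w + 6 := by
      have h7 : (e : ℚ) + (N - 1) * D = (N - 1) * ((D : ℚ) + e / N) + e / N := by
        have : ((N : ℚ) - 1) * ((D : ℚ) + e / N) + e / N = (N - 1) * D + (e / N) * N := by ring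
        rw [this, heN]; ring
      have h8 : ((N : ℚ) - 1) * ((D : ℚ) + e / N) ≤ (N - 1) * |(D : ℚ) + e / N| :=
        mul_le_mul_of_nonneg_left ha1 (by linarith only [hN1Q])
      have h9 : ((N : ℚ) - 1) * |(D : ℚ) + e / N| ≤ N * |(D : ℚ) + e / N| := by
        linarith only [ha0]
      linarith only [heN, hc2, ha0, hlQ, h8]
    have h7 : max 0 ((l : ℚ) + e + (N - 1) * D + 1) ≤
        N * |(D : ℚ) + e / N| + Δ + X.m + X.w + 6 := max_le (by (clear * - hN hΔ0 hm; positivity)) h6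
    have h8 := mul_le_mul_of_nonneg_left h7 hNQ.le
    rw [hB]
    (clear * - h3' h5 h8; linarith)
  -- summation
  have hsum : ∀ j : ℕ, (j : ℤ) ≤ 2 * Δ + 2 * X.m + 2 * X.w + 1 →
      (Module.finrank k (G (c - 1 - Δ - X.m - X.w + j)) : ℚ) ≤ j * B := by
    intro j
    induction j with
    | zero =>
      intro _
      rw [hlow]
      · simp
      · push_cast
        linarith only [hc2]
    | succ j ih =>
      intro hj
      push_cast at hj
      have h3 := ih (by (clear * - hΔ hj; omega))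
      have h4 := hstep (c - 1 - Δ - X.m - X.w + ((j + 1 : ℕ) : ℤ)) (by push_cast; omega)
      rw [show c - 1 - Δ - X.m - X.w + ((j + 1 : ℕ) : ℤ) - 1 = c - 1 - Δ - X.m - X.w + j by
        push_cast; ring] at h4
      push_cast at h4 ⊢
      linarith only [h3, h4]
  have hΔ0' : 0 ≤ Δ := by exact_mod_cast hΔ0
  obtain ⟨j, hj⟩ : ∃ j : ℕ, (j : ℤ) = 2 * Δ + 2 * X.m + 2 * X.w + 1 :=
    ⟨(2 * Δ + 2 * X.m + 2 * X.w + 1).toNat, Int.toNat_of_nonneg (by (clear * - hΔ0' hm; positivity))⟩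
  refine ⟨c + Δ + X.m + X.w, ?_⟩
  have h3 := hp_le_finrank_add_dual hG.toIsBLat h2 hspan hh (c + Δ + X.m + X.w)
  rw [hdual (-(c + Δ + X.m + X.w) - 3) (by push_cast; linarith only [hc1])] at h3
  have h4 := hsum j hj.le
  rw [show c - 1 - Δ - X.m - X.w + (j : ℤ) = c + Δ + X.m + X.w by rw [hj]; ring] at h4
  have h5 : (j : ℚ) = 2 * Δ + 2 * X.m + 2 * X.w + 1 := by exact_mod_cast hj
  rw [finrank_bot, Nat.cast_zero, add_zero] at h3
  refine h3.trans (h4.trans ?_)
  refine mul_le_mul_of_nonneg_right ?_ hB0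
  rw [h5]
  linarith only []

end Vale.Agent.P190.D
end
end

section

section

/-! Section 5, file U2: certificates for T-lattices exist. -/

set_option autoImplicit false
set_option linter.unusedSectionVars false

open MvPolynomial Filter

namespace Vale.Agent.P190.D

variable {k : Type} [Field k] {X : Arr k}

section Rep

variable {V : Type} [AddCommGroup V] [Module k V] [Module (A k) V] [IsScalarTower k (A k) V]

/-- the matrix `P` represents the operator `T` on the generators `v` -/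
def U2Rep {l : ℕ} (v : Fin l → V) (T : V →ₗ[A k] V) (P : Matrix (Fin l) (Fin l) (A k)) : Prop :=
  ∀ j, T (v j) = ∑ i, P i j • v i

variable {l : ℕ} {v : Fin l → V}

theorem u2_mul_sum {T : V →ₗ[A k] V} {P : Matrix (Fin l) (Fin l) (A k)} (h : U2Rep v T P) {n : ℕ}
    (Q : Matrix (Fin l) (Fin n) (A k)) (j : Fin n) :
    ∑ i, (P * Q) i j • v i = T (∑ i, Q i j • v i) := by
  rw [map_sum]
  simp only [map_smul, h _, Matrix.mul_apply, Finset.sum_smul, Finset.smul_sum, smul_smul]
  rw [Finset.sum_comm]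
  refine Finset.sum_congr rfl fun i _ => Finset.sum_congr rfl fun m _ => ?_
  rw [mul_comm]

theorem U2Rep.mul {T T' : V →ₗ[A k] V} {P P' : Matrix (Fin l) (Fin l) (A k)} (h : U2Rep v T P)
    (h' : U2Rep v T' P') : U2Rep v (T ∘ₗ T') (P * P') := by
  intro j
  rw [u2_mul_sum h, ← h' j]
  rfl

theorem U2Rep.one : U2Rep v LinearMap.id (1 : Matrix (Fin l) (Fin l) (A k)) := by
  intro j
  simp only [LinearMap.id_coe, id_eq, Matrix.one_apply, ite_smul, one_smul, zero_smul, Finset.sum_ite_eq', Finset.mem_univ, ↓reduceIte]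

theorem U2Rep.smulA {T : V →ₗ[A k] V} {P : Matrix (Fin l) (Fin l) (A k)} (h : U2Rep v T P)
    (c : A k) : U2Rep v (c • T) (c • P) := by
  intro j
  simp only [LinearMap.smul_apply, h j, Matrix.smul_apply, smul_eq_mul, mul_smul, Finset.smul_sum]

theorem U2Rep.congr {T T' : V →ₗ[A k] V} {P : Matrix (Fin l) (Fin l) (A k)} (h : U2Rep v T P)
    (hT : ∀ w, T w = T' w) : U2Rep v T' P := by
  intro j
  rw [← hT, h j]

theorem U2Rep.add {T T' : V →ₗ[A k] V} {P P' : Matrix (Fin l) (Fin l) (A k)} (h : U2Rep v T P)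
    (h' : U2Rep v T' P') : U2Rep v (T + T') (P + P') := by
  intro j
  simp only [LinearMap.add_apply, h j, h' j, Matrix.add_apply, add_smul, Finset.sum_add_distrib]

variable {E : ℤ → Submodule k V} {l' : ℕ} {c : Fin l → ℤ} {c' : Fin l' → ℤ}
  {φ : Fin l → Fin l' → A k}

theorem u2_modCol (R : IsRes E v c c' φ) {n : ℕ} {P Q : Matrix (Fin l) (Fin n) (A k)}
    (h : ∀ j, ∑ i, P i j • v i = ∑ i, Q i j • v i) : ModCol (Matrix.of φ) P Q := by
  have key : ∀ j, ∃ b : Fin l' → A k, ∀ i, P i j - Q i j = ∑ m, φ i m * b m := by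
    intro j
    have h1 : ∑ i, (P i j - Q i j) • v i = 0 := by
      simp only [sub_smul, Finset.sum_sub_distrib, h j, sub_self]
    obtain ⟨N, hN⟩ : ∃ N : ℤ, ∀ i, ((P i j - Q i j).totalDegree : ℤ) + c i ≤ N := by
      obtain ⟨N, hN⟩ := (Set.finite_range
        (fun i => ((P i j - Q i j).totalDegree : ℤ) + c i)).bddAbove
      exact ⟨N, fun i => hN ⟨i, rfl⟩⟩
    obtain ⟨b, ⟨-, hb⟩, -⟩ := R.hex N (fun i => P i j - Q i j)
      (fun i => mem_Ad.2 (Or.inr (by have := hN i; linarith only [this]))) h1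
    exact ⟨b, hb⟩
  choose b hb using key
  refine ⟨Matrix.of fun m j => b j m, ?_⟩
  ext1 i j
  rw [Matrix.add_apply, Matrix.mul_apply]
  have := hb j i
  simp only [Matrix.of_apply]
  rw [← this]
  ring

theorem U2Rep.modCol (R : IsRes E v c c' φ) {T : V →ₗ[A k] V}
    {P Q : Matrix (Fin l) (Fin l) (A k)} (hP : U2Rep v T P) (hQ : U2Rep v T Q) :
    ModCol (Matrix.of φ) P Q :=
  u2_modCol R fun j => by rw [← hP j, ← hQ j]

theorem U2Rep.modCol_phi (R : IsRes E v c c' φ) {T : V →ₗ[A k] V}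
    {P : Matrix (Fin l) (Fin l) (A k)} (hP : U2Rep v T P) :
    ModCol (Matrix.of φ) (P * Matrix.of φ) 0 := by
  refine u2_modCol R fun j => ?_
  rw [u2_mul_sum hP]
  have h1 : ∑ i, (Matrix.of φ) i j • v i = 0 := R.hφv j
  rw [h1, map_zero]
  simp only [Matrix.zero_apply, zero_smul, Finset.sum_const_zero]

end Rep

section Op

variable {V : Type} [AddCommGroup V] [Module k V] [Module (A k) V] [Module (KK k) V]
  [Module X.L V] [IsScalarTower k (A k) V]
  [IsScalarTower k (KK k) V] [IsScalarTower k X.L V] [IsScalarTower (A k) (KK k) V]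
  [IsScalarTower (A k) X.L V] [IsScalarTower (KK k) X.L V]

/-- multiplication by an element of `L` -/
noncomputable def u2L (V : Type) [AddCommGroup V] [Module (A k) V] [Module X.L V]
    [IsScalarTower (A k) X.L V] (f : X.L) : V →ₗ[A k] V where
  toFun w := f • w
  map_add' := smul_add f
  map_smul' a w := by
    show f • (a • w) = a • (f • w)
    rw [← algebraMap_smul X.L a (f • w), ← algebraMap_smul X.L a w, smul_smul, smul_smul, mul_comm]

theorem u2L_apply (f : X.L) (w : V) : u2L V f w = f • w := rfl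

variable {l : ℕ} {v : Fin l → V}

theorem u2_pieM {s : X.I → Matrix (Fin l) (Fin l) (A k)} (hs : ∀ x, U2Rep v (u2L V (X.σ x)) (s x))
    (ε : X.S → Bool) : U2Rep v (u2L V (X.pie ε)) (pieM X s ε) := by
  have h1 : X.pie ε = ((Finset.univ : Finset X.S).toList.map fun t =>
      if ε t then X.a t true else X.ν t • X.σ (X.v t)).prod := by
    rw [Arr.pie, Finset.prod_map_toList]
  rw [h1, pieM]
  generalize (Finset.univ : Finset X.S).toList = L
  induction L with
  | nil =>
    simp only [List.map_nil, List.prod_nil]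
    refine U2Rep.one.congr fun w => ?_
    rw [u2L_apply, one_smul]
    rfl
  | cons t L ih =>
    simp only [List.map_cons, List.prod_cons]
    have h2 : U2Rep v (u2L V (if ε t then X.a t true else X.ν t • X.σ (X.v t)))
        (if ε t then X.δ t • s (X.d t) + X.η t • s (X.h t) else X.ν t • s (X.v t)) := by
      have hk : ∀ (c : k) (x : X.I), U2Rep v (u2L V (c • X.σ x)) (c • s x) := by
        intro c x j
        rw [u2L_apply, smul_assoc, ← u2L_apply, hs x j, Finset.smul_sum]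
        refine Finset.sum_congr rfl fun i _ => ?_
        rw [Matrix.smul_apply, smul_assoc]
      split_ifs
      · have h3 : X.a t true = X.δ t • X.σ (X.d t) + X.η t • X.σ (X.h t) := by
          simp [Arr.a]
        rw [h3]
        refine ((hk (X.δ t) (X.d t)).add (hk (X.η t) (X.h t))).congr fun w => ?_
        rw [LinearMap.add_apply, u2L_apply, u2L_apply, u2L_apply, add_smul]
      · exact hk _ _
    refine (h2.mul ih).congr fun w => ?_
    rw [LinearMap.comp_apply, u2L_apply, u2L_apply, u2L_apply, smul_smul]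

end Op

/-- U2: every S2 T-lattice has a certificate -/
theorem exists_tcert [Infinite k] {r : ℕ} {Γ : (Fin r → X.L) →ₗ[X.L] (Fin r → X.L)}
    {E : ℤ → Submodule k (Fin r → X.L)} (hΓ : IsTSp Γ) (hE : IsTLat Γ E) (h2 : IsS2 E)
    (hs : Spans (X := X) E) :
    ∃ (l l' : ℕ) (v : Fin l → (Fin r → X.L)) (c : Fin l → ℤ) (c' : Fin l' → ℤ) (M : ℕ)
      (φ : Matrix (Fin l) (Fin l') (A k)) (s : X.I → Matrix (Fin l) (Fin l) (A k))
      (G : (X.S → Bool) → Matrix (Fin l) (Fin l) (A k)),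
      TCert X c c' M φ s G ∧ IsTPres Γ E v c c' φ s G := by
  have hB := hE.toIsBLat
  have hspan : spanK E = ⊤ := by
    apply SetLike.coe_injective
    rw [spanK_eq_spanL hB hE.sigStable]
    have : (Submodule.span X.L (⋃ n, (E n : Set (Fin r → X.L)))) = ⊤ := hs
    rw [this]
    rfl
  obtain ⟨l, v, c, hvE, hgen⟩ := hB.exists_gen
  obtain ⟨l', c', φ, hφ, hφv, hex⟩ := h2.exists_resolution hB v c hgen
  obtain ⟨M, hM⟩ := h2.exists_splitting hB hspan v c hgen c' φ hφ hφv hex
  have R : IsRes E v c c' φ := ⟨hgen, hφ, hφv, hex⟩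
  have hsig : ∀ x j, ∃ a : Fin l → A k, (∀ i, a i ∈ Ad k (c j + 1 - c i)) ∧
      X.σ x • v j = ∑ i, a i • v i := by
    intro x j
    have h := hE.sig_mem x (hvE j)
    rw [hgen, mem_genLat] at h
    exact h
  have hgam : ∀ ε j, ∃ a : Fin l → A k, (∀ i, a i ∈ Ad k (c j + X.w - c i)) ∧
      gam Γ ε (v j) = ∑ i, a i • v i := by
    intro ε j
    have h := hE.gam_mem ε (hvE j)
    rw [hgen, mem_genLat] at h
    exact h
  choose s0 hs0 hs1 using hsig
  choose G0 hG0 hG1 using hgam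
  set s : X.I → Matrix (Fin l) (Fin l) (A k) := fun x => Matrix.of fun i j => s0 x j i with hsdef
  set G : (X.S → Bool) → Matrix (Fin l) (Fin l) (A k) := fun ε => Matrix.of fun i j => G0 ε j i
    with hGdef
  have rs : ∀ x, U2Rep v (u2L (Fin r → X.L) (X.σ x)) (s x) := fun x j => hs1 x j
  have rp := u2_pieM (v := v) rs
  have rG : ∀ ε, U2Rep v (u2L (Fin r → X.L) (X.pie ε / X.PI) ∘ₗ Γ.restrictScalars (A k)) (G ε) :=
    fun ε j => hG1 ε j
  have hPI : X.PI ≠ 0 := X.PI_ne_zero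
  have hpt : X.pie (fun _ => true) = X.PI := by simp only [Arr.pie, ↓reduceIte, Arr.PI]
  refine ⟨l, l', v, c, c', M, Matrix.of φ, s, G, ?_, ?_⟩
  · refine ⟨⟨hφ, hM⟩, fun x i j => hs0 x j i, fun ε i j => hG0 ε j i,
      fun x => (rs x).modCol_phi R, fun ε => (rG ε).modCol_phi R, fun x y => ?_, fun x => ?_,
      ?_, ?_, ?_, fun ε x => ?_, fun ε => ?_, ?_⟩
    · refine U2Rep.modCol R ((rs x).mul (rs y)) (((rs y).mul (rs x)).congr fun w => ?_)
      simp only [LinearMap.comp_apply, u2L_apply, smul_smul]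
      rw [mul_comm]
    · refine U2Rep.modCol R ((rs x).mul (rs x)) ((U2Rep.one.smulA (X.q x)).congr fun w => ?_)
      simp only [LinearMap.smul_apply, LinearMap.id_apply, LinearMap.comp_apply, u2L_apply, smul_smul]
      rw [← sq, Arr.σ_sq, algebraMap_smul]
    · refine U2Rep.modCol R (rs _) (U2Rep.one.congr fun w => ?_)
      rw [u2L_apply, Arr.σ_b0, one_smul]
      rfl
    · refine U2Rep.modCol R (rs _) ((U2Rep.one.smulA _).congr fun w => ?_)
      rw [u2L_apply, Arr.σ_b1, algebraMap_smul]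
      rfl
    · refine U2Rep.modCol R (rs _) ((U2Rep.one.smulA _).congr fun w => ?_)
      rw [u2L_apply, Arr.σ_b2, algebraMap_smul]
      rfl
    · refine U2Rep.modCol R ((rG ε).mul (rs x)) (((rs x).mul (rG ε)).congr fun w => ?_)
      simp only [LinearMap.comp_apply, LinearMap.restrictScalars_apply, u2L_apply, smul_smul]
      rw [map_smul, smul_smul, mul_comm]
    · refine U2Rep.modCol R ((rp _).mul (rG ε)) (((rp ε).mul (rG _)).congr fun w => ?_)
      simp only [LinearMap.comp_apply, u2L_apply, smul_smul, LinearMap.restrictScalars_apply]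
      rw [hpt, mul_div_cancel₀ _ hPI, div_self hPI, mul_one]
    · refine U2Rep.modCol R ((rG _).mul (rG _)) ((rp _).congr fun w => ?_)
      simp only [u2L_apply, LinearMap.comp_apply, LinearMap.restrictScalars_apply]
      rw [hpt, div_self hPI, one_smul, one_smul, hΓ]
  · exact ⟨R, hs1, hG1⟩

end Vale.Agent.P190.D
end
end

section

section

/-! Section 5, file U3a: reduction of arrangements. -/

set_option autoImplicit false
set_option linter.unusedSectionVars false

open MvPolynomial Filter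

namespace Vale.Agent.P190.D

/-- the conditions for the constants of an arrangement with the combinatorics of `X` -/
structure Arr.Red {K : Type} [Field K] (X : Arr K) {k : Type} [Field k] (l : X.I → Fin 3 → k)
    (δ η ν : X.S → k) : Prop where
  l_b : ∀ i, l (X.b i) = Pi.single i 1
  δ_ne : ∀ t, δ t ≠ 0
  η_ne : ∀ t, η t ≠ 0
  ν_ne : ∀ t, ν t ≠ 0
  rel : ∀ t, δ t ^ 2 • l (X.d t) - η t ^ 2 • l (X.h t) = ν t ^ 2 • l (X.v t)
  indep : ∀ x y z : X.I, x ≠ y → x ≠ z → y ≠ z →
    LinearIndependent k ![l x, l y, l z] ∨ ∃ t, ({x, y, z} : Set X.I) = {X.v t, X.h t, X.d t}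
  two_ne : (2 : k) ≠ 0

/-- the arrangement with the combinatorics of `X` and other constants -/
abbrev Arr.red {K : Type} [Field K] (X : Arr K) {k : Type} [Field k] (l : X.I → Fin 3 → k)
    (δ η ν : X.S → k) (H : X.Red l δ η ν) : Arr k where
  I := X.I
  fI := X.fI
  dI := X.dI
  b := X.b
  b_inj := X.b_inj
  l := l
  l_b := H.l_b
  S := X.S
  fS := X.fS
  dS := X.dS
  v := X.v
  h := X.h
  d := X.d
  δ := δ
  η := η
  ν := ν
  δ_ne := H.δ_ne
  η_ne := H.η_ne
  ν_ne := H.ν_ne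
  rel := H.rel
  vh := X.vh
  vd := X.vd
  hd := X.hd
  indep := H.indep
  share := X.share
  cover := X.cover
  even := X.even
  two_ne := H.two_ne
  rho := X.rho

variable {U : Ultrafilter ℕ} {k : ℕ → Type} [∀ i, Field (k i)]

theorem u3a_ne_zero {x : ∀ i, k i} (h : ulim U k x ≠ 0) : ∀ᶠ i in (U : Filter ℕ), x i ≠ 0 := by
  rw [Ultrafilter.eventually_not]
  intro h1
  apply h
  rw [← map_zero (ulim U k), ulim_eq]
  exact h1

theorem u3a_eq_zero {x : ∀ i, k i} (h : ∀ᶠ i in (U : Filter ℕ), x i = 0) : ulim U k x = 0 := by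
  rw [← map_zero (ulim U k), ulim_eq]
  exact h

theorem u3a_linInd {K : Type} [Field K] (a b c : Fin 3 → K) :
    LinearIndependent K ![a, b, c] ↔ (Matrix.of ![a, b, c]).det ≠ 0 := by
  have h1 : LinearIndependent K ![a, b, c] ↔ IsUnit (Matrix.of ![a, b, c]) := by
    rw [← Matrix.linearIndependent_rows_iff_isUnit]
    rfl
  rw [h1, Matrix.isUnit_iff_isUnit_det, isUnit_iff_ne_zero]

theorem u3a_indep {a b c : Fin 3 → UK U k} {a' b' c' : ∀ i, Fin 3 → k i}
    (ha : ∀ j, a j = ulim U k (fun i => a' i j)) (hb : ∀ j, b j = ulim U k (fun i => b' i j))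
    (hc : ∀ j, c j = ulim U k (fun i => c' i j))
    (h : LinearIndependent (UK U k) ![a, b, c]) :
    ∀ᶠ i in (U : Filter ℕ), LinearIndependent (k i) ![a' i, b' i, c' i] := by
  rw [u3a_linInd] at h
  have h1 : (Matrix.of ![a, b, c]).det =
      ulim U k (fun i => (Matrix.of ![a' i, b' i, c' i]).det) := by
    rw [Matrix.det_fin_three]
    have e : (fun i => (Matrix.of ![a' i, b' i, c' i]).det) =
        (fun i => a' i 0) * (fun i => b' i 1) * (fun i => c' i 2) -
        (fun i => a' i 0) * (fun i => b' i 2) * (fun i => c' i 1) -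
        (fun i => a' i 1) * (fun i => b' i 0) * (fun i => c' i 2) +
        (fun i => a' i 1) * (fun i => b' i 2) * (fun i => c' i 0) +
        (fun i => a' i 2) * (fun i => b' i 0) * (fun i => c' i 1) -
        (fun i => a' i 2) * (fun i => b' i 1) * (fun i => c' i 0) := by
      funext i
      rw [Matrix.det_fin_three]
      rfl
    rw [e]
    simp only [map_sub, map_add, map_mul, ← ha, ← hb, ← hc]
    rfl
  rw [h1] at h
  filter_upwards [u3a_ne_zero h] with i hi
  rw [u3a_linInd]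
  exact hi

/-- U3a: the constants of an arrangement over the ultraproduct define arrangements over almost all
factors -/
theorem Arr.red_eventually (X : Arr (UK U k)) {l : ∀ i, X.I → Fin 3 → k i}
    {δ η ν : ∀ i, X.S → k i} (hl : ∀ x j, X.l x j = ulim U k (fun i => l i x j))
    (hδ : ∀ t, X.δ t = ulim U k (fun i => δ i t)) (hη : ∀ t, X.η t = ulim U k (fun i => η i t))
    (hν : ∀ t, X.ν t = ulim U k (fun i => ν i t)) :
    ∀ᶠ i in (U : Filter ℕ), X.Red (l i) (δ i) (η i) (ν i) := by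
  have h1 : ∀ᶠ i in (U : Filter ℕ), ∀ x : Fin 3, ∀ j : Fin 3,
      l i (X.b x) j = (Pi.single x 1 : Fin 3 → k i) j := by
    rw [eventually_all]
    intro x
    rw [eventually_all]
    intro j
    have h := congrFun (X.l_b x) j
    rw [hl] at h
    by_cases hxj : j = x
    · subst hxj
      rw [Pi.single_eq_same, ← map_one (ulim U k), ulim_eq] at h
      filter_upwards [h] with i hi
      rw [Pi.single_eq_same]
      exact hi
    · rw [Pi.single_eq_of_ne hxj, ← map_zero (ulim U k), ulim_eq] at h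
      filter_upwards [h] with i hi
      rw [Pi.single_eq_of_ne hxj]
      exact hi
  have h2 : ∀ᶠ i in (U : Filter ℕ), ∀ t, δ i t ≠ 0 := by
    rw [eventually_all]
    intro t
    exact u3a_ne_zero (x := fun i => δ i t) (by rw [← hδ]; exact X.δ_ne t)
  have h3 : ∀ᶠ i in (U : Filter ℕ), ∀ t, η i t ≠ 0 := by
    rw [eventually_all]
    intro t
    exact u3a_ne_zero (x := fun i => η i t) (by rw [← hη]; exact X.η_ne t)
  have h4 : ∀ᶠ i in (U : Filter ℕ), ∀ t, ν i t ≠ 0 := by
    rw [eventually_all]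
    intro t
    exact u3a_ne_zero (x := fun i => ν i t) (by rw [← hν]; exact X.ν_ne t)
  have h5 : ∀ᶠ i in (U : Filter ℕ), ∀ t, ∀ j : Fin 3,
      δ i t ^ 2 * l i (X.d t) j - η i t ^ 2 * l i (X.h t) j = ν i t ^ 2 * l i (X.v t) j := by
    rw [eventually_all]
    intro t
    rw [eventually_all]
    intro j
    have h := congrFun (X.rel t) j
    simp only [Pi.sub_apply, Pi.smul_apply, smul_eq_mul] at h
    rw [hδ, hη, hν, hl, hl, hl, ← map_pow, ← map_pow, ← map_pow, ← map_mul, ← map_mul, ← map_mul,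
      ← map_sub, ulim_eq] at h
    exact h
  have h6 : ∀ᶠ i in (U : Filter ℕ), ∀ x y z : X.I, x ≠ y → x ≠ z → y ≠ z →
      LinearIndependent (k i) ![l i x, l i y, l i z] ∨
        ∃ t, ({x, y, z} : Set X.I) = {X.v t, X.h t, X.d t} := by
    rw [eventually_all]
    intro x
    rw [eventually_all]
    intro y
    rw [eventually_all]
    intro z
    rw [eventually_imp_distrib_left]
    intro hxy
    rw [eventually_imp_distrib_left]
    intro hxz
    rw [eventually_imp_distrib_left]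
    intro hyz
    rcases X.indep x y z hxy hxz hyz with h | h
    · filter_upwards [u3a_indep (fun j => hl x j) (fun j => hl y j) (fun j => hl z j) h] with i hi
      exact Or.inl hi
    · exact Eventually.of_forall fun i => Or.inr h
  have h7 : ∀ᶠ i in (U : Filter ℕ), (2 : k i) ≠ 0 := by
    have h : ulim U k (2 : ∀ i, k i) ≠ 0 := by
      rw [map_ofNat]
      exact X.two_ne
    exact u3a_ne_zero h
  filter_upwards [h1, h2, h3, h4, h5, h6, h7] with i g1 g2 g3 g4 g5 g6 g7
  exact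
    { l_b := fun x => funext fun j => g1 x j
      δ_ne := g2
      η_ne := g3
      ν_ne := g4
      rel := fun t => funext fun j => by
        simp only [Pi.sub_apply, Pi.smul_apply, smul_eq_mul]
        exact g5 t j
      indep := g6
      two_ne := g7 }

end Vale.Agent.P190.D
end
end

section

section

/-! Section 5, file U3: transfer of certificates to the factors of the ultraproduct. -/

set_option autoImplicit false
set_option linter.unusedSectionVars false

open MvPolynomial Filter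

namespace Vale.Agent.P190.D

variable {U : Ultrafilter ℕ} {k : ℕ → Type} [∀ i, Field (k i)]

/-- U3b: equality modulo the column space is preserved -/
theorem ModCol.eventually {l l' n : ℕ} {φ : Matrix (Fin l) (Fin l') (A (UK U k))}
    {P Q : Matrix (Fin l) (Fin n) (A (UK U k))} (h : ModCol φ P Q)
    {φ' : ∀ i, Matrix (Fin l) (Fin l') (A (k i))} {P' Q' : ∀ i, Matrix (Fin l) (Fin n) (A (k i))}
    (hφ : MLim U φ' φ) (hP : MLim U P' P) (hQ : MLim U Q' Q) :
    ∀ᶠ i in (U : Filter ℕ), ModCol (φ' i) (P' i) (Q' i) := by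
  obtain ⟨H, hH⟩ := h
  obtain ⟨H', hH', _⟩ := MLim.exists_seq H
  filter_upwards [(MLim.eq_iff hP (hQ.add (hφ.mul hH'))).1 hH] with i hi
  exact ⟨H' i, hi⟩

theorem u3_split {l l' : ℕ} {c : Fin l → ℤ} {c' : Fin l' → ℤ} {M : ℕ}
    {φ : Matrix (Fin l) (Fin l') (A (UK U k))}
    {φ' : ∀ i, Matrix (Fin l) (Fin l') (A (k i))} (hφ : MLim U φ' φ)
    {x : A (UK U k)} {x' : ∀ i, A (k i)} (hx : PLim U x' x)
    (h : ∃ τ : Fin l' → Fin l → A (UK U k), (∀ j i, τ j i ∈ Ad (UK U k) (c i - c' j + M)) ∧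
        ∀ j j', ∑ i, τ j i * φ i j' = if j = j' then x ^ M else 0) :
    ∀ᶠ n in (U : Filter ℕ), ∃ τ : Fin l' → Fin l → A (k n),
      (∀ j i, τ j i ∈ Ad (k n) (c i - c' j + M)) ∧
        ∀ j j', ∑ i, τ j i * φ' n i j' = if j = j' then x' n ^ M else 0 := by
  obtain ⟨τ, h1, h2⟩ := h
  obtain ⟨T, hT, hT'⟩ := MLim.exists_seq (U := U) (k := k) (Matrix.of τ)
  have h3 : ∀ᶠ n in (U : Filter ℕ), ∀ j j', ∑ i, T n j i * φ' n i j' =
      if j = j' then x' n ^ M else 0 := by
    rw [Filter.eventually_all]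
    intro j
    rw [Filter.eventually_all]
    intro j'
    have h4 : PLim U (fun n => ∑ i, T n j i * φ' n i j') (∑ i, τ j i * φ i j') :=
      PLim.sum _ fun i _ => (hT j i).mul (hφ i j')
    have h5 : PLim U (fun n => if j = j' then x' n ^ M else 0)
        (if j = j' then x ^ M else 0) := by
      split_ifs
      · exact hx.pow M
      · exact PLim.zero
    exact (PLim.eq_iff h4 h5).1 (h2 j j')
  filter_upwards [h3] with n hn
  exact ⟨T n, fun j i => hT' _ j i (h1 j i) n, hn⟩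

/-- U3c: splitting certificates are preserved -/
theorem Cert.eventually {l l' : ℕ} {c : Fin l → ℤ} {c' : Fin l' → ℤ} {M : ℕ}
    {φ : Matrix (Fin l) (Fin l') (A (UK U k))} (h : Cert c c' (fun i j => φ i j) M)
    {φ' : ∀ i, Matrix (Fin l) (Fin l') (A (k i))} (hφ : MLim U φ' φ) :
    ∀ᶠ n in (U : Filter ℕ), Cert c c' (fun i j => φ' n i j) M := by
  have h0 : ∀ᶠ n in (U : Filter ℕ), ∀ i j, φ' n i j ∈ Ad (k n) (c' j - c i) := by
    rw [Filter.eventually_all]
    intro i
    rw [Filter.eventually_all]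
    intro j
    exact ((hφ i j).mem_Ad_iff _).1 (h.mem i j)
  filter_upwards [h0, u3_split hφ PLim.one (h.split 1 (Or.inl rfl)),
    u3_split hφ (PLim.X 0) (h.split _ (Or.inr (Or.inl rfl))),
    u3_split hφ (PLim.X 1) (h.split _ (Or.inr (Or.inr rfl)))] with n h0 h1 h2 h3
  refine ⟨h0, fun x hx => ?_⟩
  rcases hx with rfl | rfl | rfl
  · exact h1
  · exact h2
  · exact h3

theorem u3_zero {ι κ : Type} :
    MLim U (fun i => (0 : Matrix ι κ (A (k i)))) 0 := fun _ _ => PLim.zero

theorem u3_smul {ι κ : Type} {x : ∀ i, k i} {y : UK U k} (hx : y = ulim U k x)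
    {F : ∀ i, Matrix ι κ (A (k i))} {M : Matrix ι κ (A (UK U k))}
    (hM : MLim U F M) : MLim U (fun i => x i • F i) (y • M) := by
  subst hx
  exact fun a b => PLim.smul (hM a b)

theorem u3_pieM {X : Arr (UK U k)} {l : ℕ}
    {s : X.I → Matrix (Fin l) (Fin l) (A (UK U k))}
    {s' : ∀ i, X.I → Matrix (Fin l) (Fin l) (A (k i))} (hs : ∀ x, MLim U (fun i => s' i x) (s x))
    {δ η ν : ∀ i, X.S → k i}
    (hδ : ∀ t, X.δ t = ulim U k (fun i => δ i t)) (hη : ∀ t, X.η t = ulim U k (fun i => η i t))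
    (hν : ∀ t, X.ν t = ulim U k (fun i => ν i t)) (ε : X.S → Bool) :
    MLim U (fun i => ((Finset.univ : Finset X.S).toList.map fun t =>
      if ε t then δ i t • s' i (X.d t) + η i t • s' i (X.h t) else ν i t • s' i (X.v t)).prod)
      (pieM X s ε) := by
  unfold pieM
  refine MLim.listProd (Finset.univ : Finset X.S).toList (F := fun i t =>
    if ε t then δ i t • s' i (X.d t) + η i t • s' i (X.h t) else ν i t • s' i (X.v t))
    (M := fun t => if ε t then X.δ t • s (X.d t) + X.η t • s (X.h t) else X.ν t • s (X.v t))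
    fun t => ?_
  rcases Bool.eq_false_or_eq_true (ε t) with h | h
  · simp only [h, if_true]
    exact (u3_smul (hδ t) (hs _)).add (u3_smul (hη t) (hs _))
  · simp only [h, Bool.false_eq_true, if_false]
    exact u3_smul (hν t) (hs _)

/-- U3: the transfer of certificates -/
theorem TCert.transfer {X : Arr (UK U k)} {l l' : ℕ} {c : Fin l → ℤ} {c' : Fin l' → ℤ} {M : ℕ}
    {φ : Matrix (Fin l) (Fin l') (A (UK U k))} {s : X.I → Matrix (Fin l) (Fin l) (A (UK U k))}
    {G : (X.S → Bool) → Matrix (Fin l) (Fin l) (A (UK U k))} (h : TCert X c c' M φ s G) :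
    ∃ (L : ∀ i, X.I → Fin 3 → k i) (δ η ν : ∀ i, X.S → k i)
      (φ' : ∀ i, Matrix (Fin l) (Fin l') (A (k i)))
      (s' : ∀ i, X.I → Matrix (Fin l) (Fin l) (A (k i)))
      (G' : ∀ i, (X.S → Bool) → Matrix (Fin l) (Fin l) (A (k i))),
      MLim U φ' φ ∧ (∀ x, MLim U (fun i => s' i x) (s x)) ∧
      (∀ ε, MLim U (fun i => G' i ε) (G ε)) ∧
      ∀ᶠ i in (U : Filter ℕ), ∃ H : X.Red (L i) (δ i) (η i) (ν i),
        TCert (X.red (L i) (δ i) (η i) (ν i) H) c c' M (φ' i) (s' i) (G' i) := by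
  choose L hL using fun (x : X.I) (j : Fin 3) => ulim_surjective (U := U) (k := k) (X.l x j)
  choose δ hδ using fun (t : X.S) => ulim_surjective (U := U) (k := k) (X.δ t)
  choose η hη using fun (t : X.S) => ulim_surjective (U := U) (k := k) (X.η t)
  choose ν hν using fun (t : X.S) => ulim_surjective (U := U) (k := k) (X.ν t)
  obtain ⟨φ', hφ, _⟩ := MLim.exists_seq (U := U) (k := k) φ
  choose s' hs hs' using fun x => MLim.exists_seq (U := U) (k := k) (s x)
  choose G' hG hG' using fun ε => MLim.exists_seq (U := U) (k := k) (G ε)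
  have hfin : Finite (X.S → Bool) := inferInstance
  refine ⟨fun i x j => L x j i, fun i t => δ t i, fun i t => η t i, fun i t => ν t i, φ',
    fun i x => s' x i, fun i ε => G' ε i, hφ, hs, hG, ?_⟩
  have hpie := u3_pieM (X := X) (s := s) (s' := fun i x => s' x i) hs
    (δ := fun i t => δ t i) (η := fun i t => η t i) (ν := fun i t => ν t i)
    (fun t => (hδ t).symm) (fun t => (hη t).symm) (fun t => (hν t).symm)
  have e1 : ∀ᶠ i in (U : Filter ℕ), ∀ x, ModCol (φ' i) (s' x i * φ' i) 0 := by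
    rw [Filter.eventually_all]
    exact fun x => (h.s_col x).eventually hφ ((hs x).mul hφ) u3_zero
  have e2 : ∀ᶠ i in (U : Filter ℕ), ∀ ε, ModCol (φ' i) (G' ε i * φ' i) 0 := by
    rw [Filter.eventually_all]
    exact fun ε => (h.G_col ε).eventually hφ ((hG ε).mul hφ) u3_zero
  have e3 : ∀ᶠ i in (U : Filter ℕ), ∀ x y, ModCol (φ' i) (s' x i * s' y i) (s' y i * s' x i) := by
    rw [Filter.eventually_all]
    intro x
    rw [Filter.eventually_all]
    exact fun y => (h.s_comm x y).eventually hφ ((hs x).mul (hs y)) ((hs y).mul (hs x))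
  have e4 : ∀ᶠ i in (U : Filter ℕ), ∀ x, ModCol (φ' i) (s' x i * s' x i)
      ((C (L x 0 i) + C (L x 1 i) * MvPolynomial.X 0 ^ 2 + C (L x 2 i) * MvPolynomial.X 1 ^ 2 :
        A (k i)) • (1 : Matrix (Fin l) (Fin l) (A (k i)))) := by
    rw [Filter.eventually_all]
    intro x
    refine (h.s_sq x).eventually hφ ((hs x).mul (hs x)) (MLim.smul ?_ MLim.one)
    have e0 : X.q x = C (ulim U k (L x 0)) + C (ulim U k (L x 1)) * MvPolynomial.X 0 ^ 2 +
      C (ulim U k (L x 2)) * MvPolynomial.X 1 ^ 2 := by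
      rw [hL, hL, hL]
      rfl
    rw [e0]
    exact ((PLim.const _).add ((PLim.const _).mul ((PLim.X 0).pow 2))).add
      ((PLim.const _).mul ((PLim.X 1).pow 2))
  have e5 : ∀ᶠ i in (U : Filter ℕ), ModCol (φ' i) (s' (X.b 0) i) 1 :=
    h.s_b0.eventually hφ (hs _) MLim.one
  have e6 : ∀ᶠ i in (U : Filter ℕ), ModCol (φ' i) (s' (X.b 1) i)
      ((MvPolynomial.X 0 : A (k i)) • (1 : Matrix (Fin l) (Fin l) (A (k i)))) :=
    h.s_b1.eventually hφ (hs _) (MLim.smul (PLim.X 0) MLim.one)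
  have e7 : ∀ᶠ i in (U : Filter ℕ), ModCol (φ' i) (s' (X.b 2) i)
      ((MvPolynomial.X 1 : A (k i)) • (1 : Matrix (Fin l) (Fin l) (A (k i)))) :=
    h.s_b2.eventually hφ (hs _) (MLim.smul (PLim.X 1) MLim.one)
  have e8 : ∀ᶠ i in (U : Filter ℕ), ∀ ε x, ModCol (φ' i) (G' ε i * s' x i) (s' x i * G' ε i) := by
    rw [Filter.eventually_all]
    intro ε
    rw [Filter.eventually_all]
    exact fun x => (h.G_s ε x).eventually hφ ((hG ε).mul (hs x)) ((hs x).mul (hG ε))
  have e9 := fun ε => (h.G_pie ε).eventually hφ ((hpie (fun _ => true)).mul (hG ε))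
    ((hpie ε).mul (hG (fun _ => true)))
  rw [← Filter.eventually_all] at e9
  have e10 := h.G_sq.eventually hφ ((hG (fun _ => true)).mul (hG (fun _ => true)))
    (hpie (fun _ => true))
  filter_upwards [h.cert.eventually hφ, e1, e2, e3, e4, e5, e6, e7, e8, e9, e10,
    X.red_eventually (l := fun i x j => L x j i) (δ := fun i t => δ t i)
      (η := fun i t => η t i) (ν := fun i t => ν t i) (fun x j => (hL x j).symm)
      (fun t => (hδ t).symm) (fun t => (hη t).symm) (fun t => (hν t).symm)]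
    with i h0 h1 h2 h3 h4 h5 h6 h7 h8 h9 h10 H
  exact ⟨H, { cert := h0
              s_mem := fun x a b => hs' x _ a b (h.s_mem x a b) i
              G_mem := fun ε a b => hG' ε _ a b (h.G_mem ε a b) i
              s_col := h1
              G_col := h2
              s_comm := h3
              s_sq := h4
              s_b0 := h5
              s_b1 := h6
              s_b2 := h7
              G_s := h8
              G_pie := h9
              G_sq := h10 }⟩

end Vale.Agent.P190.D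
end
end

section

section

/-! Section 5, file U4b: operators on the cokernel of a certificate. -/

set_option autoImplicit false
set_option linter.unusedSectionVars false

open MvPolynomial Filter

namespace Vale.Agent.P190.D

variable {k : Type} [Field k] {X : Arr k}

/-- the image of a matrix over `A` in matrices over `KK` -/
noncomputable def u4K {m n : ℕ} (P : Matrix (Fin m) (Fin n) (A k)) :
    Matrix (Fin m) (Fin n) (KK k) := P.map (algebraMap (A k) (KK k))

theorem u4K_apply {m n : ℕ} (P : Matrix (Fin m) (Fin n) (A k)) (i : Fin m) (j : Fin n) :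
    u4K P i j = algebraMap (A k) (KK k) (P i j) := rfl

theorem u4K_mul {m n o : ℕ} (P : Matrix (Fin m) (Fin n) (A k)) (Q : Matrix (Fin n) (Fin o) (A k)) :
    u4K (P * Q) = u4K P * u4K Q := by
  unfold u4K
  rw [Matrix.map_mul]

theorem u4K_add {m n : ℕ} (P Q : Matrix (Fin m) (Fin n) (A k)) :
    u4K (P + Q) = u4K P + u4K Q := by
  unfold u4K
  rw [Matrix.map_add _ (fun a b => map_add _ a b)]

theorem u4K_one {m : ℕ} : u4K (1 : Matrix (Fin m) (Fin m) (A k)) = 1 := by
  unfold u4K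
  rw [Matrix.map_one _ (map_zero _) (map_one _)]

theorem u4K_smul {m n : ℕ} (a : A k) (P : Matrix (Fin m) (Fin n) (A k)) :
    u4K (a • P) = algebraMap (A k) (KK k) a • u4K P := by
  ext i j
  simp only [u4K_apply, Matrix.smul_apply, smul_eq_mul, map_mul]

theorem u4K_smul' {m n : ℕ} (a : k) (P : Matrix (Fin m) (Fin n) (A k)) :
    u4K (a • P) = a • u4K P := by
  ext i j
  rw [Matrix.smul_apply, u4K_apply, u4K_apply, Matrix.smul_apply]
  exact map_smul (IsScalarTower.toAlgHom k (A k) (KK k)) a (P i j)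

/-- the quotient by the column space -/
abbrev u4V {l l' : ℕ} (φ : Matrix (Fin l) (Fin l') (A k)) : Type :=
  (Fin l → KK k) ⧸ colSp (fun i j => φ i j)

theorem u4_mod {l l' : ℕ} {φ : Matrix (Fin l) (Fin l') (A k)} {P Q : Matrix (Fin l) (Fin l) (A k)}
    (h : ModCol φ P Q) (w : Fin l → KK k) :
    (Submodule.Quotient.mk ((u4K P).mulVec w) : u4V φ) =
      Submodule.Quotient.mk ((u4K Q).mulVec w) := by
  obtain ⟨H, rfl⟩ := h
  rw [Submodule.Quotient.eq, u4K_add, u4K_mul, Matrix.add_mulVec, add_sub_cancel_left,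
    ← Matrix.mulVec_mulVec]
  rw [b11_mem_colSp]
  exact ⟨(u4K H).mulVec w, fun i => rfl⟩

theorem u4_exists_op {l l' : ℕ} {φ : Matrix (Fin l) (Fin l') (A k)}
    {P : Matrix (Fin l) (Fin l) (A k)} (h : ModCol φ (P * φ) 0) :
    ∃ T : Module.End (KK k) (u4V φ), ∀ w : Fin l → KK k,
      T (Submodule.Quotient.mk w) = Submodule.Quotient.mk ((u4K P).mulVec w) := by
  obtain ⟨H, hH⟩ := h
  rw [zero_add] at hH
  have hle : colSp (fun i j => φ i j) ≤
      (colSp (fun i j => φ i j)).comap (Matrix.mulVecLin (u4K P)) := by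
    intro v hv
    obtain ⟨β, hβ⟩ := b11_mem_colSp.1 hv
    have hv' : v = (u4K φ).mulVec β := funext fun i => hβ i
    rw [Submodule.mem_comap, Matrix.mulVecLin_apply, hv', Matrix.mulVec_mulVec, ← u4K_mul, hH,
      u4K_mul, ← Matrix.mulVec_mulVec, b11_mem_colSp]
    exact ⟨(u4K H).mulVec β, fun i => rfl⟩
  exact ⟨Submodule.mapQ _ _ (Matrix.mulVecLin (u4K P)) hle, fun w => rfl⟩

/-- columns as images of unit vectors -/
theorem u4_single {l m : ℕ} (P : Matrix (Fin l) (Fin m) (A k)) (j : Fin m) :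
    (u4K P).mulVec (Pi.single j 1) = ∑ i, P i j • (Pi.single i 1 : Fin l → KK k) := by
  funext i
  rw [Matrix.mulVec_single_one, Finset.sum_apply, Finset.sum_eq_single i]
  · simp only [Matrix.col_apply, u4K_apply, Pi.smul_apply, Pi.single_eq_same, Algebra.smul_def, mul_one]
  · intro i' _ hi'
    simp only [Pi.smul_apply, ne_eq, Ne.symm hi', not_false_eq_true, Pi.single_eq_of_ne, smul_zero]
  · simp only [Finset.mem_univ, not_true_eq_false, Pi.smul_apply, Pi.single_eq_same, smul_eq_zero, one_ne_zero, or_false, IsEmpty.forall_iff]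

theorem u4_unit {l : ℕ} (a : Fin l → A k) : (fun i => algebraMap (A k) (KK k) (a i)) =
    ∑ i, a i • (Pi.single i (1 : KK k) : Fin l → KK k) := by
  funext i
  rw [Finset.sum_apply, Finset.sum_eq_single i]
  · simp only [Pi.smul_apply, Pi.single_eq_same, Algebra.smul_def, mul_one]
  · intro j _ hj
    simp [Ne.symm hj]
  · simp

/-- `KK`-linear maps commuting with all the `σ_x` are `L`-linear -/
theorem u4_lin {W : Type} [AddCommGroup W] [Module (KK k) W] [Module X.L W]
    [IsScalarTower (KK k) X.L W] (F : W →ₗ[KK k] W)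
    (hF : ∀ (x : X.I) (w : W), F (X.σ x • w) = X.σ x • F w) (c : X.L) (w : W) :
    F (c • w) = c • F w := by
  have hc : c ∈ Submodule.span (KK k) (Set.range X.mon) := by
    rw [X.mon_span]
    trivial
  induction hc using Submodule.span_induction generalizing w with
  | mem c hc =>
    obtain ⟨s, rfl⟩ := hc
    unfold Arr.mon
    induction s using Finset.induction_on generalizing w with
    | empty => simp only [Finset.prod_empty, one_smul]
    | insert x s hx ih => rw [Finset.prod_insert hx, mul_smul, mul_smul, hF, ih]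
  | zero => simp only [zero_smul, map_zero]
  | add a b _ _ ha hb => rw [add_smul, add_smul, map_add, ha, hb]
  | smul a b _ hb => rw [smul_assoc, smul_assoc, map_smul, hb]

/-- maps given by homogeneous matrices preserve the lattice -/
theorem u4_genLat_map {W : Type} [AddCommGroup W] [Module k W] [Module (A k) W]
    [IsScalarTower k (A k) W] {l : ℕ} (v : Fin l → W) (c : Fin l → ℤ) (d : ℤ)
    (P : Matrix (Fin l) (Fin l) (A k)) (hP : ∀ i j, P i j ∈ Ad k (c j + d - c i))
    (T : W → W) (hT : ∀ a : Fin l → A k, T (∑ j, a j • v j) = ∑ j, a j • T (v j))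
    (hv : ∀ j, T (v j) = ∑ i, P i j • v i) {n : ℤ} {w : W} (hw : w ∈ genLat (k := k) v c n) :
    T w ∈ genLat (k := k) v c (n + d) := by
  obtain ⟨a, ha, rfl⟩ := mem_genLat.1 hw
  rw [hT]
  refine Submodule.sum_mem _ fun j _ => ?_
  rw [hv, Finset.smul_sum]
  refine Submodule.sum_mem _ fun i _ => ?_
  rw [smul_smul]
  refine genLat_smul_gen v c i ?_
  have := Ad_mul (ha j) (hP i j)
  rwa [show n - c j + (c j + d - c i) = n + d - c i by ring] at this

end Vale.Agent.P190.D
end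
end

section

section

/-! Section 5, file U4c: multiplication by elements of `L` given by matrices. -/

set_option autoImplicit false
set_option linter.unusedSectionVars false

open MvPolynomial Filter

namespace Vale.Agent.P190.D

variable {k : Type} [Field k] {X : Arr k}

/-- the matrix `P` acts as multiplication by `c` -/
def u4Rel {l l' : ℕ} {φ : Matrix (Fin l) (Fin l') (A k)} {W : Type} [AddCommGroup W]
    [Module (KK k) W] [Module X.L W] (f : u4V φ →ₗ[KK k] W) (P : Matrix (Fin l) (Fin l) (A k))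
    (c : X.L) : Prop :=
  ∀ w : Fin l → KK k, f (Submodule.Quotient.mk ((u4K P).mulVec w)) =
    c • f (Submodule.Quotient.mk w)

section

variable {l l' : ℕ} {φ : Matrix (Fin l) (Fin l') (A k)} {W : Type} [AddCommGroup W] [Module k W]
    [Module (KK k) W] [Module X.L W] [IsScalarTower (KK k) X.L W] [IsScalarTower k (KK k) W]
    [IsScalarTower k X.L W] {f : u4V φ →ₗ[KK k] W}

theorem u4Rel.mul {P Q : Matrix (Fin l) (Fin l) (A k)} {c d : X.L} (hP : u4Rel f P c)
    (hQ : u4Rel f Q d) : u4Rel f (P * Q) (c * d) := by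
  intro w
  rw [u4K_mul, ← Matrix.mulVec_mulVec, hP, hQ, mul_smul]

theorem u4Rel.add {P Q : Matrix (Fin l) (Fin l) (A k)} {c d : X.L} (hP : u4Rel f P c)
    (hQ : u4Rel f Q d) : u4Rel f (P + Q) (c + d) := by
  intro w
  rw [u4K_add, Matrix.add_mulVec, Submodule.Quotient.mk_add, map_add, hP, hQ, add_smul]

theorem u4Rel.one : u4Rel f (1 : Matrix (Fin l) (Fin l) (A k)) (1 : X.L) := by
  intro w
  rw [u4K_one, Matrix.one_mulVec, one_smul]

theorem u4Rel.smul {P : Matrix (Fin l) (Fin l) (A k)} {c : X.L} (hP : u4Rel f P c) (a : k) :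
    u4Rel f (a • P) (a • c) := by
  intro w
  rw [u4K_smul', ← algebraMap_smul (KK k) a (u4K P), Matrix.smul_mulVec,
    Submodule.Quotient.mk_smul, map_smul, hP, smul_assoc, algebraMap_smul]

theorem u4Rel.list {ι : Type} (L : List ι) {P : ι → Matrix (Fin l) (Fin l) (A k)} {c : ι → X.L}
    (h : ∀ i, u4Rel f (P i) (c i)) : u4Rel f (L.map P).prod (L.map c).prod := by
  induction L with
  | nil => exact u4Rel.one
  | cons i L ih =>
    rw [List.map_cons, List.map_cons, List.prod_cons, List.prod_cons]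
    exact (h i).mul ih

theorem u4Rel.pie {s : X.I → Matrix (Fin l) (Fin l) (A k)} (h : ∀ x, u4Rel f (s x) (X.σ x))
    (ε : X.S → Bool) : u4Rel f (pieM X s ε) (X.pie ε) := by
  have h1 : X.pie ε = (((Finset.univ : Finset X.S).toList.map fun t =>
      if ε t then X.a t true else X.ν t • X.σ (X.v t)).prod) := by
    unfold Arr.pie
    exact (Finset.prod_map_toList _ _).symm
  rw [h1]
  refine u4Rel.list _ fun t => ?_
  by_cases ht : ε t = true
  · rw [if_pos ht, if_pos ht]
    exact ((h _).smul _).add ((h _).smul _)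
  · rw [if_neg ht, if_neg ht]
    exact (h _).smul _

end

end Vale.Agent.P190.D
end
end

section

section

/-! Section 5, file U4: T-lattices from certificates. -/

set_option autoImplicit false
set_option linter.unusedSectionVars false

open MvPolynomial Filter

namespace Vale.Agent.P190.D

variable {k : Type} [Field k] [Infinite k] {X : Arr k}

theorem u4_gam_eq {r l l' : ℕ} {φ : Matrix (Fin l) (Fin l') (A k)}
    {s : X.I → Matrix (Fin l) (Fin l) (A k)} {G : (X.S → Bool) → Matrix (Fin l) (Fin l) (A k)}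
    (hG : ∀ ε, ModCol φ (pieM X s (fun _ => true) * G ε) (pieM X s ε * G (fun _ => true)))
    (f : u4V φ ≃ₗ[KK k] (Fin r → X.L)) (hs : ∀ x, u4Rel (f : u4V φ →ₗ[KK k] (Fin r → X.L)) (s x) (X.σ x))
    (Γ : (Fin r → X.L) →ₗ[X.L] (Fin r → X.L))
    (hΓ : ∀ w : Fin l → KK k, Γ (f (Submodule.Quotient.mk w)) =
      f (Submodule.Quotient.mk ((u4K (G (fun _ => true))).mulVec w)))
    (ε : X.S → Bool) (w : Fin l → KK k) :
    gam Γ ε (f (Submodule.Quotient.mk w)) = f (Submodule.Quotient.mk ((u4K (G ε)).mulVec w)) := by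
  have h1 : X.PI • f (Submodule.Quotient.mk ((u4K (G ε)).mulVec w)) =
      X.pie ε • f (Submodule.Quotient.mk ((u4K (G (fun _ => true))).mulVec w)) := by
    have e1 := (u4Rel.pie hs (fun _ => true)) ((u4K (G ε)).mulVec w)
    have e2 := (u4Rel.pie hs ε) ((u4K (G (fun _ => true))).mulVec w)
    have e3 := u4_mod (hG ε) w
    rw [Matrix.mulVec_mulVec, ← u4K_mul] at e1 e2
    rw [← e3] at e2
    have e4 : X.pie (fun _ => true) = X.PI := by
      unfold Arr.pie Arr.PI
      exact Finset.prod_congr rfl fun t _ => if_pos rfl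
    rw [e4] at e1
    exact e1.symm.trans e2
  unfold gam
  rw [hΓ, div_eq_inv_mul, mul_smul, ← h1, smul_smul, inv_mul_cancel₀ X.PI_ne_zero, one_smul]

theorem u4_sum_A {r l l' : ℕ} {φ : Matrix (Fin l) (Fin l') (A k)}
    (f : u4V φ ≃ₗ[KK k] (Fin r → X.L)) (a : Fin l → A k) :
    f (Submodule.Quotient.mk (∑ i, a i • (Pi.single i (1 : KK k) : Fin l → KK k))) =
      ∑ i, a i • f (Submodule.Quotient.mk (Pi.single i (1 : KK k))) := by
  have h := map_sum (((f : u4V φ →ₗ[KK k] (Fin r → X.L)).comp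
    (colSp (fun i j => φ i j)).mkQ).restrictScalars (A k))
      (fun i => a i • (Pi.single i (1 : KK k) : Fin l → KK k)) Finset.univ
  simp only [map_smul] at h
  exact h

theorem u4_sum_A' {r l l' : ℕ} {φ : Matrix (Fin l) (Fin l') (A k)}
    (f : u4V φ ≃ₗ[KK k] (Fin r → X.L)) (a : Fin l → A k) :
    ((f : u4V φ →ₗ[KK k] (Fin r → X.L)).restrictScalars (A k))
      (∑ i, a i • (Submodule.Quotient.mk (Pi.single i (1 : KK k)) : u4V φ)) =
      ∑ i, a i • f (Submodule.Quotient.mk (Pi.single i (1 : KK k))) := by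
  rw [map_sum]
  exact Finset.sum_congr rfl fun i _ => map_smul
    ((f : u4V φ →ₗ[KK k] (Fin r → X.L)).restrictScalars (A k)) (a i) _

theorem u4_sum_K {r l l' : ℕ} {φ : Matrix (Fin l) (Fin l') (A k)}
    (f : u4V φ ≃ₗ[KK k] (Fin r → X.L)) (w : Fin l → KK k) :
    f (Submodule.Quotient.mk w) =
      ∑ i, w i • f (Submodule.Quotient.mk (Pi.single i (1 : KK k))) := by
  have h0 : w = ∑ i, w i • (Pi.single i (1 : KK k) : Fin l → KK k) := by
    funext i
    rw [Finset.sum_apply, Finset.sum_eq_single i]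
    · simp only [Pi.smul_apply, Pi.single_eq_same, smul_eq_mul, mul_one]
    · intro j _ hj
      simp only [Pi.smul_apply, ne_eq, Ne.symm hj, not_false_eq_true, Pi.single_eq_of_ne, smul_eq_mul, mul_zero]
    · simp only [Finset.mem_univ, not_true_eq_false, Pi.smul_apply, Pi.single_eq_same, smul_eq_mul, mul_one, IsEmpty.forall_iff]
  have h := map_sum ((f : u4V φ →ₗ[KK k] (Fin r → X.L)).comp
    (colSp (fun i j => φ i j)).mkQ)
      (fun i => w i • (Pi.single i (1 : KK k) : Fin l → KK k)) Finset.univ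
  simp only [map_smul] at h
  rw [← h0] at h
  exact h

theorem u4_final {l l' : ℕ} {c : Fin l → ℤ} {c' : Fin l' → ℤ} {M : ℕ}
    {φ : Matrix (Fin l) (Fin l') (A k)} {s : X.I → Matrix (Fin l) (Fin l) (A k)}
    {G : (X.S → Bool) → Matrix (Fin l) (Fin l) (A k)} (h : TCert X c c' M φ s G) {r : ℕ}
    (f : u4V φ ≃ₗ[KK k] (Fin r → X.L))
    (hrel : ∀ x, u4Rel (f : u4V φ →ₗ[KK k] (Fin r → X.L)) (s x) (X.σ x))
    (Γ : (Fin r → X.L) →ₗ[X.L] (Fin r → X.L))
    (hΓ : ∀ w : Fin l → KK k, Γ (f (Submodule.Quotient.mk w)) =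
      f (Submodule.Quotient.mk ((u4K (G (fun _ => true))).mulVec w))) (v : Fin l → (Fin r → X.L))
    (hv : ∀ j, v j = f (Submodule.Quotient.mk (Pi.single j 1))) :
      IsTSp Γ ∧ IsTLat Γ (genLat (k := k) v c) ∧ IsS2 (genLat (k := k) v c) ∧
      Spans (X := X) (genLat (k := k) v c) ∧ IsTPres Γ (genLat (k := k) v c) v c c' φ s G := by
  have hsurj := Submodule.Quotient.mk_surjective (colSp (fun i j => φ i j))
  have hgam := fun ε w => u4_gam_eq h.G_pie f hrel Γ hΓ ε w
  have hsig' : ∀ x j, X.σ x • v j = ∑ i, s x i j • v i := by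
    intro x j
    have e : f (Submodule.Quotient.mk ((u4K (s x)).mulVec (Pi.single j 1))) =
      X.σ x • f (Submodule.Quotient.mk (Pi.single j 1)) := hrel x (Pi.single j 1)
    rw [hv, ← e, u4_single, u4_sum_A]
    simp only [hv]
  have hgam' : ∀ ε j, gam Γ ε (v j) = ∑ i, G ε i j • v i := by
    intro ε j
    rw [hv, hgam, u4_single, u4_sum_A]
    simp only [hv]
  refine ⟨?_, ?_, ?_, ?_, ?_⟩
  · intro w
    obtain ⟨u, rfl⟩ := f.surjective w
    obtain ⟨w, rfl⟩ := hsurj u
    have e1 := (u4Rel.pie hrel (fun _ => true)) w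
    have e2 := u4_mod h.G_sq w
    have e4 : X.pie (fun _ => true) = X.PI := by
      unfold Arr.pie Arr.PI
      exact Finset.prod_congr rfl fun t _ => if_pos rfl
    rw [u4K_mul, ← Matrix.mulVec_mulVec] at e2
    rw [← e2, e4] at e1
    rw [hΓ, hΓ]
    exact e1
  · refine { toIsBLat := isBLat_genLat v c, sig_mem := ?_, gam_mem := ?_ }
    · intro x n w hw
      refine u4_genLat_map v c 1 (s x) (h.s_mem x) (fun w => X.σ x • w) ?_ (hsig' x) hw
      intro a
      rw [Finset.smul_sum]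
      exact Finset.sum_congr rfl fun j _ => (smul_comm_AL _ _ _).symm
    · intro ε n w hw
      refine u4_genLat_map v c X.w (G ε) (h.G_mem ε) (fun w => gam Γ ε w) ?_ (hgam' ε) hw
      intro a
      unfold gam
      rw [map_sum, Finset.smul_sum]
      refine Finset.sum_congr rfl fun j _ => ?_
      rw [map_smul_A, smul_comm_AL]
  · have e : genLat (k := k) v c = mapLat ((f : u4V φ →ₗ[KK k] (Fin r → X.L)).restrictScalars (A k))
        (cokLat c (fun i j => φ i j)) := by
      funext n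
      ext w
      constructor
      · intro hw
        obtain ⟨a, ha, rfl⟩ := mem_genLat.1 hw
        refine ⟨∑ i, a i • Submodule.Quotient.mk (Pi.single i (1 : KK k)),
          mem_genLat.2 ⟨a, ha, rfl⟩, ?_⟩
        simp only [hv]
        exact u4_sum_A' f a
      · rintro ⟨u, hu, rfl⟩
        obtain ⟨a, ha, rfl⟩ := mem_genLat.1 hu
        refine mem_genLat.2 ⟨a, ha, ?_⟩
        simp only [hv]
        exact u4_sum_A' f a
    rw [e]
    exact IsS2.map_bijective h.cert.isS2 _ f.bijective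
  · unfold Spans
    rw [eq_top_iff]
    intro w _
    obtain ⟨u, rfl⟩ := f.surjective w
    obtain ⟨w, rfl⟩ := hsurj u
    rw [u4_sum_K f w]
    refine Submodule.sum_mem _ fun i _ => ?_
    rw [← algebraMap_smul X.L (w i)]
    refine Submodule.smul_mem _ _ (Submodule.subset_span ?_)
    refine Set.mem_iUnion.2 ⟨c i, ?_⟩
    rw [← hv]
    exact genLat_mem_gen v c i
  · refine ⟨⟨fun n => rfl, h.cert.mem, ?_, ?_⟩, hsig', hgam'⟩
    · intro j
      simp only [hv]
      rw [← u4_sum_A, ← u4_single]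
      have e : (Submodule.Quotient.mk ((u4K φ).mulVec (Pi.single j 1)) : u4V φ) = 0 := by
        rw [Submodule.Quotient.mk_eq_zero, b11_mem_colSp]
        exact ⟨Pi.single j 1, fun i => rfl⟩
      rw [e, map_zero]
    · intro n a ha h0
      refine h.cert.exact n a ha ?_
      simp only [hv] at h0
      rw [← u4_sum_A, map_eq_zero_iff _ f.injective, Submodule.Quotient.mk_eq_zero] at h0
      rw [u4_unit]
      exact h0

/-- U4: every certificate describes an S2 T-lattice -/
theorem TCert.exists_lat {l l' : ℕ} {c : Fin l → ℤ} {c' : Fin l' → ℤ} {M : ℕ}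
    {φ : Matrix (Fin l) (Fin l') (A k)} {s : X.I → Matrix (Fin l) (Fin l) (A k)}
    {G : (X.S → Bool) → Matrix (Fin l) (Fin l) (A k)} (h : TCert X c c' M φ s G) :
    ∃ (r : ℕ) (Γ : (Fin r → X.L) →ₗ[X.L] (Fin r → X.L)) (v : Fin l → (Fin r → X.L)),
      IsTSp Γ ∧ IsTLat Γ (genLat (k := k) v c) ∧ IsS2 (genLat (k := k) v c) ∧
      Spans (X := X) (genLat (k := k) v c) ∧ IsTPres Γ (genLat (k := k) v c) v c c' φ s G := by
  classical
  choose S hS using fun x => u4_exists_op (h.s_col x)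
  choose W hW using fun ε => u4_exists_op (h.G_col ε)
  have hsurj := Submodule.Quotient.mk_surjective (colSp (fun i j => φ i j))
  -- relations of the operators
  have hcomm : ∀ x y, S x * S y = S y * S x := by
    intro x y
    refine LinearMap.ext fun u => ?_
    obtain ⟨w, rfl⟩ := hsurj u
    have e := u4_mod (h.s_comm x y) w
    rw [u4K_mul, u4K_mul, ← Matrix.mulVec_mulVec, ← Matrix.mulVec_mulVec] at e
    rw [Module.End.mul_apply, Module.End.mul_apply, hS, hS, hS, hS]
    exact e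
  have hsq : ∀ x, S x * S x = algebraMap (A k) (KK k) (X.q x) • (1 : Module.End (KK k) (u4V φ)) := by
    intro x
    refine LinearMap.ext fun u => ?_
    obtain ⟨w, rfl⟩ := hsurj u
    have e := u4_mod (h.s_sq x) w
    rw [u4K_mul, u4K_smul, u4K_one, ← Matrix.mulVec_mulVec, Matrix.smul_mulVec,
      Matrix.one_mulVec] at e
    rw [Module.End.mul_apply, hS, hS, e, LinearMap.smul_apply, Module.End.one_apply,
      Submodule.Quotient.mk_smul]
  have h0 : S (X.b 0) = 1 := by
    refine LinearMap.ext fun u => ?_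
    obtain ⟨w, rfl⟩ := hsurj u
    have e := u4_mod h.s_b0 w
    rw [u4K_one, Matrix.one_mulVec] at e
    rw [hS, e, Module.End.one_apply]
  have h1 : S (X.b 1) =
      algebraMap (A k) (KK k) (MvPolynomial.X 0) • (1 : Module.End (KK k) (u4V φ)) := by
    refine LinearMap.ext fun u => ?_
    obtain ⟨w, rfl⟩ := hsurj u
    have e := u4_mod h.s_b1 w
    rw [u4K_smul, u4K_one, Matrix.smul_mulVec, Matrix.one_mulVec] at e
    rw [hS, e, LinearMap.smul_apply, Module.End.one_apply, Submodule.Quotient.mk_smul]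
  have h2 : S (X.b 2) =
      algebraMap (A k) (KK k) (MvPolynomial.X 1) • (1 : Module.End (KK k) (u4V φ)) := by
    refine LinearMap.ext fun u => ?_
    obtain ⟨w, rfl⟩ := hsurj u
    have e := u4_mod h.s_b2 w
    rw [u4K_smul, u4K_one, Matrix.smul_mulVec, Matrix.one_mulVec] at e
    rw [hS, e, LinearMap.smul_apply, Module.End.one_apply, Submodule.Quotient.mk_smul]
  obtain ⟨r, f, hf⟩ := exists_coords S hcomm hsq h0 h1 h2
  have hrel : ∀ x, u4Rel (f : u4V φ →ₗ[KK k] (Fin r → X.L)) (s x) (X.σ x) := by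
    intro x w
    have e := hf x (Submodule.Quotient.mk w)
    rw [hS] at e
    exact e
  have hWS : ∀ x u, W (fun _ => true) (S x u) = S x (W (fun _ => true) u) := by
    intro x u
    obtain ⟨w, rfl⟩ := hsurj u
    have e := u4_mod (h.G_s (fun _ => true) x) w
    rw [u4K_mul, u4K_mul, ← Matrix.mulVec_mulVec, ← Matrix.mulVec_mulVec] at e
    rw [hS, hW, hW, hS]
    exact e
  -- the operator `Γ`
  let F : (Fin r → X.L) →ₗ[KK k] (Fin r → X.L) :=
    (f : u4V φ →ₗ[KK k] (Fin r → X.L)).comp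
      ((W (fun _ => true)).comp (f.symm : (Fin r → X.L) →ₗ[KK k] u4V φ))
  have hF : ∀ u, F (f u) = f (W (fun _ => true) u) := by
    intro u
    change f (W (fun _ => true) (f.symm (f u))) = _
    rw [LinearEquiv.symm_apply_apply]
  have hFσ : ∀ (x : X.I) (w : Fin r → X.L), F (X.σ x • w) = X.σ x • F w := by
    intro x w
    obtain ⟨u, rfl⟩ := f.surjective w
    rw [← hf, hF, hF, hWS, hf]
  let Γ : (Fin r → X.L) →ₗ[X.L] (Fin r → X.L) :=
    { toFun := F
      map_add' := fun a b => F.map_add a b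
      map_smul' := fun a b => u4_lin F hFσ a b }
  have hΓ : ∀ w : Fin l → KK k, Γ (f (Submodule.Quotient.mk w)) =
      f (Submodule.Quotient.mk ((u4K (G (fun _ => true))).mulVec w)) := by
    intro w
    change F (f _) = _
    rw [hF, hW]
  exact ⟨r, Γ, _, u4_final h f hrel Γ hΓ (fun j => f (Submodule.Quotient.mk (Pi.single j 1)))
    fun j => rfl⟩

end Vale.Agent.P190.D
end
end

section

section

/-! Section 5, file U6a: ultraproducts of subspaces. -/

set_option autoImplicit false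
set_option linter.unusedSectionVars false

open MvPolynomial Filter

namespace Vale.Agent.P190.D

variable {U : Ultrafilter ℕ} {k : ℕ → Type} [∀ i, Field (k i)]

/-- U6a: the ultraproduct of subspaces of the spaces of polynomial vectors -/
def uSub (U : Ultrafilter ℕ) {ι : Type} (Z : ∀ i, Submodule (k i) (ι → A (k i))) :
    Submodule (UK U k) (ι → A (UK U k)) where
  carrier := {a | ∃ f : ∀ i, ι → A (k i), (∀ j, PLim U (fun i => f i j) (a j)) ∧
    ∀ᶠ i in (U : Filter ℕ), f i ∈ Z i}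
  add_mem' := by
    rintro a b ⟨f, hf, hf'⟩ ⟨g, hg, hg'⟩
    refine ⟨fun i => f i + g i, fun j => (hf j).add (hg j), ?_⟩
    filter_upwards [hf', hg'] with i h1 h2
    exact add_mem h1 h2
  zero_mem' := ⟨fun i => 0, fun j => PLim.zero, by simp⟩
  smul_mem' := by
    rintro x a ⟨f, hf, hf'⟩
    obtain ⟨y, rfl⟩ := ulim_surjective x
    refine ⟨fun i => y i • f i, fun j => (hf j).smul, ?_⟩
    filter_upwards [hf'] with i h1
    exact Submodule.smul_mem _ _ h1

theorem mem_uSub_iff {ι : Type} [Finite ι] {Z : ∀ i, Submodule (k i) (ι → A (k i))}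
    {a : ι → A (UK U k)} {f : ∀ i, ι → A (k i)} (hf : ∀ j, PLim U (fun i => f i j) (a j)) :
    a ∈ uSub U Z ↔ ∀ᶠ i in (U : Filter ℕ), f i ∈ Z i := by
  constructor
  · rintro ⟨g, hg, hg'⟩
    have h : ∀ᶠ i in (U : Filter ℕ), ∀ j, g i j = f i j :=
      eventually_all.mpr fun j => (PLim.eq_iff (hg j) (hf j)).mp rfl
    filter_upwards [h, hg'] with i h1 h2
    have : g i = f i := funext h1
    rwa [this] at h2
  · intro h
    exact ⟨f, hf, h⟩

theorem uSub_le {ι : Type} [Finite ι] {Z : ∀ i, Submodule (k i) (ι → A (k i))} {d : ι → ℤ}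
    (h : ∀ᶠ i in (U : Filter ℕ), Z i ≤ pD (k i) d) : uSub U Z ≤ pD (UK U k) d := by
  rintro a ⟨f, hf, hf'⟩
  rw [mem_pD]
  intro j
  rw [(hf j).mem_Ad_iff]
  filter_upwards [h, hf'] with i h1 h2
  exact mem_pD.mp (h1 h2) j

theorem le_finrank_uSub {ι : Type} [Fintype ι] {Z : ∀ i, Submodule (k i) (ι → A (k i))}
    {d : ι → ℤ} (h : ∀ᶠ i in (U : Filter ℕ), Z i ≤ pD (k i) d) {D : ℕ}
    (hD : ∀ᶠ i in (U : Filter ℕ), D ≤ Module.finrank (k i) (Z i)) :
    D ≤ Module.finrank (UK U k) (uSub U Z) := by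
  classical
  have key : ∀ i, ∃ z : Fin D → (ι → A (k i)),
      (Z i ≤ pD (k i) d ∧ D ≤ Module.finrank (k i) (Z i)) →
        (∀ t, z t ∈ Z i) ∧ LinearIndependent (k i) z := by
    intro i
    by_cases hi : Z i ≤ pD (k i) d ∧ D ≤ Module.finrank (k i) (Z i)
    · obtain ⟨z, hz⟩ := exists_linearIndependent_of_le_finrank hi.2
      exact ⟨fun t => (z t : ι → A (k i)), fun _ => ⟨fun t => (z t).2,
        hz.map' (Z i).subtype (Submodule.ker_subtype _)⟩⟩
    · exact ⟨fun _ => 0, fun h => absurd h hi⟩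
  choose z hz using key
  have hP := h.and hD
  have hlim : ∀ (t : Fin D) (j : ι), ∃ b, PLim U (fun i => z i t j) b ∧
      b ∈ Ad (UK U k) (d j) := by
    intro t j
    refine PLim.exists_lim (d := d j) ?_
    filter_upwards [hP] with i hi
    exact mem_pD.mp (hi.1 ((hz i hi).1 t)) j
  choose b hb _ using hlim
  have hmem : ∀ t, b t ∈ uSub U Z := by
    intro t
    refine ⟨fun i => z i t, hb t, ?_⟩
    filter_upwards [hP] with i hi
    exact (hz i hi).1 t
  have hfin : Module.Finite (UK U k) (uSub U Z) :=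
    Submodule.finiteDimensional_of_le (uSub_le h)
  have hli : LinearIndependent (UK U k) (fun t => (⟨b t, hmem t⟩ : uSub U Z)) := by
    rw [Fintype.linearIndependent_iff]
    intro g hg t
    choose x hx using fun t => ulim_surjective (U := U) (g t)
    have h0 : ∀ j, ∑ t, g t • b t j = 0 := by
      intro j
      have := congrArg (fun y : uSub U Z => (y : ι → A (UK U k)) j) hg
      simpa only [SetLike.mk_smul_mk, AddSubmonoidClass.coe_finsetSum, Finset.sum_apply, Pi.smul_apply,     ZeroMemClass.coe_zero, Pi.zero_apply] using this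
    have h1 : ∀ᶠ i in (U : Filter ℕ), ∀ j, ∑ t, x t i • z i t j = 0 := by
      rw [eventually_all]
      intro j
      have hl : PLim U (fun i => ∑ t, x t i • z i t j) (∑ t, ulim U k (x t) • b t j) :=
        PLim.sum _ fun t _ => (hb t j).smul
      refine (PLim.eq_iff hl PLim.zero).mp ?_
      rw [← h0 j]
      exact Finset.sum_congr rfl fun t _ => by rw [hx]
    rw [← hx t, ← map_zero (ulim U k), ulim_eq]
    filter_upwards [hP, h1] with i hi h2
    have h3 := Fintype.linearIndependent_iff.mp (hz i hi).2 (fun t => x t i) (by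
      funext j
      simpa only [Finset.sum_apply, Pi.smul_apply, Pi.zero_apply] using h2 j)
    exact h3 t
  have := hli.fintype_card_le_finrank
  simpa only [ge_iff_le, Fintype.card_fin] using this

end Vale.Agent.P190.D
end
end

section

section

/-! Section 5, file U6b: sublattice data pass to the ultraproduct. -/

set_option autoImplicit false
set_option linter.unusedSectionVars false

open MvPolynomial Filter

namespace Vale.Agent.P190.D

/-- If the vectors `x t` have no nontrivial relation modulo the column space of `φ`, there is a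
certificate: a matrix `Λ` killing `φ` and sending `x t` to a nonzero multiple of the unit vector. -/
theorem u6b_exists_dual {K : Type} [Field K] {l l' m : ℕ} (φ : Matrix (Fin l) (Fin l') (A K))
    (x : Fin m → (Fin l → A K))
    (hx : ¬ ∃ β : Fin m → A K, β ≠ 0 ∧ ∃ b : Fin l' → A K, ∑ t, β t • x t = φ.mulVec b) :
    ∃ (Λ : Matrix (Fin m) (Fin l) (A K)) (D : A K), D ≠ 0 ∧ Λ * φ = 0 ∧
      ∀ t, Λ.mulVec (x t) = D • (Pi.single t 1 : Fin m → A K) := by
  classical
  set F := KK K with hF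
  let al := algebraMap (A K) F
  have hinj : Function.Injective al := IsFractionRing.injective (A K) F
  let φF : Matrix (Fin l) (Fin l') F := φ.map al
  let M : Submodule F (Fin l → F) := LinearMap.range φF.mulVecLin
  let xF : Fin m → (Fin l → F) := fun t j => al (x t j)
  let T : (Fin m → F) →ₗ[F] ((Fin l → F) ⧸ M) := M.mkQ ∘ₗ Fintype.linearCombination F xF
  have hker : LinearMap.ker T = ⊥ := by
    rw [LinearMap.ker_eq_bot']
    intro β hβ
    have h1 : (Fintype.linearCombination F xF) β ∈ M := by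
      rw [← Submodule.Quotient.mk_eq_zero]
      exact hβ
    obtain ⟨b, hb⟩ := h1
    by_contra hβ0
    -- clear denominators
    obtain ⟨s, hs⟩ := IsLocalization.exist_integer_multiples_of_finite (nonZeroDivisors (A K))
      (Sum.elim β b : Fin m ⊕ Fin l' → F)
    have hs0 : ((s : A K)) ≠ 0 := nonZeroDivisors.coe_ne_zero s
    choose z hz using hs
    apply hx
    refine ⟨fun t => z (Sum.inl t), ?_, fun j => z (Sum.inr j), ?_⟩
    · intro h0
      apply hβ0
      funext t
      have h2 := hz (Sum.inl t)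
      have h3 : z (Sum.inl t) = 0 := congrFun h0 t
      rw [h3, map_zero, Sum.elim_inl, Algebra.smul_def] at h2
      have h4 : algebraMap (A K) F (s : A K) ≠ 0 := by
        intro h5
        exact hs0 (hinj (by rw [map_zero]; exact h5))
      simpa only [Pi.zero_apply] using (mul_eq_zero.1 h2.symm).resolve_left h4
    · funext j
      apply hinj
      have hb' := congrFun hb j
      simp only [Matrix.mulVecLin_apply, Matrix.mulVec, dotProduct, Fintype.linearCombination_apply,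
        Finset.sum_apply, Pi.smul_apply, smul_eq_mul] at hb'
      simp only [Finset.sum_apply, Pi.smul_apply, smul_eq_mul, map_sum, map_mul, Matrix.mulVec, dotProduct]
      have e1 : ∀ t, al (z (Sum.inl t)) = al s * β t := by
        intro t
        have := hz (Sum.inl t)
        rw [Algebra.smul_def] at this
        exact this
      have e2 : ∀ t, al (z (Sum.inr t)) = al s * b t := by
        intro t
        have := hz (Sum.inr t)
        rw [Algebra.smul_def] at this
        exact this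
      simp only [e1, e2]
      have e3 : ∀ t, al s * β t * al (x t j) = al s * (β t * al (x t j)) := fun t => by ring
      have e4 : ∀ t, al (φ j t) * (al s * b t) = al s * (al (φ j t) * b t) := fun t => by ring
      simp only [e3, e4, ← Finset.mul_sum]
      congr 1
      exact hb'.symm
  obtain ⟨g, hg⟩ := LinearMap.exists_leftInverse_of_injective T hker
  let Λ0 : Matrix (Fin m) (Fin l) F := LinearMap.toMatrix' (g ∘ₗ M.mkQ)
  have hΛ0 : ∀ v : Fin l → F, Λ0.mulVec v = g (M.mkQ v) := by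
    intro v
    rw [← Matrix.toLin'_apply, Matrix.toLin'_toMatrix']
    rfl
  obtain ⟨s, hs⟩ := IsLocalization.exist_integer_multiples_of_finite (nonZeroDivisors (A K))
    (fun p : Fin m × Fin l => Λ0 p.1 p.2)
  have hs0 : ((s : A K)) ≠ 0 := nonZeroDivisors.coe_ne_zero s
  choose z hz using hs
  have hz' : ∀ i j, al (z (i, j)) = al s * Λ0 i j := by
    intro i j
    have := hz (i, j)
    rw [Algebra.smul_def] at this
    exact this
  refine ⟨Matrix.of fun i j => z (i, j), s, hs0, ?_, ?_⟩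
  · refine Matrix.ext fun i j => ?_
    apply hinj
    simp only [Matrix.mul_apply, Matrix.of_apply, map_sum, map_mul, hz', Matrix.zero_apply,
      map_zero]
    have h1 : ∀ t, al s * Λ0 i t * al (φ t j) = al s * (Λ0 i t * al (φ t j)) := fun t => by ring
    simp only [h1, ← Finset.mul_sum]
    have h2 : φF.mulVec (Pi.single j 1) ∈ M := ⟨Pi.single j 1, rfl⟩
    have h3 : Λ0.mulVec (φF.mulVec (Pi.single j 1)) = 0 := by
      rw [hΛ0, Submodule.mkQ_apply, (Submodule.Quotient.mk_eq_zero M).2 h2, map_zero]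
    have h4 := congrFun h3 i
    rw [Matrix.mulVec_single_one] at h4
    simp only [Matrix.mulVec, dotProduct, Pi.zero_apply] at h4
    rw [show ∑ t, Λ0 i t * al (φ t j) = 0 from h4, mul_zero]
  · intro t
    funext i
    apply hinj
    simp only [Matrix.mulVec, dotProduct, Matrix.of_apply, map_sum, map_mul, hz', Pi.smul_apply, smul_eq_mul]
    have h1 : ∀ j, al s * Λ0 i j * al (x t j) = al s * (Λ0 i j * al (x t j)) := fun j => by ring
    simp only [h1, ← Finset.mul_sum]
    have h2 : Λ0.mulVec (xF t) = Pi.single t 1 := by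
      rw [hΛ0]
      have h3 : T (Pi.single t 1) = M.mkQ (xF t) := by
        simp only [T, LinearMap.comp_apply, Fintype.linearCombination_apply_single, one_smul]
      rw [← h3]
      exact congrArg (fun f : (Fin m → F) →ₗ[F] (Fin m → F) => f (Pi.single t 1)) hg
    have h4 := congrFun h2 i
    simp only [Matrix.mulVec, dotProduct] at h4
    rw [show ∑ j, Λ0 i j * al (x t j) = (Pi.single t 1 : Fin m → F) i from h4]
    congr 1
    simp only [Pi.single_apply]
    split_ifs <;> simp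

variable {U : Ultrafilter ℕ} {k : ℕ → Type} [∀ i, Field (k i)]

theorem u6b_mulVec {ι κ : Type} [Fintype κ] {F : ∀ i, Matrix ι κ (A (k i))}
    {M : Matrix ι κ (A (UK U k))} (hM : MLim U F M) {f : ∀ i, κ → A (k i)} {a : κ → A (UK U k)}
    (ha : ∀ j, PLim U (fun i => f i j) (a j)) (j : ι) :
    PLim U (fun i => (F i).mulVec (f i) j) (M.mulVec a j) := by
  simp only [Matrix.mulVec, dotProduct]
  exact PLim.sum Finset.univ (f := fun i j' => F i j j' * f i j') (a := fun j' => M j j' * a j')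
    fun j' _ => (hM j j').mul (ha j')

/-- U6b: the data pass to the ultraproduct -/
theorem ZData.transfer {l l' : ℕ} {I T : Type} {c : Fin l → ℤ} {a : ℤ}
    {φ : Matrix (Fin l) (Fin l') (A (UK U k))} {s : I → Matrix (Fin l) (Fin l) (A (UK U k))}
    {G : T → Matrix (Fin l) (Fin l) (A (UK U k))} {w : ℕ} {d : ℤ → ℕ} {n₂ : ℤ}
    {φ' : ∀ i, Matrix (Fin l) (Fin l') (A (k i))}
    {s' : ∀ i, I → Matrix (Fin l) (Fin l) (A (k i))}
    {G' : ∀ i, T → Matrix (Fin l) (Fin l) (A (k i))}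
    {Z : ∀ i, ℤ → Submodule (k i) (Fin l → A (k i))}
    (hφ : MLim U φ' φ) (hs : ∀ y, MLim U (fun i => s' i y) (s y))
    (hG : ∀ ε, MLim U (fun i => G' i ε) (G ε))
    (h : ∀ᶠ i in (U : Filter ℕ), ZData c a (φ' i) (s' i) (G' i) w d n₂ (Z i)) :
    ZData c a φ s G w d n₂ (fun n => uSub U (fun i => Z i n)) := by
  refine ⟨fun n => ?_, ?_, ?_, ?_, ?_, ?_⟩
  · apply uSub_le
    filter_upwards [h] with i hi
    exact hi.le n
  · rintro j n b x hb ⟨f, hf, hf'⟩
    obtain ⟨g, hg, hg'⟩ := PLim.exists_seq (U := U) (k := k) b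
    refine ⟨fun i => g i • f i, fun t => hg.mul (hf t), ?_⟩
    filter_upwards [h, hf'] with i hi h1
    exact hi.smul (hg' j hb i) h1
  · rintro y n x ⟨f, hf, hf'⟩
    refine ⟨fun i => (s' i y).mulVec (f i), u6b_mulVec (hs y) hf, ?_⟩
    filter_upwards [h, hf'] with i hi h1
    exact hi.sig y h1
  · rintro ε n x ⟨f, hf, hf'⟩
    refine ⟨fun i => (G' i ε).mulVec (f i), u6b_mulVec (hG ε) hf, ?_⟩
    filter_upwards [h, hf'] with i hi h1
    exact hi.gam ε h1
  · intro n x hx
    by_contra hcon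
    obtain ⟨Λ, D, hD, hΛφ, hΛx⟩ := u6b_exists_dual φ x hcon
    obtain ⟨Λ', hΛ', -⟩ := MLim.exists_seq (U := U) (k := k) Λ
    obtain ⟨D', hD', -⟩ := PLim.exists_seq (U := U) (k := k) D
    choose f hf hf' using hx
    have e1 : ∀ᶠ i in (U : Filter ℕ), Λ' i * φ' i = 0 := by
      have h0 : MLim U (fun i => (0 : Matrix (Fin (w + 1)) (Fin l') (A (k i)))) 0 :=
        fun a b => PLim.zero
      exact (MLim.eq_iff (hΛ'.mul hφ) h0).1 hΛφ
    have e2 : ∀ᶠ i in (U : Filter ℕ), ∀ t : Fin (w + 1), ∀ j : Fin (w + 1),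
        (Λ' i).mulVec (f t i) j = D' i * (if j = t then 1 else 0) := by
      rw [eventually_all]
      intro t
      rw [eventually_all]
      intro j
      have h1 : PLim U (fun i => D' i * (if j = t then 1 else 0 : A (k i)))
          (D * (if j = t then 1 else 0)) := by
        split_ifs
        · exact hD'.mul PLim.one
        · exact hD'.mul PLim.zero
      refine (PLim.eq_iff (u6b_mulVec hΛ' (hf t) j) h1).1 ?_
      rw [hΛx t]
      simp [Pi.single_apply]
    have e3 := hD'.ne_zero hD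
    have e4 : ∀ᶠ i in (U : Filter ℕ), ∀ t, f t i ∈ Z i n := by
      rw [eventually_all]
      exact hf'
    obtain ⟨i, h1, h2, h3, h4, h5⟩ := (e1.and (e2.and (e3.and (e4.and h)))).exists
    obtain ⟨β, hβ, b, hb⟩ := h5.rank n (fun t => f t i) h4
    apply hβ
    have h6 : (Λ' i).mulVec (∑ t, β t • f t i) = 0 := by
      rw [hb, Matrix.mulVec_mulVec, h1, Matrix.zero_mulVec]
    funext j
    have h7 := congrFun h6 j
    rw [Matrix.mulVec_sum, Finset.sum_apply] at h7
    simp only [Matrix.mulVec_smul, Pi.smul_apply, h2, mul_ite, mul_one, mul_zero, smul_eq_mul, Finset.sum_ite_eq, Finset.mem_univ, if_true, Pi.zero_apply] at h7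
    exact (mul_eq_zero.1 h7).resolve_right h3
  · intro n hn
    refine le_finrank_uSub (d := fun j => n - c j) ?_ ?_
    · filter_upwards [h] with i hi
      exact hi.le n
    · filter_upwards [h] with i hi
      exact hi.dim n hn

end Vale.Agent.P190.D
end
end

section

section

/-! Section 5, file U6d: T-subspaces from sublattice data. -/

set_option autoImplicit false
set_option linter.unusedSectionVars false

open MvPolynomial Filter

namespace Vale.Agent.P190.D

variable {k : Type} [Field k] [Infinite k] {X : Arr k} {r : ℕ}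
  {Γ : (Fin r → X.L) →ₗ[X.L] (Fin r → X.L)} {E : ℤ → Submodule k (Fin r → X.L)} {l l' : ℕ}
  {v : Fin l → (Fin r → X.L)} {c : Fin l → ℤ} {c' : Fin l' → ℤ}
  {φ : Matrix (Fin l) (Fin l') (A k)} {s : X.I → Matrix (Fin l) (Fin l) (A k)}
  {G : (X.S → Bool) → Matrix (Fin l) (Fin l) (A k)}

/-- the vector described by a polynomial vector -/
noncomputable def u6dEv (v : Fin l → (Fin r → X.L)) : (Fin l → A k) →ₗ[A k] (Fin r → X.L) :=
  Fintype.linearCombination (A k) v

theorem u6dEv_apply (x : Fin l → A k) : u6dEv v x = ∑ i, x i • v i := rfl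

/-- the family of images -/
noncomputable def u6dS (v : Fin l → (Fin r → X.L)) (Z : ℤ → Submodule k (Fin l → A k)) :
    ℤ → Submodule k (Fin r → X.L) :=
  fun n => (Z n).map ((u6dEv v).restrictScalars k)

theorem u6d_mem {Z : ℤ → Submodule k (Fin l → A k)} {n : ℤ} {y : Fin r → X.L} :
    y ∈ u6dS v Z n ↔ ∃ x ∈ Z n, u6dEv v x = y := Iff.rfl

theorem u6d_mulVec (M : Matrix (Fin l) (Fin l) (A k)) (x : Fin l → A k) :
    u6dEv v (M.mulVec x) = ∑ j, x j • ∑ i, M i j • v i := by
  rw [u6dEv_apply]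
  calc ∑ i, (M.mulVec x) i • v i = ∑ i, ∑ j, x j • M i j • v i := by
        refine Finset.sum_congr rfl fun i _ => ?_
        rw [Matrix.mulVec, dotProduct, Finset.sum_smul]
        refine Finset.sum_congr rfl fun j _ => ?_
        rw [smul_smul, mul_comm]
    _ = ∑ j, ∑ i, x j • M i j • v i := Finset.sum_comm
    _ = ∑ j, x j • ∑ i, M i j • v i := by
        refine Finset.sum_congr rfl fun j _ => ?_
        rw [Finset.smul_sum]

theorem u6d_sig (P : IsTPres Γ E v c c' φ s G) (y : X.I) (x : Fin l → A k) :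
    u6dEv v ((s y).mulVec x) = X.σ y • u6dEv v x := by
  rw [u6d_mulVec, u6dEv_apply, Finset.smul_sum]
  refine Finset.sum_congr rfl fun j _ => ?_
  rw [← P.sig, smul_comm_AL]

theorem u6d_gam_sum (Γ : (Fin r → X.L) →ₗ[X.L] (Fin r → X.L)) (ε : X.S → Bool)
    (x : Fin l → A k) : gam Γ ε (∑ j, x j • v j) = ∑ j, x j • gam Γ ε (v j) := by
  unfold gam
  rw [map_sum, Finset.smul_sum]
  refine Finset.sum_congr rfl fun j _ => ?_
  rw [map_smul_A, smul_comm_AL]

theorem u6d_gam (P : IsTPres Γ E v c c' φ s G) (ε : X.S → Bool) (x : Fin l → A k) :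
    u6dEv v ((G ε).mulVec x) = gam Γ ε (u6dEv v x) := by
  rw [u6d_mulVec, u6dEv_apply, u6d_gam_sum]
  refine Finset.sum_congr rfl fun j _ => ?_
  rw [← P.gam]

theorem u6d_isBLat (hE : IsTLat Γ E) (P : IsTPres Γ E v c c' φ s G) {w : ℕ}
    {n₂ : ℤ} {d : ℤ → ℕ} {Z : ℤ → Submodule k (Fin l → A k)}
    (hZ : ZData c (X.w : ℤ) φ s G w d n₂ Z) :
    (∀ n, u6dS v Z n ≤ E n) ∧ IsBLat (u6dS v Z) := by
  have hle : ∀ n, u6dS v Z n ≤ E n := by
    intro n
    rw [P.res.hv n]
    exact Submodule.map_mono (hZ.le n)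
  refine ⟨hle, hE.toIsBLat.of_le hle ?_⟩
  rintro i n a y ha ⟨x, hx, rfl⟩
  exact ⟨a • x, hZ.smul ha hx, (u6dEv v).map_smul a x⟩

theorem u6d_sigStable (P : IsTPres Γ E v c c' φ s G) {w : ℕ}
    {n₂ : ℤ} {d : ℤ → ℕ} {Z : ℤ → Submodule k (Fin l → A k)}
    (hZ : ZData c (X.w : ℤ) φ s G w d n₂ Z) : SigStable X (u6dS v Z) := by
  rintro y n _ ⟨x, hx, rfl⟩
  exact ⟨(s y).mulVec x, hZ.sig y hx, u6d_sig P y x⟩

theorem u6d_gam_true (Γ : (Fin r → X.L) →ₗ[X.L] (Fin r → X.L)) (y : Fin r → X.L) :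
    gam Γ (fun _ => true) y = Γ y := by
  unfold gam
  have h : X.pie (fun _ => true) = X.PI := by
    unfold Arr.pie Arr.PI
    simp only [↓reduceIte]
  rw [h, div_self (X.PI_ne_zero), one_smul]

theorem u6d_finrank_le (hE : IsTLat Γ E) (P : IsTPres Γ E v c c' φ s G) {w : ℕ}
    {n₂ : ℤ} {d : ℤ → ℕ} {Z : ℤ → Submodule k (Fin l → A k)}
    (hZ : ZData c (X.w : ℤ) φ s G w d n₂ Z) :
    Module.finrank (KK k) (spanK (u6dS v Z)) ≤ w := by
  classical
  obtain ⟨hle, hS⟩ := u6d_isBLat hE P hZ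
  have := hS.finite_spanK
  obtain ⟨b, hb1, hb2, hb3⟩ := exists_linearIndependent (KK k) (⋃ n, (u6dS v Z n : Set (Fin r → X.L)))
  have hbf : Finite b := by
    have h1 : LinearIndependent (KK k) (fun x : b => (⟨x.1, by
        rw [spanK]; exact Submodule.subset_span (hb1 x.2)⟩ : spanK (u6dS v Z))) := by
      apply LinearIndependent.of_comp (spanK (u6dS v Z)).subtype
      exact hb3
    exact h1.finite
  let := Fintype.ofFinite b
  have hcard : Fintype.card b = Module.finrank (KK k) (spanK (u6dS v Z)) := by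
    have h1 := finrank_span_eq_card hb3
    rw [Subtype.range_coe_subtype, Set.ofPred_mem_eq, hb2] at h1
    rw [← h1]
    rfl
  by_contra hlt
  push Not at hlt
  rw [← hcard] at hlt
  have hemb : Nonempty (Fin (w + 1) ↪ b) := by
    rw [Function.Embedding.nonempty_iff_card_le, Fintype.card_fin]
    exact hlt
  obtain ⟨f⟩ := hemb
  have hc : ∀ t : Fin (w + 1), ∃ c : ℤ, (f t).1 ∈ u6dS v Z c := fun t =>
    Set.mem_iUnion.1 (hb1 (f t).2)
  choose m hm using hc
  obtain ⟨n, hn⟩ := Finite.exists_le m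
  have hx : ∀ t, ∃ x ∈ Z n, u6dEv v x = (f t).1 := fun t =>
    u6d_mem.1 (hS.mono' (hn t) (hm t))
  choose x hxZ hx using hx
  obtain ⟨β, hβ, a, ha⟩ := hZ.rank n x hxZ
  have h0 : ∑ t, β t • (f t).1 = 0 := by
    have h1 : u6dEv v (∑ t, β t • x t) = 0 := by
      rw [ha]
      exact P.res.mat_smul a
    rw [map_sum] at h1
    rw [← h1]
    refine Finset.sum_congr rfl fun t _ => ?_
    rw [map_smul, hx]
  have hlin : LinearIndependent (A k) (fun t : Fin (w + 1) => (f t).1) := by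
    have h1 : LinearIndependent (KK k) (fun t : Fin (w + 1) => (f t).1) :=
      hb3.comp f f.injective
    refine h1.restrict_scalars ?_
    intro a b hab
    simp only [Algebra.smul_def, mul_one] at hab
    exact FaithfulSMul.algebraMap_injective _ _ hab
  rw [Fintype.linearIndependent_iff] at hlin
  exact hβ (funext (hlin β h0))

theorem u6d_dim (P : IsTPres Γ E v c c' φ s G) {w : ℕ}
    {n₂ : ℤ} {d : ℤ → ℕ} {Z : ℤ → Submodule k (Fin l → A k)}
    (hZ : ZData c (X.w : ℤ) φ s G w d n₂ Z) {n : ℤ} (hn : n₂ ≤ n) :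
    d n ≤ Module.finrank k (u6dS v Z n) + ∑ j, adim (n - c' j) := by
  have hfin : Module.Finite k (Z n) := Submodule.finiteDimensional_of_le (hZ.le n)
  have h1 := finrank_ker_add_map ((u6dEv v).restrictScalars k) (Z n)
  have h2 := hZ.dim n hn
  have h3 : Module.finrank k (Z n ⊓ LinearMap.ker ((u6dEv v).restrictScalars k) :
      Submodule k (Fin l → A k)) ≤ ∑ j, adim (n - c' j) := by
    have h4 : (Z n ⊓ LinearMap.ker ((u6dEv v).restrictScalars k) :
        Submodule k (Fin l → A k)) ≤ (pD k fun j => n - c' j).map (matMap φ) := by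
      rintro a ⟨ha, ha'⟩
      obtain ⟨b, ⟨hb, hab⟩, -⟩ := P.res.hex n a (mem_pD.1 (hZ.le n ha)) ha'
      refine ⟨b, mem_pD.2 hb, ?_⟩
      funext i
      exact (hab i).symm
    refine (Submodule.finrank_mono h4).trans ((Submodule.finrank_map_le _ _).trans ?_)
    rw [finrank_pD]
    exact (Finset.sum_congr rfl fun j _ => finrank_Ad_eq _).le
  change _ + Module.finrank k (u6dS v Z n) = _ at h1
  (clear * - h2 h3 h1; omega)

/-- U6d: such data give a T-subspace -/
theorem exists_tSub (hΓ : IsTSp Γ) (hE : IsTLat Γ E) (P : IsTPres Γ E v c c' φ s G) {w : ℕ}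
    {f g₀ n₂ : ℤ} {d : ℤ → ℕ} {Z : ℤ → Submodule k (Fin l → A k)}
    (hZ : ZData c (X.w : ℤ) φ s G w d n₂ Z)
    (hd : ∀ n ≥ n₂, hp w f g₀ n + ∑ j, (adim (n - c' j) : ℚ) ≤ d n) :
    ∃ W : Submodule X.L (Fin r → X.L), IsTSub Γ W ∧
      ∀ N' e' g' : ℤ, HasHilb (subLat E W) N' e' g' → N' = w ∧ f ≤ e' := by
  obtain ⟨hle, hS⟩ := u6d_isBLat hE P hZ
  have hsig := u6d_sigStable P hZ
  have hfr := u6d_finrank_le hE P hZ
  refine ⟨Submodule.span X.L (⋃ n, (u6dS v Z n : Set (Fin r → X.L))), ?_, ?_⟩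
  · intro y hy
    induction hy using Submodule.span_induction with
    | mem y hy =>
      obtain ⟨n, hn⟩ := Set.mem_iUnion.1 hy
      obtain ⟨x, hx, rfl⟩ := hn
      refine Submodule.subset_span (Set.mem_iUnion.2 ⟨n + X.w, ?_⟩)
      refine ⟨(G fun _ => true).mulVec x, hZ.gam _ hx, ?_⟩
      have h1 := u6d_gam P (fun _ => true) x
      rw [u6d_gam_true] at h1
      exact h1
    | zero => rw [map_zero]; exact zero_mem _
    | add y z _ _ hy hz => rw [map_add]; exact add_mem hy hz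
    | smul a y _ hy => rw [map_smul]; exact Submodule.smul_mem _ _ hy
  · intro N' e' g' hN
    set W := Submodule.span X.L (⋃ n, (u6dS v Z n : Set (Fin r → X.L))) with hW
    have hEW : IsBLat (subLat E W) := by
      have h1 : subLat E W = interLat E (W.restrictScalars (A k)) := by
        funext n
        ext v
        exact Iff.rfl
      rw [h1]
      exact hE.toIsBLat.inter _
    have hSle : ∀ n, u6dS v Z n ≤ subLat E W n := fun n y hy =>
      ⟨hle n hy, Submodule.subset_span (Set.mem_iUnion.2 ⟨n, hy⟩)⟩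
    have hspan : spanK (subLat E W) ≤ spanK (u6dS v Z) := by
      unfold spanK
      rw [Submodule.span_le]
      intro y hy
      obtain ⟨n, hn⟩ := Set.mem_iUnion.1 hy
      have h1 : y ∈ (W : Set (Fin r → X.L)) := hn.2
      rw [hW, ← spanK_eq_spanL hS hsig] at h1
      exact h1
    have := hS.finite_spanK
    have hN1 : N' ≤ w := by
      rw [hN.N_eq hEW]
      have := Submodule.finrank_mono hspan
      exact_mod_cast this.trans hfr
    have key : ∀ᶠ n : ℤ in atTop, hp w f g₀ n ≤ hp N' e' g' n := by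
      filter_upwards [hN, eventually_ge_atTop n₂] with n h1 h2
      have h3 := hd n h2
      have h4 := u6d_dim P hZ h2
      have h5 : Module.finrank k (u6dS v Z n) ≤ Module.finrank k (subLat E W n) := by
        have := hEW.fin n
        exact Submodule.finrank_mono (hSle n)
      rw [← h1]
      have h6 : (d n : ℚ) ≤ Module.finrank k (subLat E W n) + ∑ j, (adim (n - c' j) : ℚ) := by
        exact_mod_cast h4.trans (Nat.add_le_add_right h5 _)
      linarith only [h3, h6]
    have hN2 : (w : ℤ) ≤ N' := by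
      have h1 : ∀ᶠ n : ℤ in atTop, 0 ≤ (((N' : ℚ) - w) / 2) * (n : ℚ) ^ 2 +
          (((N' : ℚ) - w) * (3 / 2) + e' - f) * n + ((N' : ℚ) - w + e' - f + g' - g₀) := by
        filter_upwards [key] with n hn
        unfold hp at hn
        push_cast at hn
        linarith only [hn]
      have h2 := b4_quad h1
      have h3 : (w : ℚ) ≤ N' := by linarith only [h2]
      exact_mod_cast h3
    have hNw : N' = w := le_antisymm hN1 hN2
    refine ⟨hNw, ?_⟩
    have h1 : ∀ᶠ n : ℤ in atTop, 0 ≤ ((e' : ℚ) - f) * (n : ℚ) + (e' - f + g' - g₀) := by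
      filter_upwards [key] with n hn
      rw [hNw] at hn
      unfold hp at hn
      push_cast at hn
      linarith
    have h2 := b4_lin h1
    have h3 : (f : ℚ) ≤ e' := by linarith only [h2]
    exact_mod_cast h3

end Vale.Agent.P190.D
end
end

section

section

/-! Section 4, file P4e: fibre dimension at least `r/2`. -/

set_option autoImplicit false
set_option linter.unusedSectionVars false

open MvPolynomial Filter

namespace Vale.Agent.P190.D

variable {k : Type} [Field k] [IsAlgClosed k] {X : Arr k}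
  {r : ℕ} {Γ : (Fin r → X.L) →ₗ[X.L] (Fin r → X.L)} {E : ℤ → Submodule k (Fin r → X.L)}

theorem P4e_gama_apply (b₀ : X.I) (ε : X.S → Bool) (v : Fin r → X.L) :
    gama Γ b₀ ε v = (X.σ b₀ ^ X.w)⁻¹ • gam Γ ε v := by
  unfold gama gam
  rw [LinearMap.smul_apply, mul_smul]

/-- the polynomial in `τ` of `γ_ε γ_ε'` -/
noncomputable def P4e_G (X : Arr k) (ε ε' : X.S → Bool) (t : X.S) : MvPolynomial X.I k :=
  if ε t = ε' t then
    (if ε t then C (X.δ t) * MvPolynomial.X (X.d t) + C (X.η t) * MvPolynomial.X (X.h t)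
      else C (X.δ t) * MvPolynomial.X (X.d t) - C (X.η t) * MvPolynomial.X (X.h t))
  else C (X.ν t) * MvPolynomial.X (X.v t)

theorem P4e_aeval_G (b₀ : X.I) (ε ε' : X.S → Bool) (t : X.S) :
    aeval (tau b₀) (P4e_G X ε ε' t) = (if ε t = ε' t then X.a t (ε t) else
      X.ν t • X.σ (X.v t)) * (X.σ b₀)⁻¹ := by
  have hC : ∀ (c : k) (a : X.I), aeval (tau b₀) (C c * MvPolynomial.X a) =
      (c • X.σ a) * (X.σ b₀)⁻¹ := by
    intro c a
    rw [map_mul, aeval_C, aeval_X, tau, ← Algebra.smul_def, div_eq_mul_inv, smul_mul_assoc]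
  unfold P4e_G Arr.a
  split_ifs
  · rw [map_add, hC, hC, add_mul]
  · rw [map_sub, hC, hC, sub_mul]
  · rw [hC]

theorem P4e_gama_gama (hΓ : IsTSp Γ) (b₀ : X.I) (ε ε' : X.S → Bool) (v : Fin r → X.L) :
    gama Γ b₀ ε (gama Γ b₀ ε' v) = aeval (tau b₀) (∏ t, P4e_G X ε ε' t) • v := by
  have h1 : gam Γ ε ((X.σ b₀ ^ X.w)⁻¹ • gam Γ ε' v) =
      (X.σ b₀ ^ X.w)⁻¹ • gam Γ ε (gam Γ ε' v) := by
    unfold gam
    rw [map_smul, smul_comm]
  rw [P4e_gama_apply, P4e_gama_apply, h1, gam_gam hΓ, smul_smul, smul_smul]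
  congr 1
  rw [map_prod]
  simp only [P4e_aeval_G, Finset.prod_mul_distrib, Finset.prod_const, Finset.card_univ]
  have h2 : Fintype.card X.S = X.w + X.w := by
    obtain ⟨c, hc⟩ := X.even
    unfold Arr.w
    omega
  rw [h2, Arr.mm, ← inv_pow, pow_add]
  ring

theorem P4e_eval_G {t : X.S} {ξ : X.I → k} (h0 : ∀ a ∈ X.tri t, ξ a = 0)
    (ε ε' : X.S → Bool) : eval ξ (∏ t, P4e_G X ε ε' t) = 0 := by
  rw [map_prod]
  refine Finset.prod_eq_zero (Finset.mem_univ t) ?_
  have hv : ξ (X.v t) = 0 := h0 _ (by simp [Arr.tri])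
  have hh : ξ (X.h t) = 0 := h0 _ (by simp [Arr.tri])
  have hd : ξ (X.d t) = 0 := h0 _ (by simp [Arr.tri])
  unfold P4e_G
  split_ifs <;> simp [hv, hh, hd]

/-- vectors spanning the fibre at a node generate the T-space -/
theorem P4e_span_top (hΓ : IsTSp Γ) (hE : IsTLat Γ E) (hsp : SpansL (X := X) E) {t : X.S}
    {b₀ : X.I} (hb : b₀ ∉ X.tri t) {ξ : X.I → k} (hξ : IsNode X t b₀ ξ) {n : ℕ}
    (e : Fin n → (Fin r → X.L)) (heM : ∀ i, e i ∈ affM E b₀)
    (hMle : affM E b₀ ≤ Submodule.span k (Set.range e) ⊔ Kxi Γ E b₀ ξ) :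
    Submodule.span X.L (Set.range (Sum.elim e fun i => Γ (e i))) = ⊤ := by
  classical
  obtain ⟨S, hS, hgen⟩ := fg_affM hE.toIsBLat hE.sigStable b₀
  set U : Submodule X.L (Fin r → X.L) :=
    Submodule.span X.L (Set.range (Sum.elim e fun j => Γ (e j))) with hU
  have heU : ∀ j, e j ∈ U := fun j => Submodule.subset_span ⟨Sum.inl j, rfl⟩
  have heΓ : ∀ j, Γ (e j) ∈ U := fun j => Submodule.subset_span ⟨Sum.inr j, rfl⟩
  -- the submodule `M' + m_ξ M`
  let D : Submodule k (Fin r → X.L) :=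
    { carrier := {v | ∃ u ∈ U, ∃ F : (Fin r → X.L) → MvPolynomial X.I k,
        (∀ g, eval ξ (F g) = 0) ∧ v = u + ∑ g ∈ S, aeval (tau b₀) (F g) • g}
      add_mem' := by
        rintro _ _ ⟨u, hu, F, hF, rfl⟩ ⟨u', hu', F', hF', rfl⟩
        refine ⟨u + u', add_mem hu hu', fun g => F g + F' g, fun g => ?_, ?_⟩
        · rw [map_add, hF, hF', add_zero]
        · simp only [map_add, add_smul, Finset.sum_add_distrib]
          abel
      zero_mem' := ⟨0, zero_mem _, 0, fun g => by simp, by simp only [Pi.zero_apply, map_zero, zero_smul, Finset.sum_const_zero, add_zero]⟩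
      smul_mem' := by
        rintro c _ ⟨u, hu, F, hF, rfl⟩
        refine ⟨c • u, ?_, fun g => C c * F g, fun g => ?_, ?_⟩
        · rw [← algebraMap_smul X.L c u]
          exact U.smul_mem _ hu
        · rw [map_mul, hF, mul_zero]
        · rw [smul_add, Finset.smul_sum]
          congr 1
          refine Finset.sum_congr rfl fun g _ => ?_
          rw [map_mul, aeval_C, mul_smul, algebraMap_smul] }
  have hUD : ∀ u ∈ U, u ∈ D := fun u hu => ⟨u, hu, 0, fun g => by simp, by simp only [Pi.zero_apply, map_zero, zero_smul, Finset.sum_const_zero, add_zero]⟩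
  have hGD : ∀ G : MvPolynomial X.I k, eval ξ G = 0 → ∀ m ∈ affM E b₀,
      aeval (tau b₀) G • m ∈ D := by
    intro G hG m hm
    obtain ⟨F, hF⟩ := hgen m hm
    refine ⟨0, zero_mem _, fun g => G * F g, fun g => ?_, ?_⟩
    · rw [map_mul, hG, zero_mul]
    · rw [hF, zero_add, Finset.smul_sum]
      refine Finset.sum_congr rfl fun g _ => ?_
      rw [map_mul, mul_smul]
  have htau : ∀ a, ∀ m ∈ affM E b₀, mulLL (tau b₀ a - algebraMap k X.L (ξ a)) m ∈ D := by
    intro a m hm
    have h1 := hGD (MvPolynomial.X a - C (ξ a)) (by simp) m hm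
    rw [map_sub, aeval_X, aeval_C] at h1
    rw [mulLL_apply]
    exact h1
  have hWU : ∀ w ∈ Submodule.span k (Set.range e), w ∈ U ∧ ∀ ε, gama Γ b₀ ε w ∈ U := by
    intro w hw
    refine Submodule.span_induction (p := fun w _ => w ∈ U ∧ ∀ ε, gama Γ b₀ ε w ∈ U)
      ?_ ?_ ?_ ?_ hw
    · rintro _ ⟨j, rfl⟩
      refine ⟨heU j, fun ε => ?_⟩
      unfold gama
      rw [LinearMap.smul_apply]
      exact U.smul_mem _ (heΓ j)
    · exact ⟨zero_mem _, fun ε => by rw [map_zero]; exact zero_mem _⟩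
    · rintro x y _ _ ⟨hx, hx'⟩ ⟨hy, hy'⟩
      exact ⟨add_mem hx hy, fun ε => by rw [map_add]; exact add_mem (hx' ε) (hy' ε)⟩
    · rintro c x _ ⟨hx, hx'⟩
      refine ⟨?_, fun ε => ?_⟩
      · rw [← algebraMap_smul X.L c x]
        exact U.smul_mem _ hx
      · rw [← algebraMap_smul X.L c x, map_smul]
        exact U.smul_mem _ (hx' ε)
  have hgamD : ∀ ε, ∀ m ∈ affM E b₀, gama Γ b₀ ε m ∈ D := by
    intro ε m hm
    have hle : Submodule.span k (Set.range e) ⊔ Kxi Γ E b₀ ξ ≤
        D.comap ((gama Γ b₀ ε).restrictScalars k) := by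
      refine sup_le (fun w hw => hUD _ ((hWU w hw).2 ε)) (sup_le (iSup_le fun a => ?_)
        (iSup_le fun ε' => ?_))
      · rintro _ ⟨m', hm', rfl⟩
        show gama Γ b₀ ε (mulLL _ m') ∈ D
        rw [mulLL_apply, map_smul, ← mulLL_apply]
        exact htau a _ (gama_affM hE ε hm')
      · rintro _ ⟨m', hm', rfl⟩
        show gama Γ b₀ ε (gama Γ b₀ ε' m') ∈ D
        rw [P4e_gama_gama hΓ]
        exact hGD _ (P4e_eval_G hξ.zero ε ε') _ hm'
    exact hle (hMle hm)
  have hMD : affM E b₀ ≤ D := by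
    refine hMle.trans (sup_le (fun w hw => hUD _ (hWU w hw).1) (sup_le (iSup_le fun a => ?_)
        (iSup_le fun ε' => ?_)))
    · rintro _ ⟨m', hm', rfl⟩
      exact htau a _ hm'
    · rintro _ ⟨m', hm', rfl⟩
      exact hgamD ε' _ hm'
  -- Nakayama
  have hSD : ∀ g : S, ∃ u ∈ U, ∃ F : (Fin r → X.L) → MvPolynomial X.I k,
      (∀ g, eval ξ (F g) = 0) ∧ (g : Fin r → X.L) = u + ∑ g ∈ S, aeval (tau b₀) (F g) • g :=
    fun g => hMD (hS g g.2)
  choose u hu F hF hFg using hSD
  let B : Matrix S S (MvPolynomial X.I k) :=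
    1 - (Matrix.of fun g g' : S => F g (g' : Fin r → X.L) : Matrix S S (MvPolynomial X.I k))
  have hBev : (B.map (eval ξ)) = 1 := by
    ext g g'
    simp only [B, Matrix.map_apply, Matrix.sub_apply, Matrix.of_apply, map_sub, hF, sub_zero,
      Matrix.one_apply]
    split_ifs <;> simp
  have hdet1 : eval ξ B.det = 1 := by
    rw [RingHom.map_det]
    have : (eval ξ).mapMatrix B = 1 := hBev
    rw [this, Matrix.det_one]
  have hdet2 : aeval (tau b₀) B.det ≠ 0 := by
    intro h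
    have := eval_node hξ B.det h
    rw [hdet1] at this
    exact one_ne_zero this
  have hdet3 : aeval (tau b₀) B.det = ((aeval (tau b₀) : _ →ₐ[k] X.L).mapMatrix B).det := by
    rw [AlgHom.map_det]
  set B' := (aeval (tau b₀) : _ →ₐ[k] X.L).mapMatrix B with hB'
  have hB'u : ∀ g, ∑ g' : S, B' g g' • (g' : Fin r → X.L) = u g := by
    intro g
    have h1 : ∀ g' : S, B' g g' = (if g = g' then 1 else 0) - aeval (tau b₀) (F g g') := by
      intro g'
      simp only [hB', B, AlgHom.mapMatrix_apply, Matrix.map_apply, Matrix.sub_apply,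
        Matrix.of_apply, map_sub, Matrix.one_apply]
      split_ifs <;> simp
    simp only [h1, sub_smul, Finset.sum_sub_distrib, ite_smul, one_smul, zero_smul,
      Finset.sum_ite_eq, Finset.mem_univ, if_true]
    have h2 := hFg g
    have h3 : ∑ g' : S, aeval (tau b₀) (F g (g' : Fin r → X.L)) • (g' : Fin r → X.L) =
        ∑ g' ∈ S, aeval (tau b₀) (F g g') • g' :=
      Finset.sum_coe_sort S (fun g' => aeval (tau b₀) (F g g') • g')
    rw [h3]
    rw [sub_eq_iff_eq_add]
    exact h2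
  have hSU : ∀ g : S, (g : Fin r → X.L) ∈ U := by
    intro g
    have h1 : B'.det • (g : Fin r → X.L) = ∑ m, B'.adjugate g m • u m := by
      have h2 : ∀ g', (B'.adjugate * B') g g' = if g = g' then B'.det else 0 := by
        intro g'
        rw [Matrix.adjugate_mul, Matrix.smul_apply, Matrix.one_apply]
        split_ifs <;> simp
      have h3 : ∑ g' : S, (B'.adjugate * B') g g' • (g' : Fin r → X.L) =
          B'.det • (g : Fin r → X.L) := by
        simp only [h2, ite_smul, zero_smul, Finset.sum_ite_eq, Finset.mem_univ, if_true]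
      rw [← h3]
      simp only [Matrix.mul_apply, Finset.sum_smul, mul_smul]
      rw [Finset.sum_comm]
      refine Finset.sum_congr rfl fun m _ => ?_
      rw [← Finset.smul_sum, hB'u]
    have h2 : (g : Fin r → X.L) = (B'.det)⁻¹ • (B'.det • (g : Fin r → X.L)) := by
      rw [smul_smul, inv_mul_cancel₀ (by rw [← hdet3]; exact hdet2), one_smul]
    rw [h2, h1]
    exact U.smul_mem _ (Submodule.sum_mem _ fun m _ => U.smul_mem _ (hu m))
  have hUtop : U = ⊤ := by
    rw [eq_top_iff, ← spansL_affM hsp b₀, Submodule.span_le]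
    intro v hv
    obtain ⟨F, hF⟩ := hgen v hv
    rw [hF]
    exact Submodule.sum_mem _ fun g hg => U.smul_mem _ (hSU ⟨g, hg⟩)
  exact hUtop

/-- 4.5a (ii): fibre dimension at least `r/2` -/
theorem rank_le_node (hΓ : IsTSp Γ) (hE : IsTLat Γ E) (hsp : SpansL (X := X) E) {t : X.S}
    {b₀ : X.I} (hb : b₀ ∉ X.tri t) {ξ : X.I → k} (hξ : IsNode X t b₀ ξ)
    (hfin : Module.Finite k ((affM E b₀).map (Kxi Γ E b₀ ξ).mkQ)) :
    r ≤ 2 * Module.finrank k ((affM E b₀).map (Kxi Γ E b₀ ξ).mkQ) := by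
  classical
  set n := Module.finrank k ((affM E b₀).map (Kxi Γ E b₀ ξ).mkQ) with hn
  let b := Module.finBasis k ((affM E b₀).map (Kxi Γ E b₀ ξ).mkQ)
  have hb' : ∀ j : Fin n, ∃ e ∈ affM E b₀, (Kxi Γ E b₀ ξ).mkQ e = b j := fun j =>
    Submodule.mem_map.1 (b j).2
  choose e heM heq using hb'
  have hMle : affM E b₀ ≤ Submodule.span k (Set.range e) ⊔ Kxi Γ E b₀ ξ := by
    intro v hv
    obtain ⟨c, hc⟩ : ∃ c : Fin n → k, ∑ j, c j • (b j : (Fin r → X.L) ⧸ Kxi Γ E b₀ ξ) =
        (Kxi Γ E b₀ ξ).mkQ v := by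
      have h1 : (Kxi Γ E b₀ ξ).mkQ v ∈ (affM E b₀).map (Kxi Γ E b₀ ξ).mkQ :=
        Submodule.mem_map_of_mem hv
      have h2 := b.sum_repr ⟨_, h1⟩
      have h3 := congrArg Subtype.val h2
      simp only [Submodule.coe_sum, Submodule.coe_smul] at h3
      exact ⟨_, h3⟩
    have h4 : (Kxi Γ E b₀ ξ).mkQ (∑ j, c j • e j) = (Kxi Γ E b₀ ξ).mkQ v := by
      rw [map_sum, ← hc]
      refine Finset.sum_congr rfl fun j _ => ?_
      rw [map_smul, heq]
    have h5 : v - ∑ j, c j • e j ∈ Kxi Γ E b₀ ξ := by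
      rw [← Submodule.Quotient.mk_eq_zero, ← Submodule.mkQ_apply, map_sub, h4, sub_self]
    have h6 : v = (∑ j, c j • e j) + (v - ∑ j, c j • e j) := by
      abel
    rw [h6]
    exact Submodule.add_mem_sup (Submodule.sum_mem _ fun j _ =>
      Submodule.smul_mem _ _ (Submodule.subset_span ⟨j, rfl⟩)) h5
  have hUtop := P4e_span_top hΓ hE hsp hb hξ e heM hMle
  have h1 : Module.finrank X.L (Submodule.span X.L (Set.range (Sum.elim e fun j => Γ (e j)))) ≤
      Fintype.card (Fin n ⊕ Fin n) :=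
    finrank_range_le_card (R := X.L) (Sum.elim e fun j => Γ (e j))
  rw [hUtop, finrank_top, Module.finrank_fin_fun, Fintype.card_sum, Fintype.card_fin] at h1
  omega

end Vale.Agent.P190.D
end
end

section

section

/-! Section 4, file P4f, auxiliary: the data at a node. -/

set_option autoImplicit false
set_option linter.unusedSectionVars false

open MvPolynomial Filter

namespace Vale.Agent.P190.D

variable {k : Type} [Field k] [IsAlgClosed k] {X : Arr k} {r : ℕ}
  {Γ : (Fin r → X.L) →ₗ[X.L] (Fin r → X.L)} {E : ℤ → Submodule k (Fin r → X.L)}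

/-- `α`, `β` -/
noncomputable def P4f_al (b₀ : X.I) (t : X.S) (s : Bool) : X.L := X.a t s / X.σ b₀

lemma P4f_al_true (b₀ : X.I) (t : X.S) :
    P4f_al b₀ t true = X.δ t • tau b₀ (X.d t) + X.η t • tau b₀ (X.h t) := by
  unfold P4f_al Arr.a tau
  rw [if_pos rfl, add_div, smul_div_assoc, smul_div_assoc]

lemma P4f_al_false (b₀ : X.I) (t : X.S) :
    P4f_al b₀ t false = X.δ t • tau b₀ (X.d t) - X.η t • tau b₀ (X.h t) := by
  unfold P4f_al Arr.a tau
  rw [if_neg (by decide), sub_div, smul_div_assoc, smul_div_assoc]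

lemma P4f_al_mul (b₀ : X.I) (t : X.S) :
    P4f_al b₀ t true * P4f_al b₀ t false = (X.ν t • tau b₀ (X.v t)) ^ 2 := by
  unfold P4f_al tau
  rw [div_mul_div_comm, X.a_mul_a, ← smul_div_assoc, div_pow, pow_two (X.σ b₀)]

lemma P4f_al_ne (b₀ : X.I) (t : X.S) (s : Bool) : P4f_al b₀ t s ≠ 0 :=
  div_ne_zero (X.a_ne_zero t s) (X.σ_ne_zero b₀)

lemma P4f_al_mem (b₀ : X.I) (t : X.S) (s : Bool) (S : Submodule k X.L)
    (hd : tau b₀ (X.d t) ∈ S) (hh : tau b₀ (X.h t) ∈ S) : P4f_al b₀ t s ∈ S := by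
  cases s
  · rw [P4f_al_false]
    exact S.sub_mem (S.smul_mem _ hd) (S.smul_mem _ hh)
  · rw [P4f_al_true]
    exact S.add_mem (S.smul_mem _ hd) (S.smul_mem _ hh)

/-- the coefficient of `γ_ε` -/
noncomputable def P4f_c (b₀ : X.I) (ε : X.S → Bool) : X.L :=
  (X.σ b₀ ^ X.w)⁻¹ * (X.pie ε / X.PI)

lemma P4f_gama (b₀ : X.I) (ε : X.S → Bool) (v : Fin r → X.L) :
    gama Γ b₀ ε v = P4f_c b₀ ε • Γ v := rfl

/-- the factors of `γ_ε γ_ε'` -/
noncomputable def P4f_fac (b₀ : X.I) (ε ε' : X.S → Bool) (t : X.S) : X.L :=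
  if ε t = ε' t then P4f_al b₀ t (ε t) else X.ν t • tau b₀ (X.v t)

lemma P4f_fac_mem (b₀ : X.I) (ε ε' : X.S → Bool) (t : X.S) (S : Submodule k X.L)
    (h : ∀ a, tau b₀ a ∈ S) : P4f_fac b₀ ε ε' t ∈ S := by
  unfold P4f_fac
  split_ifs
  · exact P4f_al_mem _ _ _ _ (h _) (h _)
  · exact S.smul_mem _ (h _)

lemma P4f_cc (b₀ : X.I) (ε ε' : X.S → Bool) :
    P4f_c b₀ ε * P4f_c b₀ ε' * X.PI = ∏ t, P4f_fac b₀ ε ε' t := by
  have h1 : X.pie ε * X.pie ε' =
      X.PI * ∏ t, if ε t = ε' t then X.a t (ε t) else X.ν t • X.σ (X.v t) := by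
    unfold Arr.pie Arr.PI
    rw [← Finset.prod_mul_distrib, ← Finset.prod_mul_distrib]
    refine Finset.prod_congr rfl fun t _ => ?_
    rcases h : ε t <;> rcases h' : ε' t
    · simp only [Bool.false_eq_true, if_false, if_true]
      rw [X.a_mul_a, pow_two]
    · simp [mul_comm]
    · simp
    · simp
  have h2 : ∏ t, P4f_fac b₀ ε ε' t =
      (∏ t, if ε t = ε' t then X.a t (ε t) else X.ν t • X.σ (X.v t)) /
        (X.σ b₀ ^ X.w * X.σ b₀ ^ X.w) := by
    have h3 : X.σ b₀ ^ X.w * X.σ b₀ ^ X.w = ∏ _t : X.S, X.σ b₀ := by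
      rw [Finset.prod_const, Finset.card_univ, ← X.two_w, ← pow_add, two_mul]
    rw [h3, ← Finset.prod_div_distrib]
    refine Finset.prod_congr rfl fun t _ => ?_
    unfold P4f_fac P4f_al tau
    split_ifs
    · rfl
    · rw [smul_div_assoc]
  rw [h2]
  unfold P4f_c
  have hp := X.PI_ne_zero
  have hs : X.σ b₀ ^ X.w ≠ 0 := pow_ne_zero _ (X.σ_ne_zero b₀)
  generalize (∏ t, if ε t = ε' t then X.a t (ε t) else X.ν t • X.σ (X.v t)) = Q at h1 ⊢
  rw [eq_div_iff (mul_ne_zero hs hs)]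
  have e1 : (X.σ b₀ ^ X.w)⁻¹ * (X.pie ε / X.PI) * ((X.σ b₀ ^ X.w)⁻¹ * (X.pie ε' / X.PI)) * X.PI *
      (X.σ b₀ ^ X.w * X.σ b₀ ^ X.w) = (X.pie ε * X.pie ε') * X.PI⁻¹ * (X.PI * X.PI⁻¹) *
        (X.σ b₀ ^ X.w * (X.σ b₀ ^ X.w)⁻¹) * (X.σ b₀ ^ X.w * (X.σ b₀ ^ X.w)⁻¹) := by
    rw [div_eq_mul_inv, div_eq_mul_inv]
    ring
  rw [e1, h1, mul_inv_cancel₀ hp, mul_inv_cancel₀ hs, mul_comm X.PI, mul_assoc Q,
    mul_inv_cancel₀ hp]
  ring

lemma P4f_cc' (b₀ : X.I) (ε ε' : X.S → Bool) (t : X.S) :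
    P4f_c b₀ ε * P4f_c b₀ ε' * X.PI =
      P4f_fac b₀ ε ε' t * ∏ t' ∈ Finset.univ.erase t, P4f_fac b₀ ε ε' t' := by
  rw [P4f_cc, Finset.mul_prod_erase _ _ (Finset.mem_univ t)]

/-! ### polynomials in `τ` modulo `K` on the component of a node -/

/-- `F ≡ c + c₁ τ_v` on the component of the node -/
def P4f_Q (M K : Submodule k (Fin r → X.L)) (e τ F : X.L) (c : k) : Prop :=
  F ∈ P4f_st M ∧ ∃ c₁ : k, (F - algebraMap k X.L c - algebraMap k X.L c₁ * τ) * e ∈ P4f_tr M K

section Q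

variable {M K : Submodule k (Fin r → X.L)} {e τ : X.L}

lemma P4f_Q_add {F G : X.L} {c d : k} (hF : P4f_Q M K e τ F c) (hG : P4f_Q M K e τ G d) :
    P4f_Q M K e τ (F + G) (c + d) := by
  obtain ⟨hF, c₁, h1⟩ := hF
  obtain ⟨hG, d₁, h2⟩ := hG
  refine ⟨Subalgebra.add_mem _ hF hG, c₁ + d₁, ?_⟩
  convert Submodule.add_mem _ h1 h2 using 1
  rw [map_add, map_add]
  ring

lemma P4f_Q_smul {F : X.L} {c : k} (d : k) (hF : P4f_Q M K e τ F c) :
    P4f_Q M K e τ (d • F) (d * c) := by
  obtain ⟨hF, c₁, h1⟩ := hF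
  refine ⟨Subalgebra.smul_mem _ hF d, d * c₁, ?_⟩
  convert Submodule.smul_mem _ d h1 using 1
  rw [map_mul, map_mul, Algebra.smul_def, Algebra.smul_def]
  ring

lemma P4f_Q_sub {F G : X.L} {c d : k} (hF : P4f_Q M K e τ F c) (hG : P4f_Q M K e τ G d) :
    P4f_Q M K e τ (F - G) (c - d) := by
  have h := P4f_Q_add hF (P4f_Q_smul (-1) hG)
  rwa [neg_one_smul, neg_one_mul, ← sub_eq_add_neg, ← sub_eq_add_neg] at h

lemma P4f_Q_mul (he : e ∈ P4f_st M) (hτ : τ ∈ P4f_st M) (hτ2 : τ ^ 2 ∈ P4f_tr M K)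
    {F G : X.L} {c d : k}
    (hF : P4f_Q M K e τ F c) (hG : P4f_Q M K e τ G d) : P4f_Q M K e τ (F * G) (c * d) := by
  obtain ⟨hF, c₁, h1⟩ := hF
  obtain ⟨hG, d₁, h2⟩ := hG
  refine ⟨Subalgebra.mul_mem _ hF hG, c * d₁ + d * c₁, ?_⟩
  have h3 := P4f_tr_mul h1 hG
  have h4 := P4f_tr_mul h2 (Subalgebra.add_mem _ (Subalgebra.algebraMap_mem _ c)
    (Subalgebra.mul_mem _ (Subalgebra.algebraMap_mem _ c₁) hτ) :
      algebraMap k X.L c + algebraMap k X.L c₁ * τ ∈ P4f_st M)
  have h5 := P4f_tr_mul hτ2 (Subalgebra.mul_mem _ (Subalgebra.algebraMap_mem _ (c₁ * d₁)) he)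
  convert Submodule.add_mem _ (Submodule.add_mem _ h3 h4) h5 using 1
  simp only [map_mul, map_add]
  ring

lemma P4f_Q_one : P4f_Q M K e τ 1 1 :=
  ⟨Subalgebra.one_mem _, 0, by
    rw [map_one, map_zero, zero_mul, sub_zero, sub_self, zero_mul]; exact Submodule.zero_mem _⟩

lemma P4f_Q_prod (he : e ∈ P4f_st M) (hτ : τ ∈ P4f_st M) (hτ2 : τ ^ 2 ∈ P4f_tr M K)
    {ι : Type} (s : Finset ι) (F : ι → X.L) (c : ι → k)
    (h : ∀ i ∈ s, P4f_Q M K e τ (F i) (c i)) :
    P4f_Q M K e τ (∏ i ∈ s, F i) (∏ i ∈ s, c i) := by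
  classical
  induction s using Finset.induction_on with
  | empty => rw [Finset.prod_empty, Finset.prod_empty]; exact P4f_Q_one
  | insert a s ha ih =>
    rw [Finset.prod_insert ha, Finset.prod_insert ha]
    exact P4f_Q_mul he hτ hτ2 (h a (Finset.mem_insert_self _ _))
      (ih fun i hi => h i (Finset.mem_insert_of_mem hi))

lemma P4f_Q_inv (he : e ∈ P4f_st M) (hτ : τ ∈ P4f_st M) (hτ2 : τ ^ 2 ∈ P4f_tr M K) {F : X.L}
    {c : k} (hF : P4f_Q M K e τ F c) (hc : c ≠ 0) :
    ∃ G ∈ P4f_st M, (F * G - 1) * e ∈ P4f_tr M K := by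
  obtain ⟨hF, c₁, h1⟩ := hF
  have hG : algebraMap k X.L c⁻¹ - algebraMap k X.L (c₁ * (c⁻¹ * c⁻¹)) * τ ∈ P4f_st M :=
    Subalgebra.sub_mem _ (Subalgebra.algebraMap_mem _ _)
      (Subalgebra.mul_mem _ (Subalgebra.algebraMap_mem _ _) hτ)
  refine ⟨_, hG, ?_⟩
  have h2 := P4f_tr_mul h1 hG
  have h3 := P4f_tr_mul hτ2 (Subalgebra.mul_mem _ (Subalgebra.algebraMap_mem _
    (c₁ * c₁ * (c⁻¹ * c⁻¹))) he)
  convert Submodule.sub_mem _ h2 h3 using 1
  have h4 : algebraMap k X.L c * algebraMap k X.L c⁻¹ = 1 := by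
    rw [← map_mul, mul_inv_cancel₀ hc, map_one]
  simp only [map_mul]
  linear_combination (e - (algebraMap k X.L c₁ * algebraMap k X.L c⁻¹ * τ) * e) * h4

end Q

/-! ### the affine lattice -/

lemma P4f_tau_st (hE : IsTLat Γ E) (b₀ a : X.I) : tau b₀ a ∈ P4f_st (affM E b₀) :=
  fun _ hv => tau_affM hE.toIsBLat hE.sigStable hv

lemma P4f_mem_K {b₀ : X.I} {t : X.S} {v : Fin r → X.L} : v ∈ Knode E b₀ t ↔
    ∃ x ∈ affM E b₀, ∃ y ∈ affM E b₀, tau b₀ (X.h t) • x + tau b₀ (X.d t) • y = v := by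
  unfold Knode
  rw [Submodule.mem_sup]
  constructor
  · rintro ⟨_, ⟨x, hx, rfl⟩, _, ⟨y, hy, rfl⟩, rfl⟩
    exact ⟨x, hx, y, hy, rfl⟩
  · rintro ⟨x, hx, y, hy, rfl⟩
    exact ⟨_, ⟨x, hx, rfl⟩, _, ⟨y, hy, rfl⟩, rfl⟩

lemma P4f_K_le (hE : IsTLat Γ E) (b₀ : X.I) (t : X.S) : Knode E b₀ t ≤ affM E b₀ := by
  intro v hv
  obtain ⟨x, hx, y, hy, rfl⟩ := P4f_mem_K.1 hv
  exact Submodule.add_mem _ (P4f_tau_st hE b₀ _ _ hx) (P4f_tau_st hE b₀ _ _ hy)

lemma P4f_h_tr (b₀ : X.I) (t : X.S) :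
    tau b₀ (X.h t) ∈ P4f_tr (affM E b₀) (Knode E b₀ t) := fun v hv =>
  P4f_mem_K.2 ⟨v, hv, 0, Submodule.zero_mem _, by rw [smul_zero, add_zero]⟩

lemma P4f_d_tr (b₀ : X.I) (t : X.S) :
    tau b₀ (X.d t) ∈ P4f_tr (affM E b₀) (Knode E b₀ t) := fun v hv =>
  P4f_mem_K.2 ⟨0, Submodule.zero_mem _, v, hv, by rw [smul_zero, zero_add]⟩

lemma P4f_al_tr (b₀ : X.I) (t : X.S) (s : Bool) :
    P4f_al b₀ t s ∈ P4f_tr (affM E b₀) (Knode E b₀ t) :=
  P4f_al_mem b₀ t s _ (P4f_d_tr b₀ t) (P4f_h_tr b₀ t)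

lemma P4f_v_tr (hE : IsTLat Γ E) (b₀ : X.I) (t : X.S) :
    tau b₀ (X.v t) ^ 2 ∈ P4f_tr (affM E b₀) (Knode E b₀ t) := by
  have h1 := P4f_tr_mul (P4f_al_tr (E := E) b₀ t true) (P4f_al_mem b₀ t false
    (P4f_st (affM E b₀)).toSubmodule (P4f_tau_st hE b₀ _) (P4f_tau_st hE b₀ _))
  rw [P4f_al_mul, smul_pow] at h1
  have h2 := Submodule.smul_mem _ (X.ν t ^ 2)⁻¹ h1
  rwa [smul_smul, inv_mul_cancel₀ (pow_ne_zero 2 (X.ν_ne t)), one_smul] at h2

lemma P4f_hK (b₀ : X.I) (t : X.S) (v : Fin r → X.L) (hv : v ∈ Knode E b₀ t) :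
    ∃ x ∈ affM E b₀, ∃ y ∈ affM E b₀, v = P4f_al b₀ t true • x + P4f_al b₀ t false • y := by
  obtain ⟨x, hx, y, hy, rfl⟩ := P4f_mem_K.1 hv
  have h2 : (2 : k) ≠ 0 := X.two_ne
  have hδ := X.δ_ne t
  have hη := X.η_ne t
  refine ⟨(2 * X.η t)⁻¹ • x + (2 * X.δ t)⁻¹ • y, Submodule.add_mem _
    (Submodule.smul_mem _ _ hx) (Submodule.smul_mem _ _ hy),
    -((2 * X.η t)⁻¹ • x) + (2 * X.δ t)⁻¹ • y, Submodule.add_mem _
    (Submodule.neg_mem _ (Submodule.smul_mem _ _ hx)) (Submodule.smul_mem _ _ hy), ?_⟩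
  rw [P4f_al_true, P4f_al_false]
  have e1 : algebraMap k X.L (X.η t) * algebraMap k X.L (2 * X.η t)⁻¹ * 2 = 1 := by
    rw [← map_mul, ← map_ofNat (algebraMap k X.L) 2, ← map_mul, ← map_one (algebraMap k X.L)]
    congr 1
    field_simp
  have e2 : algebraMap k X.L (X.δ t) * algebraMap k X.L (2 * X.δ t)⁻¹ * 2 = 1 := by
    rw [← map_mul, ← map_ofNat (algebraMap k X.L) 2, ← map_mul, ← map_one (algebraMap k X.L)]
    congr 1
    field_simp
  funext i
  simp only [Pi.add_apply, Pi.smul_apply, Pi.neg_apply, smul_eq_mul]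
  simp only [Algebra.smul_def]
  linear_combination (-(tau b₀ (X.h t) * x i)) * e1 - (tau b₀ (X.d t) * y i) * e2

lemma P4f_sat (hE : IsTLat Γ E) (h2 : IsS2 E) (b₀ : X.I) (t : X.S) (v : Fin r → X.L)
    (h : P4f_al b₀ t true • v ∈ affM E b₀) (h' : P4f_al b₀ t false • v ∈ affM E b₀) :
    v ∈ affM E b₀ := by
  have h2' : (2 : k) ≠ 0 := X.two_ne
  have hδ := X.δ_ne t
  have hη := X.η_ne t
  refine sat_affM hE.toIsBLat hE.sigStable h2 (X.hd t) (b₀ := b₀) ?_ ?_
  · have h3 := Submodule.smul_mem _ (2 * X.η t)⁻¹ (Submodule.sub_mem _ h h')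
    convert h3 using 1
    rw [P4f_al_true, P4f_al_false, ← sub_smul]
    have e1 : X.δ t • tau b₀ (X.d t) + X.η t • tau b₀ (X.h t) -
        (X.δ t • tau b₀ (X.d t) - X.η t • tau b₀ (X.h t)) =
        (2 * X.η t) • tau b₀ (X.h t) := by
      rw [mul_smul, two_smul]; abel
    rw [e1, smul_assoc, smul_smul, inv_mul_cancel₀ (mul_ne_zero h2' hη), one_smul]
  · have h3 := Submodule.smul_mem _ (2 * X.δ t)⁻¹ (Submodule.add_mem _ h h')
    convert h3 using 1
    rw [P4f_al_true, P4f_al_false, ← add_smul]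
    have e1 : X.δ t • tau b₀ (X.d t) + X.η t • tau b₀ (X.h t) +
        (X.δ t • tau b₀ (X.d t) - X.η t • tau b₀ (X.h t)) =
        (2 * X.δ t) • tau b₀ (X.d t) := by
      rw [mul_smul, two_smul]; abel
    rw [e1, smul_assoc, smul_smul, inv_mul_cancel₀ (mul_ne_zero h2' hδ), one_smul]

lemma P4f_bij {c : X.L} (hc : c ≠ 0) :
    Function.Bijective fun v : Fin r → X.L => c • v := by
  constructor
  · intro v w h
    funext i
    exact mul_left_cancel₀ hc (congrFun h i)
  · intro v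
    refine ⟨fun i => c⁻¹ * v i, funext fun i => ?_⟩
    change c * (c⁻¹ * v i) = v i
    rw [← mul_assoc, mul_inv_cancel₀ hc, one_mul]

/-! ### the value of the factors at a node -/

/-- value of `α`, `β` at `ξ` -/
def P4f_ev (ξ : X.I → k) (t : X.S) (s : Bool) : k :=
  if s then X.δ t * ξ (X.d t) + X.η t * ξ (X.h t) else X.δ t * ξ (X.d t) - X.η t * ξ (X.h t)

lemma P4f_Q_tau (hE : IsTLat Γ E) {t : X.S} {b₀ : X.I} (hb : b₀ ∉ X.tri t) {ξ : X.I → k}
    (hξ : IsNode X t b₀ ξ) (a : X.I) :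
    P4f_Q (affM E b₀) (Knode E b₀ t) (P4f_e t b₀ ξ) (tau b₀ (X.v t)) (tau b₀ a) (ξ a) := by
  have hM := P4f_tau_st hE b₀
  have he := P4f_e_mem t b₀ ξ _ hM
  refine ⟨hM a, ?_⟩
  by_cases ha : a ∈ X.tri t
  · rw [hξ.zero a ha]
    simp only [Arr.tri, Set.mem_insert_iff, Set.mem_singleton_iff] at ha
    rcases ha with rfl | rfl | rfl
    · refine ⟨1, ?_⟩
      rw [map_zero, map_one, sub_zero, one_mul, sub_self, zero_mul]
      exact Submodule.zero_mem _
    · refine ⟨0, ?_⟩
      rw [map_zero, zero_mul, sub_zero, sub_zero]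
      exact P4f_tr_mul (P4f_h_tr b₀ t) he
    · refine ⟨0, ?_⟩
      rw [map_zero, zero_mul, sub_zero, sub_zero]
      exact P4f_tr_mul (P4f_d_tr b₀ t) he
  · refine ⟨0, ?_⟩
    rw [map_zero, zero_mul, sub_zero]
    exact P4f_tau_e hb hξ hM (P4f_h_tr b₀ t) (P4f_d_tr b₀ t) ha

lemma P4f_Q_al (hE : IsTLat Γ E) {t : X.S} {b₀ : X.I} (hb : b₀ ∉ X.tri t) {ξ : X.I → k}
    (hξ : IsNode X t b₀ ξ) (t' : X.S) (s : Bool) :
    P4f_Q (affM E b₀) (Knode E b₀ t) (P4f_e t b₀ ξ) (tau b₀ (X.v t)) (P4f_al b₀ t' s)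
      (P4f_ev ξ t' s) := by
  cases s
  · rw [P4f_al_false]
    unfold P4f_ev
    rw [if_neg (by decide)]
    exact P4f_Q_sub (P4f_Q_smul _ (P4f_Q_tau hE hb hξ _)) (P4f_Q_smul _ (P4f_Q_tau hE hb hξ _))
  · rw [P4f_al_true]
    unfold P4f_ev
    rw [if_pos rfl]
    exact P4f_Q_add (P4f_Q_smul _ (P4f_Q_tau hE hb hξ _)) (P4f_Q_smul _ (P4f_Q_tau hE hb hξ _))

lemma P4f_eps {t : X.S} {b₀ : X.I} {ξ : X.I → k} (hξ : IsNode X t b₀ ξ) :
    ∃ ε : X.S → Bool, ∀ t', t' ≠ t → P4f_ev ξ t' (ε t') ≠ 0 := by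
  have key : ∀ t', ∃ s : Bool, t' ≠ t → P4f_ev ξ t' s ≠ 0 := by
    intro t'
    by_contra hcon
    push Not at hcon
    obtain ⟨ht, h1⟩ := hcon true
    obtain ⟨-, h2⟩ := hcon false
    unfold P4f_ev at h1 h2
    rw [if_pos rfl] at h1
    rw [if_neg (by decide)] at h2
    have h3 : 2 * X.δ t' * ξ (X.d t') = 0 := by linear_combination h1 + h2
    have h4 : 2 * X.η t' * ξ (X.h t') = 0 := by linear_combination h1 - h2
    have h5 := (mul_eq_zero.1 h3).resolve_left (mul_ne_zero X.two_ne (X.δ_ne _))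
    have h6 := (mul_eq_zero.1 h4).resolve_left (mul_ne_zero X.two_ne (X.η_ne _))
    have m1 : X.d t' ∈ X.tri t := by
      by_contra h
      exact hξ.ne _ h h5
    have m2 : X.h t' ∈ X.tri t := by
      by_contra h
      exact hξ.ne _ h h6
    exact ht (X.share t t' (X.h t') (X.d t') (X.hd t') m2 m1 (P4d_h_tri t') (P4d_d_tri t')).symm
  choose ε hε using key
  exact ⟨ε, hε⟩

/-! ### the data at a node -/

theorem P4f_data (hΓ : IsTSp Γ) (hE : IsTLat Γ E) (h2 : IsS2 E) {t : X.S} {b₀ : X.I}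
    (hb : b₀ ∉ X.tri t) {ξ : X.I → k} (hξ : IsNode X t b₀ ξ) :
    ∃ (u u' τ : X.L) (ε₁ ε₀ : X.S → Bool),
      P4fD (affM E b₀) (Knode E b₀ t) (P4f_al b₀ t true) (P4f_al b₀ t false) u
        (P4f_e t b₀ ξ) u' τ (gama Γ b₀ ε₁) (gama Γ b₀ ε₀) ∧
      Kxi Γ E b₀ ξ ≤ P4fD.C (affM E b₀) (Knode E b₀ t) (P4f_e t b₀ ξ) (gama Γ b₀ ε₁)
        (gama Γ b₀ ε₀) := by
  classical
  obtain ⟨ε, hε⟩ := P4f_eps hξ
  have hM := P4f_tau_st hE b₀
  have he := P4f_e_mem t b₀ ξ _ hM
  have hh := P4f_h_tr (E := E) b₀ t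
  have hd := P4f_d_tr (E := E) b₀ t
  set ε₁ := Function.update ε t true with hε₁
  set ε₀ := Function.update ε t false with hε₀
  set u : X.L := ∏ t' ∈ Finset.univ.erase t, P4f_al b₀ t' (ε t') with hu
  have hQ := P4f_Q_prod he (hM (X.v t)) (P4f_v_tr hE b₀ t) (Finset.univ.erase t)
    (fun t' => P4f_al b₀ t' (ε t')) (fun t' => P4f_ev ξ t' (ε t'))
    (fun t' _ => P4f_Q_al hE hb hξ t' (ε t'))
  obtain ⟨u', hu', huu⟩ := P4f_Q_inv he (hM (X.v t)) (P4f_v_tr hE b₀ t) hQ
    (Finset.prod_ne_zero_iff.2 fun t' ht' => hε t' (Finset.ne_of_mem_erase ht'))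
  have huM : u ∈ P4f_st (affM E b₀) := hQ.1
  have hu0 : u ≠ 0 := Finset.prod_ne_zero_iff.2 fun t' _ => P4f_al_ne _ _ _
  have c11 : P4f_c b₀ ε₁ * P4f_c b₀ ε₁ * X.PI = P4f_al b₀ t true * u := by
    rw [P4f_cc' b₀ ε₁ ε₁ t]
    congr 1
    · unfold P4f_fac
      rw [if_pos rfl, hε₁, Function.update_self]
    · refine Finset.prod_congr rfl fun t' ht' => ?_
      unfold P4f_fac
      rw [if_pos rfl, hε₁, Function.update_of_ne (Finset.ne_of_mem_erase ht')]
  have c00 : P4f_c b₀ ε₀ * P4f_c b₀ ε₀ * X.PI = P4f_al b₀ t false * u := by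
    rw [P4f_cc' b₀ ε₀ ε₀ t]
    congr 1
    · unfold P4f_fac
      rw [if_pos rfl, hε₀, Function.update_self]
    · refine Finset.prod_congr rfl fun t' ht' => ?_
      unfold P4f_fac
      rw [if_pos rfl, hε₀, Function.update_of_ne (Finset.ne_of_mem_erase ht')]
  have c10 : P4f_c b₀ ε₁ * P4f_c b₀ ε₀ * X.PI = (X.ν t • tau b₀ (X.v t)) * u := by
    rw [P4f_cc' b₀ ε₁ ε₀ t]
    congr 1
    · unfold P4f_fac
      rw [if_neg]
      rw [hε₁, hε₀, Function.update_self, Function.update_self]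
      decide
    · refine Finset.prod_congr rfl fun t' ht' => ?_
      unfold P4f_fac
      rw [if_pos]
      · rw [hε₁, Function.update_of_ne (Finset.ne_of_mem_erase ht')]
      · rw [hε₁, hε₀, Function.update_of_ne (Finset.ne_of_mem_erase ht'),
          Function.update_of_ne (Finset.ne_of_mem_erase ht')]
  have D : P4fD (affM E b₀) (Knode E b₀ t) (P4f_al b₀ t true) (P4f_al b₀ t false) u
        (P4f_e t b₀ ξ) u' (X.ν t • tau b₀ (X.v t)) (gama Γ b₀ ε₁) (gama Γ b₀ ε₀) := by
    have hgg : ∀ (c c' : X.L) (v : Fin r → X.L), (c • Γ (c' • Γ v)) = (c * c' * X.PI) • v := by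
      intro c c' v
      rw [map_smul, hΓ, smul_smul, smul_smul]
    refine ⟨P4f_K_le hE b₀ t, P4f_al_tr b₀ t true, P4f_al_tr b₀ t false, P4f_hK b₀ t,
      P4f_bij (P4f_al_ne _ _ _), P4f_bij (P4f_al_ne _ _ _), P4f_bij hu0, huM, hu', he,
      Subalgebra.smul_mem _ (hM _) _, P4f_idem hb hξ hM hh hd, huu,
      fun v hv => gama_affM hE _ hv, fun v hv => gama_affM hE _ hv, fun v => ?_, fun v => ?_,
      fun v => ?_, fun v => ?_, P4f_sat hE h2 b₀ t⟩
    · rw [P4f_gama, P4f_gama, hgg, c11]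
    · rw [P4f_gama, P4f_gama, hgg, c00]
    · rw [P4f_gama, P4f_gama, hgg, c10]
    · rw [P4f_gama, P4f_gama, hgg, mul_comm (P4f_c b₀ ε₀), c10]
  refine ⟨u, u', _, ε₁, ε₀, D, ?_⟩
  unfold Kxi
  refine sup_le (iSup_le fun a => ?_) (iSup_le fun ε' => ?_)
  · rintro _ ⟨v, hv, rfl⟩
    rw [mulLL_apply]
    by_cases ha : a = X.v t
    · subst ha
      rw [hξ.zero _ (P4d_v_tri t), map_zero, sub_zero]
      have h1 := Submodule.smul_mem _ (X.ν t)⁻¹ (D.C_tau v hv)
      rwa [smul_assoc, smul_smul, inv_mul_cancel₀ (X.ν_ne t), one_smul] at h1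
    · refine P4fD.C_smul (fun w hw => ?_) v hv
      revert w
      change _ ∈ P4f_tr (affM E b₀) (Knode E b₀ t)
      by_cases hat : a ∈ X.tri t
      · rw [hξ.zero a hat, map_zero, sub_zero]
        simp only [Arr.tri, Set.mem_insert_iff, Set.mem_singleton_iff] at hat
        rcases hat with rfl | rfl | rfl
        · exact absurd rfl ha
        · exact P4f_tr_mul hh he
        · exact P4f_tr_mul hd he
      · exact P4f_tau_e hb hξ hM hh hd hat
  · rintro _ ⟨v, hv, rfl⟩
    rcases ht : ε' t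
    · -- false
      set g : X.L := ∏ t' ∈ Finset.univ.erase t, P4f_fac b₀ ε₀ ε' t' with hg
      have hgM : g ∈ P4f_st (affM E b₀) := Subalgebra.prod_mem _ fun t' _ =>
        P4f_fac_mem _ _ _ _ (Subalgebra.toSubmodule (P4f_st (affM E b₀))) hM
      have c1 : P4f_c b₀ ε₀ * P4f_c b₀ ε' * X.PI = P4f_al b₀ t false * g := by
        rw [P4f_cc' b₀ ε₀ ε' t]
        congr 1
        unfold P4f_fac
        rw [if_pos, hε₀, Function.update_self]
        rw [ht, hε₀, Function.update_self]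
      have c2 : u * P4f_c b₀ ε' = g * P4f_c b₀ ε₀ := by
        apply mul_left_cancel₀ (P4f_al_ne b₀ t false)
        linear_combination (-P4f_c b₀ ε') * c00 + P4f_c b₀ ε₀ * c1
      exact D.C_right (g := g) (γ := gama Γ b₀ ε') (fun v hv => gama_affM hE _ hv) hgM
        (fun v => by rw [P4f_gama, P4f_gama, smul_smul, smul_smul, c2]) v hv
    · set g : X.L := ∏ t' ∈ Finset.univ.erase t, P4f_fac b₀ ε₁ ε' t' with hg
      have hgM : g ∈ P4f_st (affM E b₀) := Subalgebra.prod_mem _ fun t' _ =>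
        P4f_fac_mem _ _ _ _ (Subalgebra.toSubmodule (P4f_st (affM E b₀))) hM
      have c1 : P4f_c b₀ ε₁ * P4f_c b₀ ε' * X.PI = P4f_al b₀ t true * g := by
        rw [P4f_cc' b₀ ε₁ ε' t]
        congr 1
        unfold P4f_fac
        rw [if_pos, hε₁, Function.update_self]
        rw [ht, hε₁, Function.update_self]
      have c2 : u * P4f_c b₀ ε' = g * P4f_c b₀ ε₁ := by
        apply mul_left_cancel₀ (P4f_al_ne b₀ t true)
        linear_combination (-P4f_c b₀ ε') * c11 + P4f_c b₀ ε₁ * c1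
      exact D.C_left (g := g) (γ := gama Γ b₀ ε') (fun v hv => gama_affM hE _ hv) hgM
        (fun v => by rw [P4f_gama, P4f_gama, smul_smul, smul_smul, c2]) v hv

/-! ### facts on `K_ξ` -/

lemma P4f_tau_Kxi {b₀ : X.I} {ξ : X.I → k} (a : X.I) :
    tau b₀ a - algebraMap k X.L (ξ a) ∈ P4f_tr (affM E b₀) (Kxi Γ E b₀ ξ) := by
  intro v hv
  unfold Kxi
  refine Submodule.mem_sup_left (Submodule.mem_iSup_of_mem a ⟨v, hv, ?_⟩)
  rw [mulLL_apply]

lemma P4f_gama_Kxi {b₀ : X.I} {ξ : X.I → k} (ε : X.S → Bool) (v : Fin r → X.L)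
    (hv : v ∈ affM E b₀) : gama Γ b₀ ε v ∈ Kxi Γ E b₀ ξ := by
  unfold Kxi
  exact Submodule.mem_sup_right (Submodule.mem_iSup_of_mem ε ⟨v, hv, rfl⟩)

lemma P4f_K_Kxi {t : X.S} {b₀ : X.I} {ξ : X.I → k} (hξ : IsNode X t b₀ ξ) :
    Knode E b₀ t ≤ Kxi Γ E b₀ ξ := by
  intro v hv
  obtain ⟨x, hx, y, hy, rfl⟩ := P4f_mem_K.1 hv
  have h1 := P4f_tau_Kxi (Γ := Γ) (E := E) (b₀ := b₀) (ξ := ξ) (X.h t) x hx
  have h2 := P4f_tau_Kxi (Γ := Γ) (E := E) (b₀ := b₀) (ξ := ξ) (X.d t) y hy
  rw [hξ.zero _ (P4d_h_tri t), map_zero, sub_zero] at h1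
  rw [hξ.zero _ (P4d_d_tri t), map_zero, sub_zero] at h2
  exact Submodule.add_mem _ h1 h2

end Vale.Agent.P190.D
end
end

section

section

/-! Section 4, file P4f: decomposition at the nodes. -/

set_option autoImplicit false
set_option linter.unusedSectionVars false

open MvPolynomial Filter

namespace Vale.Agent.P190.D

variable {k : Type} [Field k] [IsAlgClosed k] {X : Arr k}
  {r : ℕ} {Γ : (Fin r → X.L) →ₗ[X.L] (Fin r → X.L)} {E : ℤ → Submodule k (Fin r → X.L)}

/-- 4.5a (i) summed over all nodes over `t` -/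
theorem node_sum (hΓ : IsTSp Γ) (hE : IsTLat Γ E) (h2 : IsS2 E) {t : X.S} {b₀ : X.I}
    (hb : b₀ ∉ X.tri t) (hfin : Module.Finite k ((affM E b₀).map (Knode E b₀ t).mkQ))
    {Nd : Finset (X.I → k)} (hNd : ∀ ξ, ξ ∈ Nd ↔ IsNode X t b₀ ξ) :
    (∀ ξ ∈ Nd, Module.Finite k ((affM E b₀).map (Kxi Γ E b₀ ξ).mkQ)) ∧
    Module.finrank k ((affM E b₀).map (Knode E b₀ t).mkQ) =
      ∑ ξ ∈ Nd, 4 * Module.finrank k ((affM E b₀).map (Kxi Γ E b₀ ξ).mkQ) := by
  classical
  obtain ⟨T, hT, hT0, hT1, hT2⟩ := P4f_nodes hb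
  have hNT : Nd = Fintype.piFinset T := by
    ext ξ
    rw [hNd, hT]
  have hM := P4f_tau_st hE b₀
  have hh := P4f_h_tr (E := E) b₀ t
  have hd := P4f_d_tr (E := E) b₀ t
  have hsum : ∑ ξ ∈ Nd, P4f_e t b₀ ξ = (1 : X.L) := by
    rw [hNT]
    exact P4f_sum_e hT0 hT1 hT2
  have hstK : ∀ g : X.L, g ∈ P4f_st (affM E b₀) → ∀ v ∈ Knode E b₀ t, g • v ∈ Knode E b₀ t := by
    intro g hg v hv
    obtain ⟨x, hx, y, hy, rfl⟩ := P4f_mem_K.1 hv
    refine P4f_mem_K.2 ⟨g • x, hg _ hx, g • y, hg _ hy, ?_⟩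
    rw [smul_add, smul_comm g, smul_comm g]
  have key := P4f_sum (ι := ↥Nd) (affM E b₀) (Knode E b₀ t)
    (fun i => (Knode E b₀ t).comap (P4f_mul (P4f_e t b₀ i.1)))
    (fun i => P4f_mul (P4f_e t b₀ i.1)) (fun i v hv => P4f_e_mem t b₀ i.1 _ hM v hv)
    (fun i v hv => hstK _ (P4f_e_mem t b₀ i.1 _ hM) v hv) (fun v hv => by
      simp only [P4f_mul_apply]
      rw [← Finset.sum_smul, Finset.sum_coe_sort Nd (fun ξ => P4f_e t b₀ ξ), hsum, one_smul,
        sub_self]
      exact Submodule.zero_mem _) (fun i v hv => Iff.rfl) (fun i j hij v hv => by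
      rw [P4f_mul_apply, P4f_mul_apply, smul_smul]
      exact P4f_orth hb ((hNd _).1 i.2) ((hNd _).1 j.2) (fun h => hij (Subtype.ext h)) hM hh hd v
        hv) hfin
  refine ⟨fun ξ hξ => P4f_finite_mono _ _ _ (fun v _ h => P4f_K_Kxi ((hNd ξ).1 hξ) h) hfin, ?_⟩
  rw [key.2, ← Finset.sum_coe_sort Nd]
  refine Finset.sum_congr rfl fun i _ => ?_
  have hξ := (hNd _).1 i.2
  obtain ⟨u, u', τ, ε₁, ε₀, D, hC⟩ := P4f_data hΓ hE h2 hb hξ
  refine D.finrank (P4f_K_Kxi hξ) (P4f_gama_Kxi ε₁) (P4f_gama_Kxi ε₀) ?_ hC hfin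
  exact P4f_e_sub_one hξ hM fun a => P4f_tau_Kxi a

/-- a T-stable subspace generating at every node over `t` generates modulo `K` -/
theorem node_gen (hΓ : IsTSp Γ) (hE : IsTLat Γ E) (h2 : IsS2 E) {t : X.S} {b₀ : X.I}
    (hb : b₀ ∉ X.tri t) (hfin : Module.Finite k ((affM E b₀).map (Knode E b₀ t).mkQ))
    (W : Submodule k (Fin r → X.L)) (hW : W ≤ affM E b₀)
    (hτ : ∀ a, ∀ w ∈ W, tau b₀ a • w ∈ W) (hγ : ∀ ε, ∀ w ∈ W, gama Γ b₀ ε w ∈ W)
    (h : ∀ ξ, IsNode X t b₀ ξ → affM E b₀ ≤ W ⊔ Kxi Γ E b₀ ξ) :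
    affM E b₀ ≤ W ⊔ Knode E b₀ t := by
  classical
  obtain ⟨T, hT, hT0, hT1, hT2⟩ := P4f_nodes hb
  have hsum := P4f_sum_e hT0 hT1 hT2
  intro v hv
  have hv1 : v = ∑ ξ ∈ Fintype.piFinset T, P4f_e t b₀ ξ • v := by
    rw [← Finset.sum_smul, hsum, one_smul]
  rw [hv1]
  refine Submodule.sum_mem _ fun ξ hξ => ?_
  have hξ := (hT ξ).1 hξ
  obtain ⟨u, u', τ, ε₁, ε₀, D, hC⟩ := P4f_data hΓ hE h2 hb hξ
  exact D.gen hC (hγ _) (hγ _) (P4f_e_mem t b₀ ξ (P4f_st W) hτ) (h ξ hξ) v hv

end Vale.Agent.P190.D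
end
end

section

section

/-! Section 4, file P4g: the node theorem. -/

set_option autoImplicit false
set_option linter.unusedSectionVars false

open MvPolynomial Filter

namespace Vale.Agent.P190.D

variable {k : Type} [Field k] [IsAlgClosed k] {X : Arr k}
  {r : ℕ} {Γ : (Fin r → X.L) →ₗ[X.L] (Fin r → X.L)} {E : ℤ → Submodule k (Fin r → X.L)}

theorem P4g_four_le {t : X.S} {b₀ : X.I} (hb : b₀ ∉ X.tri t) : 4 ≤ X.m := by
  classical
  have h : ({b₀, X.v t, X.h t, X.d t} : Finset X.I).card = 4 := by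
    simp only [Arr.tri, Set.mem_insert_iff, Set.mem_singleton_iff, not_or] at hb
    rw [Finset.card_insert_of_notMem, Finset.card_insert_of_notMem, Finset.card_pair (X.hd t)]
    · simp only [Finset.mem_insert, Finset.mem_singleton, not_or]
      exact ⟨X.vh t, X.vd t⟩
    · simp only [Finset.mem_insert, Finset.mem_singleton, not_or]
      exact hb
  rw [Arr.m, ← h]
  exact Finset.card_le_univ _

/-- 4.5a conclusion: the fibre dimension at every node is `r/2` -/
theorem finrank_fibre (hΓ : IsTSp Γ) (hE : IsTLat Γ E) (h2 : IsS2 E) (hsp : SpansL (X := X) E)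
    {t : X.S} {b₀ : X.I} (hb : b₀ ∉ X.tri t) {ξ : X.I → k} (hξ : IsNode X t b₀ ξ) :
    Module.Finite k ((affM E b₀).map (Kxi Γ E b₀ ξ).mkQ) ∧
      r = 2 * Module.finrank k ((affM E b₀).map (Kxi Γ E b₀ ξ).mkQ) := by
  obtain ⟨N, e, g, hh⟩ := hE.toIsBLat.exists_hilb
  have hs := hE.sigStable
  obtain ⟨hfinK, hN⟩ := finrank_node hE.toIsBLat hs h2 hh hb
  have hrank := rank_eq hE.toIsBLat hs hsp hh
  rw [Module.finrank_fin_fun] at hrank
  obtain ⟨Nd, hNd, hcard⟩ := node_card hb
  obtain ⟨hf, hsum⟩ := node_sum hΓ hE h2 hb hfinK hNd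
  have hm := P4g_four_le hb
  have hle : ∀ ζ ∈ Nd, 2 * r ≤ 4 * Module.finrank k ((affM E b₀).map (Kxi Γ E b₀ ζ).mkQ) := by
    intro ζ hζ
    have := rank_le_node hΓ hE hsp hb ((hNd ζ).1 hζ) (hf ζ hζ)
    omega
  have htot : ∑ _ζ ∈ Nd, 2 * r =
      ∑ ζ ∈ Nd, 4 * Module.finrank k ((affM E b₀).map (Kxi Γ E b₀ ζ).mkQ) := by
    rw [← hsum, Finset.sum_const, hcard, smul_eq_mul]
    have h3 : X.m - 3 = (X.m - 4) + 1 := by (clear * - hm; omega)
    rw [hrank, h3, pow_succ] at hN
    zify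
    rw [hN]
    ring
  have heq := (Finset.sum_eq_sum_iff_of_le hle).1 htot ξ ((hNd ξ).2 hξ)
  exact ⟨hf ξ ((hNd ξ).2 hξ), by omega⟩

/-- large degrees surject onto finite dimensional quotients of the affine lattice -/
theorem P4g_surj (hE : IsBLat E) (hs : SigStable X E) {b₀ : X.I}
    (K : Submodule k (Fin r → X.L)) (hfin : Module.Finite k ((affM E b₀).map K.mkQ)) :
    ∃ D : ℤ, ∀ d ≥ D, ∀ m ∈ affM E b₀, ∃ v ∈ E d, K.mkQ (X.σ b₀ ^ (-d) • v) = K.mkQ m := by
  obtain ⟨S, hS⟩ := Module.Finite.iff_fg.1 hfin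
  have h1 : ∀ z : (Fin r → X.L) ⧸ K, ∃ n : ℤ, z ∈ S →
      ∃ m, K.mkQ m = z ∧ X.σ b₀ ^ n • m ∈ E n := by
    intro z
    by_cases hz : z ∈ S
    · have h2 : z ∈ (affM E b₀).map K.mkQ := by
        rw [← hS]; exact Submodule.subset_span hz
      obtain ⟨m, hm, rfl⟩ := h2
      obtain ⟨n, hn⟩ := (mem_affM hE hs).1 hm
      exact ⟨n, fun _ => ⟨m, rfl, hn⟩⟩
    · exact ⟨0, fun h => absurd h hz⟩
  choose n hn using h1
  obtain ⟨D, hD⟩ := (S.finite_toSet.image n).bddAbove
  refine ⟨D, fun d hd m hm => ?_⟩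
  have h3 : (affM E b₀).map K.mkQ ≤ (E d).map (K.mkQ ∘ₗ mulLL (X.σ b₀ ^ (-d))) := by
    rw [← hS, Submodule.span_le]
    intro z hz
    obtain ⟨m, hm, hm'⟩ := hn z hz
    have h4 : n z ≤ d := (hD ⟨z, hz, rfl⟩).trans hd
    refine ⟨X.σ b₀ ^ d • m, P4g_up hs h4 hm', ?_⟩
    rw [LinearMap.comp_apply, mulLL_apply, smul_smul, ← zpow_add₀ (X.σ_ne_zero b₀),
      neg_add_cancel, zpow_zero, one_smul, hm]
  obtain ⟨v, hv, hv'⟩ := h3 (Submodule.mem_map_of_mem hm)
  refine ⟨v, hv, ?_⟩
  rw [← hv', LinearMap.comp_apply, mulLL_apply]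

/-- the map from `E_d` to a quotient of the affine lattice -/
noncomputable def P4g_f {b₀ : X.I} (K : Submodule k (Fin r → X.L)) (d : ℤ)
    (hmem : ∀ v : E d, X.σ b₀ ^ (-d) • (v : Fin r → X.L) ∈ affM E b₀) :
    E d →ₗ[k] ((affM E b₀).map K.mkQ) where
  toFun v := ⟨K.mkQ (X.σ b₀ ^ (-d) • (v : Fin r → X.L)), Submodule.mem_map_of_mem (hmem v)⟩
  map_add' v w := by
    apply Subtype.ext
    change K.mkQ (X.σ b₀ ^ (-d) • ((v : Fin r → X.L) + w)) = _
    rw [smul_add, map_add]
    rfl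
  map_smul' c v := by
    apply Subtype.ext
    change K.mkQ (X.σ b₀ ^ (-d) • (c • (v : Fin r → X.L))) = _
    rw [← smul_comm_kL, map_smul]
    rfl

theorem P4g_f_apply {b₀ : X.I} (K : Submodule k (Fin r → X.L)) (d : ℤ)
    (hmem : ∀ v : E d, X.σ b₀ ^ (-d) • (v : Fin r → X.L) ∈ affM E b₀) (v : E d) :
    (P4g_f K d hmem v : (Fin r → X.L) ⧸ K) = K.mkQ (X.σ b₀ ^ (-d) • (v : Fin r → X.L)) := rfl

/-- 4.5b: vectors `e_i` of large degree generating `E` at all nodes -/
theorem node_theorem (hr : 0 < r) (hΓ : IsTSp Γ) (hE : IsTLat Γ E) (h2 : IsS2 E)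
    (hsp : SpansL (X := X) E) : ∃ r₁ : ℕ, r = 2 * r₁ ∧ ∃ (d : ℤ) (e : Fin r₁ → (Fin r → X.L)),
      (∀ i, e i ∈ E d) ∧ LinearIndependent X.L (Sum.elim e fun i => Γ (e i)) ∧
      ∀ t : X.S, ∃ n₀ : ℤ, ∀ n ≥ n₀, ∀ v ∈ E n, ∃ a ∈ TspanF Γ d e n, ∃ b ∈ E (n - 1),
        ∃ c ∈ E (n - 1), v = a + X.σ (X.h t) • b + X.σ (X.d t) • c := by
  have hB := hE.toIsBLat
  have hs := hE.sigStable
  choose β hβ using P4g_exists_not_tri X
  -- all nodes
  choose Nd hNd hcard using fun t => node_card (hβ t)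
  let ι : Type := Σ t : X.S, {ξ : X.I → k // ξ ∈ Nd t}
  have hι : Finite ι := inferInstance
  have hnode : ∀ i : ι, IsNode X i.1 (β i.1) i.2.1 := fun i => (hNd i.1 i.2.1).1 i.2.2
  have hfib := fun i : ι => finrank_fibre hΓ hE h2 hsp (hβ i.1) (hnode i)
  have hneI : Nonempty ι := by
    obtain ⟨t, -⟩ := X.cover (X.b 0)
    have : 0 < (Nd t).card := by rw [hcard t]; positivity
    obtain ⟨ξ, hξ⟩ := Finset.card_pos.1 this
    exact ⟨⟨t, ξ, hξ⟩⟩
  obtain ⟨i₀⟩ := hneI
  set r₁ := Module.finrank k ((affM E (β i₀.1)).map (Kxi Γ E (β i₀.1) i₀.2.1).mkQ) with hr₁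
  have hrr : r = 2 * r₁ := (hfib i₀).2
  have hall : ∀ i : ι,
      Module.finrank k ((affM E (β i.1)).map (Kxi Γ E (β i.1) i.2.1).mkQ) = r₁ := by
    intro i
    have := (hfib i).2
    omega
  choose D hD using fun i : ι => P4g_surj hB hs (Kxi Γ E (β i.1) i.2.1) (hfib i).1
  obtain ⟨d, hd⟩ := (Set.finite_range D).bddAbove
  -- the maps
  have hmemM : ∀ (b₀ : X.I) (v : E d), X.σ b₀ ^ (-d) • (v : Fin r → X.L) ∈ affM E b₀ := by
    intro b₀ v
    refine (mem_affM hB hs).2 ⟨d, ?_⟩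
    rw [smul_smul, ← zpow_add₀ (X.σ_ne_zero b₀), add_neg_cancel, zpow_zero, one_smul]
    exact v.2
  let f : ∀ i : ι, E d →ₗ[k] ((affM E (β i.1)).map (Kxi Γ E (β i.1) i.2.1).mkQ) := fun i =>
    P4g_f (Kxi Γ E (β i.1) i.2.1) d (hmemM (β i.1))
  have hfapp : ∀ i v, ((f i v : (affM E (β i.1)).map (Kxi Γ E (β i.1) i.2.1).mkQ) :
      (Fin r → X.L) ⧸ Kxi Γ E (β i.1) i.2.1) =
      (Kxi Γ E (β i.1) i.2.1).mkQ (X.σ (β i.1) ^ (-d) • (v : Fin r → X.L)) := fun i v => rfl
  have hfsurj : ∀ i, Function.Surjective (f i) := by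
    intro i z
    obtain ⟨m, hm, hz⟩ := z.2
    obtain ⟨v, hv, hv'⟩ := hD i d (hd ⟨i, rfl⟩) m hm
    exact ⟨⟨v, hv⟩, Subtype.ext (hv'.trans hz)⟩
  have hfinZ : ∀ i : ι, Module.Finite k ((affM E (β i.1)).map (Kxi Γ E (β i.1) i.2.1).mkQ) :=
    fun i => (hfib i).1
  obtain ⟨e, he⟩ := exists_generic
    (fun i : ι => ((affM E (β i.1)).map (Kxi Γ E (β i.1) i.2.1).mkQ)) r₁ hall f hfsurj
  -- spanning modulo `K_ξ`
  have hspan : ∀ i : ι, affM E (β i.1) ≤
      Submodule.span k (Set.range fun j => X.σ (β i.1) ^ (-d) • (e j : Fin r → X.L)) ⊔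
        Kxi Γ E (β i.1) i.2.1 := by
    intro i m hm
    have h3 : (⟨(Kxi Γ E (β i.1) i.2.1).mkQ m, Submodule.mem_map_of_mem hm⟩ :
        (affM E (β i.1)).map (Kxi Γ E (β i.1) i.2.1).mkQ) ∈
        Submodule.span k (Set.range fun j => f i (e j)) := by
      rw [he i]; trivial
    rw [Submodule.mem_span_range_iff_exists_fun] at h3
    obtain ⟨c, hc⟩ := h3
    have h4 := congrArg Subtype.val hc
    simp only [AddSubmonoidClass.coe_finset_sum, Submodule.coe_smul, hfapp] at h4
    rw [← sub_add_cancel m (∑ j, c j • X.σ (β i.1) ^ (-d) • (e j : Fin r → X.L)), add_comm]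
    refine Submodule.add_mem_sup ?_ ?_
    · exact Submodule.sum_mem _ fun j _ => Submodule.smul_mem _ _ (Submodule.subset_span ⟨j, rfl⟩)
    · rw [← Submodule.ker_mkQ (Kxi Γ E (β i.1) i.2.1), LinearMap.mem_ker, map_sub, map_sum]
      simp only [map_smul]
      rw [h4, sub_self]
  refine ⟨r₁, hrr, d, fun j => (e j : Fin r → X.L), fun j => (e j).2, ?_, ?_⟩
  · have htop := P4e_span_top hΓ hE hsp (hβ i₀.1) (hnode i₀)
      (fun j => X.σ (β i₀.1) ^ (-d) • (e j : Fin r → X.L)) (fun j => hmemM _ _) (hspan i₀)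
    have htop' : ⊤ ≤ Submodule.span X.L (Set.range (Sum.elim (fun j => (e j : Fin r → X.L))
        fun j => Γ (e j))) := by
      rw [← htop, Submodule.span_le]
      rintro _ ⟨j | j, rfl⟩
      · exact Submodule.smul_mem _ _ (Submodule.subset_span ⟨Sum.inl j, rfl⟩)
      · simp only [map_smul, Sum.elim_inr]
        exact Submodule.smul_mem _ _ (Submodule.subset_span ⟨Sum.inr j, rfl⟩)
    refine linearIndependent_of_top_le_span_of_card_eq_finrank htop' ?_
    rw [Module.finrank_fin_fun, Fintype.card_sum, Fintype.card_fin]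
    omega
  · intro t
    have hT := isTLat_TspanF hΓ d (fun j => (e j : Fin r → X.L))
    have hle : ∀ n, TspanF Γ d (fun j => (e j : Fin r → X.L)) n ≤ E n := fun n =>
      iSup_le fun j => Tspan_le hE (e j).2 n
    refine P4g_graded hB hs hT.toIsBLat hT.sigStable (hβ t) ?_
    have hfinK : Module.Finite k ((affM E (β t)).map (Knode E (β t) t).mkQ) := by
      obtain ⟨N, e, g, hh⟩ := hB.exists_hilb
      exact (finrank_node hB hs h2 hh (hβ t)).1
    refine node_gen hΓ hE h2 (hβ t) hfinK _ ?_ (fun a w hw => tau_affM hT.toIsBLat hT.sigStable hw)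
      (fun ε w hw => gama_affM hT ε hw) ?_
    · intro v hv
      obtain ⟨n, hn⟩ := (mem_affM hT.toIsBLat hT.sigStable).1 hv
      exact (mem_affM hB hs).2 ⟨n, hle n hn⟩
    · intro ξ hξ
      refine (hspan ⟨t, ξ, (hNd t ξ).2 hξ⟩).trans (sup_le_sup_right ?_ _)
      rw [Submodule.span_le]
      rintro _ ⟨j, rfl⟩
      refine (mem_affM hT.toIsBLat hT.sigStable).2 ⟨d, ?_⟩
      rw [smul_smul, ← zpow_add₀ (X.σ_ne_zero _), add_neg_cancel, zpow_zero, one_smul]
      refine Submodule.mem_iSup_of_mem j (Submodule.subset_span (Or.inl ⟨1, ?_, ?_⟩))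
      · rw [sub_self]; exact X.one_mem_T0
      · rw [one_smul]

end Vale.Agent.P190.D
end
end

section

section

/-! Section 4, file P6n2: an abstract filtration inequality. -/

set_option autoImplicit false
set_option linter.unusedSectionVars false

open MvPolynomial Filter

namespace Vale.Agent.P190.D

theorem P6n2_map {k W : Type} [Field k] [AddCommGroup W] [Module k W] (g : W →ₗ[k] W)
    (A B : Submodule k W) (hA : Module.Finite k A) (hBA : B ≤ A) :
    Module.finrank k (A.map g) + Module.finrank k B ≤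
      Module.finrank k (B.map g) + Module.finrank k A := by
  have hB : Module.Finite k B := Submodule.finiteDimensional_of_le hBA
  have h1 := LinearMap.finrank_range_add_finrank_ker (g.domRestrict A)
  have h2 := LinearMap.finrank_range_add_finrank_ker (g.domRestrict B)
  have h3 : LinearMap.range (g.domRestrict A) = A.map g := LinearMap.range_domRestrict _ _
  have h4 : LinearMap.range (g.domRestrict B) = B.map g := LinearMap.range_domRestrict _ _
  rw [h3] at h1
  rw [h4] at h2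
  have h5 : Module.finrank k (LinearMap.ker (g.domRestrict B)) ≤
      Module.finrank k (LinearMap.ker (g.domRestrict A)) := by
    let φ : LinearMap.ker (g.domRestrict B) →ₗ[k] LinearMap.ker (g.domRestrict A) :=
      LinearMap.codRestrict _
        ((Submodule.inclusion hBA) ∘ₗ (LinearMap.ker (g.domRestrict B)).subtype) (by
          rintro ⟨⟨x, hx⟩, hx2⟩
          simpa only [LinearMap.coe_comp, Submodule.coe_subtype, Function.comp_apply, LinearMap.mem_ker,     LinearMap.domRestrict_apply, Submodule.coe_inclusion] using hx2)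
    apply LinearMap.finrank_le_finrank_of_injective (f := φ)
    intro x y hxy
    have := congrArg (fun z => (((z : LinearMap.ker (g.domRestrict A)) : A) : W)) hxy
    exact Subtype.ext (Subtype.ext this)
  omega

theorem P6n2_key {k W : Type} [Field k] [AddCommGroup W] [Module k W] (g : W →ₗ[k] W)
    (A B G : Submodule k W) (hA : Module.Finite k A) (hG : Module.Finite k G) (hBA : B ≤ A)
    (hBG : B.map g ≤ G) :
    Module.finrank k (G ⊔ A.map g : Submodule k W) + Module.finrank k B ≤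
      Module.finrank k G + Module.finrank k A := by
  have h1 := P6n2_map g A B hA hBA
  have hm : Module.Finite k (A.map g) := inferInstance
  have h2 := Submodule.finrank_sup_add_finrank_inf_eq G (A.map g)
  have h3 : Module.finrank k (B.map g) ≤ Module.finrank k (G ⊓ A.map g : Submodule k W) :=
    Submodule.finrank_mono (le_inf hBG (Submodule.map_mono hBA))
  omega

/-- one nilpotent operator -/
theorem filt_one {k W : Type} [Field k] [AddCommGroup W] [Module k W] (p : ℕ) (f : W →ₗ[k] W)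
    (hf : f ^ p = 0) (E D : ℤ → Submodule k W) (hfin : ∀ n, Module.Finite k (E n))
    (hDE : ∀ n, D n ≤ E n) (hE : ∀ n, ∀ v ∈ E n, f v ∈ E (n + 2))
    (hD : ∀ n, ∀ v ∈ D n, f v ∈ D (n + 2)) (l : ℤ) :
    (Module.finrank k (E l) : ℤ) - Module.finrank k (D l) ≤
      ∑ i : Fin p, ((Module.finrank k (E (l - 2 * (i : ℕ))) : ℤ) -
        Module.finrank k ((D (l - 2 * (i : ℕ)) ⊔ (E (l - 2 * (i : ℕ) - 2)).map f :
          Submodule k W))) := by
  have hEpow : ∀ (i : ℕ) (n : ℤ), ∀ v ∈ E n, (f ^ i) v ∈ E (n + 2 * i) := by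
    intro i
    induction i with
    | zero => intro n v hv; simpa only [CharP.cast_eq_zero, mul_zero, add_zero, pow_zero, Module.End.one_apply] using hv
    | succ i ih =>
      intro n v hv
      have := hE _ _ (ih n v hv)
      rw [pow_succ']
      have e : n + 2 * (i : ℤ) + 2 = n + 2 * ((i + 1 : ℕ) : ℤ) := by push_cast; ring
      rw [← e]
      exact this
  have hDpow : ∀ (i : ℕ) (n : ℤ), ∀ v ∈ D n, (f ^ i) v ∈ D (n + 2 * i) := by
    intro i
    induction i with
    | zero => intro n v hv; simpa only [CharP.cast_eq_zero, mul_zero, add_zero, pow_zero, Module.End.one_apply] using hv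
    | succ i ih =>
      intro n v hv
      have := hD _ _ (ih n v hv)
      rw [pow_succ']
      have e : n + 2 * (i : ℤ) + 2 = n + 2 * ((i + 1 : ℕ) : ℤ) := by push_cast; ring
      rw [← e]
      exact this
  have hDfin : ∀ n, Module.Finite k (D n) := fun n =>
    haveI := hfin n; Submodule.finiteDimensional_of_le (hDE n)
  let F : ℕ → Submodule k W := fun i => D l ⊔ (E (l - 2 * (i : ℤ))).map (f ^ i)
  have hF0 : F 0 = E l := by
    simp only [F, Nat.cast_zero, mul_zero, sub_zero, pow_zero]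
    rw [show ((1 : W →ₗ[k] W)) = LinearMap.id from rfl, Submodule.map_id]
    exact sup_eq_right.mpr (hDE l)
  have hFp : F p = D l := by
    simp only [F, hf]
    simp only [Submodule.map_zero, bot_le, sup_of_le_left]
  have hstep : ∀ i : ℕ, (Module.finrank k (F i) : ℤ) - Module.finrank k (F (i + 1)) ≤
      (Module.finrank k (E (l - 2 * (i : ℤ))) : ℤ) -
        Module.finrank k ((D (l - 2 * (i : ℤ)) ⊔ (E (l - 2 * (i : ℤ) - 2)).map f :
          Submodule k W)) := by
    intro i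
    have hfi := hfin (l - 2 * (i : ℤ))
    have hfi' := hfin (l - 2 * ((i + 1 : ℕ) : ℤ))
    have hdl := hDfin l
    have e : l - 2 * ((i + 1 : ℕ) : ℤ) = l - 2 * (i : ℤ) - 2 := by push_cast; ring
    have hcomp : (E (l - 2 * ((i + 1 : ℕ) : ℤ))).map (f ^ (i + 1)) =
        ((E (l - 2 * (i : ℤ) - 2)).map f).map (f ^ i) := by
      rw [e, ← Submodule.map_comp]
      congr 1
    have hBA : (D (l - 2 * (i : ℤ)) ⊔ (E (l - 2 * (i : ℤ) - 2)).map f) ≤
        E (l - 2 * (i : ℤ)) := by
      refine sup_le (hDE _) ?_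
      rintro _ ⟨v, hv, rfl⟩
      have := hE _ v hv
      simpa using this
    have hBG : (D (l - 2 * (i : ℤ)) ⊔ (E (l - 2 * (i : ℤ) - 2)).map f).map (f ^ i) ≤
        F (i + 1) := by
      rw [Submodule.map_sup]
      refine sup_le ?_ ?_
      · refine le_trans ?_ le_sup_left
        rintro _ ⟨v, hv, rfl⟩
        have := hDpow i _ v hv
        simpa only [sub_add_cancel] using this
      · refine le_trans ?_ le_sup_right
        rw [hcomp]
    have hG : Module.Finite k (F (i + 1)) := by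
      change Module.Finite k
        (D l ⊔ (E (l - 2 * ((i + 1 : ℕ) : ℤ))).map (f ^ (i + 1)) : Submodule k W)
      infer_instance
    have h := P6n2_key (f ^ i) _ _ (F (i + 1)) hfi hG hBA hBG
    have hsup : F (i + 1) ⊔ (E (l - 2 * (i : ℤ))).map (f ^ i) = F i := by
      apply le_antisymm
      · refine sup_le (sup_le le_sup_left ?_) le_sup_right
        refine le_trans ?_ le_sup_right
        rw [hcomp]
        apply Submodule.map_mono
        exact le_trans le_sup_right hBA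
      · exact sup_le (le_trans le_sup_left le_sup_left) le_sup_right
    rw [hsup] at h
    omega
  have htel := Finset.sum_range_sub' (fun i => (Module.finrank k (F i) : ℤ)) p
  rw [hF0, hFp] at htel
  rw [← htel, Fin.sum_univ_eq_sum_range (fun i : ℕ =>
    ((Module.finrank k (E (l - 2 * (i : ℤ))) : ℤ) -
        Module.finrank k ((D (l - 2 * (i : ℤ)) ⊔ (E (l - 2 * (i : ℤ) - 2)).map f :
          Submodule k W)))) p]
  exact Finset.sum_le_sum fun i _ => hstep i

/-- the statement of `filt_many` for one index type -/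
def P6n2_P (J : Type) [Fintype J] : Prop :=
  ∀ (k W : Type) [Field k] [AddCommGroup W] [Module k W] (_ : DecidableEq J) (p : ℕ)
    (f : J → W →ₗ[k] W) (_ : ∀ i j, f i ∘ₗ f j = f j ∘ₗ f i)
    (_ : ∀ j, f j ^ p = 0) (E D : ℤ → Submodule k W) (_ : ∀ n, Module.Finite k (E n))
    (_ : ∀ n, D n ≤ E n) (_ : ∀ j n, ∀ v ∈ E n, f j v ∈ E (n + 2))
    (_ : ∀ j n, ∀ v ∈ D n, f j v ∈ D (n + 2)) (l : ℤ),
    (Module.finrank k (E l) : ℤ) - Module.finrank k (D l) ≤
      ∑ i : J → Fin p, ((Module.finrank k (E (l - 2 * ∑ j, ((i j : ℕ) : ℤ))) : ℤ) -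
        Module.finrank k ((D (l - 2 * ∑ j, ((i j : ℕ) : ℤ)) ⊔
          ⨆ j, (E (l - 2 * ∑ j, ((i j : ℕ) : ℤ) - 2)).map (f j) : Submodule k W)))

theorem P6n2_all (J : Type) [Fintype J] : P6n2_P J := by
  refine Fintype.induction_empty_option (P := fun J _ => P6n2_P J) ?_ ?_ ?_ J
  · intro α β _ e h k W _ _ _ dJ p f hc hf E D hfin hDE hE hD l
    let _ : Fintype α := Fintype.ofEquiv β e.symm
    let dA : DecidableEq α := Classical.decEq α
    have h1 := h k W dA p (fun a => f (e a)) (fun i j => hc _ _) (fun j => hf _) E D hfin hDE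
      (fun j => hE _) (fun j => hD _) l
    refine h1.trans (le_of_eq ?_)
    refine Fintype.sum_equiv (Equiv.arrowCongr e (Equiv.refl (Fin p))) _ _ ?_
    intro i
    have e1 : ∑ j, ((((Equiv.arrowCongr e (Equiv.refl (Fin p))) i j : Fin p) : ℕ) : ℤ) =
        ∑ j, ((i j : ℕ) : ℤ) := by
      refine (Fintype.sum_equiv e _ _ ?_).symm
      intro a
      simp
    rw [e1]
    have e2 := e.iSup_comp (g := fun b => (E (l - 2 * ∑ j, ((i j : ℕ) : ℤ) - 2)).map (f b))
    rw [e2]
  · intro k W _ _ _ dJ p f hc hf E D hfin hDE hE hD l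
    rw [Fintype.sum_unique, Finset.sum_of_isEmpty, iSup_of_empty, sup_bot_eq, mul_zero, sub_zero]
  · intro α _ h k W _ _ _ dJ p f hc hf E D hfin hDE hE hD l
    let dA : DecidableEq α := Classical.decEq α
    have h1 := h k W dA p (fun a => f (some a)) (fun i j => hc _ _) (fun j => hf _) E D hfin hDE
      (fun j => hE _) (fun j => hD _) l
    refine h1.trans ?_
    let D' : ℤ → Submodule k W := fun n => D n ⊔ ⨆ a : α, (E (n - 2)).map (f (some a))
    have hDE' : ∀ n, D' n ≤ E n := by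
      intro n
      refine sup_le (hDE n) (iSup_le fun a => ?_)
      rintro _ ⟨v, hv, rfl⟩
      have := hE (some a) _ v hv
      simpa using this
    have hD' : ∀ n, ∀ v ∈ D' n, f none v ∈ D' (n + 2) := by
      intro n
      have : (D' n).map (f none) ≤ D' (n + 2) := by
        simp only [D', Submodule.map_sup, Submodule.map_iSup]
        refine sup_le (le_trans ?_ le_sup_left) (iSup_le fun a => ?_)
        · rintro _ ⟨v, hv, rfl⟩
          exact hD none _ v hv
        · refine le_trans ?_ le_sup_right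
          refine le_trans ?_ (le_iSup (fun a : α => (E (n + 2 - 2)).map (f (some a))) a)
          rintro _ ⟨_, ⟨v, hv, rfl⟩, rfl⟩
          refine ⟨f none v, ?_, ?_⟩
          · have := hE none _ v hv
            have e : n - 2 + 2 = n + 2 - 2 := by ring
            rw [e] at this
            exact this
          · exact LinearMap.congr_fun (hc (some a) none) v
      intro v hv
      exact this ⟨v, hv, rfl⟩
    have h2 : ∀ i : α → Fin p,
        (Module.finrank k (E (l - 2 * ∑ j, ((i j : ℕ) : ℤ))) : ℤ) -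
          Module.finrank k ((D (l - 2 * ∑ j, ((i j : ℕ) : ℤ)) ⊔
            ⨆ j, (E (l - 2 * ∑ j, ((i j : ℕ) : ℤ) - 2)).map (f (some j)) : Submodule k W)) ≤
        ∑ a : Fin p, ((Module.finrank k (E (l - 2 * ∑ j, ((i j : ℕ) : ℤ) - 2 * (a : ℕ))) : ℤ) -
          Module.finrank k ((D' (l - 2 * ∑ j, ((i j : ℕ) : ℤ) - 2 * (a : ℕ)) ⊔
            (E (l - 2 * ∑ j, ((i j : ℕ) : ℤ) - 2 * (a : ℕ) - 2)).map (f none) :
              Submodule k W))) := by
      intro i
      exact filt_one p (f none) (hf none) E D' hfin hDE' (hE none) hD' _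
    refine (Finset.sum_le_sum fun i _ => h2 i).trans (le_of_eq ?_)
    rw [← Fintype.sum_prod_type' (f := fun (i : α → Fin p) (a : Fin p) =>
      ((Module.finrank k (E (l - 2 * ∑ j, ((i j : ℕ) : ℤ) - 2 * (a : ℕ))) : ℤ) -
          Module.finrank k ((D' (l - 2 * ∑ j, ((i j : ℕ) : ℤ) - 2 * (a : ℕ)) ⊔
            (E (l - 2 * ∑ j, ((i j : ℕ) : ℤ) - 2 * (a : ℕ) - 2)).map (f none) :
              Submodule k W))))]
    let φ : (α → Fin p) × Fin p ≃ (Option α → Fin p) :=
      { toFun := fun x o => o.elim x.2 x.1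
        invFun := fun g => (fun a => g (some a), g none)
        left_inv := fun x => rfl
        right_inv := fun g => by
          funext o
          cases o <;> rfl }
    refine Fintype.sum_equiv φ _ _ ?_
    rintro ⟨i, a⟩
    have e1 : l - 2 * ∑ j, ((φ (i, a) j : ℕ) : ℤ) =
        l - 2 * ∑ j, ((i j : ℕ) : ℤ) - 2 * ((a : ℕ) : ℤ) := by
      rw [Fintype.sum_option]
      change l - 2 * (((a : ℕ) : ℤ) + ∑ j, ((i j : ℕ) : ℤ)) = _
      ring
    rw [e1]
    have e2 : (⨆ j : Option α, (E (l - 2 * ∑ j, ((i j : ℕ) : ℤ) - 2 * ((a : ℕ) : ℤ) - 2)).map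
        (f j)) = (E (l - 2 * ∑ j, ((i j : ℕ) : ℤ) - 2 * ((a : ℕ) : ℤ) - 2)).map (f none) ⊔
        ⨆ j : α, (E (l - 2 * ∑ j, ((i j : ℕ) : ℤ) - 2 * ((a : ℕ) : ℤ) - 2)).map
          (f (some j)) := iSup_option _
    rw [e2, sup_comm (Submodule.map (f none) _), ← sup_assoc]

/-- several commuting nilpotent operators -/
theorem filt_many {k W J : Type} [Field k] [AddCommGroup W] [Module k W] [Fintype J]
    [DecidableEq J] (p : ℕ) (f : J → W →ₗ[k] W) (hc : ∀ i j, f i ∘ₗ f j = f j ∘ₗ f i)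
    (hf : ∀ j, f j ^ p = 0) (E D : ℤ → Submodule k W) (hfin : ∀ n, Module.Finite k (E n))
    (hDE : ∀ n, D n ≤ E n) (hE : ∀ j n, ∀ v ∈ E n, f j v ∈ E (n + 2))
    (hD : ∀ j n, ∀ v ∈ D n, f j v ∈ D (n + 2)) (l : ℤ) :
    (Module.finrank k (E l) : ℤ) - Module.finrank k (D l) ≤
      ∑ i : J → Fin p, ((Module.finrank k (E (l - 2 * ∑ j, ((i j : ℕ) : ℤ))) : ℤ) -
        Module.finrank k ((D (l - 2 * ∑ j, ((i j : ℕ) : ℤ)) ⊔
          ⨆ j, (E (l - 2 * ∑ j, ((i j : ℕ) : ℤ) - 2)).map (f j) : Submodule k W))) :=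
  P6n2_all J k W inferInstance p f hc hf E D hfin hDE hE hD l

end Vale.Agent.P190.D
end
end

section

section

/-! Section 4, file P6f: the lower bound in raw form. -/

set_option autoImplicit false
set_option linter.unusedSectionVars false

open MvPolynomial Filter

namespace Vale.Agent.P190.D

section P6fabs

variable {k ι W : Type} [Field k] [AddCommGroup W] [Module k W]
    [Module (MvPolynomial ι k) W] [IsScalarTower k (MvPolynomial ι k) W]

theorem P6f_comp_X_mul (a : ι) (g : MvPolynomial ι k) (i : ℕ) :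
    homogeneousComponent (i + 1) (X a * g) = X a * homogeneousComponent i g := by
  classical
  ext m
  rw [coeff_homogeneousComponent, coeff_X_mul', coeff_X_mul']
  by_cases ha : a ∈ m.support
  · rw [if_pos ha, if_pos ha, coeff_homogeneousComponent]
    have h1 : m = (m - Finsupp.single a 1) + Finsupp.single a 1 := by
      ext b
      by_cases hb : b = a
      · subst hb
        have : m b ≠ 0 := Finsupp.mem_support_iff.1 ha
        simp only [Finsupp.coe_add, Finsupp.coe_tsub, Pi.add_apply, Pi.sub_apply, Finsupp.single_eq_same]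
        omega
      · simp only [Finsupp.coe_add, Finsupp.coe_tsub, Pi.add_apply, Pi.sub_apply, ne_eq, Ne.symm hb, not_false_eq_true, Finsupp.single_eq_of_ne', tsub_zero, add_zero]
    have h2 : m.degree = (m - Finsupp.single a 1).degree + 1 := by
      conv_lhs => rw [h1]
      rw [map_add]
      simp only [Finsupp.degree_single, Nat.add_left_cancel_iff]
    rw [h2]
    simp only [Nat.add_right_cancel_iff]
  · rw [if_neg ha, if_neg ha]
    simp

theorem P6f_comp_zero_X_mul (a : ι) (g : MvPolynomial ι k) :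
    homogeneousComponent 0 (X a * g) = 0 := by
  classical
  ext m
  rw [coeff_homogeneousComponent, coeff_X_mul']
  by_cases ha : a ∈ m.support
  · have : m.degree ≠ 0 := by
      intro h
      rw [Finsupp.degree_eq_zero_iff] at h
      subst h
      simp at ha
    rw [if_neg this]
    simp
  · rw [if_neg ha]
    simp

/-- the ideal of polynomials all of whose components map `N_l` to `D` for `l` large -/
def P6f_ann (N D : ℤ → Submodule k W)
    (hD : ∀ (a : ι) (n : ℤ), ∀ v ∈ D n, (X a : MvPolynomial ι k) • v ∈ D (n + 1)) :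
    Ideal (MvPolynomial ι k) where
  carrier := {g | ∀ i : ℕ, ∃ l₃ : ℤ, ∀ l ≥ l₃, ∀ v ∈ N l,
    homogeneousComponent i g • v ∈ D (l + i)}
  zero_mem' := by
    intro i
    exact ⟨0, fun l _ v _ => by simp⟩
  add_mem' := by
    intro g g' hg hg' i
    obtain ⟨l₃, h₃⟩ := hg i
    obtain ⟨l₄, h₄⟩ := hg' i
    refine ⟨max l₃ l₄, fun l hl v hv => ?_⟩
    rw [map_add, add_smul]
    exact Submodule.add_mem _ (h₃ l (le_trans (le_max_left _ _) hl) v hv)
      (h₄ l (le_trans (le_max_right _ _) hl) v hv)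
  smul_mem' := by
    intro c g hg
    rw [smul_eq_mul]
    induction c using MvPolynomial.induction_on generalizing g with
    | C a =>
      intro i
      obtain ⟨l₃, h₃⟩ := hg i
      refine ⟨l₃, fun l hl v hv => ?_⟩
      rw [homogeneousComponent_C_mul, ← smul_eq_C_mul, smul_assoc]
      exact Submodule.smul_mem _ _ (h₃ l hl v hv)
    | add p q hp hq =>
      intro i
      obtain ⟨l₃, h₃⟩ := hp hg i
      obtain ⟨l₄, h₄⟩ := hq hg i
      refine ⟨max l₃ l₄, fun l hl v hv => ?_⟩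
      rw [add_mul, map_add, add_smul]
      exact Submodule.add_mem _ (h₃ l (le_trans (le_max_left _ _) hl) v hv)
        (h₄ l (le_trans (le_max_right _ _) hl) v hv)
    | mul_X p a hp =>
      rw [mul_assoc]
      apply hp
      intro i
      cases i with
      | zero =>
        refine ⟨0, fun l hl v hv => ?_⟩
        rw [P6f_comp_zero_X_mul, zero_smul]
        exact Submodule.zero_mem _
      | succ i =>
        obtain ⟨l₃, h₃⟩ := hg i
        refine ⟨l₃, fun l hl v hv => ?_⟩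
        rw [P6f_comp_X_mul, mul_smul]
        have := hD a (l + i) _ (h₃ l hl v hv)
        rwa [show l + ((i + 1 : ℕ) : ℤ) = l + i + 1 by push_cast; ring]

theorem P6f_mem_ann_of_homog {N D : ℤ → Submodule k W}
    {hD : ∀ (a : ι) (n : ℤ), ∀ v ∈ D n, (X a : MvPolynomial ι k) • v ∈ D (n + 1)}
    {g : MvPolynomial ι k} {q : ℕ} (hg : g.IsHomogeneous q) {l₃ : ℤ}
    (h : ∀ l ≥ l₃, ∀ v ∈ N l, g • v ∈ D (l + q)) : g ∈ P6f_ann N D hD := by
  intro i
  refine ⟨l₃, fun l hl v hv => ?_⟩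
  rw [homogeneousComponent_of_mem hg]
  by_cases hi : i = q
  · subst hi
    rw [if_pos rfl]
    exact h l hl v hv
  · rw [if_neg hi]
    simp

theorem P6f_of_mem_ann {N D : ℤ → Submodule k W}
    {hD : ∀ (a : ι) (n : ℤ), ∀ v ∈ D n, (X a : MvPolynomial ι k) • v ∈ D (n + 1)}
    {g : MvPolynomial ι k} {q : ℕ} (hg : g.IsHomogeneous q) (h : g ∈ P6f_ann N D hD) :
    ∃ l₃ : ℤ, ∀ l ≥ l₃, ∀ v ∈ N l, g • v ∈ D (l + q) := by
  obtain ⟨l₃, h₃⟩ := h q
  refine ⟨l₃, fun l hl v hv => ?_⟩
  have := h₃ l hl v hv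
  rwa [homogeneousComponent_of_mem hg, if_pos rfl] at this

theorem P6f_iter {N : ℤ → Submodule k W} {n₂ : ℤ}
    (hgen : ∀ n ≥ n₂, N (n + 1) ≤ Submodule.span k
      {w | ∃ a : ι, ∃ v ∈ N n, w = (X a : MvPolynomial ι k) • v}) (t : ℕ) (n : ℤ) (hn : n₂ ≤ n) :
    N (n + t) ≤ Submodule.span k
      {w | ∃ a : Fin t → ι, ∃ v ∈ N n, w = (∏ i, (X (a i) : MvPolynomial ι k)) • v} := by
  induction t with
  | zero =>
    intro v hv
    refine Submodule.subset_span ⟨Fin.elim0, v, by simpa using hv, by simp⟩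
  | succ t ih =>
    have h1 := hgen (n + t) (by omega)
    rw [show n + ((t + 1 : ℕ) : ℤ) = n + t + 1 by push_cast; ring]
    refine h1.trans (Submodule.span_le.2 ?_)
    rintro w ⟨a, v, hv, rfl⟩
    have h2 := ih hv
    have h3 : Submodule.span k
        {w | ∃ a : Fin t → ι, ∃ v ∈ N n, w = (∏ i, (X (a i) : MvPolynomial ι k)) • v} ≤
        (Submodule.span k {w | ∃ a : Fin (t + 1) → ι, ∃ v ∈ N n,
          w = (∏ i, (X (a i) : MvPolynomial ι k)) • v}).comap
          (((X a : MvPolynomial ι k) • (LinearMap.id : W →ₗ[MvPolynomial ι k] W)).restrictScalars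
            k) := by
      rw [Submodule.span_le]
      rintro w ⟨b, v, hv, rfl⟩
      refine Submodule.subset_span ⟨Fin.cons a b, v, hv, ?_⟩
      rw [Fin.prod_univ_succ]
      simp only [LinearMap.restrictScalars_smul, LinearMap.restrictScalars_id, LinearMap.smul_apply, LinearMap.id_coe, id_eq, Fin.cons_zero, Fin.cons_succ, mul_smul]
    exact h3 h2

/-- abstract form -/
theorem P6f_abs [Finite ι] {N D : ℤ → Submodule k W}
    {hD : ∀ (a : ι) (n : ℤ), ∀ v ∈ D n, (X a : MvPolynomial ι k) • v ∈ D (n + 1)} {n₂ : ℤ}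
    (hgen : ∀ n ≥ n₂, N (n + 1) ≤ Submodule.span k
      {w | ∃ a : ι, ∃ v ∈ N n, w = (X a : MvPolynomial ι k) • v})
    (hpow : ∀ a : ι, ∃ M : ℕ, (X a : MvPolynomial ι k) ^ M ∈ P6f_ann N D hD) :
    ∃ l₁ : ℤ, ∀ l ≥ l₁, N l ≤ D l := by
  classical
  have := Fintype.ofFinite ι
  have hrad : Ideal.span (Set.range (X : ι → MvPolynomial ι k)) ≤ (P6f_ann N D hD).radical := by
    rw [Ideal.span_le]
    rintro _ ⟨a, rfl⟩
    exact hpow a
  obtain ⟨K, hK⟩ := Ideal.exists_pow_le_of_le_radical_of_fg hrad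
    ⟨(Finset.univ.image (X : ι → MvPolynomial ι k)), by simp only [Finset.coe_image, Finset.coe_univ, Set.image_univ]⟩
  have hK' : ∀ a : Fin K → ι, (∏ i, (X (a i) : MvPolynomial ι k)) ∈ P6f_ann N D hD := by
    intro a
    apply hK
    have h := Ideal.prod_mem_prod (s := Finset.univ) (ι := Fin K)
      (I := fun _ => Ideal.span (Set.range (X : ι → MvPolynomial ι k)))
      (x := fun i => X (a i)) (fun i _ => Ideal.subset_span ⟨a i, rfl⟩)
    simpa only [Finset.prod_const, Finset.card_univ, Fintype.card_fin] using h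
  have hhom : ∀ a : Fin K → ι, (∏ i, (X (a i) : MvPolynomial ι k)).IsHomogeneous K := by
    intro a
    have h := IsHomogeneous.prod (Finset.univ : Finset (Fin K))
      (fun i => (X (a i) : MvPolynomial ι k)) (fun _ => 1) (fun i _ => isHomogeneous_X k (a i))
    simpa only [Finset.sum_const, Finset.card_univ, Fintype.card_fin, smul_eq_mul, mul_one] using h
  choose l₃ h₃ using fun a => P6f_of_mem_ann (hhom a) (hK' a)
  obtain ⟨l₄, hl₄⟩ : ∃ l₄ : ℤ, ∀ a, l₃ a ≤ l₄ := by
    obtain ⟨b, hb⟩ := (Set.finite_range l₃).bddAbove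
    exact ⟨b, fun a => hb ⟨a, rfl⟩⟩
  refine ⟨max n₂ l₄ + K, fun l hl => ?_⟩
  have h1 : n₂ ≤ l - K := by
    have := le_max_left n₂ l₄
    omega
  have h2 : l₄ ≤ l - K := by
    have := le_max_right n₂ l₄
    omega
  have h3 := P6f_iter hgen K (l - K) h1
  rw [show l - K + K = l by ring] at h3
  refine h3.trans (Submodule.span_le.2 ?_)
  rintro w ⟨a, v, hv, rfl⟩
  have h4 := h₃ a (l - K) ((hl₄ a).trans h2) v hv
  rwa [show l - K + K = l by ring] at h4

end P6fabs

variable {k : Type} [Field k] [IsAlgClosed k] {X : Arr k} {r : ℕ}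
  {Γ : (Fin r → X.L) →ₗ[X.L] (Fin r → X.L)} {E : ℤ → Submodule k (Fin r → X.L)}
  {d : ℤ} {r₁ : ℕ} {e : Fin r₁ → (Fin r → X.L)} (p : ℕ) [Fact p.Prime] [CharP k p]

/-- `ev` as a linear map -/
noncomputable def P6f_evL (X : Arr k) (r : ℕ) : Amb X p r →ₗ[k] (Fin r → X.L) where
  toFun := ev p
  map_add' φ ψ := by
    funext i
    simp [ev]
  map_smul' c φ := by
    funext i
    simp only [ev, Pi.smul_apply, RingHom.id_apply]
    exact ((aug X p).toLinearMap.restrictScalars k).map_smul c (φ i)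

theorem P6f_sum_split {M : Type} [AddCommMonoid M] (X : Arr k) (F : X.I → M) :
    ∑ a, F a = ∑ i, F (X.b i) + ∑ j : X.J, F j.1 := by
  classical
  rw [← Finset.sum_filter_add_sum_filter_not Finset.univ (fun a => a ∈ Set.range X.b)]
  congr 1
  · symm
    refine Finset.sum_nbij X.b ?_ ?_ ?_ ?_
    · intro i _
      simp only [Set.mem_range, Finset.univ_filter_exists, Finset.mem_image, Finset.mem_univ, true_and, exists_apply_eq_apply]
    · exact X.b_inj.injOn
    · intro a ha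
      replace ha := (Finset.mem_filter.1 (Finset.mem_coe.1 ha)).2
      obtain ⟨i, rfl⟩ := ha
      exact ⟨i, by simp, rfl⟩
    · intro i _
      rfl
  · symm
    refine Finset.sum_nbij (fun j : X.J => j.1) ?_ ?_ ?_ ?_
    · intro j _
      exact Finset.mem_filter.2 ⟨Finset.mem_univ _, j.2⟩
    · intro i _ j _ h
      exact Subtype.ext h
    · intro a ha
      have ha' : a ∉ Set.range X.b := (Finset.mem_filter.1 (Finset.mem_coe.1 ha)).2
      exact ⟨(⟨a, ha'⟩ : {x : X.I // x ∉ Set.range X.b}), Finset.mem_coe.2 (Finset.mem_univ _), rfl⟩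
    · intro i _
      rfl

theorem P6f_rel (X : Arr k) (c : X.I → k) (hc : ∑ a, c a • X.l a = 0) :
    ∑ a, algebraMap k (SS X p) (c a) * sS X p a ^ 2 =
      ∑ j : X.J, algebraMap k (SS X p) (c j.1) * fS X p j := by
  have h1 : ∀ i : Fin 3, c (X.b i) = - ∑ j : X.J, c j.1 * X.l j.1 i := by
    intro i
    have h := congrFun hc i
    rw [Finset.sum_apply, P6f_sum_split X] at h
    simp only [Pi.smul_apply, smul_eq_mul, X.l_b, Pi.zero_apply] at h
    have h2 : ∑ i' : Fin 3, c (X.b i') * (Pi.single i' (1 : k) : Fin 3 → k) i = c (X.b i) := by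
      rw [Finset.sum_eq_single i]
      · simp
      · intro b _ hb
        simp [Ne.symm hb]
      · simp
    rw [h2] at h
    exact eq_neg_of_add_eq_zero_left h
  rw [P6f_sum_split X]
  simp only [fS, mul_sub, Finset.sum_sub_distrib, Finset.mul_sum]
  rw [Finset.sum_comm (s := (Finset.univ : Finset X.J))]
  simp only [h1, map_neg, map_sum, map_mul, neg_mul, Finset.sum_mul, mul_assoc, Finset.sum_neg_distrib]
  ring

/-- `MvPolynomial X.I k` acts on the ambient space through `X_a ↦ s_a` -/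
@[reducible] noncomputable def P6f_mod (X : Arr k) (r : ℕ) :
    Module (MvPolynomial X.I k) (Amb X p r) :=
  Module.compHom (Amb X p r) (aeval (sS X p) : MvPolynomial X.I k →ₐ[k] SS X p).toRingHom

theorem P6f_Dtil_X (hE : IsTLat Γ E) {W : ℤ → Submodule k (Fin r → X.L)} (hW : IsTLat Γ W)
    (a : X.I) (l : ℤ) (φ : Amb X p r) (hφ : φ ∈ Dtil p E W l) :
    sS X p a • φ ∈ Dtil p E W (l + 1) := by
  have key : Dtil p E W l ≤ (Dtil p E W (l + 1)).comap
      ((sS X p a • (LinearMap.id : Amb X p r →ₗ[SS X p] Amb X p r)).restrictScalars k) := by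
    refine sup_le ?_ (iSup_le fun j => ?_)
    · intro ψ hψ
      exact Submodule.mem_sup_left (sS_Etil p hW.toIsBLat hW.sig_mem a hψ)
    · rintro _ ⟨ψ, hψ, rfl⟩
      refine Submodule.mem_sup_right (Submodule.mem_iSup_of_mem j ⟨sS X p a • ψ, ?_, ?_⟩)
      · have h := sS_Etil p hE.toIsBLat hE.sig_mem a hψ
        rwa [show l + 1 - 2 = l - 2 + 1 by ring]
      · change fS X p j • (sS X p a • ψ) = sS X p a • (fS X p j • ψ)
        rw [smul_smul, smul_smul, mul_comm]
  exact key hφ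

theorem P6f_fS_mem {W : ℤ → Submodule k (Fin r → X.L)} (j : X.J) {l : ℤ} {φ : Amb X p r}
    (hφ : φ ∈ Etil p E l) : fS X p j • φ ∈ Dtil p E W (l + 2) :=
  Submodule.mem_sup_right (Submodule.mem_iSup_of_mem j ⟨φ, by
    rwa [show l + 2 - 2 = l by ring], rfl⟩)

/-- the kernel vanishes in large degrees -/
theorem ker_ev (hΓ : IsTSp Γ) (hE : IsTLat Γ E) (hg : Good Γ E d e) : ∃ l₁ : ℤ, ∀ l ≥ l₁,
    ∀ φ ∈ Etil p E l, ev p φ ∈ Wpp p Γ d e l → φ ∈ Dtil p E (TspanF Γ d e) l := by
  have hW : IsTLat Γ (TspanF Γ d e) := isTLat_TspanF hΓ d e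
  have hWpp : IsTLat (frG p Γ) (Wpp p Γ d e) := isTLat_TspanF (isTSp_frG p hΓ) _ _
  let _ := P6f_mod p X r
  have hsm : ∀ (g : MvPolynomial X.I k) (φ : Amb X p r),
      g • φ = (aeval (sS X p) g : SS X p) • φ := fun g φ => rfl
  have : IsScalarTower k (MvPolynomial X.I k) (Amb X p r) := by
    refine ⟨fun c g φ => ?_⟩
    rw [hsm, hsm, map_smul, smul_assoc]
  have hX : ∀ (a : X.I) (φ : Amb X p r),
      (MvPolynomial.X a : MvPolynomial X.I k) • φ = sS X p a • φ := by
    intro a φ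
    rw [hsm, aeval_X]
  set N : ℤ → Submodule k (Amb X p r) :=
    fun l => Etil p E l ⊓ (Wpp p Γ d e l).comap (P6f_evL p X r) with hN
  set D : ℤ → Submodule k (Amb X p r) := fun l => Dtil p E (TspanF Γ d e) l with hD'
  have hD : ∀ (a : X.I) (n : ℤ), ∀ v ∈ D n,
      (MvPolynomial.X a : MvPolynomial X.I k) • v ∈ D (n + 1) := by
    intro a n v hv
    rw [hX]
    exact P6f_Dtil_X p hE hW a n v hv
  have hNX : ∀ (a : X.I) (n : ℤ), ∀ v ∈ N n,
      (MvPolynomial.X a : MvPolynomial X.I k) • v ∈ N (n + 1) := by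
    intro a n v hv
    rw [hX]
    refine ⟨sS_Etil p hE.toIsBLat hE.sig_mem a hv.1, ?_⟩
    change ev p (sS X p a • v) ∈ Wpp p Γ d e (n + 1)
    rw [ev_smul, aug_sS]
    exact hWpp.sig_mem a hv.2
  obtain ⟨n₀, n₁, hb, hgen⟩ := gen_Etil p hE.toIsBLat hE.sig_mem
  obtain ⟨n₂, h₂⟩ := graded_noeth (k := k) (ι := X.I) (W := Amb X p r) (Etil p E) N
    (finite_Etil p hE.toIsBLat)
    (by
      intro a n v hv
      rw [hX]
      exact sS_Etil p hE.toIsBLat hE.sig_mem a hv) n₀ n₁ hb
    (by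
      intro n hn
      refine (hgen n hn).trans (Submodule.span_mono ?_)
      rintro w ⟨a, v, hv, rfl⟩
      exact ⟨a, v, hv, (hX a v).symm⟩)
    (fun n => inf_le_left) hNX
  have hI : 2 ≤ Fintype.card X.I := by
    have := Fintype.card_le_of_injective X.b X.b_inj
    simp only [Fintype.card_fin] at this
    omega
  have hprim := ideal_primary (k := k) (I := X.I) (S := X.S) hI X.l X.h X.d
    (fun t => {X.v t, X.h t, X.d t}) (fun t => by simp) X.indep (P6f_ann N D hD)
    (by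
      intro c hc
      refine P6f_mem_ann_of_homog (q := 2) (l₃ := 0) ?_ ?_
      · refine IsHomogeneous.sum _ _ _ fun a _ => ?_
        have := (isHomogeneous_C X.I (c a)).mul ((isHomogeneous_X k a).pow 2)
        simpa using this
      · intro l _ v hv
        rw [hsm, map_sum]
        have h1 : ∑ a, (aeval (sS X p)) (C (c a) * MvPolynomial.X a ^ 2 : MvPolynomial X.I k) =
            ∑ j : X.J, algebraMap k (SS X p) (c j.1) * fS X p j := by
          rw [← P6f_rel p X c hc]
          refine Finset.sum_congr rfl fun a _ => ?_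
          rw [map_mul, map_pow, aeval_X, ← algebraMap_eq, AlgHom.commutes]
        rw [h1, Finset.sum_smul]
        refine Submodule.sum_mem _ fun j _ => ?_
        rw [mul_smul, algebraMap_smul]
        exact Submodule.smul_mem _ _ (P6f_fS_mem p j hv.1))
    (by
      intro i j hij
      obtain ⟨M, hM⟩ := kill_Delta p hΓ hE hg i j hij
      refine ⟨M, P6f_mem_ann_of_homog (q := (X.m - 2) * M) (l₃ := 0) ?_ ?_⟩
      · have h1 := IsHomogeneous.prod ((Finset.univ.erase i).erase j)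
          (fun b => (MvPolynomial.X b : MvPolynomial X.I k)) (fun _ => 1)
          (fun b _ => isHomogeneous_X k b)
        have h2 := h1.pow M
        have h3 : ∑ _b ∈ (Finset.univ.erase i).erase j, 1 = X.m - 2 := by
          rw [Finset.sum_const, smul_eq_mul, mul_one, Finset.card_erase_of_mem
            (Finset.mem_erase.2 ⟨Ne.symm hij, Finset.mem_univ _⟩),
            Finset.card_erase_of_mem (Finset.mem_univ _), Finset.card_univ, Arr.m]
          omega
        rwa [h3] at h2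
      · intro l _ v hv
        rw [hsm, map_pow, map_prod]
        simp only [aeval_X]
        have := hM l v hv.1 hv.2
        rwa [show l + (((X.m - 2) * M : ℕ) : ℤ) = l + M * ((X.m : ℤ) - 2) by
          have : 2 ≤ X.m := hI
          push_cast [Nat.cast_sub this]
          ring])
    (by
      intro t b
      obtain ⟨q, h, n₃, hh, hspan, h₃⟩ := kill_CH p hΓ hE hg t b
      refine ⟨q, p, h, hspan, P6f_mem_ann_of_homog (q := q * p) (l₃ := n₃) (hh.pow p) ?_⟩
      intro l hl v hv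
      rw [hsm]
      have := h₃ l hl v hv.1
      rw [show l + ((q * p : ℕ) : ℤ) = l + p * q by push_cast; ring]
      exact Submodule.mem_sup_left this)
  obtain ⟨l₁, hl₁⟩ := P6f_abs h₂ hprim
  exact ⟨l₁, fun l hl φ hφ hev => hl₁ l hl ⟨hφ, hev⟩⟩

theorem P6f_ev_fS (j : X.J) (φ : Amb X p r) : ev p (fS X p j • φ) = 0 := by
  rw [ev_smul, aug_fS, zero_smul]

/-- an abstract dimension count -/
theorem P6f_count {W V : Type} [AddCommGroup W] [Module k W] [AddCommGroup V] [Module k V]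
    (f : W →ₗ[k] V) (S D : Submodule k W) (P Q : Submodule k V) [Module.Finite k S]
    [Module.Finite k D] [Module.Finite k P] (hQP : Q ≤ P) (hmap : S.map f ≤ P)
    (hD : ∀ v ∈ S, f v ∈ Q → v ∈ D) :
    (Module.finrank k S : ℤ) - Module.finrank k D ≤
      (Module.finrank k P : ℤ) - Module.finrank k Q := by
  have hQfin : Module.Finite k Q := Submodule.finiteDimensional_of_le hQP
  set g : S →ₗ[k] (V ⧸ Q) := (Q.mkQ ∘ₗ f).domRestrict S with hg
  set h : P →ₗ[k] (V ⧸ Q) := Q.mkQ.domRestrict P with hh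
  have h1 := LinearMap.finrank_range_add_finrank_ker g
  have h2 := LinearMap.finrank_range_add_finrank_ker h
  have h3 : Module.finrank k (LinearMap.ker g) ≤ Module.finrank k D := by
    have hle : (LinearMap.ker g).map S.subtype ≤ D := by
      rintro _ ⟨v, hv, rfl⟩
      refine hD v.1 v.2 ?_
      have : Q.mkQ (f v.1) = 0 := hv
      simpa only [Submodule.mkQ_apply, Submodule.Quotient.mk_eq_zero] using this
    rw [← Submodule.finrank_map_subtype_eq S (LinearMap.ker g)]
    exact Submodule.finrank_mono hle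
  have h4 : Module.finrank k (LinearMap.ker h) = Module.finrank k Q := by
    have heq : (LinearMap.ker h).map P.subtype = Q := by
      ext v
      constructor
      · rintro ⟨w, hw, rfl⟩
        have : Q.mkQ w.1 = 0 := hw
        simpa only [Submodule.subtype_apply, Submodule.mkQ_apply, Submodule.Quotient.mk_eq_zero] using this
      · intro hv
        refine ⟨⟨v, hQP hv⟩, ?_, rfl⟩
        change Q.mkQ v = 0
        simpa using hv
    rw [← Submodule.finrank_map_subtype_eq P (LinearMap.ker h), heq]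
  have h5 : Module.finrank k (LinearMap.range g) ≤ Module.finrank k (LinearMap.range h) := by
    refine Submodule.finrank_mono ?_
    rintro _ ⟨v, rfl⟩
    exact ⟨⟨f v.1, hmap ⟨v.1, v.2, rfl⟩⟩, rfl⟩
  omega

/-- 4.5c (c3): the lower bound in raw form -/
theorem curve_lower_raw (hΓ : IsTSp Γ) (hE : IsTLat Γ E) (hg : Good Γ E d e) :
    ∀ᶠ l : ℤ in atTop, ∑ u : X.I → Fin p, (if (p : ℤ) ∣ l - ∑ a, ((u a : ℕ) : ℤ) then
        ((Module.finrank k (E ((l - ∑ a, ((u a : ℕ) : ℤ)) / p)) : ℤ) -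
          Module.finrank k (TspanF Γ d e ((l - ∑ a, ((u a : ℕ) : ℤ)) / p))) else 0) ≤
      ∑ i : X.J → Fin p, ((Module.finrank k (PW p Γ E d e (l - 2 * ∑ j, ((i j : ℕ) : ℤ))) : ℤ) -
        Module.finrank k (Wpp p Γ d e (l - 2 * ∑ j, ((i j : ℕ) : ℤ)))) := by
  classical
  have hW : IsTLat Γ (TspanF Γ d e) := isTLat_TspanF hΓ d e
  obtain ⟨l₁, hl₁⟩ := ker_ev p hΓ hE hg
  filter_upwards [eventually_ge_atTop (l₁ + 2 * (Fintype.card X.J * p : ℕ))] with l hl
  have hL : ∑ u : X.I → Fin p, (if (p : ℤ) ∣ l - ∑ a, ((u a : ℕ) : ℤ) then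
        ((Module.finrank k (E ((l - ∑ a, ((u a : ℕ) : ℤ)) / p)) : ℤ) -
          Module.finrank k (TspanF Γ d e ((l - ∑ a, ((u a : ℕ) : ℤ)) / p))) else 0) =
      (Module.finrank k (Etil p E l) : ℤ) - Module.finrank k (Etil p (TspanF Γ d e) l) := by
    rw [finrank_Etil p hE.toIsBLat, finrank_Etil p hW.toIsBLat, ← Finset.sum_sub_distrib]
    refine Finset.sum_congr rfl fun u _ => ?_
    split_ifs <;> simp
  rw [hL]
  have hfilt := filt_many (k := k) (W := Amb X p r) (J := X.J) p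
    (fun j => (fS X p j • (LinearMap.id : Amb X p r →ₗ[SS X p] Amb X p r)).restrictScalars k)
    (by
      intro i j
      refine LinearMap.ext fun φ => ?_
      change fS X p i • (fS X p j • φ) = fS X p j • (fS X p i • φ)
      rw [smul_smul, smul_smul, mul_comm])
    (by
      intro j
      have hpow : ∀ n : ℕ, ∀ φ : Amb X p r,
          (((fS X p j • (LinearMap.id : Amb X p r →ₗ[SS X p] Amb X p r)).restrictScalars k) ^ n) φ =
            fS X p j ^ n • φ := by
        intro n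
        induction n with
        | zero => intro φ; simp only [LinearMap.restrictScalars_smul, LinearMap.restrictScalars_id, pow_zero, Module.End.one_apply, one_smul]
        | succ n ih =>
          intro φ
          rw [pow_succ, Module.End.mul_apply, ih]
          change fS X p j ^ n • (fS X p j • φ) = _
          rw [smul_smul, ← pow_succ]
      refine LinearMap.ext fun φ => ?_
      rw [hpow, fS_pow_p, zero_smul]
      rfl)
    (Etil p E) (Etil p (TspanF Γ d e)) (finite_Etil p hE.toIsBLat)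
    (Etil_mono p hE.toIsBLat (TspanF_le hE hg))
    (fun j n v hv => fS_Etil p hE.toIsBLat hE.sig_mem j hv)
    (fun j n v hv => fS_Etil p hW.toIsBLat hW.sig_mem j hv) l
  refine hfilt.trans (Finset.sum_le_sum fun i _ => ?_)
  set l' : ℤ := l - 2 * ∑ j, ((i j : ℕ) : ℤ) with hl'
  have hll : l₁ ≤ l' := by
    have h1 : ∑ j, ((i j : ℕ) : ℤ) ≤ ((Fintype.card X.J * p : ℕ) : ℤ) := by
      calc ∑ j, ((i j : ℕ) : ℤ) ≤ ∑ _j : X.J, (p : ℤ) :=
            Finset.sum_le_sum fun j _ => by exact_mod_cast (i j).2.le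
        _ = ((Fintype.card X.J * p : ℕ) : ℤ) := by
            rw [Finset.sum_const, Finset.card_univ]
            push_cast
            simp only [Int.nsmul_eq_mul]
    omega
  have hfinE : Module.Finite k (Etil p E l') := finite_Etil p hE.toIsBLat l'
  have hDle : Dtil p E (TspanF Γ d e) l' ≤ Etil p E l' := by
    refine sup_le (Etil_mono p hE.toIsBLat (TspanF_le hE hg) l') (iSup_le fun j => ?_)
    rintro _ ⟨ψ, hψ, rfl⟩
    have := fS_Etil p hE.toIsBLat hE.sig_mem j hψ
    rwa [show l' - 2 + 2 = l' by ring] at this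
  have hfinD : Module.Finite k (Dtil p E (TspanF Γ d e) l') :=
    Submodule.finiteDimensional_of_le hDle
  have hfinP : Module.Finite k (PW p Γ E d e l') := (isBLat_PW p hΓ hE).fin l'
  exact P6f_count (P6f_evL p X r) (Etil p E l') (Dtil p E (TspanF Γ d e) l')
    (PW p Γ E d e l') (Wpp p Γ d e l') le_sup_right
    (by
      rintro _ ⟨φ, hφ, rfl⟩
      exact Submodule.mem_sup_left ((ev_Etil p hE.toIsBLat hE.sig_mem l').2 ⟨φ, hφ, rfl⟩))
    (fun φ hφ hev => hl₁ l' hll φ hφ hev)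

end Vale.Agent.P190.D
end
end

section

section

/-! Section 4, file P6c: degree formula and `ch₂` inequality for the Frobenius pullback. -/

set_option autoImplicit false
set_option linter.unusedSectionVars false

open MvPolynomial Filter

namespace Vale.Agent.P190.D

/-- the linear coefficient of the Hilbert polynomial of `W` -/
theorem P6c_coeff {N e g : ℤ} {R N0 d c0 κ : ℚ} (hN : (N : ℚ) = 2 * R * N0)
    (h : ∀ n : ℚ, hp N e g n = R * (N0 * (n - d - c0) ^ 2 - κ)) :
    (e : ℚ) = - N * (d + c0 + 3 / 2) := by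
  have h0 := h 0
  have h1 := h 1
  unfold hp at h0 h1
  linear_combination h1 - h0 + (d + c0 - 1 / 2) * hN

theorem P6c_sub {N e g e' g' : ℤ} (c : ℚ) :
    hp N e g c - hp N e' g' c = ((e : ℚ) - e') * (c + 1) + ((g : ℚ) - g') := by
  unfold hp
  ring

theorem P6c_event {k V : Type} [Field k] [AddCommGroup V] [Module k V] [Module (A k) V]
    {E W : ℤ → Submodule k V} {N e g e' g' : ℤ} (h : HasHilb E N e g) (h' : HasHilb W N e' g') :
    ∀ᶠ n : ℤ in atTop, (Module.finrank k (E n) : ℤ) - Module.finrank k (W n) =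
      (e - e') * (n + 1) + (g - g') := by
  filter_upwards [h, h'] with n h1 h2
  have h3 : ((Module.finrank k (E n) : ℚ)) - Module.finrank k (W n) =
      ((e : ℚ) - e') * (n + 1) + ((g : ℚ) - g') := by
    rw [h1, h2, P6c_sub]
  exact_mod_cast h3

variable {k : Type} [Field k] [IsAlgClosed k] {X : Arr k} (p : ℕ) [Fact p.Prime] [CharP k p]
  {r : ℕ} {Γ : (Fin r → X.L) →ₗ[X.L] (Fin r → X.L)} {E : ℤ → Submodule k (Fin r → X.L)}

theorem exists_good (hr : 0 < r) (hΓ : IsTSp Γ) (hE : IsTLat Γ E) (h2 : IsS2 E)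
    (hsp : SpansL (X := X) E) : ∃ (r₁ : ℕ) (d : ℤ) (e : Fin r₁ → (Fin r → X.L)),
      Good Γ E d e := by
  obtain ⟨r₁, h, d, e, h1, h2, h3⟩ := node_theorem hr hΓ hE h2 hsp
  exact ⟨r₁, d, e, h, h1, h2, h3⟩

/-- 4.4 and 4.5 -/
theorem frob_hilb (hr : 0 < r) (hΓ : IsTSp Γ) (hE : IsTLat Γ E) (h2 : IsS2 E)
    (hsp : SpansL (X := X) E) {N e g e' g' : ℤ} (hh : HasHilb E N e g)
    (hh' : HasHilb (GG p hE.toIsBLat hE.sig_mem) N e' g') :
    2 * e' = 2 * p * e + (p - 1) * (X.m - 3) * N ∧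
    (p : ℚ) ^ 2 * hp N e g X.c0 + ((p : ℚ) ^ 2 - 1) * N * X.rhoQ / 8 ≤ hp N e' g' X.c0 := by
  obtain ⟨r₁, d, v, hg⟩ := exists_good hr hΓ hE h2 hsp
  obtain ⟨κ, hκ, hW⟩ := hilb_TspanF X
  obtain ⟨e₁, g₁, hW1, hWp1⟩ := hW r r₁ Γ d v hΓ hg.li
  obtain ⟨e₃, g₃, hW3, hWp3⟩ := hW r r₁ (frG p Γ) (p * d) (fun i => frV p (v i))
    (isTSp_frG p hΓ) (li_Wpp p hΓ hg)
  have hN : N = 2 * r₁ * 2 ^ (X.m - 3) := by
    have h := rank_eq hE.toIsBLat hE.sigStable hsp hh
    rw [h, Module.finrank_fin_fun]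
    have h3 : (r : ℤ) = 2 * r₁ := by exact_mod_cast hg.two
    rw [h3]
    ring
  rw [← hN] at hW1 hW3 hWp1 hWp3
  have hNq : (N : ℚ) = 2 * (r₁ : ℚ) * 2 ^ (X.m - 3) := by
    rw [hN]
    push_cast
    ring
  have hW3' : HasHilb (Wpp p Γ d v) N e₃ g₃ := hW3
  -- the lattices `P(E) ≤ P(E) + W'' ≤ G`
  have hPE := isBLat_PE p hE.toIsBLat hE.sig_mem
  have hPW := isBLat_PW (d := d) (e := v) p hΓ hE
  obtain ⟨N₀, e₀, g₀, h₀⟩ := hPE.exists_hilb
  obtain rfl := rank_PE p hE.toIsBLat hE.sig_mem hh h₀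
  obtain ⟨N₂, e₂, g₂, h₂⟩ := hPW.exists_hilb
  have hle1 : ∀ n, PE p E n ≤ PW p Γ E d v n := fun n => le_sup_left
  have hle2 : ∀ n, PW p Γ E d v n ≤ GG p hE.toIsBLat hE.sig_mem n := fun n =>
    sup_le (PE_le_GG p hE.toIsBLat hE.sig_mem n) (Wpp_le_GG p hΓ hE hg n)
  obtain ⟨i, j, a, b, hab, ha, hb⟩ := exists_cop_of_locIn hPE hPW fun n x hx => hle2 n hx
  obtain ⟨rfl, he02, hg02⟩ := hilb_eq_of_cop hPE hPW hle1 hab ha hb h₀ h₂
  obtain ⟨g₄, hg4, h₄⟩ := h₀.hull hPE
  obtain ⟨-, he4, hg4'⟩ := hh'.unique h₄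
  have he2 : e' = e₂ := he4.trans he02
  have hg2 : g₂ ≤ g' := (h₂.mono (isBLat_hull hPE) hle2 hh').2 he2.symm
  -- comparison
  have hp2 : 2 < p := by
    have h3 := (Fact.out : p.Prime).two_le
    have h4 := p_odd p X
    omega
  have key := curve_arith p X.m hp2 X.four_le_card (I := X.I) (J := X.J) rfl card_J
    (fun n => (Module.finrank k (E n) : ℤ) - Module.finrank k (TspanF Γ d v n))
    (fun n => (Module.finrank k (PW p Γ E d v n) : ℤ) - Module.finrank k (Wpp p Γ d v n))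
    (e - e₁) (g - g₁) (e₂ - e₃) (g₂ - g₃) (P6c_event hh hW1) (P6c_event h₂ hW3')
    (curve_lower_raw p hΓ hE hg)
  have hup := curve_upper p hΓ hE hg hh hW1 h₂ hW3'
  have heq : e₂ - e₃ = p * (e - e₁) := le_antisymm hup key.1
  have hA := key.2 heq
  have c1 := P6c_coeff hNq hWp1
  have c3 := P6c_coeff hNq hWp3
  have hc0 : X.c0 = ((X.m : ℚ) - 6) / 2 := rfl
  constructor
  · have heq' : (e₂ : ℚ) - e₃ = p * (e - e₁) := by exact_mod_cast heq
    have : (2 : ℚ) * e' = 2 * p * e + (p - 1) * (X.m - 3) * N₀ := by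
      rw [he2]
      push_cast at c3
      rw [hc0] at c1 c3
      linear_combination 2 * heq' + 2 * c3 - 2 * (p : ℚ) * c1
    exact_mod_cast this
  · rw [← hc0] at hA
    push_cast at hA
    have b1 := hWp1 X.c0
    have b3 := hWp3 X.c0
    have d1 := P6c_sub (N := N₀) (e := e) (g := g) (e' := e₁) (g' := g₁) X.c0
    have d2 := P6c_sub (N := N₀) (e := e₂) (g := g') (e' := e₃) (g' := g₃) X.c0
    have hg2' : (g₂ : ℚ) ≤ g' := by exact_mod_cast hg2
    have hpq : (1 : ℚ) ≤ (p : ℚ) ^ 2 := by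
      have : (1 : ℚ) ≤ p := by exact_mod_cast (Fact.out : p.Prime).one_le
      nlinarith only [this]
    have hr1 : (0 : ℚ) ≤ r₁ := Nat.cast_nonneg _
    have hfin : ((p : ℚ) ^ 2 - 1) * N₀ * X.rhoQ / 8 ≤ ((p : ℚ) ^ 2 - 1) * (r₁ * κ) := by
      have h5 := mul_le_mul_of_nonneg_left hκ (mul_nonneg (sub_nonneg.2 hpq) hr1)
      rw [hNq]
      linarith only [h5]
    rw [he2]
    push_cast at b3
    have hb3 : hp N₀ e₃ g₃ X.c0 - (p : ℚ) ^ 2 * hp N₀ e₁ g₁ X.c0 =
        ((p : ℚ) ^ 2 - 1) * (r₁ * κ) := by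
      rw [b1, b3]
      ring
    have hA' : (p : ℚ) ^ 2 * (hp N₀ e g X.c0 - hp N₀ e₁ g₁ X.c0) ≤
        hp N₀ e₂ g' X.c0 - hp N₀ e₃ g₃ X.c0 := by
      rw [d1, d2]
      linarith only [hA, hg2']
    linarith only [hA', hb3, hfin]

/-- the Frobenius pullback has the same rank -/
theorem GG_rank (hE : IsBLat E) (hs : SigStable X E) (hsp : SpansL (X := X) E)
    {N e g N' e' g' : ℤ} (hh : HasHilb E N e g) (hh' : HasHilb (GG p hE hs) N' e' g') :
    N' = N := by
  obtain ⟨N₀, e₀, g₀, h₀⟩ := (isBLat_PE p hE hs).exists_hilb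
  obtain rfl := rank_PE p hE hs hh h₀
  obtain ⟨g₄, -, h₄⟩ := h₀.hull (isBLat_PE p hE hs)
  exact (hh'.unique h₄).1

/-- degree formula for `P(E)` without the S2 hypothesis -/
theorem PE_degree (hr : 0 < r) (hΓ : IsTSp Γ) (hE : IsTLat Γ E)
    (hsp : SpansL (X := X) E) {N e g e' g' : ℤ} (hh : HasHilb E N e g)
    (hh' : HasHilb (PE p E) N e' g') :
    2 * e' = 2 * p * e + (p - 1) * (X.m - 3) * N := by
  have hH := hE.hull
  obtain ⟨g₁, -, h₁⟩ := hh.hull hE.toIsBLat
  have hsp' : SpansL (X := X) (hull E hE.toIsBLat) := by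
    unfold SpansL at hsp ⊢
    rw [eq_top_iff, ← hsp]
    exact Submodule.span_mono (Set.iUnion_mono fun n => le_hull hE.toIsBLat n)
  have hPH := isBLat_PE p hH.toIsBLat hH.sig_mem
  obtain ⟨N₂, e₂, g₂, h₂⟩ := hPH.exists_hilb
  obtain rfl := rank_PE p hH.toIsBLat hH.sig_mem h₁ h₂
  obtain ⟨g₃, -, h₃⟩ := h₂.hull hPH
  have h4 := (frob_hilb p hr hΓ hH (isS2_hull hE.toIsBLat) hsp' h₁ h₃).1
  have h5 := (PE_hilb_eq p hE.toIsBLat hH.toIsBLat hE.sig_mem hH.sig_mem
    (le_hull hE.toIsBLat) hh h₁ hh' h₂).2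
  rw [h5]
  exact h4

end Vale.Agent.P190.D
end
end

section

section

/-! Section 4, file P7b: slopes of Frobenius pullbacks of sublattices. -/

set_option autoImplicit false
set_option linter.unusedSectionVars false

open MvPolynomial Filter

namespace Vale.Agent.P190.D

variable {k : Type} [Field k] [IsAlgClosed k] {X : Arr k} (p : ℕ) [Fact p.Prime] [CharP k p]
  {r : ℕ} {Γ : (Fin r → X.L) →ₗ[X.L] (Fin r → X.L)} {E : ℤ → Submodule k (Fin r → X.L)}

/-- the image of a T-lattice -/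
theorem P7b_map_TLat {s : ℕ} {Γ' : (Fin s → X.L) →ₗ[X.L] (Fin s → X.L)}
    {f : (Fin r → X.L) →ₗ[X.L] (Fin s → X.L)} (hE : IsTLat Γ E)
    (h : ∀ v, f (Γ v) = Γ' (f v)) : IsTLat Γ' (mapLat (f.restrictScalars (A k)) E) := by
  refine { toIsBLat := hE.toIsBLat.map _, sig_mem := fun x n v hv => ?_,
           gam_mem := fun ε n v hv => ?_ }
  · obtain ⟨w, hw, rfl⟩ := hv
    exact ⟨X.σ x • w, hE.sig_mem x hw, map_smul f _ _⟩
  · obtain ⟨w, hw, rfl⟩ := hv
    refine ⟨gam Γ ε w, hE.gam_mem ε hw, ?_⟩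
    change f (gam Γ ε w) = gam Γ' ε (f w)
    unfold gam
    rw [map_smul, h w]

theorem P7b_map_sig {s : ℕ} {f : (Fin r → X.L) →ₗ[X.L] (Fin s → X.L)} (hs : SigStable X E) :
    SigStable X (mapLat (f.restrictScalars (A k)) E) := by
  intro x n v hv
  obtain ⟨w, hw, rfl⟩ := hv
  exact ⟨X.σ x • w, hs x hw, map_smul f _ _⟩

theorem P7b_map_spans {s : ℕ} {f : (Fin r → X.L) →ₗ[X.L] (Fin s → X.L)}
    (hf : Function.Surjective f) (hsp : SpansL (X := X) E) :
    SpansL (X := X) (mapLat (f.restrictScalars (A k)) E) := by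
  unfold SpansL at hsp ⊢
  have h1 : (⋃ n, (mapLat (f.restrictScalars (A k)) E n : Set (Fin s → X.L))) =
      f '' (⋃ n, (E n : Set (Fin r → X.L))) := by
    rw [Set.image_iUnion]
    rfl
  rw [h1, ← Submodule.map_span, hsp, Submodule.map_top, LinearMap.range_eq_top.2 hf]

/-- slopes of sublattices of `G` of the form `G ∩ span Fr(U)` -/
theorem slope_frob (hr : 0 < r) (hΓ : IsTSp Γ) (hE : IsTLat Γ E) (h2 : IsS2 E)
    (hsp : SpansL (X := X) E) (hss : Semistable Γ E) {N e g e' g' : ℤ} (hh : HasHilb E N e g)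
    (hh' : HasHilb (GG p hE.toIsBLat hE.sig_mem) N e' g') {U : Submodule X.L (Fin r → X.L)}
    (hU : IsTSub Γ U) {w f g₁ : ℤ}
    (hw : HasHilb (subLat (GG p hE.toIsBLat hE.sig_mem)
      (Submodule.span X.L (frV p '' (U : Set (Fin r → X.L))))) w f g₁) : f * N ≤ e' * w := by
  -- the quotient in coordinates
  obtain ⟨s, b⟩ : ∃ s : ℕ, Nonempty (((Fin r → X.L) ⧸ U) ≃ₗ[X.L] (Fin s → X.L)) :=
    ⟨_, ⟨(Module.finBasis X.L ((Fin r → X.L) ⧸ U)).equivFun⟩⟩
  obtain ⟨b⟩ := b
  obtain ⟨φ, hφ⟩ : ∃ φ : (Fin r → X.L) →ₗ[X.L] (Fin s → X.L), φ = b.toLinearMap ∘ₗ U.mkQ :=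
    ⟨_, rfl⟩
  obtain ⟨Δ, hΔ⟩ : ∃ Δ : (Fin s → X.L) →ₗ[X.L] (Fin s → X.L),
      Δ = b.toLinearMap ∘ₗ quoΓ Γ hU ∘ₗ b.symm.toLinearMap := ⟨_, rfl⟩
  have hφv : ∀ v, φ v = b (U.mkQ v) := fun v => by rw [hφ]; rfl
  have hΔv : ∀ v, Δ v = b (quoΓ Γ hU (b.symm v)) := fun v => by rw [hΔ]; rfl
  have hsurj : Function.Surjective φ := by
    rw [hφ]
    exact b.surjective.comp U.mkQ_surjective
  have hker : LinearMap.ker φ = U := by
    ext v
    rw [LinearMap.mem_ker, hφv, LinearEquiv.map_eq_zero_iff, Submodule.mkQ_apply,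
      Submodule.Quotient.mk_eq_zero]
  have hint : ∀ v, φ (Γ v) = Δ (φ v) := by
    intro v
    rw [hφv, hφv, hΔv, b.symm_apply_apply]
    rfl
  have hΔT : IsTSp Δ := by
    intro w
    obtain ⟨v, rfl⟩ := hsurj w
    rw [← hint, ← hint, hΓ v, map_smul]
  -- the twisted map
  have hkt : LinearMap.ker (tw p φ) =
      Submodule.span X.L (frV p '' (U : Set (Fin r → X.L))) := by
    rw [ker_tw p φ, hker]
  have htsurj := tw_surjective p φ hsurj
  have hsig : SigStable X E := hE.sigStable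
  have hGT := isTLat_GG p hΓ hE
  have hGsp := spansL_GG p hE.toIsBLat hE.sig_mem hsp
  -- the image of `G`
  have hHB : IsBLat (mapLat ((tw p φ).restrictScalars (A k)) (GG p hE.toIsBLat hE.sig_mem)) :=
    hGT.toIsBLat.map _
  obtain ⟨N₂, e₂, g₂, h₂⟩ := hHB.exists_hilb
  have hN₂ : N₂ = 2 ^ (X.m - 3) * (Module.finrank X.L (Fin s → X.L) : ℤ) :=
    rank_eq hHB (P7b_map_sig hGT.sigStable) (P7b_map_spans htsurj hGsp) h₂
  have hw' : HasHilb (interLat (GG p hE.toIsBLat hE.sig_mem)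
      (LinearMap.ker ((tw p φ).restrictScalars (A k)))) w f g₁ := by
    have e1 : interLat (GG p hE.toIsBLat hE.sig_mem)
        (LinearMap.ker ((tw p φ).restrictScalars (A k))) =
        subLat (GG p hE.toIsBLat hE.sig_mem)
          (Submodule.span X.L (frV p '' (U : Set (Fin r → X.L)))) := by
      rw [← hkt]
      rfl
    rw [e1]
    exact hw
  obtain ⟨a1, a2, -⟩ := HasHilb.add hGT.toIsBLat _ hh' hw' h₂
  -- the image of `E`
  have hQT : IsTLat Δ (mapLat (φ.restrictScalars (A k)) E) := P7b_map_TLat hE hint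
  have hQsp := P7b_map_spans hsurj hsp
  obtain ⟨N₃, e₃, g₃, h₃⟩ := hQT.toIsBLat.exists_hilb
  have hN₃ : N₃ = 2 ^ (X.m - 3) * (Module.finrank X.L (Fin s → X.L) : ℤ) :=
    rank_eq hQT.toIsBLat hQT.sigStable hQsp h₃
  obtain rfl : N₂ = N₃ := hN₂.trans hN₃.symm
  have hSB : IsBLat (subLat E U) := (hE.sub hU).toIsBLat
  obtain ⟨N₁, e₁, g₁', h₁⟩ := hSB.exists_hilb
  have h₁' : HasHilb (interLat E (LinearMap.ker (φ.restrictScalars (A k)))) N₁ e₁ g₁' := by
    have e1 : interLat E (LinearMap.ker (φ.restrictScalars (A k))) = subLat E U := by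
      have e2 : subLat E U = subLat E (LinearMap.ker φ) := by rw [hker]
      rw [e2]
      rfl
    rw [e1]
    exact h₁
  obtain ⟨b1, b2, -⟩ := HasHilb.add hE.toIsBLat _ hh h₁' h₃
  have hsemi := hss U hU N e g N₁ e₁ g₁' hh h₁
  have hN₂0 := h₂.nonneg
  -- the case of rank zero
  rcases Nat.eq_zero_or_pos s with hs0 | hs0
  · have hz : N₂ = 0 := by
      rw [hN₂, hs0]
      simp only [Module.finrank_fintype_fun_eq_card, Fintype.card_eq_zero, CharP.cast_eq_zero, mul_zero]
    rw [hz] at h₂ a1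
    obtain ⟨-, he0, -⟩ := h₂.eq_bot hHB
    rw [he0] at a2
    have c1 : w = N := by omega
    have c2 : f = e' := by omega
    rw [c1, c2]
  · -- `P(Q)`
    have hPB := isBLat_PE p hQT.toIsBLat hQT.sig_mem
    obtain ⟨N₄, e₄, g₄, h₄⟩ := hPB.exists_hilb
    obtain rfl := rank_PE p hQT.toIsBLat hQT.sig_mem h₃ h₄
    have hle : ∀ n, PE p (mapLat (φ.restrictScalars (A k)) E) n ≤
        mapLat ((tw p φ).restrictScalars (A k)) (GG p hE.toIsBLat hE.sig_mem) n := by
      intro n
      rw [PE_map p φ n]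
      exact Submodule.map_mono (PE_le_GG p hE.toIsBLat hE.sig_mem n)
    have hmono := (h₄.mono hHB hle h₂).1
    have hdeg := PE_degree p hs0 hΔT hQT hQsp h₃ h₄
    have hdeg' := (frob_hilb p hr hΓ hE h2 hsp hh hh').1
    have hp0 : (0 : ℤ) ≤ p := Int.natCast_nonneg p
    have hN0 := hh.nonneg
    -- e₁ = e - e₃, N₁ = N - N₂
    have c1 : e₁ = e - e₃ := by omega
    have c2 : N₁ = N - N₄ := by omega
    have c3 : f = e' - e₂ := by omega
    have c4 : w = N - N₄ := by omega
    rw [c1, c2] at hsemi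
    rw [c3, c4]
    have k1 : e * N₄ ≤ e₃ * N := by linarith only [hsemi]
    have k2 : (p : ℤ) * (e * N₄) ≤ p * (e₃ * N) := mul_le_mul_of_nonneg_left k1 hp0
    have k3 : e₄ * N ≤ e₂ * N := mul_le_mul_of_nonneg_right hmono hN0
    have k4 : 2 * e' * N₄ = 2 * (p * (e * N₄)) + (p - 1) * (X.m - 3) * N * N₄ := by
      rw [hdeg']
      ring
    have k5 : 2 * e₄ * N = 2 * (p * (e₃ * N)) + (p - 1) * (X.m - 3) * N * N₄ := by
      rw [hdeg]
      ring
    linarith only [k2, k3, k4, k5]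

end Vale.Agent.P190.D
end
end

section

section

/-! Section 4, file P7: the gap lemma. -/

set_option autoImplicit false
set_option linter.unusedSectionVars false

open MvPolynomial Filter

namespace Vale.Agent.P190.D

/-- There are at least five lines. -/
theorem P7_five_le {k : Type} [Field k] (X : Arr k) : 5 ≤ X.m := by
  classical
  have h4 := X.four_le_card
  have hrho := X.rho
  have hS : 1 < Fintype.card X.S := by omega
  obtain ⟨t, t', hne⟩ := Fintype.exists_pair_of_one_lt_card hS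
  have hc : ∀ t : X.S, ({X.v t, X.h t, X.d t} : Finset X.I).card = 3 := by
    intro t
    rw [Finset.card_eq_three]
    exact ⟨_, _, _, X.vh t, X.vd t, X.hd t, rfl⟩
  have hi : (({X.v t, X.h t, X.d t} : Finset X.I) ∩ {X.v t', X.h t', X.d t'}).card ≤ 1 := by
    rw [Finset.card_le_one]
    intro x hx y hy
    by_contra hxy
    rw [Finset.mem_inter] at hx hy
    refine hne (X.share t t' x y hxy ?_ ?_ ?_ ?_)
    · simpa only [Set.mem_insert_iff, Set.mem_singleton_iff, Finset.mem_insert, Finset.mem_singleton] using hx.1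
    · simpa only [Set.mem_insert_iff, Set.mem_singleton_iff, Finset.mem_insert, Finset.mem_singleton] using hy.1
    · simpa only [Set.mem_insert_iff, Set.mem_singleton_iff, Finset.mem_insert, Finset.mem_singleton] using hx.2
    · simpa only [Set.mem_insert_iff, Set.mem_singleton_iff, Finset.mem_insert, Finset.mem_singleton] using hy.2
  have hu := Finset.card_union_add_card_inter ({X.v t, X.h t, X.d t} : Finset X.I)
    {X.v t', X.h t', X.d t'}
  rw [hc, hc] at hu
  have hle := Finset.card_le_univ (({X.v t, X.h t, X.d t} : Finset X.I) ∪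
    {X.v t', X.h t', X.d t'})
  unfold Arr.m
  omega

/-- dimension of the image -/
theorem P7_finrank_map {k V W : Type} [Field k] [AddCommGroup V] [Module k V] [AddCommGroup W]
    [Module k W] (f : V →ₗ[k] W) (S : Submodule k V) [Module.Finite k S] :
    Module.finrank k (S ⊓ LinearMap.ker f : Submodule k V) + Module.finrank k (S.map f) =
      Module.finrank k S := by
  have h1 := LinearMap.finrank_range_add_finrank_ker (f.domRestrict S)
  have h2 : LinearMap.range (f.domRestrict S) = S.map f := by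
    rw [LinearMap.range_domRestrict]
  have h3 : Module.finrank k (LinearMap.ker (f.domRestrict S)) =
      Module.finrank k (S ⊓ LinearMap.ker f : Submodule k V) := by
    rw [LinearMap.ker_domRestrict, ← Submodule.map_comap_subtype]
    exact (LinearEquiv.finrank_eq (Submodule.equivMapOfInjective _
      (Submodule.subtype_injective _) _))
  rw [h2, h3] at h1
  omega

/-- a linear map `D` with `D S ≤ T₂` and `S ∩ D⁻¹ T ≤ S₁` -/
theorem P7_dim {k V : Type} [Field k] [AddCommGroup V] [Module k V] (D : V →ₗ[k] V)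
    (S S₁ T T₂ : Submodule k V) [Module.Finite k S] [Module.Finite k S₁] [Module.Finite k T]
    [Module.Finite k T₂] (hT : T ≤ T₂) (h1 : ∀ v ∈ S, D v ∈ T₂) (h2 : ∀ v ∈ S, D v ∈ T → v ∈ S₁) :
    Module.finrank k S + Module.finrank k T ≤ Module.finrank k S₁ + Module.finrank k T₂ := by
  have e1 := P7_finrank_map (T.mkQ ∘ₗ D) S
  have e2 := P7_finrank_map T.mkQ T₂
  have l1 : Module.finrank k (S ⊓ LinearMap.ker (T.mkQ ∘ₗ D) : Submodule k V) ≤
      Module.finrank k S₁ := by
    refine Submodule.finrank_mono fun v hv => ?_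
    refine h2 v hv.1 ?_
    have h := hv.2
    rw [SetLike.mem_coe, LinearMap.mem_ker, LinearMap.comp_apply, Submodule.mkQ_apply,
      Submodule.Quotient.mk_eq_zero] at h
    exact h
  have l2 : Module.finrank k (S.map (T.mkQ ∘ₗ D)) ≤ Module.finrank k (T₂.map T.mkQ) := by
    have : Module.Finite k (T₂.map T.mkQ) := inferInstance
    refine Submodule.finrank_mono ?_
    rintro _ ⟨v, hv, rfl⟩
    exact ⟨D v, h1 v hv, rfl⟩
  have l3 : (T₂ ⊓ LinearMap.ker T.mkQ : Submodule k V) = T := by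
    rw [Submodule.ker_mkQ]
    exact inf_eq_right.2 hT
  rw [l3] at e2
  omega

/-- comparison of linear coefficients -/
theorem P7_coeff {w f g w1 f1 g1 w2 f2 g2 δ : ℤ} (hw : w - w1 = w2 - w)
    (h : ∀ᶠ n : ℤ in atTop, hp w f g n + hp w f g (n + δ : ℤ) ≤
      hp w1 f1 g1 n + hp w2 f2 g2 (n + δ : ℤ)) : 2 * f ≤ f1 + f2 + δ * (w2 - w) := by
  obtain ⟨m, hm⟩ := eventually_atTop.1 h
  have hw2 : w2 = 2 * w - w1 := by omega
  subst hw2
  have key : ∀ n ≥ m, (2 * f - f1 - f2 - δ * (w - w1)) * (2 * (n + 1)) ≤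
      2 * (g1 + g2 - 2 * g) + 2 * (f2 - f) * δ + (w - w1) * (δ ^ 2 + δ) := by
    intro n hn
    have h1 := hm n hn
    simp only [hp] at h1
    push_cast at h1
    have h2 : (((2 * f - f1 - f2 - δ * (w - w1)) * (2 * (n + 1)) : ℤ) : ℚ) ≤
      ((2 * (g1 + g2 - 2 * g) + 2 * (f2 - f) * δ + (w - w1) * (δ ^ 2 + δ) : ℤ) : ℚ) := by
      push_cast
      linarith
    exact_mod_cast h2
  by_contra hlt
  set Cst : ℤ := 2 * (g1 + g2 - 2 * g) + 2 * (f2 - f) * δ + (w - w1) * (δ ^ 2 + δ) with hC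
  have hpos : 1 ≤ 2 * f - f1 - f2 - δ * (w - w1) := by
    have : δ * (2 * w - w1 - w) = δ * (w - w1) := by ring
    rw [this] at hlt
    omega
  have h1 := key (max m 0 + |Cst|) (by have := abs_nonneg Cst; have := le_max_left m 0; omega)
  have h2 := abs_nonneg Cst
  have h3 := le_abs_self Cst
  have h4 : (0 : ℤ) ≤ max m 0 := le_max_right _ _
  nlinarith only [hlt, h1, h2, h3, h4]

variable {k : Type} [Field k] [IsAlgClosed k] {X : Arr k} (p : ℕ) [Fact p.Prime] [CharP k p]
  {r : ℕ} {Γ : (Fin r → X.L) →ₗ[X.L] (Fin r → X.L)} {E : ℤ → Submodule k (Fin r → X.L)}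

/-- rank of `G ∩ U` -/
theorem P7_rank {Γ' : (Fin r → X.L) →ₗ[X.L] (Fin r → X.L)} {G : ℤ → Submodule k (Fin r → X.L)}
    (hG : IsTLat Γ' G) (hsp : SpansL (X := X) G) {U : Submodule X.L (Fin r → X.L)}
    (hU : IsTSub Γ' U) {w f g : ℤ} (h : HasHilb (subLat G U) w f g) :
    w = 2 ^ (X.m - 3) * (Module.finrank X.L U : ℤ) := by
  have hB := hG.sub hU
  have h1 : spanK (subLat G U) = U.restrictScalars (KK k) := by
    apply SetLike.coe_injective
    rw [spanK_eq_spanL hB.toIsBLat hB.sigStable, s7_span_sub hG hsp U]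
    rfl
  rw [h.N_eq hB.toIsBLat, h1]
  have h2 : Module.finrank (KK k) (U.restrictScalars (KK k)) =
      Module.finrank (KK k) X.L * Module.finrank X.L U :=
    (Module.finrank_mul_finrank (KK k) X.L U).symm
  rw [h2, finrank_KL]
  push_cast
  rfl

/-- the derivative as a `k`-linear map -/
noncomputable def P7_der (D : Derivation k X.L X.L) : (Fin r → X.L) →ₗ[k] (Fin r → X.L) :=
  LinearMap.pi fun i => (D : X.L →ₗ[k] X.L) ∘ₗ LinearMap.proj i

theorem P7_der_apply (D : Derivation k X.L X.L) (v : Fin r → X.L) :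
    P7_der D v = fun i => D (v i) := rfl

/-- the key inequality for one derivation -/
theorem P7_key (hE : IsTLat Γ E) (D : Derivation k X.L X.L) (δ : ℤ)
    (hD : ∀ (n : ℤ) (f : X.L), f ∈ X.T0 n → D f ∈ X.T0 (n + δ))
    {U' U₁ U₂ : Submodule X.L (Fin r → X.L)} (h2 : U' ≤ U₂)
    (h3 : ∀ v ∈ U', (fun i => D (v i)) ∈ U₂)
    (h4 : ∀ v ∈ U', (fun i => D (v i)) ∈ U' → v ∈ U₁) (n : ℤ) :
    Module.finrank k (subLat (GG p hE.toIsBLat hE.sig_mem) U' n) +
      Module.finrank k (subLat (GG p hE.toIsBLat hE.sig_mem) U' (n + δ)) ≤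
    Module.finrank k (subLat (GG p hE.toIsBLat hE.sig_mem) U₁ n) +
      Module.finrank k (subLat (GG p hE.toIsBLat hE.sig_mem) U₂ (n + δ)) := by
  have hB : IsBLat (GG p hE.toIsBLat hE.sig_mem) := isBLat_hull _
  have f1 := (s7_isBLat_sub hB U').fin n
  have f2 := (s7_isBLat_sub hB U').fin (n + δ)
  have f3 := (s7_isBLat_sub hB U₁).fin n
  have f4 := (s7_isBLat_sub hB U₂).fin (n + δ)
  refine P7_dim (P7_der D) _ _ _ _ ?_ ?_ ?_
  · intro v hv
    exact ⟨hv.1, h2 hv.2⟩
  · intro v hv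
    exact ⟨deriv_GG p hE.toIsBLat hE.sig_mem D δ hD hv.1, h3 v hv.2⟩
  · intro v hv hv'
    exact ⟨hv.1, h4 v hv.2 hv'.2⟩

/-- 4.6 gap lemma -/
theorem gap (hr : 0 < r) (hΓ : IsTSp Γ) (hE : IsTLat Γ E) (h2 : IsS2 E)
    (hsp : SpansL (X := X) E) (hss : Semistable Γ E) {N e g e' g' : ℤ} (hh : HasHilb E N e g)
    (hh' : HasHilb (GG p hE.toIsBLat hE.sig_mem) N e' g') {U' : Submodule X.L (Fin r → X.L)}
    (hU' : IsTSub (frG p Γ) U') {w f g₁ : ℤ}
    (hw : HasHilb (subLat (GG p hE.toIsBLat hE.sig_mem) U') w f g₁) :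
    f * N ≤ e' * w + (X.m - 4) * w * (N - w) * N := by
  have hm5 : (5 : ℤ) ≤ X.m := by exact_mod_cast P7_five_le X
  have hG := isTLat_GG p hΓ hE
  have hspG := spansL_GG p hE.toIsBLat hE.sig_mem hsp
  have hB : IsBLat (GG p hE.toIsBLat hE.sig_mem) := hG.toIsBLat
  set G := GG p hE.toIsBLat hE.sig_mem with hGdef
  have hrank : ∀ (U : Submodule X.L (Fin r → X.L)), IsTSub (frG p Γ) U → ∀ w f g₁ : ℤ,
      HasHilb (subLat G U) w f g₁ → w = 2 ^ (X.m - 3) * (Module.finrank X.L U : ℤ) :=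
    fun U hU w f g₁ h => P7_rank hG hspG hU h
  have hN : N = 2 ^ (X.m - 3) * (r : ℤ) := by
    have h := rank_eq hE.toIsBLat hE.sigStable hsp hh
    rw [h, Module.finrank_fin_fun]
  have hpow : (0 : ℤ) < 2 ^ (X.m - 3) := by positivity
  have hNpos : 0 < N := by
    rw [hN]
    have : (0 : ℤ) < r := by exact_mod_cast hr
    positivity
  have hwN : ∀ (U : Submodule X.L (Fin r → X.L)), IsTSub (frG p Γ) U → ∀ w f g₁ : ℤ,
      HasHilb (subLat G U) w f g₁ → 0 ≤ w ∧ w ≤ N := by
    intro U hU w f g₁ h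
    have h1 := hrank U hU w f g₁ h
    have h2 := Submodule.finrank_le U
    rw [Module.finrank_fin_fun] at h2
    have h3 : (Module.finrank X.L U : ℤ) ≤ r := by exact_mod_cast h2
    refine ⟨h.nonneg, ?_⟩
    rw [h1, hN]
    exact mul_le_mul_of_nonneg_left h3 hpow.le
  have hex : ∀ U : Submodule X.L (Fin r → X.L), ∃ w f g₁ : ℤ, HasHilb (subLat G U) w f g₁ :=
    fun U => (s7_isBLat_sub hB U).exists_hilb
  by_contra hcon
  -- a maximiser
  obtain ⟨C, hC⟩ := hB.exists_slope_bound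
  obtain ⟨z, ⟨V, hV, w, f, g₁, hV', hz⟩, hmax⟩ := Int.exists_greatest_of_bdd
    (P := fun z : ℤ => ∃ U : Submodule X.L (Fin r → X.L), IsTSub (frG p Γ) U ∧
      ∃ w f g₁ : ℤ, HasHilb (subLat G U) w f g₁ ∧
        z = f * N - e' * w - (X.m - 4) * w * (N - w) * N)
    ⟨|C| * N * N + |e'| * N, by
      rintro z ⟨U, hU, w, f, g₁, h1, rfl⟩
      have h3 := hC _ (s7_isBLat_sub hB U) (fun n v hv => hv.1) _ _ _ h1
      obtain ⟨h4, h5⟩ := hwN U hU w f g₁ h1
      have h6 : f ≤ |C| * N := by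
        have h7 : C * w ≤ |C| * w := mul_le_mul_of_nonneg_right (le_abs_self C) h4
        have h8 : |C| * w ≤ |C| * N := mul_le_mul_of_nonneg_left h5 (abs_nonneg C)
        linarith only [h3, h7, h8]
      have h9 : f * N ≤ |C| * N * N := mul_le_mul_of_nonneg_right h6 hNpos.le
      have h10 : -(e' * w) ≤ |e'| * N := by
        have h11 : -e' * w ≤ |e'| * w :=
          mul_le_mul_of_nonneg_right (neg_le_abs e') h4
        have h12 : |e'| * w ≤ |e'| * N := mul_le_mul_of_nonneg_left h5 (abs_nonneg e')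
        linarith only [h11, h12]
      have h13 : (0 : ℤ) ≤ (X.m - 4) * w * (N - w) * N :=
        mul_nonneg (mul_nonneg (mul_nonneg (by omega) h4) (by omega)) hNpos.le
      linarith only [h13, h10, h9]⟩
    ⟨_, U', hU', w, f, g₁, hw, rfl⟩
  have hzpos : 0 < z := by
    have h1 := hmax _ ⟨U', hU', _, _, _, hw, rfl⟩
    linarith only [hcon, h1]
  obtain ⟨hw0, hwN'⟩ := hwN V hV w f g₁ hV'
  -- the derivations preserve `V`
  obtain ⟨D, hD1, hD2⟩ := exists_derivations X p
  have hst : ∀ i, ∀ v ∈ V, (fun j => D i (v j)) ∈ V := by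
    intro i
    obtain ⟨U₁, U₂, hU₁, hU₂, hle1, hle2, h3, h4, hfr⟩ := deriv_sub p (D i) hV
    obtain ⟨w1, f1, g1, h5⟩ := hex U₁
    obtain ⟨w2, f2, g2, h6⟩ := hex U₂
    have r0 := hrank V hV w f g₁ hV'
    have r1 := hrank U₁ hU₁ w1 f1 g1 h5
    have r2 := hrank U₂ hU₂ w2 f2 g2 h6
    have m1 := Submodule.finrank_mono hle1
    have m2 := Submodule.finrank_mono hle2
    have hfr' : (Module.finrank X.L V : ℤ) - Module.finrank X.L U₁ =
        Module.finrank X.L U₂ - Module.finrank X.L V := by omega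
    have hww : w - w1 = w2 - w := by
      rw [r0, r1, r2, ← mul_sub, ← mul_sub, hfr']
    have hvv : 0 ≤ w2 - w := by
      rw [r0, r2, ← mul_sub]
      exact mul_nonneg hpow.le (by omega)
    have hkey : 2 * f ≤ f1 + f2 + ((X.m : ℤ) - 4) * (w2 - w) := by
      refine P7_coeff (g := g₁) (g1 := g1) (g2 := g2) hww ?_
      have ht : Tendsto (fun n : ℤ => n + ((X.m : ℤ) - 4)) atTop atTop :=
        tendsto_atTop_add_const_right _ _ tendsto_id
      filter_upwards [hV', ht.eventually hV', h5, ht.eventually h6] with n a1 a2 a3 a4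
      rw [← a1, ← a2, ← a3, ← a4]
      exact_mod_cast P7_key p hE (D i) ((X.m : ℤ) - 4) (hD1 i) hle2 h3 h4 n
    have k1 := hmax _ ⟨U₁, hU₁, _, _, _, h5, rfl⟩
    have k2 := hmax _ ⟨U₂, hU₂, _, _, _, h6, rfl⟩
    rw [hz] at k1 k2
    have hv0 : w2 - w = 0 := by
      by_contra hne
      have hv1 : 1 ≤ w2 - w := by omega
      have hw1 : w1 = w - (w2 - w) := by omega
      have hw2 : w2 = w + (w2 - w) := by omega
      generalize w2 - w = v at *
      subst hw1
      subst hw2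
      have hk3 : N * (f1 + f2) + 2 * ((X.m : ℤ) - 4) * N * v ^ 2 ≤ N * (2 * f) := by
        linarith only [k2, k1]
      have hk4 : N * (2 * f) ≤ N * (f1 + f2 + ((X.m : ℤ) - 4) * v) :=
        mul_le_mul_of_nonneg_left hkey hNpos.le
      have hk5 : 2 * ((X.m : ℤ) - 4) * N * v ^ 2 ≤ N * (((X.m : ℤ) - 4) * v) := by
        linarith only [k1, k2, hk4]
      have hk6 : 0 < ((X.m : ℤ) - 4) * N * v := by
        have : (0 : ℤ) < (X.m : ℤ) - 4 := by omega
        (clear * - this hNpos hvv hne; positivity)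
      have hk7 := mul_nonneg hk6.le (show (0 : ℤ) ≤ v - 1 by linarith only [hv1])
      linarith only [hk5, hk6, hk7]
    have hfr2 : Module.finrank X.L U₂ = Module.finrank X.L V := by
      rw [r0, r2, ← mul_sub] at hv0
      rcases mul_eq_zero.1 hv0 with h | h
      · omega
      · omega
    have hUV : V = U₂ := Submodule.eq_of_le_of_finrank_eq hle2 hfr2.symm
    intro v hv
    have := h3 v hv
    rw [← hUV] at this
    exact this
  obtain ⟨U, hU, hVU⟩ := cartier_T p D hD2 hΓ V hV hst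
  have hfin : f * N ≤ e' * w := by
    refine slope_frob p hr hΓ hE h2 hsp hss hh hh' hU (w := w) (f := f) (g₁ := g₁) ?_
    rw [← hVU]
    exact hV'
  have h13 : (0 : ℤ) ≤ (X.m - 4) * w * (N - w) * N :=
    mul_nonneg (mul_nonneg (mul_nonneg (by omega) hw0) (by omega)) hNpos.le
  linarith only [hz, hzpos, hfin, h13]

end Vale.Agent.P190.D
end
end

section

section

/-! Section 4, file P8: Theorem P. -/

set_option autoImplicit false
set_option linter.unusedSectionVars false

open MvPolynomial Filter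

namespace Vale.Agent.P190.D

/-- lower bound of the Hilbert polynomial of the Frobenius pullback -/
theorem P8_lower {N e g e' g' : ℤ} {p m : ℕ} (hN : 0 < N) (hp1 : 1 ≤ p) (he : -N ≤ e)
    (he0 : e ≤ 0) (hg : 0 ≤ g) (h1 : 2 * e' = 2 * p * e + (p - 1) * (m - 3) * N) {ρ : ℚ}
    (hρ : 3 / 2 ≤ ρ)
    (h2 : (p : ℚ) ^ 2 * hp N e g (((m : ℚ) - 6) / 2) + ((p : ℚ) ^ 2 - 1) * N * ρ / 8 ≤
      hp N e' g' (((m : ℚ) - 6) / 2)) (n : ℤ) :
    (N : ℚ) * ((p : ℚ) ^ 2 - 3) / 16 ≤ hp N e' g' n := by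
  have hNq : (0 : ℚ) < N := by exact_mod_cast hN
  have hpq : (1 : ℚ) ≤ p := by exact_mod_cast hp1
  have heq : -(N : ℚ) ≤ e := by exact_mod_cast he
  have he0q : (e : ℚ) ≤ 0 := by exact_mod_cast he0
  have hgq : (0 : ℚ) ≤ g := by exact_mod_cast hg
  have h1q : 2 * (e' : ℚ) = 2 * p * e + (p - 1) * (m - 3) * N := by exact_mod_cast h1
  have h1e : (e' : ℚ) = p * e + (p - 1) * (m - 3) * N / 2 := by linarith only [h1q]
  have hp2 : (1 : ℚ) ≤ (p : ℚ) ^ 2 := one_le_pow₀ hpq
  set q : ℚ := N * ((m : ℚ) - 3) / 2 + e with hq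
  -- values
  have v1 : (N : ℚ) * hp N e g (((m : ℚ) - 6) / 2) = q ^ 2 / 2 - (e + N / 2) ^ 2 / 2 + N * g := by
    unfold hp
    rw [hq]
    ring
  have v2 : (N : ℚ) * (hp N e' g' n - hp N e' g' (((m : ℚ) - 6) / 2)) =
      (N * (n : ℚ) + 3 * N / 2 + e') ^ 2 / 2 - ((p : ℚ) * q) ^ 2 / 2 := by
    unfold hp
    rw [hq, h1e]
    ring
  have h3 : (e + (N : ℚ) / 2) ^ 2 ≤ (N : ℚ) ^ 2 / 4 := by
    have h3' := mul_nonneg (show (0 : ℚ) ≤ e + N by linarith only [heq])
      (show (0 : ℚ) ≤ -e by linarith only [he0q])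
    linarith only [h3']
  have h4 : (0 : ℚ) ≤ (N * (n : ℚ) + 3 * N / 2 + e') ^ 2 := sq_nonneg _
  have h5 := mul_le_mul_of_nonneg_left h2 hNq.le
  have h6 : ((p : ℚ) ^ 2 - 1) * N * (3 / 2) * N ≤ ((p : ℚ) ^ 2 - 1) * N * ρ * N := by
    apply mul_le_mul_of_nonneg_right _ hNq.le
    apply mul_le_mul_of_nonneg_left hρ
    exact mul_nonneg (by linarith only [hp2]) hNq.le
  have h7 : (p : ℚ) ^ 2 * (e + (N : ℚ) / 2) ^ 2 ≤ (p : ℚ) ^ 2 * ((N : ℚ) ^ 2 / 4) :=
    mul_le_mul_of_nonneg_left h3 (by linarith only [hp2])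
  have h8 : (0 : ℚ) ≤ (p : ℚ) ^ 2 * (N * g) :=
    mul_nonneg (by linarith only [hp2]) (mul_nonneg hNq.le hgq)
  have h9 : (N : ℚ) * ((N : ℚ) * ((p : ℚ) ^ 2 - 3) / 16) ≤ N * hp N e' g' n := by
    have e1 : (N : ℚ) * ((p : ℚ) ^ 2 * hp N e g (((m : ℚ) - 6) / 2) +
        ((p : ℚ) ^ 2 - 1) * N * ρ / 8) =
        (p : ℚ) ^ 2 * (q ^ 2 / 2 - (e + N / 2) ^ 2 / 2 + N * g) +
          ((p : ℚ) ^ 2 - 1) * N * ρ * N / 8 := by
      rw [← v1]
      ring
    rw [e1] at h5
    have e2 : (N : ℚ) * hp N e' g' n = N * hp N e' g' (((m : ℚ) - 6) / 2) +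
        ((N * (n : ℚ) + 3 * N / 2 + e') ^ 2 / 2 - ((p : ℚ) * q) ^ 2 / 2) := by
      rw [← v2]
      ring
    rw [e2]
    have e3 : ((p : ℚ) * q) ^ 2 = (p : ℚ) ^ 2 * q ^ 2 := by ring
    rw [e3]
    linarith only [h4, h5, h6, h7, h8]
  exact le_of_mul_le_mul_left h9 hNq

/-- the constant of the upper bound -/
noncomputable def P8_C (m w : ℕ) (N c : ℤ) : ℚ :=
  (2 * (|(m : ℚ) - 4| * |(N : ℚ)|) + 2 * m + 2 * w + 6) *
    (|(N : ℚ)| * (|(N : ℚ)| * (|(c : ℚ)| + m + 4) + |(m : ℚ) - 4| * |(N : ℚ)| + m + w + 6) +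
      |(N : ℚ)| * (|(c : ℚ)| + m + 4))

theorem P8_C_nonneg (m w : ℕ) (N c : ℤ) : 0 ≤ P8_C m w N c := by
  unfold P8_C
  positivity

theorem P8_upper {N e e' c D Δ : ℤ} {p m w : ℕ} (hN : 0 < N) (hp1 : 1 ≤ p) (he : -N ≤ e)
    (he0 : e ≤ 0) (h1 : 2 * e' = 2 * p * e + (p - 1) * (m - 3) * N)
    (hD : D = p * c + m - 3) (hΔ : Δ = (m - 4) * N) :
    ((2 * Δ + 2 * m + 2 * w + 6 : ℚ) *
      (N * (N * |(D : ℚ) + e' / N| + Δ + m + w + 6) + N * |(D : ℚ) + e' / N|)) ≤
      P8_C m w N c * p := by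
  have hNq : (0 : ℚ) < N := by exact_mod_cast hN
  have hpq : (1 : ℚ) ≤ p := by exact_mod_cast hp1
  have heq : -(N : ℚ) ≤ e := by exact_mod_cast he
  have he0q : (e : ℚ) ≤ 0 := by exact_mod_cast he0
  have h1q : 2 * (e' : ℚ) = 2 * p * e + (p - 1) * (m - 3) * N := by exact_mod_cast h1
  have hmq : (0 : ℚ) ≤ m := Nat.cast_nonneg _
  have hwq : (0 : ℚ) ≤ w := Nat.cast_nonneg _
  set a : ℚ := |(D : ℚ) + e' / N| with ha
  have ha0 : 0 ≤ a := abs_nonneg _
  -- `a ≤ p B`
  have hm3 : |(m : ℚ) - 3| ≤ m + 3 := by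
    rw [abs_le]
    constructor <;> linarith only []
  have hexp : (D : ℚ) + e' / N = p * (c + e / N + (m - 3) / 2) + (m - 3) / 2 := by
    rw [hD]
    push_cast
    field_simp
    linear_combination h1q
  have heN : |(e : ℚ) / N| ≤ 1 := by
    rw [abs_div, abs_of_pos hNq, div_le_one hNq, abs_le]
    constructor <;> linarith only [hNq, he0q, heq]
  have haB : a ≤ p * (|(c : ℚ)| + m + 4) := by
    rw [ha, hexp]
    have t1 := abs_add_le ((p : ℚ) * (c + e / N + (m - 3) / 2)) (((m : ℚ) - 3) / 2)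
    have t2 : |(p : ℚ) * (c + e / N + (m - 3) / 2)| =
        p * |(c : ℚ) + e / N + (m - 3) / 2| := by
      rw [abs_mul, abs_of_nonneg (by linarith only [] : (0 : ℚ) ≤ p)]
    have t3 : |(c : ℚ) + e / N + (m - 3) / 2| ≤ |(c : ℚ)| + 1 + (m + 3) / 2 := by
      have u1 := abs_add_le ((c : ℚ) + e / N) (((m : ℚ) - 3) / 2)
      have u2 := abs_add_le (c : ℚ) ((e : ℚ) / N)
      have u3 : |((m : ℚ) - 3) / 2| ≤ (m + 3) / 2 := by
        rw [abs_div, abs_two]
        linarith only [hm3]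
      linarith only [heN, u1, u2, u3]
    have t4 : |((m : ℚ) - 3) / 2| ≤ (m + 3) / 2 := by
      rw [abs_div, abs_two]
      linarith only [hm3]
    have t5 := mul_le_mul_of_nonneg_left t3 (by linarith only [] : (0 : ℚ) ≤ p)
    have t6 : ((m : ℚ) + 3) / 2 ≤ p * (((m : ℚ) + 3) / 2) :=
      le_mul_of_one_le_left (by (clear * -; positivity)) hpq
    rw [t2] at t1
    have t7 : (p : ℚ) * (|(c : ℚ)| + 1 + (m + 3) / 2) + p * (((m : ℚ) + 3) / 2) =
      p * (|(c : ℚ)| + m + 4) := by ring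
    linarith only [t1, t4, t5, t6]
  have hc0 : (0 : ℚ) ≤ |(c : ℚ)| := abs_nonneg _
  have hΔq : |(Δ : ℚ)| = |(m : ℚ) - 4| * N := by
    rw [hΔ]
    push_cast
    rw [abs_mul, abs_of_pos hNq]
  have hm4 : (0 : ℚ) ≤ |(m : ℚ) - 4| := abs_nonneg _
  have k1 : |(2 * Δ + 2 * m + 2 * w + 6 : ℚ)| ≤ 2 * (|(m : ℚ) - 4| * N) + 2 * m + 2 * w + 6 := by
    rw [← hΔq]
    have u1 := le_abs_self (Δ : ℚ)
    have u2 := neg_abs_le (Δ : ℚ)
    rw [abs_le]
    constructor <;> linarith only [u1, u2]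
  have k2 : |(N * (N * a + Δ + m + w + 6) + N * a : ℚ)| ≤
      (N * (N * (|(c : ℚ)| + m + 4) + |(m : ℚ) - 4| * N + m + w + 6) +
        N * (|(c : ℚ)| + m + 4)) * p := by
    have u1 := le_abs_self (Δ : ℚ)
    have u2 := neg_abs_le (Δ : ℚ)
    have v1 : |(N * (N * a + Δ + m + w + 6) + N * a : ℚ)| ≤
        N * (N * a + |(Δ : ℚ)| + m + w + 6) + N * a := by
      rw [abs_le]
      constructor
      · have w1 : (N : ℚ) * -(N * a + |(Δ : ℚ)| + m + w + 6) ≤ N * (N * a + Δ + m + w + 6) := by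
          apply mul_le_mul_of_nonneg_left _ hNq.le
          have : 0 ≤ (N : ℚ) * a := mul_nonneg hNq.le ha0
          linarith only [this, u2]
        have w2 : 0 ≤ (N : ℚ) * a := mul_nonneg hNq.le ha0
        linarith only [w1, w2]
      · have w1 : (N : ℚ) * (N * a + Δ + m + w + 6) ≤ N * (N * a + |(Δ : ℚ)| + m + w + 6) := by
          apply mul_le_mul_of_nonneg_left _ hNq.le
          linarith only [u1]
        linarith only [w1]
    refine v1.trans ?_
    rw [hΔq]
    have w1 : (N : ℚ) * a ≤ N * (|(c : ℚ)| + m + 4) * p := by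
      have := mul_le_mul_of_nonneg_left haB hNq.le
      linarith only [this]
    have w2 : |(m : ℚ) - 4| * N + m + w + 6 ≤ (|(m : ℚ) - 4| * N + m + w + 6) * p := by
      have : (0 : ℚ) ≤ |(m : ℚ) - 4| * N + m + w + 6 := by (clear * - hN; positivity)
      exact le_mul_of_one_le_right this hpq
    have w3 : (N : ℚ) * (N * a + |(m : ℚ) - 4| * N + m + w + 6) ≤
        N * ((N * (|(c : ℚ)| + m + 4) + |(m : ℚ) - 4| * N + m + w + 6) * p) := by
      apply mul_le_mul_of_nonneg_left _ hNq.le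
      linarith only [w1, w2]
    linarith only [w1, w3]
  unfold P8_C
  rw [abs_of_pos hNq]
  calc _ ≤ |(2 * Δ + 2 * m + 2 * w + 6 : ℚ) * (N * (N * a + Δ + m + w + 6) + N * a)| :=
        le_abs_self _
    _ = |(2 * Δ + 2 * m + 2 * w + 6 : ℚ)| * |(N * (N * a + Δ + m + w + 6) + N * a : ℚ)| :=
        abs_mul _ _
    _ ≤ (2 * (|(m : ℚ) - 4| * N) + 2 * m + 2 * w + 6) *
        ((N * (N * (|(c : ℚ)| + m + 4) + |(m : ℚ) - 4| * N + m + w + 6) +
        N * (|(c : ℚ)| + m + 4)) * p) := by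
        apply mul_le_mul k1 k2 (abs_nonneg _)
        (clear * - hN; positivity)
    _ = _ := by ring

/-- 4.8 -/
theorem theoremP' (m s : ℕ) (N c : ℤ) : ∃ p₀ : ℕ, ∀ p : ℕ, p₀ ≤ p → p.Prime →
    ∀ (k : Type) [Field k] [IsAlgClosed k] [CharP k p] (X : Arr k),
    X.m = m → Fintype.card X.S = s →
    ∀ (r : ℕ) (Γ : (Fin r → X.L) →ₗ[X.L] (Fin r → X.L)) (E : ℤ → Submodule k (Fin r → X.L)),
    0 < r → IsTSp Γ → IsTLat Γ E → IsS2 E → SpansL (X := X) E →
    ∀ e g : ℤ, HasHilb E N e g → -N ≤ e → e ≤ 0 → GenIn E c → Semistable Γ E → g < 0 := by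
  refine ⟨⌈16 * P8_C m (s / 2) N c⌉₊ + 4, fun p hp₀ hprime k _ _ _ X hm hs r Γ E hr hΓ hE h2 hsp e
    g hh he he0 hgen hss => ?_⟩
  have : Fact p.Prime := ⟨hprime⟩
  by_contra hg
  have hg0 : 0 ≤ g := not_lt.1 hg
  -- `N > 0`
  have hN : 0 < N := by
    rw [rank_eq hE.toIsBLat hE.sigStable hsp hh, Module.finrank_fin_fun]
    positivity
  obtain ⟨N₀, e₀, g₀, h₀⟩ := (isBLat_PE p hE.toIsBLat hE.sig_mem).exists_hilb
  obtain rfl := rank_PE p hE.toIsBLat hE.sig_mem hh h₀
  obtain ⟨g₁, hg₁, h₁⟩ := h₀.hull (isBLat_PE p hE.toIsBLat hE.sig_mem)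
  have h₁' : HasHilb (GG p hE.toIsBLat hE.sig_mem) N₀ e₀ g₁ := h₁
  obtain ⟨hf1, hf2⟩ := frob_hilb p hr hΓ hE h2 hsp hh h₁'
  have hρ : (3 / 2 : ℚ) ≤ X.rhoQ := by
    have h3 : (2 * (X.m : ℚ)) + 1 ≤ (Fintype.card X.S : ℚ) + 6 := by
      have := X.rho
      have h4 : 2 * X.m + 1 ≤ Fintype.card X.S + 6 := this
      exact_mod_cast h4
    unfold Arr.rhoQ
    linarith only [h3]
  obtain ⟨n, hn⟩ := hp_bound hr (isTSp_frG p hΓ) (isTLat_GG p hΓ hE)
    (isS2_GG p hE.toIsBLat hE.sig_mem) (spansL_GG p hE.toIsBLat hE.sig_mem hsp)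
    (isBLat_PE p hE.toIsBLat hE.sig_mem) (PE_le_GG p hE.toIsBLat hE.sig_mem)
    (genIn_PE p hE.toIsBLat hE.sig_mem hgen) h₁' h₀ _ rfl
    (fun U hU w f g₂ hw => gap p hr hΓ hE h2 hsp hss hh h₁' hU hw)
  have hp1 : 1 ≤ p := hprime.one_le
  have hlow := P8_lower (m := X.m) hN hp1 he he0 hg0 hf1 hρ hf2 n
  have hup := P8_upper (w := X.w) (c := c) (D := p * c + X.m - 3) hN hp1 he he0 hf1 rfl rfl
  have hw : X.w = s / 2 := by
    unfold Arr.w
    rw [hs]
  rw [hm, hw] at hup
  rw [hm, hw] at hn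
  have hfin := hlow.trans (hn.trans hup)
  have hC := P8_C_nonneg m (s / 2) N₀ c
  have hple : 16 * P8_C m (s / 2) N₀ c + 4 ≤ p := by
    have h5 := Nat.le_ceil (16 * P8_C m (s / 2) N₀ c)
    have h6 : ((⌈16 * P8_C m (s / 2) N₀ c⌉₊ + 4 : ℕ) : ℚ) ≤ p := by exact_mod_cast hp₀
    push_cast at h6
    linarith only [h6, h5]
  have hN1 : (1 : ℚ) ≤ N₀ := by exact_mod_cast hN
  have hpp : (4 : ℚ) ≤ p := by linarith only [hple, hC]
  have h6 : (0 : ℚ) ≤ (p : ℚ) ^ 2 - 3 := by
    linarith only [sq_nonneg ((p : ℚ) - 4), hpp]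
  have h7 : ((p : ℚ) ^ 2 - 3) ≤ N₀ * ((p : ℚ) ^ 2 - 3) := by
    have := mul_le_mul_of_nonneg_right hN1 h6
    linarith only [this]
  have h8 : 16 * P8_C m (s / 2) N₀ c * p ≤ (p - 4) * p := by
    apply mul_le_mul_of_nonneg_right _ (by linarith only [hpp])
    linarith only [hple]
  linarith only [hpp, h8, h7, hfin]

end Vale.Agent.P190.D
end
end

section

section

/-! Section 3, file S4: the associated graded module of an admissible filtration as a T-lattice. -/

set_option autoImplicit false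
set_option linter.unusedSectionVars false

open MvPolynomial Filter

namespace Vale.Agent.P190.D

variable {k : Type} [Field k] {X : Arr k} {R : Type} [CommRing R] [Algebra (Bh k) R]
  {N : ℕ} [Module R (MM k N)] [IsScalarTower (Bh k) R (MM k N)]

/-- a localised module -/
structure LocM {RS : Type} [CommRing RS] (P : LocD k R RS) (N : ℕ) [Module R (MM k N)]
    (MS : Type) [AddCommGroup MS] [Module RS MS] where
  ι : MM k N →+ MS
  hι : ∀ (a : R) (v : MM k N), ι (a • v) = P.φ a • ι v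
  inj : Function.Injective ι

namespace LocM

variable {RS : Type} [CommRing RS] {P : LocD k R RS} {MS : Type} [AddCommGroup MS] [Module RS MS]
  (ℓ : LocM P N MS)

theorem ι_smul (b : Bh k) (v : MM k N) : ℓ.ι (b • v) = P.th b • ℓ.ι v := by
  rw [← algebraMap_smul R b v, ℓ.hι, P.th_apply]

/-- the element `x₁^{-n} v` -/
noncomputable def cl0 (n : ℤ) : MM k N →+ MS :=
  (DistribSMul.toAddMonoidHom MS ((P.u ^ (-n) : RSˣ) : RS)).comp ℓ.ι

theorem cl0_apply (n : ℤ) (v : MM k N) : ℓ.cl0 n v = ((P.u ^ (-n) : RSˣ) : RS) • ℓ.ι v := rfl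

theorem cl0_inj {n : ℤ} {v w : MM k N} (h : ℓ.cl0 n v = ℓ.cl0 n w) : v = w := by
  rw [cl0_apply, cl0_apply] at h
  have h1 := congrArg (fun z => ((P.u ^ n : RSˣ) : RS) • z) h
  simp only [smul_smul, ← Units.val_mul, ← zpow_add, add_neg_cancel, zpow_zero, Units.val_one,
    one_smul] at h1
  exact ℓ.inj h1

theorem phA_smul_cl0 {i : ℤ} {c : A k} (hc : c ∈ Ad k i) (n : ℤ) (v : MM k N) :
    P.phA c • ℓ.cl0 n v = ℓ.cl0 (n + i) (hg k i c • v) := by
  rw [cl0_apply, cl0_apply, ℓ.ι_smul, ← P.phA_mul hc, smul_smul, smul_smul, neg_add, zpow_add,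
    Units.val_mul]
  congr 1
  have : ((P.u ^ (-i) : RSˣ) : RS) * ((P.u ^ i : RSˣ) : RS) = 1 := by
    rw [← Units.val_mul, ← zpow_add, neg_add_cancel, zpow_zero, Units.val_one]
  calc P.phA c * ((P.u ^ (-n) : RSˣ) : RS)
      = P.phA c * ((P.u ^ (-n) : RSˣ) : RS) *
        (((P.u ^ (-i) : RSˣ) : RS) * ((P.u ^ i : RSˣ) : RS)) := by rw [this, mul_one]
    _ = _ := by ring

theorem cl0_shift {j : ℤ} (hj : 0 ≤ j) (n : ℤ) (v : MM k N) :
    ℓ.cl0 n v = ℓ.cl0 (n + j) (hg k j 1 • v) := by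
  rw [← ℓ.phA_smul_cl0 (mem_Ad.2 (Or.inr (by simpa only [totalDegree_one, CharP.cast_eq_zero] using hj))), map_one, one_smul]

theorem R_smul_cl0 (a : R) (j : ℕ) (n : ℤ) (v : MM k N) :
    (P.φ a * ((P.u⁻¹ : RSˣ) : RS) ^ j) • ℓ.cl0 n v = ℓ.cl0 (n + j) (a • v) := by
  rw [cl0_apply, cl0_apply, ℓ.hι, smul_smul, smul_smul]
  congr 1
  rw [← Units.val_pow_eq_pow_val, mul_assoc, ← Units.val_mul, mul_comm]
  congr 2
  rw [inv_pow, ← zpow_natCast, ← zpow_neg, ← zpow_add]
  congr 1
  ring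

variable (D : RData X R) (F : ℤ → Submodule (Bh k) (MM k N))

/-- the elements `x₁^{-n} v`, `v ∈ F (n + 1)` -/
def Q (w : MS) : Prop := ∃ (n : ℤ) (v : MM k N), v ∈ F (n + 1) ∧ w = ℓ.cl0 n v

variable {F}

theorem Q_zero : ℓ.Q F 0 := ⟨0, 0, zero_mem _, by rw [map_zero]⟩

theorem Q_lift (hF : IsFilt F) {n m : ℤ} (h : n ≤ m) {v : MM k N} (hv : v ∈ F (n + 1)) :
    ∃ v' ∈ F (m + 1), ℓ.cl0 n v = ℓ.cl0 m v' := by
  refine ⟨hg k (m - n) 1 • v, ?_, ?_⟩
  · have := hF.smul_mem (show 0 ≤ m - n by omega) (hg_mem (m - n) (1 : A k)) hv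
    rwa [show n + 1 + (m - n) = m + 1 by ring] at this
  · rw [ℓ.cl0_shift (show 0 ≤ m - n by omega) n v, show n + (m - n) = m by ring]

theorem Q_add (hF : IsFilt F) {w w' : MS} (h : ℓ.Q F w) (h' : ℓ.Q F w') : ℓ.Q F (w + w') := by
  obtain ⟨n, v, hv, rfl⟩ := h
  obtain ⟨n', v', hv', rfl⟩ := h'
  obtain ⟨a, ha, ha'⟩ := ℓ.Q_lift hF (le_max_left n n') hv
  obtain ⟨b, hb, hb'⟩ := ℓ.Q_lift hF (le_max_right n n') hv'
  exact ⟨max n n', a + b, add_mem ha hb, by rw [ha', hb', map_add]⟩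

theorem Q_smulA (hF : IsFilt F) (c : A k) {w : MS} (h : ℓ.Q F w) : ℓ.Q F (P.phA c • w) := by
  obtain ⟨n, v, hv, rfl⟩ := h
  have hc := LocD.self_mem_Ad c
  refine ⟨n + c.totalDegree, hg k c.totalDegree c • v, ?_, ℓ.phA_smul_cl0 hc n v⟩
  have := hF.smul_mem (Int.natCast_nonneg _) (hg_mem (c.totalDegree : ℤ) c) hv
  rwa [show n + 1 + (c.totalDegree : ℤ) = n + (c.totalDegree : ℤ) + 1 by ring] at this

theorem Q_σ {D : RData X R} (hF : Adm D F) (x : X.I) {w : MS} (h : ℓ.Q F w) :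
    ℓ.Q F (P.phL D (X.σ x) • w) := by
  obtain ⟨n, v, hv, rfl⟩ := h
  refine ⟨n + 1, D.s x • v, hF.s_mem x hv, ?_⟩
  have := ℓ.R_smul_cl0 (D.s x) 1 n v
  rw [pow_one, Nat.cast_one] at this
  rw [P.phL_σ, this]

theorem Q_gm {D : RData X R} (hF : Adm D F) {w : MS} (h : ℓ.Q F w) : ℓ.Q F (P.gm D • w) := by
  obtain ⟨n, v, hv, rfl⟩ := h
  refine ⟨n + X.w, (D.G fun _ => true) • v, ?_, ℓ.R_smul_cl0 _ X.w n v⟩
  have := hF.G_mem (fun _ => true) hv
  rwa [show n + 1 + (X.w : ℤ) = n + X.w + 1 by ring] at this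

/-- the submodule to be divided out, as a predicate -/
def U (F : ℤ → Submodule (Bh k) (MM k N)) (w : MS) : Prop :=
  ∃ c : A k, c ≠ 0 ∧ ℓ.Q F (P.phA c • w)

theorem U_zero : ℓ.U F 0 := ⟨1, one_ne_zero, by rw [smul_zero]; exact ℓ.Q_zero⟩

theorem U_add (hF : IsFilt F) {w w' : MS} (h : ℓ.U F w) (h' : ℓ.U F w') : ℓ.U F (w + w') := by
  obtain ⟨c, hc, h⟩ := h
  obtain ⟨c', hc', h'⟩ := h'
  refine ⟨c * c', mul_ne_zero hc hc', ?_⟩
  have h1 := ℓ.Q_smulA hF c' h
  have h2 := ℓ.Q_smulA hF c h'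
  have h3 := ℓ.Q_add hF h1 h2
  rw [smul_smul, smul_smul] at h3
  rwa [smul_add, map_mul, mul_comm (P.phA c) (P.phA c'), ← mul_comm (P.phA c) (P.phA c')] at *

theorem U_σ {D : RData X R} (hF : Adm D F) (x : X.I) {w : MS} (h : ℓ.U F w) :
    ℓ.U F (P.phL D (X.σ x) • w) := by
  obtain ⟨c, hc, h⟩ := h
  refine ⟨c, hc, ?_⟩
  have := ℓ.Q_σ hF x h
  rwa [smul_smul, mul_comm, ← smul_smul] at this

theorem U_gm {D : RData X R} (hF : Adm D F) {w : MS} (h : ℓ.U F w) : ℓ.U F (P.gm D • w) := by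
  obtain ⟨c, hc, h⟩ := h
  refine ⟨c, hc, ?_⟩
  have := ℓ.Q_gm hF h
  rwa [smul_smul, mul_comm, ← smul_smul] at this

theorem U_K (hF : IsFilt F) (κ : KK k) {w : MS} (h : ℓ.U F w) : ℓ.U F (P.phK κ • w) := by
  obtain ⟨c, hc, h⟩ := h
  obtain ⟨a, b, hb, rfl⟩ := IsFractionRing.div_surjective (A := A k) κ
  have hb0 : b ≠ 0 := nonZeroDivisors.ne_zero hb
  have hb' : algebraMap (A k) (KK k) b ≠ 0 := fun h0 =>
    hb0 (IsFractionRing.injective (A k) (KK k) (by rw [h0, map_zero]))
  refine ⟨c * b, mul_ne_zero hc hb0, ?_⟩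
  have h1 := ℓ.Q_smulA hF a h
  have h2 : P.phA b * P.phK (algebraMap (A k) (KK k) a / algebraMap (A k) (KK k) b) = P.phA a := by
    rw [← P.phK_A, ← map_mul, mul_div_cancel₀ _ hb', P.phK_A]
  rw [smul_smul, map_mul, mul_assoc, h2, mul_comm, ← smul_smul]
  exact h1

theorem U_L {D : RData X R} (hF : Adm D F) (l : X.L) : ∀ {w : MS}, ℓ.U F w →
    ℓ.U F (P.phL D l • w) := by
  have hl : l ∈ Submodule.span (KK k) (Set.range X.mon) := by rw [X.mon_span]; trivial
  induction hl using Submodule.span_induction with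
  | mem x hx =>
    obtain ⟨s, rfl⟩ := hx
    unfold Arr.mon
    classical
    induction s using Finset.induction_on with
    | empty =>
      intro w h
      rwa [Finset.prod_empty, map_one, one_smul]
    | insert j s hj ih =>
      intro w h
      rw [Finset.prod_insert hj, map_mul, ← smul_smul]
      exact ℓ.U_σ hF j.1 (ih h)
  | zero =>
    intro w h
    rw [map_zero, zero_smul]
    exact ℓ.U_zero
  | add x y _ _ ihx ihy =>
    intro w h
    rw [map_add, add_smul]
    exact ℓ.U_add hF.toIsFilt (ihx h) (ihy h)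
  | smul κ x _ ih =>
    intro w h
    rw [Algebra.smul_def, map_mul, P.phL_K, ← smul_smul]
    exact ℓ.U_K hF.toIsFilt κ (ih h)

theorem U_cl0 {D : RData X R} (hF : Adm D F) {n : ℤ} {v : MM k N} (h : ℓ.U F (ℓ.cl0 n v)) :
    v ∈ F (n + 1) := by
  obtain ⟨c, hc, n', v', hv', h⟩ := h
  obtain ⟨m, hm1, hm2⟩ : ∃ m : ℤ, n + c.totalDegree ≤ m ∧ n' ≤ m :=
    ⟨max (n + c.totalDegree) n', le_max_left _ _, le_max_right _ _⟩
  obtain ⟨v2, hv2, h2⟩ := ℓ.Q_lift hF.toIsFilt hm2 hv'
  have hcm : c ∈ Ad k (m - n) := mem_Ad.2 (Or.inr (by omega))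
  rw [ℓ.phA_smul_cl0 hcm, h2, show n + (m - n) = m by ring] at h
  have h3 := ℓ.cl0_inj h
  refine hF.sat (j := m - n) (hg_mem (m - n) c) (hg_not_mem hcm hc) ?_
  rw [h3, show n + 1 + (m - n) = m + 1 by ring]
  exact hv2

theorem cl0_U {n : ℤ} {v : MM k N} (h : v ∈ F (n + 1)) : ℓ.U F (ℓ.cl0 n v) :=
  ⟨1, one_ne_zero, n, v, h, by rw [map_one, one_smul]⟩

theorem exists_gr (ℓ : LocM P N MS) {D : RData X R} (hF : Adm D F) (hN : 0 < N) :
    ∃ (r : ℕ) (Γ : (Fin r → X.L) →ₗ[X.L] (Fin r → X.L))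
      (E : ℤ → Submodule k (Fin r → X.L)), 0 < r ∧ IsTSp Γ ∧ IsTLat Γ E ∧ Spans (X := X) E ∧
      Nonempty (GrData D F Γ E) := by
  let _ : Module X.L MS := Module.compHom MS (P.phL D)
  have hsm : ∀ (l : X.L) (w : MS), l • w = P.phL D l • w := fun _ _ => rfl
  let U1 : Submodule X.L MS :=
    { carrier := {w | ℓ.U F w}
      add_mem' := fun h h' => ℓ.U_add hF.toIsFilt h h'
      zero_mem' := ℓ.U_zero
      smul_mem' := fun l w h => ℓ.U_L hF l h }
  have hU1 : ∀ w, w ∈ U1 ↔ ℓ.U F w := fun _ => Iff.rfl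
  let g : MS →ₗ[X.L] MS :=
    { toFun := fun w => P.gm D • w
      map_add' := fun w w' => smul_add _ _ _
      map_smul' := fun l w => by
        rw [RingHom.id_apply, hsm, hsm, smul_smul, smul_smul, mul_comm] }
  have hg' : U1 ≤ U1.comap g := fun w hw => ℓ.U_gm hF hw
  let V := MS ⧸ U1
  have key : ∀ {w w' : MS}, w = w' → (U1.mkQ w : V) = U1.mkQ w' := fun h => by rw [h]
  let G : GrSp D F V :=
    { cl := fun n => U1.mkQ.toAddMonoidHom.comp (ℓ.cl0 n)
      Γ := U1.mapQ U1 g hg'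
      smul := fun n c v => by
        change U1.mkQ (ℓ.cl0 n (c • v)) = algebraMap k X.L c • U1.mkQ (ℓ.cl0 n v)
        rw [← map_smul, hsm, P.phL_k, k_smul_eq]
        apply key
        rw [cl0_apply, cl0_apply, ℓ.ι_smul, smul_comm]
      zero_iff := fun {n v} hv => by
        change U1.mkQ (ℓ.cl0 n v) = 0 ↔ _
        rw [Submodule.mkQ_apply, Submodule.Quotient.mk_eq_zero, hU1]
        exact ⟨fun h => ℓ.U_cl0 hF h, fun h => ℓ.cl0_U h⟩
      s := fun x n v => by
        change U1.mkQ (ℓ.cl0 (n + 1) (D.s x • v)) = X.σ x • U1.mkQ (ℓ.cl0 n v)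
        rw [← map_smul, hsm, P.phL_σ]
        apply key
        have := ℓ.R_smul_cl0 (D.s x) 1 n v
        rw [pow_one, Nat.cast_one] at this
        rw [this]
      Γsq := fun v => by
        obtain ⟨w, rfl⟩ := U1.mkQ_surjective v
        change U1.mkQ (P.gm D • P.gm D • w) = X.PI • U1.mkQ w
        rw [← map_smul, hsm, smul_smul, P.gm_mul_gm]
      G := fun ε n v => by
        change U1.mkQ (ℓ.cl0 (n + X.w) (D.G ε • v)) =
          (X.pie ε / X.PI) • U1.mkQ (P.gm D • ℓ.cl0 n v)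
        rw [← map_smul, hsm, smul_smul, P.gm_eps]
        apply key
        rw [ℓ.R_smul_cl0]
      hgs := fun i n c v hc => by
        change U1.mkQ (ℓ.cl0 (n + i) (hg k i c • v)) =
          algebraMap (A k) X.L c • U1.mkQ (ℓ.cl0 n v)
        rw [← map_smul, hsm, P.phL_A, ℓ.phA_smul_cl0 hc] }
  exact G.exists_gr hF hN

end LocM

/-- 3.1 -/
theorem exists_gr {D : RData X R} {F : ℤ → Submodule (Bh k) (MM k N)} (hF : Adm D F)
    (hN : 0 < N) : ∃ (r : ℕ) (Γ : (Fin r → X.L) →ₗ[X.L] (Fin r → X.L))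
      (E : ℤ → Submodule k (Fin r → X.L)), 0 < r ∧ IsTSp Γ ∧ IsTLat Γ E ∧ Spans (X := X) E ∧
      Nonempty (GrData D F Γ E) := by
  let S := Algebra.algebraMapSubmonoid R (nonZeroDivisors (Bh k))
  have hmem : ∀ b : Bh k, b ≠ 0 → algebraMap (Bh k) R b ∈ S := fun b hb =>
    Algebra.mem_algebraMapSubmonoid_of_mem (⟨b, mem_nonZeroDivisors_of_ne_zero hb⟩ :
      nonZeroDivisors (Bh k))
  have hX0 : (MvPowerSeries.X 0 : Bh k) ≠ 0 := by
    rw [← hg_one_one]
    exact LocD.hg_ne_zero one_mem_Ad1 one_ne_zero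
  let RS := Localization S
  have hu : ∀ b : Bh k, b ≠ 0 → IsUnit (algebraMap R RS (algebraMap (Bh k) R b)) := fun b hb =>
    IsLocalization.map_units RS (⟨_, hmem b hb⟩ : S)
  let P : LocD k R RS :=
    { φ := algebraMap R RS
      u := (hu _ hX0).unit
      hu := IsUnit.unit_spec _
      unit := hu }
  let ℓ : LocM P N (LocalizedModule S (MM k N)) :=
    { ι := (LocalizedModule.mkLinearMap S (MM k N)).toAddMonoidHom
      hι := fun a v => by
        change LocalizedModule.mkLinearMap S (MM k N) (a • v) =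
          algebraMap R RS a • LocalizedModule.mkLinearMap S (MM k N) v
        rw [map_smul, algebraMap_smul]
      inj := by
        intro v w h
        change LocalizedModule.mkLinearMap S (MM k N) v =
          LocalizedModule.mkLinearMap S (MM k N) w at h
        rw [IsLocalizedModule.eq_iff_exists S (LocalizedModule.mkLinearMap S (MM k N))] at h
        obtain ⟨⟨_, b, hb, rfl⟩, h⟩ := h
        have hb0 : b ≠ 0 := nonZeroDivisors.ne_zero hb
        change algebraMap (Bh k) R b • v = algebraMap (Bh k) R b • w at h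
        rw [algebraMap_smul, algebraMap_smul] at h
        funext i
        exact mul_left_cancel₀ hb0 (congrFun h i) }
  exact ℓ.exists_gr hF hN

end Vale.Agent.P190.D
end
end

section

section

/-! Section 3, file S6: part (A). -/

set_option autoImplicit false
set_option linter.unusedSectionVars false

open MvPolynomial Filter

namespace Vale.Agent.P190.D

section Aux

variable {k : Type} [Field k] {X : Arr k} {R : Type} [CommRing R] [Algebra (Bh k) R]
  {N : ℕ} [Module R (MM k N)] [IsScalarTower (Bh k) R (MM k N)]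

/-- `g` is the last entry of the Hilbert triple of the graded lattice of an admissible
filtration of `Bh^N`. -/
def GVal (D : RData X R) (N : ℕ) [Module R (MM k N)] (g : ℤ) : Prop :=
  ∃ (F : ℤ → Submodule (Bh k) (MM k N)) (r : ℕ)
    (Γ : (Fin r → X.L) →ₗ[X.L] (Fin r → X.L)) (E : ℤ → Submodule k (Fin r → X.L)) (N' e : ℤ),
    Adm D F ∧ 0 < r ∧ IsTSp Γ ∧ IsTLat Γ E ∧ Spans (X := X) E ∧ Nonempty (GrData D F Γ E) ∧
      HasHilb E N' e g

/-- an admissible filtration whose graded dimensions are eventually `hp N' e g` -/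
theorem gval_of_gdim {D : RData X R} {F : ℤ → Submodule (Bh k) (MM k N)} (hF : Adm D F)
    (hN : 0 < N) {N' e g : ℤ} (h : ∀ᶠ n : ℤ in atTop, (gdim F n : ℚ) = hp N' e g n) :
    GVal D N g := by
  obtain ⟨r, Γ, E, hr, hΓ, hE, hs, ⟨G⟩⟩ := exists_gr hF hN
  refine ⟨F, r, Γ, E, N', e, hF, hr, hΓ, hE, hs, ⟨G⟩, ?_⟩
  filter_upwards [h] with n hn
  rw [← hn, G.gdim_eq hF n]

theorem GVal.nonneg {D : RData X R} {g : ℤ} (h : GVal D N g) : 0 ≤ g := by
  obtain ⟨F, r, Γ, E, N', e, hF, -, -, -, -, ⟨G⟩, hh⟩ := h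
  refine hF.toIsFilt.g_nonneg (N' := N') (e := e) (g := g) ?_
  filter_upwards [hh] with n hn
  rw [← hn, G.gdim_eq hF n]

theorem exists_gval (D : RData X R) (hN : 0 < N) : ∃ g, GVal D N g := by
  obtain ⟨F, hF⟩ := exists_adm (N := N) D
  obtain ⟨r, Γ, E, hr, hΓ, hE, hs, ⟨G⟩⟩ := exists_gr hF hN
  obtain ⟨N', e, g, hh⟩ := hE.toIsBLat.exists_hilb
  exact ⟨g, F, r, Γ, E, N', e, hF, hr, hΓ, hE, hs, ⟨G⟩, hh⟩

theorem exists_min_gval (D : RData X R) (hN : 0 < N) :
    ∃ g, GVal D N g ∧ ∀ g', GVal D N g' → g ≤ g' := by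
  obtain ⟨g, hg, hmin⟩ := Int.exists_least_of_bdd (P := fun g => GVal D N g)
    ⟨0, fun g hg => hg.nonneg⟩ (exists_gval D hN)
  exact ⟨g, hg, hmin⟩

variable {r : ℕ} {E : ℤ → Submodule k (Fin r → X.L)}

theorem isBLat_subLat (hE : IsBLat E) (U : Submodule X.L (Fin r → X.L)) :
    IsBLat (subLat E U) :=
  hE.inter (U.restrictScalars (A k))

theorem finrank_subLat_add_quoLat (hE : IsBLat E) (U : Submodule X.L (Fin r → X.L)) (n : ℤ) :
    Module.finrank k (subLat E U n) + Module.finrank k (quoLat E U n) =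
      Module.finrank k (E n) := by
  have h := finrank_inter_add_map hE (U.mkQ.restrictScalars (A k)) n
  have e1 : subLat E U n = interLat E (LinearMap.ker (U.mkQ.restrictScalars (A k))) n := by
    ext v
    simp only [subLat, Submodule.mem_inf, Submodule.restrictScalars_mem, interLat, LinearMap.ker_restrictScalars, Submodule.ker_mkQ, Submodule.restrictScalars_restrictScalars]
  rw [← h, ← e1]
  rfl

theorem hasHilb_sub_quo (hE : IsBLat E) (U : Submodule X.L (Fin r → X.L))
    {N' e g w f s w' f' s' : ℤ} (h : HasHilb E N' e g) (h₁ : HasHilb (subLat E U) w f s)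
    (h₂ : HasHilb (quoLat E U) w' f' s') : N' = w + w' ∧ e = f + f' ∧ g = s + s' := by
  refine h.unique ?_
  filter_upwards [h₁, h₂] with n hn1 hn2
  rw [← finrank_subLat_add_quoLat hE U n]
  push_cast
  rw [hn1, hn2]
  simp only [hp]; push_cast; ring

/-- the Hilbert function of the modified filtration -/
theorem mod_hilb {D : RData X R} {F : ℤ → Submodule (Bh k) (MM k N)}
    {Γ : (Fin r → X.L) →ₗ[X.L] (Fin r → X.L)} (hF : Adm D F) (hE : IsTLat Γ E)
    (G : GrData D F Γ E) {U : Submodule X.L (Fin r → X.L)} (hU : IsTSub Γ U)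
    {N' e g w f s : ℤ} (h : HasHilb E N' e g) (h₁ : HasHilb (subLat E U) w f s) :
    ∃ F' : ℤ → Submodule (Bh k) (MM k N), Adm D F' ∧
      ∀ᶠ n : ℤ in atTop, (gdim F' n : ℚ) = hp N' (e - w) (g - f) n := by
  obtain ⟨F', hF', hd⟩ := exists_mod hF hE G hU
  refine ⟨F', hF', ?_⟩
  have h₂ : ∀ᶠ n : ℤ in atTop, (Module.finrank k (subLat E U (n - 1)) : ℚ) =
      hp w f s ((n - 1 : ℤ) : ℚ) :=
    (tendsto_atTop_add_const_right atTop (-1 : ℤ) tendsto_id).eventually h₁
  filter_upwards [h, h₁, h₂] with n hn hn1 hn2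
  have h3 : (gdim F' n : ℚ) = ((gdim F' n : ℤ) : ℚ) := by push_cast; rfl
  rw [h3, hd n]
  push_cast
  rw [hn, hn1, hn2]
  simp only [hp]
  push_cast
  ring

end Aux

/-- part (A) for the module `Bh^N` -/
theorem partA' {k : Type} [Field k] [Infinite k] (X : Arr k) (R : Type) [CommRing R]
    [Algebra (Bh k) R] (D : RData X R) (N : ℕ) (hN : 0 < N) [Module R (MM k N)]
    [IsScalarTower (Bh k) R (MM k N)] :
    ∃ (r : ℕ) (Γ : (Fin r → X.L) →ₗ[X.L] (Fin r → X.L)) (E : ℤ → Submodule k (Fin r → X.L)),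
      0 < r ∧ IsTSp Γ ∧ IsTLat Γ E ∧ Spans (X := X) E ∧ Window Γ E ∧
      ∃ N e g : ℤ, HasHilb E N e g ∧ 0 ≤ g := by
  obtain ⟨g, hg, hmin⟩ := exists_min_gval (N := N) D hN
  have hg0 := hg.nonneg
  obtain ⟨F, r, Γ, E, N', e, hF, hr, hΓ, hE, hs, ⟨G⟩, hh⟩ := hg
  refine ⟨r, Γ, E, hr, hΓ, hE, hs, ?_, N', e, g, hh, hg0⟩
  intro U hU w' f' s'
  refine ⟨fun h₁ => ?_, fun h₂ => ?_⟩
  · obtain ⟨F', hF', hd⟩ := mod_hilb hF hE G hU hh h₁
    have := hmin _ (gval_of_gdim hF' hN hd)
    omega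
  · obtain ⟨w, f, s, h₁⟩ := (isBLat_subLat hE.toIsBLat U).exists_hilb
    obtain ⟨e1, e2, -⟩ := hasHilb_sub_quo hE.toIsBLat U hh h₁ h₂
    obtain ⟨F', hF', hd⟩ := mod_hilb hF hE G hU hh h₁
    have hd' : ∀ᶠ n : ℤ in atTop, (gdim (fun n => F' (n + 1)) n : ℚ) =
        hp N' (N' + (e - w)) (N' + (e - w) + (g - f)) n := by
      have h3 := (tendsto_atTop_add_const_right atTop (1 : ℤ) tendsto_id).eventually hd
      filter_upwards [h3] with n hn
      have h4 : gdim (fun n => F' (n + 1)) n = gdim F' (id n + 1) := rfl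
      rw [h4, hn]
      simp only [hp, id]
      push_cast
      ring
    have := hmin _ (gval_of_gdim (hF'.shift 1) hN hd')
    omega

/-- SECTION 3 (part A). -/
theorem partA {k : Type} [Field k] [Infinite k] (X : Arr k) (R : Type) [CommRing R]
    [Algebra (Bh k) R] (D : RData X R) (M : Type) [AddCommGroup M] [Module R M]
    [Module (Bh k) M] [IsScalarTower (Bh k) R M] [Module.Free (Bh k) M]
    [Module.Finite (Bh k) M] [Nontrivial M] :
    ∃ (r : ℕ) (Γ : (Fin r → X.L) →ₗ[X.L] (Fin r → X.L)) (E : ℤ → Submodule k (Fin r → X.L)),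
      0 < r ∧ IsTSp Γ ∧ IsTLat Γ E ∧ Spans (X := X) E ∧ Window Γ E ∧
      ∃ N e g : ℤ, HasHilb E N e g ∧ 0 ≤ g := by
  let b := Module.finBasis (Bh k) M
  let φ : M ≃ₗ[Bh k] MM k (Module.finrank (Bh k) M) := b.equivFun
  have hN : 0 < Module.finrank (Bh k) M := by
    rcases Nat.eq_zero_or_pos (Module.finrank (Bh k) M) with h0 | h0
    · exfalso
      have : IsEmpty (Fin (Module.finrank (Bh k) M)) := by rw [h0]; infer_instance
      have hsub : Subsingleton M := φ.toEquiv.subsingleton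
      exact not_subsingleton M hsub
    · exact h0
  let _ : SMul R (MM k (Module.finrank (Bh k) M)) := ⟨fun c v => φ (c • φ.symm v)⟩
  have hsm : ∀ (c : R) (v : MM k (Module.finrank (Bh k) M)), c • v = φ (c • φ.symm v) :=
    fun c v => rfl
  let _ : Module R (MM k (Module.finrank (Bh k) M)) :=
    Function.Injective.module R φ.symm.toLinearMap.toAddMonoidHom φ.symm.injective
      (fun c v => by
        change φ.symm (c • v) = c • φ.symm v
        rw [hsm, LinearEquiv.symm_apply_apply])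
  have _ : IsScalarTower (Bh k) R (MM k (Module.finrank (Bh k) M)) := by
    refine ⟨fun x c v => ?_⟩
    change φ ((x • c) • φ.symm v) = x • φ (c • φ.symm v)
    rw [smul_assoc, map_smul]
  exact partA' X R D (Module.finrank (Bh k) M) hN

end Vale.Agent.P190.D
end
end

section

section

/-! Section 5, file U6c: sublattice data of a T-subspace. -/

set_option autoImplicit false
set_option linter.unusedSectionVars false

open MvPolynomial Filter

namespace Vale.Agent.P190.D

variable {k : Type} [Field k] [Infinite k] {X : Arr k} {r : ℕ}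
  {Γ : (Fin r → X.L) →ₗ[X.L] (Fin r → X.L)} {E : ℤ → Submodule k (Fin r → X.L)} {l l' : ℕ}
  {v : Fin l → (Fin r → X.L)} {c : Fin l → ℤ} {c' : Fin l' → ℤ}
  {φ : Matrix (Fin l) (Fin l') (A k)} {s : X.I → Matrix (Fin l) (Fin l) (A k)}
  {G : (X.S → Bool) → Matrix (Fin l) (Fin l) (A k)}

/-- the spaces of polynomial vectors belonging to a subspace -/
noncomputable def zSub (v : Fin l → (Fin r → X.L)) (c : Fin l → ℤ)
    (W : Submodule X.L (Fin r → X.L)) (n : ℤ) : Submodule k (Fin l → A k) :=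
  pD k (fun j => n - c j) ⊓
    (W.restrictScalars k).comap ((Fintype.linearCombination (A k) v).restrictScalars k)

theorem u6c_mem {W : Submodule X.L (Fin r → X.L)} {n : ℤ} {x : Fin l → A k} :
    x ∈ zSub v c W n ↔ (∀ i, x i ∈ Ad k (n - c i)) ∧ ∑ i, x i • v i ∈ W := by
  unfold zSub
  rw [Submodule.mem_inf, mem_pD]
  exact Iff.rfl

/-- the vector of a product with a matrix -/
theorem u6c_mulVec (m : Matrix (Fin l) (Fin l) (A k)) (x : Fin l → A k) :
    ∑ i, (m.mulVec x) i • v i = ∑ j, x j • ∑ i, m i j • v i := by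
  calc ∑ i, (m.mulVec x) i • v i = ∑ i, ∑ j, x j • m i j • v i := by
        refine Finset.sum_congr rfl fun i _ => ?_
        rw [Matrix.mulVec, dotProduct, Finset.sum_smul]
        refine Finset.sum_congr rfl fun j _ => ?_
        rw [smul_smul, mul_comm]
    _ = ∑ j, ∑ i, x j • m i j • v i := Finset.sum_comm
    _ = ∑ j, x j • ∑ i, m i j • v i := by
        refine Finset.sum_congr rfl fun j _ => ?_
        rw [Finset.smul_sum]

theorem u6c_mulVec_mem {m : Matrix (Fin l) (Fin l) (A k)} {a n : ℤ} {x : Fin l → A k}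
    (hm : ∀ i j, m i j ∈ Ad k (c j + a - c i)) (hx : ∀ i, x i ∈ Ad k (n - c i)) (i : Fin l) :
    (m.mulVec x) i ∈ Ad k (n + a - c i) := by
  rw [Matrix.mulVec, dotProduct]
  refine Submodule.sum_mem _ fun j _ => ?_
  have h := Ad_mul (hm i j) (hx j)
  rwa [show c j + a - c i + (n - c j) = n + a - c i by ring] at h

/-- U6c: a T-subspace gives such data -/
theorem zData_zSub {M : ℕ} (hC : TCert X c c' M φ s G) (hE : IsTLat Γ E)
    (P : IsTPres Γ E v c c' φ s G)
    {W : Submodule X.L (Fin r → X.L)} (hW : IsTSub Γ W) {w : ℕ} {f g : ℤ}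
    (hh : HasHilb (subLat E W) w f g) {n₂ : ℤ} {d : ℤ → ℕ}
    (hd : ∀ n ≥ n₂, d n ≤ Module.finrank k (subLat E W n) + ∑ j, adim (n - c' j)) :
    ZData c (X.w : ℤ) φ s G w d n₂ (zSub v c W) := by
  classical
  have hsub : ∀ {n : ℤ} {x : Fin l → A k}, x ∈ zSub v c W n →
      ∑ i, x i • v i ∈ subLat E W n := by
    intro n x hx
    obtain ⟨h1, h2⟩ := u6c_mem.1 hx
    refine ⟨?_, h2⟩
    rw [SetLike.mem_coe, P.res.hv, mem_genLat]
    exact ⟨x, h1, rfl⟩
  refine { le := ?_, smul := ?_, sig := ?_, gam := ?_, rank := ?_, dim := ?_ }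
  · exact fun n => inf_le_left
  · intro i n b x hb hx
    obtain ⟨h1, h2⟩ := u6c_mem.1 hx
    refine u6c_mem.2 ⟨fun j => ?_, ?_⟩
    · have h := Ad_mul hb (h1 j)
      rwa [show i + (n - c j) = n + i - c j by ring] at h
    · have h : ∑ j, (b • x) j • v j = b • ∑ j, x j • v j := by
        rw [Finset.smul_sum]
        refine Finset.sum_congr rfl fun j _ => ?_
        rw [Pi.smul_apply, smul_assoc]
      rw [h, ← algebraMap_smul X.L b]
      exact W.smul_mem _ h2
  · intro y n x hx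
    obtain ⟨h1, h2⟩ := u6c_mem.1 hx
    refine u6c_mem.2 ⟨u6c_mulVec_mem (hC.s_mem y) h1, ?_⟩
    have h : ∑ i, ((s y).mulVec x) i • v i = X.σ y • ∑ j, x j • v j := by
      rw [u6c_mulVec, Finset.smul_sum]
      refine Finset.sum_congr rfl fun j _ => ?_
      rw [← P.sig, smul_comm_AL]
    rw [h]
    exact W.smul_mem _ h2
  · intro ε n x hx
    obtain ⟨h1, h2⟩ := u6c_mem.1 hx
    refine u6c_mem.2 ⟨u6c_mulVec_mem (hC.G_mem ε) h1, ?_⟩
    have h : ∑ i, ((G ε).mulVec x) i • v i = gam Γ ε (∑ j, x j • v j) := by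
      rw [u6c_mulVec]
      have h3 : gam Γ ε (∑ j, x j • v j) = ∑ j, gam Γ ε (x j • v j) := by
        unfold gam
        rw [map_sum, Finset.smul_sum]
      rw [h3]
      refine Finset.sum_congr rfl fun j _ => ?_
      rw [← P.gam, gam_smul_A]
    rw [h]
    exact W.smul_mem _ (hW _ h2)
  · intro n x hx
    have hT : IsTLat Γ (subLat E W) := hE.sub hW
    have hfin := hT.toIsBLat.finite_spanK
    have hN := HasHilb.N_eq hT.toIsBLat hh
    have hN' : Module.finrank (KK k) (spanK (subLat E W)) = w := by exact_mod_cast hN.symm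
    let y : Fin (w + 1) → spanK (subLat E W) := fun t =>
      ⟨∑ i, x t i • v i, b4_mem_spanK (hsub (hx t))⟩
    have hdep : ¬ LinearIndependent (KK k) y := by
      intro hl
      have h1 := hl.fintype_card_le_finrank
      rw [hN', Fintype.card_fin] at h1
      omega
    rw [Fintype.not_linearIndependent_iff] at hdep
    obtain ⟨ρ, hρ, t₀, ht₀⟩ := hdep
    obtain ⟨b, hb⟩ := IsLocalization.exist_integer_multiples_of_finite (nonZeroDivisors (A k)) ρ
    choose β hβ using hb
    have hb0 : (b : A k) ≠ 0 := nonZeroDivisors.ne_zero b.2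
    have hρ' : ∑ t, ρ t • (∑ i, x t i • v i) = 0 := by
      have := congrArg Subtype.val hρ
      simpa [y] using this
    have h1 : ∑ t, β t • (∑ i, x t i • v i) = 0 := by
      calc ∑ t, β t • (∑ i, x t i • v i) = ∑ t, (b : A k) • ρ t • (∑ i, x t i • v i) := by
            refine Finset.sum_congr rfl fun t _ => ?_
            rw [← smul_assoc, ← hβ t, algebraMap_smul]
        _ = 0 := by rw [← Finset.smul_sum, hρ', smul_zero]
    have hβ0 : β ≠ 0 := by
      intro h0
      have h2 := hβ t₀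
      rw [h0] at h2
      rw [Pi.zero_apply, map_zero] at h2
      have h3 : (b : A k) • ρ t₀ = 0 := h2.symm
      rw [← algebraMap_smul (KK k) (b : A k), smul_eq_mul, mul_eq_zero] at h3
      rcases h3 with h3 | h3
      · exact hb0 (IsFractionRing.injective (A k) (KK k) (by rw [h3, map_zero]))
      · exact ht₀ h3
    have h2 : ∑ i, (∑ t, β t • x t) i • v i = 0 := by
      rw [← h1]
      calc ∑ i, (∑ t, β t • x t) i • v i = ∑ i, ∑ t, β t • x t i • v i := by
            refine Finset.sum_congr rfl fun i _ => ?_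
            rw [Finset.sum_apply, Finset.sum_smul]
            refine Finset.sum_congr rfl fun t _ => ?_
            rw [Pi.smul_apply, smul_assoc]
        _ = ∑ t, ∑ i, β t • x t i • v i := Finset.sum_comm
        _ = ∑ t, β t • (∑ i, x t i • v i) := by
            refine Finset.sum_congr rfl fun t _ => ?_
            rw [Finset.smul_sum]
    obtain ⟨m, hm⟩ := (Set.finite_range fun i =>
      (((∑ t, β t • x t) i).totalDegree : ℤ) + c i).bddAbove
    obtain ⟨b', ⟨-, hb'⟩, -⟩ := P.res.hex m (∑ t, β t • x t) (fun i => mem_Ad.2 (Or.inr (by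
      have := hm (Set.mem_range_self i)
      linarith only [this]))) h2
    refine ⟨β, hβ0, b', ?_⟩
    funext i
    rw [hb' i, Matrix.mulVec, dotProduct]
  · intro n hn
    refine (hd n hn).trans ?_
    set F : (Fin l → A k) →ₗ[k] (Fin r → X.L) :=
      (Fintype.linearCombination (A k) v).restrictScalars k with hF
    have hP : Module.Finite k (zSub v c W n) :=
      Submodule.finiteDimensional_of_le (inf_le_left : zSub v c W n ≤ pD k fun j => n - c j)
    have h1 := finrank_ker_add_map F (zSub v c W n)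
    have h2 := finrank_ker_add_map F (pD k fun i => n - c i)
    rw [finrank_pD] at h2
    have h3 : (pD k fun i => n - c i).map F = E n := by
      rw [P.res.hv]; rfl
    rw [h3] at h2
    have h4 := P.res.finrank_eq n
    have h5 : zSub v c W n ⊓ LinearMap.ker F = (pD k fun i => n - c i) ⊓ LinearMap.ker F := by
      ext x
      constructor
      · rintro ⟨⟨hx1, -⟩, hx2⟩
        exact ⟨hx1, hx2⟩
      · rintro ⟨hx1, hx2⟩
        refine ⟨⟨hx1, ?_⟩, hx2⟩
        have hx3 : F x = 0 := hx2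
        change F x ∈ W.restrictScalars k
        rw [hx3]
        exact zero_mem _
    have h6 : (zSub v c W n).map F = subLat E W n := by
      ext y
      constructor
      · rintro ⟨x, hx, rfl⟩
        exact hsub hx
      · rintro ⟨hy1, hy2⟩
        rw [SetLike.mem_coe, P.res.hv, mem_genLat] at hy1
        obtain ⟨a, ha, rfl⟩ := hy1
        exact ⟨a, u6c_mem.2 ⟨ha, hy2⟩, rfl⟩
    rw [h5, h6] at h1
    have h7 : ∑ j, adim (n - c' j) = ∑ j, Module.finrank k (Ad k (n - c' j)) :=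
      Finset.sum_congr rfl fun j _ => (finrank_Ad_eq _).symm
    rw [h7]
    omega

end Vale.Agent.P190.D
end
end

section

section

/-! Section 5, file U7: the ultraproduct step. -/

set_option autoImplicit false
set_option linter.unusedSectionVars false

open MvPolynomial Filter

namespace Vale.Agent.P190.D

/-- the statement of Theorem P (section 4) -/
def TheoremP : Prop := ∀ (m s : ℕ) (N c : ℤ), ∃ p₀ : ℕ, ∀ p : ℕ, p₀ ≤ p → p.Prime →
    ∀ (k : Type) [Field k] [IsAlgClosed k] [CharP k p] (X : Arr k),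
    X.m = m → Fintype.card X.S = s →
    ∀ (r : ℕ) (Γ : (Fin r → X.L) →ₗ[X.L] (Fin r → X.L)) (E : ℤ → Submodule k (Fin r → X.L)),
    0 < r → IsTSp Γ → IsTLat Γ E → IsS2 E → Spans (X := X) E →
    ∀ e g : ℤ, HasHilb E N e g → -N ≤ e → e ≤ 0 → GenIn E c → Semistable Γ E → g < 0

theorem u7_genIn {k : Type} [Field k] {V : Type} [AddCommGroup V] [Module k V] [Module (A k) V]
    [IsScalarTower k (A k) V] {l : ℕ} (v : Fin l → V) (c : Fin l → ℤ) {D : ℤ}
    (hD : ∀ j, c j ≤ D) : GenIn (genLat (k := k) v c) D := by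
  classical
  intro n hn x hx
  rw [mem_genLat] at hx
  obtain ⟨a, ha, rfl⟩ := hx
  refine Submodule.sum_mem _ fun i _ => ?_
  have hi := hD i
  have h1 : a i ∈ Ad k (n - c i + 1) := by
    have := ha i
    rwa [show n + 1 - c i = n - c i + 1 by ring] at this
  obtain ⟨b, hb, q, hq, r, hr, hbr⟩ := exists_decomp (n := n - c i) (by linarith only [hn, hi]) h1
  have hmem : ∀ q ∈ Ad k (n - c i), q • v i ∈ genLat (k := k) v c n := by
    intro q hq
    have h2 := genLat_smul_gen (k := k) v c (n := n) (a := q) i hq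
    exact h2
  rw [hbr, add_smul, add_smul, mul_smul, mul_smul]
  refine add_mem (add_mem ?_ ?_) ?_
  · exact Submodule.subset_span ⟨1, one_mem_Ad1, _, hmem b hb, (one_smul _ _).symm⟩
  · exact Submodule.subset_span ⟨X 0, X_mem_Ad1 0, _, hmem q hq, rfl⟩
  · exact Submodule.subset_span ⟨X 1, X_mem_Ad1 1, _, hmem r hr, rfl⟩

/-- the Hilbert function of a lattice with a certificate -/
theorem u7_dim {k : Type} [Field k] {X : Arr k} {r : ℕ}
    {Γ : (Fin r → X.L) →ₗ[X.L] (Fin r → X.L)} {E : ℤ → Submodule k (Fin r → X.L)} {l l' : ℕ}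
    {v : Fin l → (Fin r → X.L)} {c : Fin l → ℤ} {c' : Fin l' → ℤ}
    {φ : Matrix (Fin l) (Fin l') (A k)} {s : X.I → Matrix (Fin l) (Fin l) (A k)}
    {G : (X.S → Bool) → Matrix (Fin l) (Fin l) (A k)} (P : IsTPres Γ E v c c' φ s G) (n : ℤ) :
    Module.finrank k (E n) + ∑ j, adim (n - c' j) = ∑ i, adim (n - c i) := by
  have h := P.res.finrank_eq n
  simpa only [finrank_Ad_eq] using h

theorem u7_sub_eq {k : Type} [Field k] {X : Arr k} {r : ℕ} (E : ℤ → Submodule k (Fin r → X.L))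
    (W : Submodule X.L (Fin r → X.L)) :
    interLat E ((W.restrictScalars (KK k)).restrictScalars (A k)) = subLat E W := by
  funext n
  ext v
  exact Iff.rfl

/-- data over one field -/
def U7Data {k : Type} [Field k] (X : Arr k) {l l' : ℕ} (c : Fin l → ℤ) (c' : Fin l' → ℤ)
    (M : ℕ) (φ : Matrix (Fin l) (Fin l') (A k)) (s : X.I → Matrix (Fin l) (Fin l) (A k))
    (G : (X.S → Bool) → Matrix (Fin l) (Fin l) (A k)) (w f : ℤ) : Prop :=
  TCert X c c' M φ s G ∧
  ∃ (r : ℕ) (Γ : (Fin r → X.L) →ₗ[X.L] (Fin r → X.L)) (v : Fin l → (Fin r → X.L))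
    (W : Submodule X.L (Fin r → X.L)) (g' : ℤ),
    IsTSp Γ ∧ IsTLat Γ (genLat (k := k) v c) ∧ IsTPres Γ (genLat (k := k) v c) v c c' φ s G ∧
    IsTSub Γ W ∧ HasHilb (subLat (genLat (k := k) v c) W) w f g'

/-- one field: Theorem P gives a destabilizing subspace -/
theorem u7_one {k : Type} [Field k] [Infinite k] {X : Arr k} {l l' : ℕ} {c : Fin l → ℤ}
    {c' : Fin l' → ℤ} {M : ℕ} {φ : Matrix (Fin l) (Fin l') (A k)}
    {s : X.I → Matrix (Fin l) (Fin l) (A k)} {G : (X.S → Bool) → Matrix (Fin l) (Fin l) (A k)}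
    (hC : TCert X c c' M φ s G) {N e g D : ℤ} (hN : 0 < N) (hg : 0 ≤ g) (he : -N ≤ e)
    (he0 : e ≤ 0)
    (hdim : ∀ᶠ n : ℤ in atTop, hp N e g n + ∑ j, (adim (n - c' j) : ℚ) = ∑ i, (adim (n - c i) : ℚ))
    (hD : ∀ j, c j ≤ D)
    (hP : ∀ (r : ℕ) (Γ : (Fin r → X.L) →ₗ[X.L] (Fin r → X.L))
      (E : ℤ → Submodule k (Fin r → X.L)),
      0 < r → IsTSp Γ → IsTLat Γ E → IsS2 E → Spans (X := X) E →
      ∀ e g : ℤ, HasHilb E N e g → -N ≤ e → e ≤ 0 → GenIn E D → Semistable Γ E → g < 0) :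
    ∃ w f : ℤ, U7Data X c c' M φ s G w f ∧ 0 ≤ w ∧ w ≤ N ∧ e * w < f * N ∧
      f ≤ e + (N - w) * D := by
  obtain ⟨r, Γ, v, h1, h2, h3, h4, h5⟩ := hC.exists_lat
  have hh : HasHilb (genLat (k := k) v c) N e g := by
    unfold HasHilb
    filter_upwards [hdim] with n hn
    have := u7_dim h5 n
    have h6 : (Module.finrank k (genLat (k := k) v c n) : ℚ) + ∑ j, (adim (n - c' j) : ℚ) =
        ∑ i, (adim (n - c i) : ℚ) := by exact_mod_cast this
    linarith only [hn, h6]
  have hr : 0 < r := by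
    by_contra hr
    have hr0 : r = 0 := by omega
    have h6 := rank_eq h2.toIsBLat h2.sigStable h4 hh
    rw [Module.finrank_fin_fun, hr0] at h6
    simp only [CharP.cast_eq_zero, mul_zero] at h6
    omega
  have hgen : GenIn (genLat (k := k) v c) D := u7_genIn v c hD
  have hns : ¬ Semistable Γ (genLat (k := k) v c) := fun hss => by
    have := hP r Γ _ hr h1 h2 h3 h4 e g hh he he0 hgen hss
    omega
  unfold Semistable at hns
  push Not at hns
  obtain ⟨W, hW, N₁, e₁, g₁, w, f, g', hh1, hh2, hlt⟩ := hns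
  obtain ⟨rfl, rfl, rfl⟩ := hh.unique hh1
  have hsl := sub_slope h2.toIsBLat hgen hh (W.restrictScalars (KK k)) (w := w) (f := f)
    (g' := g') (by rw [u7_sub_eq]; exact hh2)
  exact ⟨w, f, ⟨hC, r, Γ, v, W, g', h1, h2, h5, hW, hh2⟩, hh2.nonneg, hsl.1, hlt, hsl.2⟩

/-- SECTION 5 -/
theorem ultra_neg_of (hP : TheoremP) (U : Ultrafilter ℕ) (hU : (U : Filter ℕ) ≤ atTop)
    (p : ℕ → ℕ) (hpr : ∀ i, (p i).Prime) (hp' : Tendsto p atTop atTop) (k : ℕ → Type)
    [∀ i, Field (k i)] [∀ i, IsAlgClosed (k i)] [∀ i, CharP (k i) (p i)] (X : Arr (UK U k))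
    (r : ℕ) (Γ : (Fin r → X.L) →ₗ[X.L] (Fin r → X.L))
    (E : ℤ → Submodule (UK U k) (Fin r → X.L)) :
    0 < r → IsTSp Γ → IsTLat Γ E → IsS2 E → Spans (X := X) E →
    ∀ N e g : ℤ, HasHilb E N e g → -N ≤ e → e ≤ 0 → Semistable Γ E → g < 0 := by
  classical
  intro hr hΓ hE h2 hs N e g hh he he0 hss
  by_contra hg
  push Not at hg
  have hinf : ∀ i, Infinite (k i) := fun i => IsAlgClosed.instInfinite
  have hinfK : Infinite (UK U k) := UK_infinite
  have hN : 0 < N := by
    have h6 := rank_eq hE.toIsBLat hE.sigStable hs hh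
    rw [Module.finrank_fin_fun] at h6
    rw [h6]
    positivity
  obtain ⟨l, l', v, c, c', M, φ, s, G, hC, hPr⟩ := exists_tcert hΓ hE h2 hs
  obtain ⟨L, δ, η, ν, φ', s', G', hφ, hs', hG', hev⟩ := hC.transfer
  -- the common bound for the degrees of the generators
  obtain ⟨D, hD⟩ : ∃ D : ℤ, ∀ j, c j ≤ D := by
    obtain ⟨D, hD⟩ := (Set.finite_range c).bddAbove
    exact ⟨D, fun j => hD (Set.mem_range_self j)⟩
  have hdim : ∀ᶠ n : ℤ in atTop,
      hp N e g n + ∑ j, (adim (n - c' j) : ℚ) = ∑ i, (adim (n - c i) : ℚ) := by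
    have hh' := hh
    unfold HasHilb at hh'
    filter_upwards [hh'] with n hn
    rw [← hn]
    exact_mod_cast u7_dim hPr n
  obtain ⟨n₁, hn₁⟩ := eventually_atTop.1 hdim
  obtain ⟨p₀, hp₀⟩ := hP X.m (Fintype.card X.S) N D
  -- destabilizing subspaces for almost all `i`
  have hbad : ∀ᶠ i in (U : Filter ℕ), ∃ wf ∈ (Set.Icc (0 : ℤ) N ×ˢ Set.Icc (-N) (e + N * |D|) :
      Set (ℤ × ℤ)), e * wf.1 < wf.2 * N ∧
      ∃ H : X.Red (L i) (δ i) (η i) (ν i),
        U7Data (X.red (L i) (δ i) (η i) (ν i) H) c c' M (φ' i) (s' i) (G' i) wf.1 wf.2 := by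
    filter_upwards [hev, (hp'.mono_left hU).eventually_ge_atTop p₀] with i ⟨H, hCi⟩ hpi
    obtain ⟨w, f, hd, hw0, hwN, hlt, hf⟩ := u7_one hCi hN hg he he0 hdim hD
      (fun r Γ E h1 h2 h3 h4 h5 e g h6 h7 h8 h9 h10 =>
        hp₀ (p i) hpi (hpr i) (k i) (X.red (L i) (δ i) (η i) (ν i) H) rfl rfl r Γ E h1 h2 h3 h4 h5
          e g h6 h7 h8 h9 h10)
    refine ⟨(w, f), ⟨⟨hw0, hwN⟩, ?_, ?_⟩, hlt, H, hd⟩
    · show -N ≤ f
      by_contra hcon
      push Not at hcon
      have h7 : f * N < -N * N := by linarith only [mul_pos (sub_pos.2 hN) (sub_pos.2 hcon), hcon, hN]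
      have h8 : -N * N ≤ e * w := by nlinarith only [he, he0, hwN]
      linarith only [h8, h7, hlt]
    · show f ≤ e + N * |D|
      have h7 : (N - w) * D ≤ N * |D| := by
        have h8 : (N - w) * D ≤ (N - w) * |D| :=
          mul_le_mul_of_nonneg_left (le_abs_self D) (by omega)
        have h9 : (N - w) * |D| ≤ N * |D| :=
          mul_le_mul_of_nonneg_right (by omega) (abs_nonneg D)
        linarith only [h9, h8]
      linarith only [hf, h7]
  rw [Ultrafilter.eventually_exists_mem_iff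
    ((Set.finite_Icc _ _).prod (Set.finite_Icc _ _))] at hbad
  obtain ⟨⟨w, f⟩, ⟨⟨hw0, hwN⟩, -⟩, hbad⟩ := hbad
  have hlt : e * w < f * N := by
    obtain ⟨i, hi, -⟩ := hbad.exists
    exact hi
  obtain ⟨w', rfl⟩ : ∃ w' : ℕ, w = (w' : ℤ) := ⟨w.toNat, by omega⟩
  obtain ⟨n₂, g₀, hu⟩ := sub_uniform N e g n₁ D w' f
  -- the lower bound for the dimensions
  obtain ⟨d, hd⟩ : ∃ d : ℤ → ℕ, ∀ n, d n = (⌈hp w' f g₀ n⌉).toNat + ∑ j, adim (n - c' j) :=
    ⟨_, fun _ => rfl⟩
  have hZ : ∀ᶠ i in (U : Filter ℕ), ∃ Z : ℤ → Submodule (k i) (Fin l → A (k i)),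
      ZData c (X.w : ℤ) (φ' i) (s' i) (G' i) w' d n₂ Z := by
    filter_upwards [hbad] with i hi
    obtain ⟨-, H, hCi, r', Γ', v', W', g', k1, k2, k3, k4, k5⟩ := hi
    refine ⟨zSub v' c W', ?_⟩
    refine zData_zSub hCi k2 k3 k4 k5 (fun n hn => ?_)
    have h7 := hu (k i) (Fin r' → (X.red (L i) (δ i) (η i) (ν i) H).L)
      (genLat (k := k i) v' c) (W'.restrictScalars (KK (k i))) k2.toIsBLat (fun n hn => by
        have h8 := u7_dim k3 n
        have h9 := hn₁ n hn
        have h10 : (Module.finrank (k i) (genLat (k := k i) v' c n) : ℚ) +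
          ∑ j, (adim (n - c' j) : ℚ) = ∑ i, (adim (n - c i) : ℚ) := by exact_mod_cast h8
        linarith only [h9, h10]) (u7_genIn v' c hD) g' (by rw [u7_sub_eq]; exact k5) n hn
    rw [u7_sub_eq] at h7
    rw [hd]
    refine Nat.add_le_add_right ?_ _
    rw [Int.toNat_le, Int.ceil_le]
    exact_mod_cast h7
  obtain ⟨Z, hZ⟩ : ∃ Z : ∀ i, ℤ → Submodule (k i) (Fin l → A (k i)),
      ∀ᶠ i in (U : Filter ℕ), ZData c (X.w : ℤ) (φ' i) (s' i) (G' i) w' d n₂ (Z i) := by
    refine ⟨fun i => if h : ∃ Z : ℤ → Submodule (k i) (Fin l → A (k i)),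
      ZData c (X.w : ℤ) (φ' i) (s' i) (G' i) w' d n₂ Z then h.choose else fun _ => ⊥, ?_⟩
    filter_upwards [hZ] with i hi
    rw [dif_pos hi]
    exact hi.choose_spec
  have hT := ZData.transfer hφ hs' hG' hZ
  obtain ⟨W, hW, hWh⟩ := exists_tSub (f := f) (g₀ := g₀) hΓ hE hPr hT (fun n _ => by
    rw [hd]
    push_cast
    have h7 : hp w' f g₀ n ≤ ((⌈hp w' f g₀ n⌉.toNat : ℕ) : ℚ) := by
      refine (Int.le_ceil _).trans ?_
      exact_mod_cast Int.self_le_toNat _
    linarith only [h7])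
  obtain ⟨N', e', g', hh'⟩ := (hE.sub hW).toIsBLat.exists_hilb
  obtain ⟨rfl, hfe⟩ := hWh N' e' g' hh'
  have := hss W hW N e g _ e' g' hh hh'
  linarith only [mul_nonneg (sub_nonneg.2 hfe) (sub_nonneg.2 he0), mul_nonneg (sub_nonneg.2 he) (sub_nonneg.2 hfe), this, hlt]

end Vale.Agent.P190.D
end
end

section

section

/-! Main statements. -/

set_option autoImplicit false
set_option linter.unusedSectionVars false

open MvPolynomial Filter

namespace Vale.Agent.P190.D

/-- THEOREM P (section 4). -/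
theorem theoremP (m s : ℕ) (N c : ℤ) : ∃ p₀ : ℕ, ∀ p : ℕ, p₀ ≤ p → p.Prime →
    ∀ (k : Type) [Field k] [IsAlgClosed k] [CharP k p] (X : Arr k),
    X.m = m → Fintype.card X.S = s →
    ∀ (r : ℕ) (Γ : (Fin r → X.L) →ₗ[X.L] (Fin r → X.L)) (E : ℤ → Submodule k (Fin r → X.L)),
    0 < r → IsTSp Γ → IsTLat Γ E → IsS2 E → Spans (X := X) E →
    ∀ e g : ℤ, HasHilb E N e g → -N ≤ e → e ≤ 0 → GenIn E c → Semistable Γ E → g < 0 :=
  theoremP' m s N c

/-- SECTION 5. -/
theorem ultra_neg (U : Ultrafilter ℕ) (hU : (U : Filter ℕ) ≤ atTop) (p : ℕ → ℕ)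
    (hp : ∀ i, (p i).Prime) (hp' : Tendsto p atTop atTop) (k : ℕ → Type) [∀ i, Field (k i)]
    [∀ i, IsAlgClosed (k i)] [∀ i, CharP (k i) (p i)] (X : Arr (UK U k)) (r : ℕ)
    (Γ : (Fin r → X.L) →ₗ[X.L] (Fin r → X.L)) (E : ℤ → Submodule (UK U k) (Fin r → X.L)) :
    0 < r → IsTSp Γ → IsTLat Γ E → IsS2 E → Spans (X := X) E →
    ∀ N e g : ℤ, HasHilb E N e g → -N ≤ e → e ≤ 0 → Semistable Γ E → g < 0 :=
  ultra_neg_of (fun m s N c => theoremP m s N c) U hU p hp hp' k X r Γ E

/-- Sections 3, 4, 5 together: there is no nonzero R-module that is finite free over `Bh`. -/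
theorem no_RMod (U : Ultrafilter ℕ) (hU : (U : Filter ℕ) ≤ atTop) (p : ℕ → ℕ)
    (hp : ∀ i, (p i).Prime) (hp' : Tendsto p atTop atTop) (k : ℕ → Type) [∀ i, Field (k i)]
    [∀ i, IsAlgClosed (k i)] [∀ i, CharP (k i) (p i)] [Infinite (UK U k)] (X : Arr (UK U k))
    (R : Type) [CommRing R] [Algebra (Bh (UK U k)) R] (D : RData X R) (M : Type)
    [AddCommGroup M] [Module R M] [Module (Bh (UK U k)) M] [IsScalarTower (Bh (UK U k)) R M]
    [Module.Free (Bh (UK U k)) M] [Module.Finite (Bh (UK U k)) M] [Nontrivial M] : False := by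
  obtain ⟨r, Γ, E, hr, hΓ, hE, hsp, hw, N, e, g, hh, hg⟩ := partA X R D M
  have := no_window X (fun r Γ E h1 h2 h3 h4 h5 N e g h6 h7 h8 h9 =>
    ultra_neg U hU p hp hp' k X r Γ E h1 h2 h3 h4 h5 N e g h6 h7 h8 h9) r Γ E hr hΓ hE hsp hw
    N e g hh
  omega

end Vale.Agent.P190.D
end
end

section

section

/-! File N5: the normal counterexample in every dimension, from the ring over `K[[x₁,x₂,x₃]]`. -/

set_option autoImplicit false
set_option linter.unusedSectionVars false

namespace Vale.Agent.P190.D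

open IsLocalRing RingTheory.Sequence

universe v

/-- the power series ring in `d` variables -/
abbrev PSd (d : ℕ) (K : Type) [Field K] : Type := MvPowerSeries (Fin d) K

/-- the list of variables. -/
noncomputable def n5Vars (d : ℕ) (K : Type) [Field K] : List (PSd d K) :=
  ((Finset.univ : Finset (Fin d)).toList).map (fun s => (MvPowerSeries.X s : PSd d K))

theorem n5_length (d : ℕ) (K : Type) [Field K] : (n5Vars d K).length = d := by
  rw [n5Vars, List.length_map, Finset.length_toList, Finset.card_univ, Fintype.card_fin]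

theorem n5_isPar (d : ℕ) (K : Type) [Field K] : IsPar (PSd d K) (n5Vars d K) where
  reg := by
    have h1 := isWeaklyRegular_X_pow (k := K) 1 (Finset.univ : Finset (Fin d)).toList
      (Finset.nodup_toList _)
    simp only [pow_one] at h1
    exact h1
  gen := by
    rw [maximalIdeal_eq_span_X]
    unfold Ideal.ofList
    congr 1
    ext x
    simp only [n5Vars, List.mem_map, Finset.mem_toList, Finset.mem_univ, true_and, Set.mem_ofPred_eq, Set.mem_range]

/-- a regular sequence can be truncated -/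
theorem n5_take {R : Type} [CommRing R] [IsLocalRing R] {M : Type v} [AddCommGroup M]
    [Module R M] [Module.Finite R M] (rs : List R)
    (hm : ∀ r ∈ rs, r ∈ IsLocalRing.maximalIdeal R) (h : IsRegular M rs) (n : ℕ) :
    IsRegular M (rs.take n) := by
  have hnt : Nontrivial M := h.nontrivial
  refine (IsLocalRing.isRegular_iff_isWeaklyRegular_of_subset_maximalIdeal ?_).2 ?_
  · intro r hr
    exact hm r (List.mem_of_mem_take hr)
  · have h1 : IsWeaklyRegular M (rs.take n ++ rs.drop n) := by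
      rw [List.take_append_drop]
      exact h.toIsWeaklyRegular
    exact ((isWeaklyRegular_append_iff M _ _).1 h1).1

/-- If no small Cohen-Macaulay module in `Type` exists then all depths are small. -/
theorem n5_depth {R : Type} [CommRing R] [IsLocalRing R] {d : ℕ}
    (hd : ringKrullDim R = (d : ℕ))
    (h : ∀ (M : Type) [AddCommGroup M] [Module R M], ¬ IsSmallCM R M)
    (M : Type v) [AddCommGroup M] [Module R M] [Module.Finite R M] (rs : List R)
    (hrs : ∀ r ∈ rs, r ∈ IsLocalRing.maximalIdeal R) (hreg : IsRegular M rs) :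
    rs.length < d := by
  by_contra hlen
  push Not at hlen
  have h6 : IsSmallCM R M := by
    refine ⟨inferInstance, rs.take d, fun r hr => hrs r (List.mem_of_mem_take hr),
      n5_take rs hrs hreg d, ?_⟩
    rw [hd, List.length_take, min_eq_left hlen]
  obtain ⟨N, j1, j2, hN⟩ := h6.shrink
  exact h N hN

/-- the normal counterexample in dimension `d` -/
theorem n5_main (K : Type) [Field K] [CharZero K] (S : Type) [CommRing S] [IsDomain S]
    [Algebra (MvPowerSeries (Fin 3) K) S] [Module.Finite (MvPowerSeries (Fin 3) K) S]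
    (hinj : Function.Injective (algebraMap (MvPowerSeries (Fin 3) K) S))
    (hno : ∀ (M : Type) [AddCommGroup M] [Module S M] [Module (MvPowerSeries (Fin 3) K) M]
      [IsScalarTower (MvPowerSeries (Fin 3) K) S M] [Module.Free (MvPowerSeries (Fin 3) K) M]
      [Module.Finite (MvPowerSeries (Fin 3) K) M] [Nontrivial M], False)
    (d : ℕ) (hd : 3 ≤ d) :
    ∃ (R : Type) (_ : CommRing R) (_ : IsDomain R) (_ : IsLocalRing R) (_ : Algebra (PSd d K) R),
      Module.Finite (PSd d K) R ∧ Function.Injective (algebraMap (PSd d K) R) ∧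
      IsNoetherianRing R ∧ IsIntegrallyClosed R ∧ IsAdicComplete (maximalIdeal R) R ∧
      ringKrullDim R = (d : ℕ) ∧
      ∀ (M : Type v) [AddCommGroup M] [Module R M] [Module.Finite R M] (rs : List R),
        (∀ r ∈ rs, r ∈ maximalIdeal R) → IsRegular M rs → rs.length < d := by
  have hdom : IsDomain (PSd d K) := isDomain_mvPowerSeries _ _
  have hdom3 : IsDomain (MvPowerSeries (Fin 3) K) := isDomain_mvPowerSeries _ _
  have hic : IsIntegrallyClosed (PSd d K) :=
    isIntegrallyClosed_of_archDiv _ (archDiv_mvPowerSeries _ _)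
  have hno2 : IsNoetherianRing (PSd d K) :=
    inferInstanceAs (IsNoetherianRing (MvPowerSeries (Fin d) K))
  have hcz : CharZero (PSd d K) :=
    charZero_of_injective_algebraMap (R := K) (algebraMap K (PSd d K)).injective
  let e : Fin 3 ↪ Fin d := (Fin.castLEEmb hd)
  let θ : MvPowerSeries (Fin 3) K →+* PSd d K := (MvPowerSeries.rename (R := K) e).toRingHom
  let π : PSd d K →+* MvPowerSeries (Fin 3) K := (MvPowerSeries.killCompl (R := K) e).toRingHom
  have hπ : ∀ a, π (θ a) = a := fun a => MvPowerSeries.killCompl_rename_app a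
  obtain ⟨R, i1, i2, i3, ψ, hfin, hnorm, hinjR, hψ⟩ :=
    n3_exists θ (Function.LeftInverse.injective hπ) hinj (S := S)
  have := hfin
  have hcomp : IsAdicComplete (maximalIdeal (PSd d K)) (PSd d K) := isAdicComplete_mvPowerSeries
  have hloc : IsLocalRing R := n2_isLocalRing (B := PSd d K) hcomp
  have hdim : ringKrullDim R = (d : ℕ) := by
    rw [n1_ringKrullDim (n5_isPar d K) hinjR, n5_length]
  refine ⟨R, i1, i2, hloc, i3, hfin, hinjR, IsNoetherianRing.of_finite (PSd d K) R, hnorm,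
    isAdicComplete_of_finite_local (A := PSd d K) hcomp, hdim, ?_⟩
  refine n5_depth hdim ?_
  intro M _ _
  exact n4_noCM (n5_isPar d K) θ π hπ hinjR ψ hψ hno M

end Vale.Agent.P190.D
end
end

section

section

/-! Section 6, file Q5: the ultraproduct field. -/

set_option autoImplicit false
set_option linter.unusedSectionVars false

open MvPolynomial Filter

namespace Vale.Agent.P190.D

variable {U : Ultrafilter ℕ} {k : ℕ → Type} [∀ i, Field (k i)]

/-- R5a -/
theorem UK_sqrt [∀ i, IsAlgClosed (k i)] (x : UK U k) : ∃ y : UK U k, y ^ 2 = x := by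
  obtain ⟨f, rfl⟩ := ulim_surjective (U := U) (k := k) x
  choose g hg using fun i => IsAlgClosed.exists_pow_nat_eq (f i) (n := 2) (by norm_num)
  refine ⟨ulim U k g, ?_⟩
  rw [← map_pow]
  congr 1
  funext i
  exact hg i

/-- R5b -/
theorem UK_charZero (hU : (U : Filter ℕ) ≤ atTop) (p : ℕ → ℕ) (hp' : Tendsto p atTop atTop)
    [∀ i, CharP (k i) (p i)] : CharZero (UK U k) := by
  refine charZero_of_inj_zero ?_
  intro n hn
  by_contra hne
  rw [← map_natCast (ulim U k) n, ulim_eq_zero] at hn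
  have h1 : ∀ᶠ i in (U : Filter ℕ), n < p i := (hp'.eventually_gt_atTop n).filter_mono hU
  obtain ⟨i, hi, hi'⟩ := (hn.and h1).exists
  have h2 : ((n : ℕ) : k i) = 0 := by
    simpa only [Pi.natCast_apply] using hi
  rw [CharP.cast_eq_zero_iff (k i) (p i)] at h2
  exact absurd (Nat.le_of_dvd (Nat.pos_of_ne_zero hne) h2) (by omega)

end Vale.Agent.P190.D
end
end

section

section

/-! File N6: the ultraproduct field is isomorphic to the field of complex numbers. -/

set_option autoImplicit false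
set_option linter.unusedSectionVars false

open Filter Cardinal

namespace Vale.Agent.P190.D

variable {U : Ultrafilter ℕ} {k : ℕ → Type} [∀ i, Field (k i)]

theorem UK_isAlgClosed [∀ i, IsAlgClosed (k i)] : IsAlgClosed (UK U k) := by
  refine IsAlgClosed.of_exists_root _ ?_
  intro p hp hirr
  choose c hc using fun j => ulim_surjective (U := U) (k := k) (p.coeff j)
  let q : ∀ i, Polynomial (k i) := fun i =>
    Polynomial.X ^ p.natDegree + ∑ j ∈ Finset.range p.natDegree,
      Polynomial.C (c j i) * Polynomial.X ^ j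
  have hdeg : ∀ i, (q i).degree ≠ 0 := by
    intro i
    have h1 : (∑ j ∈ Finset.range p.natDegree, Polynomial.C (c j i) * Polynomial.X ^ j :
        Polynomial (k i)).degree < (p.natDegree : WithBot ℕ) := by
      refine lt_of_le_of_lt (Polynomial.degree_sum_le _ _)
        ((Finset.sup_lt_iff (WithBot.bot_lt_coe _)).2 fun j hj => ?_)
      exact (Polynomial.degree_C_mul_X_pow_le _ _).trans_lt
        (by exact_mod_cast Finset.mem_range.1 hj)
    have h2 : (q i).degree = (p.natDegree : WithBot ℕ) := by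
      rw [show q i = _ from rfl, Polynomial.degree_add_eq_left_of_degree_lt, Polynomial.degree_X_pow]
      rw [Polynomial.degree_X_pow]
      exact h1
    rw [h2]
    exact_mod_cast hirr.natDegree_pos.ne'
  choose r hr using fun i => IsAlgClosed.exists_root (q i) (hdeg i)
  refine ⟨ulim U k r, ?_⟩
  rw [hp.as_sum]
  simp only [Polynomial.eval_add, Polynomial.eval_pow, Polynomial.eval_X,
    Polynomial.eval_finsetSum, Polynomial.eval_mul, Polynomial.eval_C, ← hc, ← map_pow,
    ← map_mul, ← map_sum, ← map_add]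
  rw [ulim_eq_zero]
  refine Filter.Eventually.of_forall fun i => ?_
  have h3 := hr i
  rw [Polynomial.IsRoot.def] at h3
  simpa [q, Polynomial.eval_finsetSum] using h3

theorem UK_card_le [∀ i, Countable (k i)] : #(UK U k) ≤ 𝔠 := by
  have h1 : #(UK U k) ≤ #(∀ i, k i) := mk_le_of_surjective (ulim_surjective (U := U) (k := k))
  have h2 : #(∀ i, k i) ≤ #(ℕ → ℕ) := by
    choose f hf using fun i => exists_injective_nat (k i)
    refine mk_le_of_injective (f := fun x i => f i (x i)) ?_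
    intro x y h
    funext i
    exact hf i (congrFun h i)
  refine (h1.trans h2).trans (le_of_eq ?_)
  rw [← power_def, mk_nat, aleph0_power_aleph0]

theorem UK_le_card [∀ i, Infinite (k i)] (hU : (U : Filter ℕ) ≤ atTop) : 𝔠 ≤ #(UK U k) := by
  have h0 : ∀ i : ℕ, ∃ f : (Fin i → Bool) → k i, Function.Injective f := by
    intro i
    let e := Fintype.equivFin (Fin i → Bool)
    exact ⟨fun x => Infinite.natEmbedding (k i) (e x),
      fun x y h => e.injective (Fin.val_injective ((Infinite.natEmbedding (k i)).injective h))⟩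
  choose f hf using h0
  have h1 : #(ℕ → Bool) ≤ #(UK U k) := by
    refine mk_le_of_injective (f := fun x : ℕ → Bool => ulim U k fun i => f i fun j => x j) ?_
    intro x y h
    funext j
    have h2 := ulim_eq.1 h
    have h3 : ∀ᶠ i in (U : Filter ℕ), j < i := (eventually_gt_atTop j).filter_mono hU
    obtain ⟨i, hi, hi'⟩ := (h2.and h3).exists
    exact congrFun (hf i hi) ⟨j, hi'⟩
  refine le_trans (le_of_eq ?_) h1
  rw [← power_def, mk_nat, mk_bool, two_power_aleph0]

theorem UK_equiv_complex [∀ i, IsAlgClosed (k i)] [∀ i, Countable (k i)]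
    (hU : (U : Filter ℕ) ≤ atTop) (h0 : CharZero (UK U k)) : Nonempty (ℂ ≃+* UK U k) := by
  have : ∀ i, Infinite (k i) := fun i => IsAlgClosed.instInfinite
  have h1 : #ℂ = #(UK U k) := by
    rw [Cardinal.mk_complex]
    exact le_antisymm (UK_le_card hU) UK_card_le
  have : IsAlgClosed (UK U k) := UK_isAlgClosed
  refine IsAlgClosed.ringEquiv_of_equiv_of_charZero ?_ (Cardinal.eq.1 h1)
  rw [Cardinal.mk_complex]
  exact aleph0_lt_continuum

end Vale.Agent.P190.D
end
end

section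

section

/-! File N7: the main theorems: normal counterexamples in every dimension at least three, finite
over the ring of power series with complex coefficients. -/

set_option autoImplicit false
set_option linter.unusedSectionVars false

open Filter

namespace Vale.Agent.P190.D

open IsLocalRing RingTheory.Sequence

universe v

/-- the ring over `K[[x₁,x₂,x₃]]`, `K` isomorphic to the complex numbers -/
theorem n7_core : ∃ (K : Type) (_ : Field K) (_ : CharZero K) (S : Type) (_ : CommRing S)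
    (_ : IsDomain S) (_ : Algebra (MvPowerSeries (Fin 3) K) S), Nonempty (ℂ ≃+* K) ∧
    Module.Finite (MvPowerSeries (Fin 3) K) S ∧
    Function.Injective (algebraMap (MvPowerSeries (Fin 3) K) S) ∧
    ∀ (M : Type) [AddCommGroup M] [Module S M] [Module (MvPowerSeries (Fin 3) K) M]
      [IsScalarTower (MvPowerSeries (Fin 3) K) S M] [Module.Free (MvPowerSeries (Fin 3) K) M]
      [Module.Finite (MvPowerSeries (Fin 3) K) M] [Nontrivial M], False := by
  classical
  let p : ℕ → ℕ := fun i => Nat.nth Nat.Prime i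
  have hp : ∀ i, (p i).Prime := fun i => Nat.prime_nth_prime i
  have hp' : Tendsto p atTop atTop :=
    (Nat.nth_strictMono Nat.infinite_setOfPred_prime).tendsto_atTop
  have : ∀ i, Fact (p i).Prime := fun i => ⟨hp i⟩
  let k : ℕ → Type := fun i => AlgebraicClosure (ZMod (p i))
  let _ : ∀ i, Field (k i) := fun i => inferInstanceAs (Field (AlgebraicClosure (ZMod (p i))))
  have : ∀ i, IsAlgClosed (k i) := fun i =>
    inferInstanceAs (IsAlgClosed (AlgebraicClosure (ZMod (p i))))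
  have : ∀ i, CharP (k i) (p i) := fun i =>
    charP_of_injective_algebraMap (algebraMap (ZMod (p i)) (AlgebraicClosure (ZMod (p i)))).injective
      (p i)
  have : ∀ i, Countable (k i) := fun i => by
    rw [← Cardinal.mk_le_aleph0_iff]
    refine (Algebra.IsAlgebraic.cardinalMk_le_max (ZMod (p i))
      (AlgebraicClosure (ZMod (p i)))).trans ?_
    exact max_le (Cardinal.mk_le_aleph0_iff.2 inferInstance) le_rfl
  let U : Ultrafilter ℕ := hyperfilter ℕ
  have hU : (U : Filter ℕ) ≤ atTop := Nat.hyperfilter_le_atTop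
  have h0 : CharZero (UK U k) := UK_charZero hU p hp'
  have : Infinite (UK U k) := inferInstance
  obtain ⟨X⟩ := exists_arr (UK U k) UK_sqrt
  obtain ⟨R, i1, i2, i3, D, hfin, hinj, -⟩ := exists_ring X
  refine ⟨UK U k, inferInstance, h0, R, i1, i2, i3, UK_equiv_complex hU h0, hfin, hinj, ?_⟩
  intro M _ _ _ _ _ _ _
  exact no_RMod U hU p hp hp' k X R D M

/-- MAIN THEOREM, strong form. -/
theorem main_normal (d : ℕ) (hd : 3 ≤ d) :
    ∃ (R : Type) (_ : CommRing R) (_ : IsDomain R) (_ : IsLocalRing R)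
      (_ : Algebra (MvPowerSeries (Fin d) ℂ) R),
      Module.Finite (MvPowerSeries (Fin d) ℂ) R ∧
      Function.Injective (algebraMap (MvPowerSeries (Fin d) ℂ) R) ∧
      IsNoetherianRing R ∧ IsIntegrallyClosed R ∧ IsAdicComplete (maximalIdeal R) R ∧
      ringKrullDim R = (d : ℕ) ∧
      ∀ (M : Type v) [AddCommGroup M] [Module R M] [Module.Finite R M] (rs : List R),
        (∀ r ∈ rs, r ∈ maximalIdeal R) → IsRegular M rs → rs.length < d := by
  obtain ⟨K, j1, j2, S, j3, j4, j5, ⟨e⟩, hfin, hinj, hno⟩ := n7_core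
  obtain ⟨R, i1, i2, i3, i4, h1, h2, h3, h4, h5, h6, h7⟩ := n5_main.{v} K S hinj hno d hd
  let f : MvPowerSeries (Fin d) ℂ →+* MvPowerSeries (Fin d) K := MvPowerSeries.map (e : ℂ →+* K)
  let g : MvPowerSeries (Fin d) K →+* MvPowerSeries (Fin d) ℂ :=
    MvPowerSeries.map (e.symm : K →+* ℂ)
  have hfg : ∀ x, f (g x) = x := by
    intro x
    ext n
    simp [f, g]
  have hgf : ∀ x, g (f x) = x := by
    intro x
    ext n
    simp [f, g]
  have hsurj : Function.Surjective f := fun x => ⟨g x, hfg x⟩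
  let φ : MvPowerSeries (Fin d) ℂ →+* R := (algebraMap (PSd d K) R).comp f
  have hφ : φ.Finite := RingHom.Finite.comp (RingHom.finite_algebraMap.2 h1)
    (RingHom.Finite.of_surjective f hsurj)
  let _ : Algebra (MvPowerSeries (Fin d) ℂ) R := φ.toAlgebra
  refine ⟨R, i1, i2, i3, inferInstance, hφ, ?_, h3, h4, h5, h6, h7⟩
  exact h2.comp (Function.LeftInverse.injective hgf)

/-- MAIN THEOREM in dimension three, simple form. -/
theorem main_three : ∃ (R : Type) (_ : CommRing R) (_ : IsDomain R) (_ : IsLocalRing R),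
    IsNoetherianRing R ∧ IsAdicComplete (IsLocalRing.maximalIdeal R) R ∧
    Nonempty (Algebra ℚ R) ∧ ringKrullDim R = 3 ∧
    ∀ (M : Type v) [AddCommGroup M] [Module R M] [Module.Finite R M] (rs : List R),
      (∀ r ∈ rs, r ∈ IsLocalRing.maximalIdeal R) → IsRegular M rs → rs.length < 3 := by
  obtain ⟨R, i1, i2, i3, i4, h1, h2, h3, h4, h5, h6, h7⟩ := main_normal.{v} 3 le_rfl
  refine ⟨R, i1, i2, i3, h3, h5, ?_, h6, h7⟩
  exact ⟨((algebraMap (MvPowerSeries (Fin 3) ℂ) R).comp
    ((MvPowerSeries.C (σ := Fin 3) (R := ℂ)).comp (algebraMap ℚ ℂ))).toAlgebra⟩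

end Vale.Agent.P190.D
end
end
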